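import Crest.Agent.R310.GenDefs
import Crest.Agent.Lib.PolyTime.More
import Crest.Agent.Lib.PolyTime.Arith

/-! Row 310: the computable side of a design (what the algorithm needs). -/

set_option autoImplicit false

open Crest.Agent.Lib.PolyTime

namespace Crest.Agent.R310

/-- Rational versions of the kill profile (exact) and of the value (approximate). -/
structure Design.Alg (s : Design) where
  κq : ℚ → ℚ → ℚ
  Vq : ℕ → ℚ → ℚ → ℚ → ℚ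
  K : ℕ
  poly_κq : Poly fun p : ℚ × ℚ => κq p.1 p.2
  poly_Vq : Poly fun p : Un × ℚ × ℚ × ℚ => Vq p.1.n p.2.1 p.2.2.1 p.2.2.2
  κq_eq : ∀ c ρ : ℚ, (κq c ρ : ℝ) = s.κ c ρ
  κ_mono : ∀ c c' ρ : ℝ, 0 ≤ c → c ≤ c' → 0 < ρ → s.κ c ρ ≤ s.κ c' ρ
  κ_pos : ∀ c ρ : ℝ, 0 ≤ c → 0 < ρ → 0 < s.κ c ρ → ρ < c
  κ_lip : ∀ c c' ρ : ℝ, 0 ≤ c → c ≤ c' → 1 ≤ ρ → s.κ c' ρ ≤ s.κ c ρ + K * (c' - c)
  Vq_err : ∀ (n : ℕ) (D d b : ℚ), 0 < n → 0 ≤ D → 0 ≤ d → 0 ≤ b → b ≤ 1 →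
    |(Vq n D d b : ℝ) - s.V D d b| ≤ K * (D + d) / n

theorem Design.one_le_θ (s : Design) : 1 ≤ s.θ := by
  have h1 := s.one 1 1 zero_le_one zero_le_one
  have h2 := s.low 1 1 1 ⟨zero_le_one, le_rfl⟩ zero_le_one zero_le_one
  rw [min_self] at h2
  linarith

section
variable {s : Design} (A : s.Alg) {α : Type*} [PEnc α]

@[fun_prop] theorem Design.Alg.poly_κ {c ρ : α → ℚ} (hc : Poly c) (hρ : Poly ρ) :
    Poly fun a => A.κq (c a) (ρ a) := A.poly_κq.comp (g := fun a => (c a, ρ a)) (by fun_prop)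

@[fun_prop] theorem Design.Alg.poly_V {n : α → ℕ} {D d b : α → ℚ} (hn : Poly n) (hb' : PB n)
    (hD : Poly D) (hd : Poly d) (hb : Poly b) : Poly fun a => A.Vq (n a) (D a) (d a) (b a) :=
  A.poly_Vq.comp (g := fun a => (Un.mk (n a), D a, d a, b a)) (by fun_prop)

end

end Crest.Agent.R310
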