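import Crest.Agent.Lib.PolyTime.More
import Crest.Agent.Lib.PolyTime.Arith

/-! Row 310: greedy descent on an approximated potential. -/

set_option autoImplicit false

open Crest.Agent.Lib.PolyTime

namespace Crest.Agent.R310.Alg

section
variable {X : Type}

/-- the element of `x :: l` with the least value -/
def pick (ψ : X → ℚ) (x : X) (l : List X) : X :=
  l.foldl (fun s y => if ψ y < ψ s then y else s) x

theorem pick_mem (ψ : X → ℚ) (x : X) (l : List X) : pick ψ x l = x ∨ pick ψ x l ∈ l := by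
  induction l generalizing x with
  | nil => exact Or.inl rfl
  | cons y l ih =>
    have h := ih (if ψ y < ψ x then y else x)
    change pick ψ (if ψ y < ψ x then y else x) l = x ∨
      pick ψ (if ψ y < ψ x then y else x) l ∈ y :: l
    rcases h with h | h
    · rw [h]
      split_ifs <;> simp
    · exact Or.inr (List.mem_cons_of_mem _ h)

theorem pick_le (ψ : X → ℚ) (x : X) (l : List X) :
    ψ (pick ψ x l) ≤ ψ x ∧ ∀ y ∈ l, ψ (pick ψ x l) ≤ ψ y := by
  induction l generalizing x with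
  | nil => exact ⟨le_rfl, by simp⟩
  | cons y l ih =>
    have h := ih (if ψ y < ψ x then y else x)
    change ψ (pick ψ (if ψ y < ψ x then y else x) l) ≤ ψ x ∧
      ∀ z ∈ y :: l, ψ (pick ψ (if ψ y < ψ x then y else x) l) ≤ ψ z
    have h1 : ψ (if ψ y < ψ x then y else x) ≤ ψ x ∧ ψ (if ψ y < ψ x then y else x) ≤ ψ y := by
      split_ifs with hh
      · exact ⟨hh.le, le_rfl⟩
      · exact ⟨le_rfl, not_lt.1 hh⟩
    refine ⟨h.1.trans h1.1, fun z hz => ?_⟩
    rcases List.mem_cons.1 hz with rfl | hz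
    · exact h.1.trans h1.2
    · exact h.2 z hz

/-- one greedy step -/
def gstep (dn : X → Bool) (cand : X → List X) (ψ : X → ℚ) (x : X) : X :=
  if dn x then x else pick ψ x (cand x)

theorem gstep_inv {dn : X → Bool} {cand : X → List X} {ψ : X → ℚ} {Inv : X → Prop}
    (hI : ∀ x, Inv x → ∀ y ∈ cand x, Inv y) {x : X} (hx : Inv x) : Inv (gstep dn cand ψ x) := by
  unfold gstep
  split_ifs
  · exact hx
  · rcases pick_mem ψ x (cand x) with h | h
    · rw [h]; exact hx
    · exact hI x hx _ h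

theorem greedy {dn : X → Bool} {cand : X → List X} {ψ : X → ℚ} {Inv : X → Prop} {Ψ : X → ℝ}
    {e : ℝ} (he : 0 < e) (hI : ∀ x, Inv x → ∀ y ∈ cand x, Inv y)
    (h0 : ∀ x, Inv x → 0 ≤ Ψ x) (hap : ∀ x, Inv x → |(ψ x : ℝ) - Ψ x| ≤ e)
    (hd : ∀ x, Inv x → dn x = false → ∃ y ∈ cand x, Ψ y ≤ Ψ x - 3 * e)
    {x₀ : X} (hx : Inv x₀) {T : ℕ} (hT : Ψ x₀ < T * e) :
    Inv ((gstep dn cand ψ)^[T] x₀) ∧ dn ((gstep dn cand ψ)^[T] x₀) = true ∧
      Ψ ((gstep dn cand ψ)^[T] x₀) ≤ Ψ x₀ := by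
  have key : ∀ t : ℕ, Inv ((gstep dn cand ψ)^[t] x₀) ∧ Ψ ((gstep dn cand ψ)^[t] x₀) ≤ Ψ x₀ ∧
      (dn ((gstep dn cand ψ)^[t] x₀) = true ∨ Ψ ((gstep dn cand ψ)^[t] x₀) ≤ Ψ x₀ - t * e) := by
    intro t
    induction t with
    | zero => simp [hx]
    | succ t ih =>
      obtain ⟨h1, h2, h3⟩ := ih
      rw [Function.iterate_succ_apply']
      set x := (gstep dn cand ψ)^[t] x₀
      have hi := gstep_inv (dn := dn) (ψ := ψ) hI h1
      refine ⟨hi, ?_⟩
      by_cases hdn : dn x = true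
      · have : gstep dn cand ψ x = x := by simp [gstep, hdn]
        rw [this]
        exact ⟨h2, Or.inl hdn⟩
      · have h4 := h3.resolve_left hdn
        obtain ⟨y, hy, hy'⟩ := hd x h1 (by simpa using hdn)
        have h5 : ψ (gstep dn cand ψ x) ≤ ψ y := by
          have : gstep dn cand ψ x = pick ψ x (cand x) := by simp [gstep, hdn]
          rw [this]
          exact (pick_le ψ x (cand x)).2 y hy
        have h6 : (ψ (gstep dn cand ψ x) : ℝ) ≤ ψ y := by exact_mod_cast h5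
        have h7 := abs_le.1 (hap _ hi)
        have h8 := abs_le.1 (hap _ (hI x h1 y hy))
        have h9 : Ψ (gstep dn cand ψ x) ≤ Ψ x - e := by linarith
        refine ⟨by linarith, Or.inr ?_⟩
        push_cast
        linarith
  obtain ⟨h1, h2, h3⟩ := key T
  refine ⟨h1, ?_, h2⟩
  rcases h3 with h3 | h3
  · exact h3
  · have := h0 _ h1
    linarith

/-- a weighted average of increments that is negative has a negative term -/
theorem exists_drop {ι : Type} (s : Finset ι) (w v : ι → ℝ) (hw : ∀ i ∈ s, 0 ≤ w i) {R g : ℝ}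
    (hg : 0 < g) (hR : ∑ i ∈ s, w i ≤ R) (h : ∑ i ∈ s, w i * v i ≤ -(g * R)) (hR0 : 0 < R) :
    ∃ i ∈ s, 0 < w i ∧ v i ≤ -g := by
  by_contra hcon
  push Not at hcon
  have h1 : ∀ i ∈ s, w i * (-g) ≤ w i * v i := fun i hi => by
    rcases (hw i hi).eq_or_lt with h0 | h0
    · simp [← h0]
    · exact mul_le_mul_of_nonneg_left (hcon i hi h0).le h0.le
  by_cases hz : ∃ i ∈ s, 0 < w i
  · obtain ⟨i, hi, hi0⟩ := hz
    have h2 : ∑ i ∈ s, w i * (-g) < ∑ i ∈ s, w i * v i :=
      Finset.sum_lt_sum h1 ⟨i, hi, mul_lt_mul_of_pos_left (hcon i hi hi0) hi0⟩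
    rw [← Finset.sum_mul] at h2
    nlinarith
  · push Not at hz
    have h2 : ∑ i ∈ s, w i * v i = 0 :=
      Finset.sum_eq_zero fun i hi => by simp [le_antisymm (hz i hi) (hw i hi)]
    nlinarith
end

section
variable {α X : Type} [PEnc α] [PEnc X]

theorem poly_pick {ψ : α → X → ℚ} {x : α → X} {l : α → List X}
    (hψ : Poly fun p : α × X => ψ p.1 p.2) (hx : Poly x) (hl : Poly l) :
    Poly fun a => pick (ψ a) (x a) (l a) := by
  unfold pick
  refine Poly.foldl_select (h := fun a s y => if ψ a y < ψ a s then y else s) hl hx ?_ ?_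
  · have h1 : Poly fun p : α × X × X => ψ p.1 p.2.2 := hψ.comp (g := fun p : α × X × X => (p.1, p.2.2)) (by fun_prop)
    have h2 : Poly fun p : α × X × X => ψ p.1 p.2.1 := hψ.comp (g := fun p : α × X × X => (p.1, p.2.1)) (by fun_prop)
    exact Poly.ite (Poly.decide_ratLt h1 h2) (by fun_prop) (by fun_prop)
  · intro a s y
    split_ifs <;> simp

theorem poly_gstep {dn : α → X → Bool} {cand : α → X → List X} {ψ : α → X → ℚ}
    (hdn : Poly fun p : α × X => dn p.1 p.2) (hc : Poly fun p : α × X => cand p.1 p.2)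
    (hψ : Poly fun p : α × X => ψ p.1 p.2) :
    Poly fun p : α × X => gstep (dn p.1) (cand p.1) (ψ p.1) p.2 := by
  unfold gstep
  refine Poly.ite (Poly.decide_true hdn) (by fun_prop) ?_
  exact poly_pick (ψ := fun (p : α × X) y => ψ p.1 y)
    (hψ.comp (g := fun q : (α × X) × X => (q.1.1, q.2)) (by fun_prop)) (by fun_prop) hc

/-- the greedy descent is polynomial when a (weak) invariant bounds the size of the states -/
theorem poly_greedy {dn : α → X → Bool} {cand : α → X → List X} {ψ : α → X → ℚ} {x₀ : α → X}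
    {T : α → ℕ} (hdn : Poly fun p : α × X => dn p.1 p.2) (hc : Poly fun p : α × X => cand p.1 p.2)
    (hψ : Poly fun p : α × X => ψ p.1 p.2) (hx : Poly x₀) (hT : Poly T) (hTb : PB T)
    (J : α → X → Prop) (hJ0 : ∀ a, J a (x₀ a)) (hJ : ∀ a x, J a x → ∀ y ∈ cand a x, J a y)
    {B : α → ℕ} (hB : PB B) (hs : ∀ a x, J a x → sz x ≤ B a) :
    Poly fun a => (gstep (dn a) (cand a) (ψ a))^[T a] (x₀ a) :=
  Poly.iterate_inv (h := fun a => gstep (dn a) (cand a) (ψ a)) hT hTb hx (poly_gstep hdn hc hψ) J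
    hJ0 (fun a _ hs => gstep_inv (hJ a) hs) hB hs
end

end Crest.Agent.R310.Alg
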