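import Crest.Agent.R310.GenDefs

/-!
# Row 310: the bookkeeping potential (number of opened points)

`m k = y k * b k`; `K i k` is the fraction of `k ≠ i` killed by the opening of `i`, `a i` the cap,
`r k` the decay rate, `s` the number of open points.
-/

set_option autoImplicit false

open Finset

noncomputable section

namespace Crest.Agent.R310.Bk

variable {ι : Type} [Fintype ι] [DecidableEq ι]

def mass (w y b : ι → ℝ) : ℝ := ∑ k, w k * (y k * b k)

def mu (y : ι → ℝ) (L s : ℝ) (b : ι → ℝ) : ℝ :=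
  s + mass (fun _ => 1) y b + mass (fun k => 1 - y k) y b / L

def psi (y : ι → ℝ) (L μ s : ℝ) (b : ι → ℝ) : ℝ :=
  max 0 (mu y L s b - μ) ^ 2 + ∑ k, y k * b k * (1 - y k * b k) +
    (8 * L + 5) * mass (fun k => 1 - y k) y b

/-- the data of one step -/
structure Step (y b r a : ι → ℝ) (K : ι → ι → ℝ) (L τ h : ℝ) : Prop where
  y0 : ∀ k, 0 ≤ y k
  y1 : ∀ k, y k ≤ 1
  b0 : ∀ k, 0 ≤ b k
  b1 : ∀ k, b k ≤ 1
  K0 : ∀ i k, 0 ≤ K i k
  K1 : ∀ i k, K i k ≤ 1
  r0 : ∀ k, 0 ≤ r k
  L1 : 1 ≤ L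
  τ0 : 0 ≤ τ
  h0 : 0 < h
  h1 : h ≤ 1
  a_eq : ∀ i, a i = L / max L (∑ k, if k = i then 0 else y k * b k * K i k)
  out : ∀ k, (∑ i, if i = k then 0 else y i * b i * K i k) ≤ 1 - y k
  lo : ∀ k, 1 - τ ≤ y k * b k + (∑ i, if i = k then 0 else y i * b i * K i k) + r k
  hi : ∀ k, y k * b k + (∑ i, if i = k then 0 else y i * b i * K i k) + r k ≤ 1

variable {y b r a : ι → ℝ} {K : ι → ι → ℝ} {L τ h : ℝ}

theorem Step.m0 (H : Step y b r a K L τ h) (k : ι) : 0 ≤ y k * b k := mul_nonneg (H.y0 k) (H.b0 k)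

theorem Step.m1 (H : Step y b r a K L τ h) (k : ι) : y k * b k ≤ 1 :=
  mul_le_one₀ (H.y1 k) (H.b0 k) (H.b1 k)

theorem Step.out0 (H : Step y b r a K L τ h) (i : ι) :
    0 ≤ ∑ k, if k = i then 0 else y k * b k * K i k :=
  sum_nonneg fun k _ => by
    split_ifs
    · exact le_rfl
    · exact mul_nonneg (H.m0 k) (H.K0 i k)

theorem Step.O0 (H : Step y b r a K L τ h) (k : ι) :
    0 ≤ ∑ i, if i = k then 0 else y i * b i * K i k :=
  sum_nonneg fun i _ => by
    split_ifs
    · exact le_rfl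
    · exact mul_nonneg (H.m0 i) (H.K0 i k)

theorem Step.a_pos (H : Step y b r a K L τ h) (i : ι) : 0 < a i := by
  rw [H.a_eq]
  have := H.L1
  exact div_pos (by linarith) (lt_max_of_lt_left (by linarith))

theorem Step.a_le (H : Step y b r a K L τ h) (i : ι) : a i ≤ 1 := by
  rw [H.a_eq]
  have := H.L1
  exact (div_le_one (lt_max_of_lt_left (by linarith))).2 (le_max_left _ _)

theorem Step.r_le (H : Step y b r a K L τ h) (k : ι) : r k ≤ 1 := by
  have := H.hi k
  have := H.m0 k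
  have := H.O0 k
  linarith

theorem Step.a_out (H : Step y b r a K L τ h) (i : ι) :
    a i * (∑ k, if k = i then 0 else y k * b k * K i k) ≤ L := by
  have hL : 0 < L := lt_of_lt_of_le one_pos H.L1
  rw [H.a_eq, div_mul_eq_mul_div, div_le_iff₀ (lt_max_of_lt_left hL)]
  exact mul_le_mul_of_nonneg_left (le_max_right _ _) hL.le

theorem Step.inv_a (H : Step y b r a K L τ h) (i : ι) :
    1 / a i ≤ 1 + (∑ k, if k = i then 0 else y k * b k * K i k) / L := by
  have hL : 0 < L := lt_of_lt_of_le one_pos H.L1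
  have h0 := H.out0 i
  rw [H.a_eq, one_div_div, div_le_iff₀ hL, add_mul, div_mul_cancel₀ _ hL.ne', one_mul]
  exact max_le (by linarith) (by linarith)

theorem Step.sum_out (H : Step y b r a K L τ h) :
    ∑ i, y i * b i * (∑ k, if k = i then 0 else y k * b k * K i k) ≤
      mass (fun k => 1 - y k) y b := by
  have e : ∑ i, y i * b i * (∑ k, if k = i then 0 else y k * b k * K i k) =
      ∑ k, y k * b k * (∑ i, if i = k then 0 else y i * b i * K i k) := by
    simp only [mul_sum]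
    rw [sum_comm]
    refine sum_congr rfl fun k _ => sum_congr rfl fun i _ => ?_
    by_cases hk : k = i
    · simp [hk]
    · rw [if_neg hk, if_neg (Ne.symm hk)]; ring
  rw [e, mass]
  refine sum_le_sum fun k _ => ?_
  rw [mul_comm (1 - y k)]
  exact mul_le_mul_of_nonneg_left (H.out k) (H.m0 k)

/-- the generator of a separable function -/
theorem Step.sep_gen (H : Step y b r a K L τ h) (g : ι → ℝ → ℝ) (p q : ι → ℝ)
    (hp : ∀ k, g k 0 - g k (b k) ≤ a k * p k)
    (hq : ∀ k z, 0 ≤ z → z ≤ 1 → g k (b k * (1 - z)) - g k (b k) ≤ z * q k) :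
    ∑ i, y i * b i / a i * (∑ k, g k (opn b i (a i) (K i) k) - ∑ k, g k (b k)) +
      (∑ k, g k (b k * (1 - h * r k)) - ∑ k, g k (b k)) / h ≤
      ∑ k, (y k * b k * p k +
        ((∑ i, if i = k then 0 else y i * b i * K i k) + r k) * q k) := by
  have h1 : ∀ i, y i * b i / a i * (∑ k, g k (opn b i (a i) (K i) k) - ∑ k, g k (b k)) ≤
      ∑ k, ((if i = k then y k * b k * p k else 0) +
        (if i = k then 0 else y i * b i * K i k) * q k) := by
    intro i
    have ha := H.a_pos i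
    rw [← sum_sub_distrib, mul_sum]
    refine sum_le_sum fun k _ => ?_
    have hw : 0 ≤ y i * b i / a i := div_nonneg (H.m0 i) ha.le
    by_cases hk : i = k
    · subst hk
      simp only [opn, if_true, zero_mul, add_zero]
      refine (mul_le_mul_of_nonneg_left (hp i) hw).trans_eq ?_
      field_simp
    · simp only [opn, if_neg hk, if_neg (Ne.symm hk), zero_add]
      refine (mul_le_mul_of_nonneg_left (hq k _ (mul_nonneg ha.le (H.K0 i k))
        (mul_le_one₀ (H.a_le i) (H.K0 i k) (H.K1 i k))) hw).trans_eq ?_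
      field_simp
  have h2 : (∑ k, g k (b k * (1 - h * r k)) - ∑ k, g k (b k)) / h ≤ ∑ k, r k * q k := by
    rw [div_le_iff₀ H.h0, ← sum_sub_distrib, sum_mul]
    refine sum_le_sum fun k _ => ?_
    refine (hq k _ (mul_nonneg H.h0.le (H.r0 k))
      (mul_le_one₀ H.h1 (H.r0 k) (H.r_le k))).trans_eq ?_
    ring
  have h3 := sum_le_sum fun i (_ : i ∈ univ) => h1 i
  rw [sum_comm] at h3
  refine (add_le_add h3 h2).trans_eq ?_
  rw [← sum_add_distrib]
  refine sum_congr rfl fun k _ => ?_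
  rw [sum_add_distrib, ← sum_mul, sum_ite_eq' univ k, if_pos (mem_univ _)]
  ring

/-- total weight of the openings: `1 / a i ≤ 1 + out i / L` -/
theorem Step.weight (H : Step y b r a K L τ h) :
    ∑ i, y i * b i / a i ≤ mass (fun _ => 1) y b + mass (fun k => 1 - y k) y b / L := by
  have hL : 0 < L := lt_of_lt_of_le one_pos H.L1
  have h1 : ∑ i, y i * b i / a i ≤ ∑ i, (y i * b i +
      y i * b i * (∑ k, if k = i then 0 else y k * b k * K i k) / L) := by
    refine sum_le_sum fun i _ => ?_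
    have := mul_le_mul_of_nonneg_left (H.inv_a i) (H.m0 i)
    rw [div_eq_mul_one_div]
    refine this.trans_eq ?_
    ring
  rw [sum_add_distrib, ← sum_div] at h1
  have h2 := div_le_div_of_nonneg_right H.sum_out hL.le
  have h3 : mass (fun _ => 1) y b = ∑ i, y i * b i := by simp [mass]
  linarith

/-- every weighted mass decays at rate `1 - τ` -/
theorem Step.mass_gen (H : Step y b r a K L τ h) {w : ι → ℝ} (hw : ∀ k, 0 ≤ w k) :
    ∑ i, y i * b i / a i * (mass w y (opn b i (a i) (K i)) - mass w y b) +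
      (mass w y (fun k => b k * (1 - h * r k)) - mass w y b) / h ≤ -((1 - τ) * mass w y b) := by
  have h1 := H.sep_gen (fun k x => w k * (y k * x)) (fun k => -(w k * (y k * b k)))
    (fun k => -(w k * (y k * b k))) (fun k => by
      have := mul_nonneg (hw k) (H.m0 k)
      have := H.a_le k
      nlinarith) (fun k z _ _ => le_of_eq (by ring))
  refine le_trans h1 ?_
  rw [mass, mul_sum, ← sum_neg_distrib]
  refine sum_le_sum fun k _ => ?_
  have := mul_le_mul_of_nonneg_right (H.lo k) (mul_nonneg (hw k) (H.m0 k))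
  linarith

/-- `φ(m) = m (1 - m)` is concave, `φ + (1 - m) φ' = (1 - m) ^ 2` -/
theorem Step.phi_gen (H : Step y b r a K L τ h) :
    ∑ i, y i * b i / a i * (∑ k, y k * opn b i (a i) (K i) k * (1 - y k * opn b i (a i) (K i) k) -
        ∑ k, y k * b k * (1 - y k * b k)) +
      (∑ k, y k * (b k * (1 - h * r k)) * (1 - y k * (b k * (1 - h * r k))) -
        ∑ k, y k * b k * (1 - y k * b k)) / h ≤
      -(∑ k, y k * b k * (1 - y k * b k) ^ 2) + τ * Fintype.card ι := by
  have h1 := H.sep_gen (fun k x => y k * x * (1 - y k * x))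
    (fun k => -(y k * b k * (1 - y k * b k))) (fun k => -(y k * b k * (1 - 2 * (y k * b k))))
    (fun k => by
      have := mul_nonneg (H.m0 k) (sub_nonneg.2 (H.m1 k))
      have := H.a_le k
      nlinarith) (fun k z _ _ => by nlinarith [sq_nonneg (z * (y k * b k))])
  refine le_trans h1 ?_
  have e : τ * (Fintype.card ι : ℝ) = ∑ _k : ι, τ := by simp [mul_comm]
  rw [e, ← sum_neg_distrib, ← sum_add_distrib]
  refine sum_le_sum fun k _ => ?_
  have h2 := H.lo k
  have h3 := H.hi k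
  have h4 := H.m0 k
  have h5 := H.m1 k
  have h6 := H.τ0
  generalize (∑ i, if i = k then 0 else y i * b i * K i k) = O at *
  generalize y k * b k = m at *
  have h7 : m * (1 - 2 * m) ≤ 1 := by nlinarith
  have h8 := mul_le_mul_of_nonneg_left h7 (show 0 ≤ 1 - (m + O + r k) by linarith)
  nlinarith

theorem mass_opn (w : ι → ℝ) (i : ι) (c : ℝ) (k' : ι → ℝ) :
    mass w y (opn b i c k') = mass w y b - w i * (y i * b i) -
      c * ∑ k, if k = i then 0 else w k * (y k * b k * k' k) := by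
  have e : w i * (y i * b i) = ∑ k, if k = i then w k * (y k * b k) else 0 := by
    rw [sum_ite_eq' univ i, if_pos (mem_univ _)]
  rw [e, mass, mass, mul_sum, ← sum_sub_distrib, ← sum_sub_distrib]
  refine sum_congr rfl fun k _ => ?_
  unfold opn
  split_ifs <;> ring

/-- the variance of `mu` -/
theorem Step.var (H : Step y b r a K L τ h) (s : ℝ) :
    ∑ i, y i * b i / a i * (mu y L (s + 1) (opn b i (a i) (K i)) - mu y L s b) ^ 2 +
      (mu y L s (fun k => b k * (1 - h * r k)) - mu y L s b) ^ 2 / h ≤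
      ∑ k, y k * b k * (1 - y k * b k) ^ 2 + (8 * L + 5) * mass (fun k => 1 - y k) y b +
        4 * h * (Fintype.card ι : ℝ) ^ 2 := by
  have hL : 0 < L := lt_of_lt_of_le one_pos H.L1
  have h1 : ∀ i, y i * b i / a i * (mu y L (s + 1) (opn b i (a i) (K i)) - mu y L s b) ^ 2 ≤
      y i * b i * (1 - y i * b i) ^ 2 +
        (8 * L + 3) * (y i * b i * ∑ k, if k = i then 0 else y k * b k * K i k) +
        2 * ((1 - y i) * (y i * b i)) := by
    intro i
    have ha := H.a_pos i
    have e1 := mass_opn (y := y) (b := b) (fun _ => 1) i (a i) (K i)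
    have e2 := mass_opn (y := y) (b := b) (fun k => 1 - y k) i (a i) (K i)
    have q0 : 0 ≤ ∑ k, if k = i then 0 else (1 - y k) * (y k * b k * K i k) :=
      sum_nonneg fun k _ => by
        split_ifs
        · exact le_rfl
        · exact mul_nonneg (sub_nonneg.2 (H.y1 k)) (mul_nonneg (H.m0 k) (H.K0 i k))
    have q1 : (∑ k, if k = i then 0 else (1 - y k) * (y k * b k * K i k)) ≤
        ∑ k, if k = i then 0 else y k * b k * K i k :=
      sum_le_sum fun k _ => by
        split_ifs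
        · exact le_rfl
        · exact mul_le_of_le_one_left (mul_nonneg (H.m0 k) (H.K0 i k)) (sub_le_self _ (H.y0 k))
    simp only [one_mul] at e1
    have o0 := H.out0 i
    have o1 := H.a_out i
    have o2 := H.inv_a i
    have m0 := H.m0 i
    have m1 := H.m1 i
    have y0 := H.y0 i
    have y1 := H.y1 i
    have eΔ : mu y L (s + 1) (opn b i (a i) (K i)) - mu y L s b = (1 - y i * b i) -
        (a i * (∑ k, if k = i then 0 else y k * b k * K i k) + ((1 - y i) * (y i * b i) +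
          a i * ∑ k, if k = i then 0 else (1 - y k) * (y k * b k * K i k)) / L) := by
      rw [mu, mu, e1, e2]; ring
    rw [eΔ]
    generalize (∑ k, if k = i then 0 else (1 - y k) * (y k * b k * K i k)) = o' at *
    generalize (∑ k, if k = i then 0 else y k * b k * K i k) = o at *
    generalize y i * b i = m at *
    have w0 : 0 ≤ (1 - y i) * m := mul_nonneg (by linarith) m0
    have w1 : (1 - y i) * m ≤ 1 := mul_le_one₀ (by linarith) m0 m1
    have n0 : 0 ≤ ((1 - y i) * m + a i * o') / L := by positivity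
    have n1 : ((1 - y i) * m + a i * o') / L ≤ (1 - y i) * m + a i * o :=
      (div_le_self (by positivity) H.L1).trans
        (add_le_add le_rfl (mul_le_mul_of_nonneg_left q1 ha.le))
    have o3 : o / L ≤ o := div_le_self o0 H.L1
    generalize ((1 - y i) * m + a i * o') / L = N at *
    generalize (1 - y i) * m = w at *
    have ao : 0 ≤ a i * o := mul_nonneg ha.le o0
    have d1 : (1 - m - (a i * o + N)) ^ 2 ≤ (1 - m) ^ 2 + 8 * (a i * o) ^ 2 + 2 * w ^ 2 := by
      have t1 : 0 ≤ (1 - m) * (a i * o + N) := mul_nonneg (by linarith) (by linarith)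
      have t2 : (a i * o + N) ^ 2 ≤ (2 * (a i * o) + w) ^ 2 :=
        pow_le_pow_left₀ (by linarith) (by linarith) 2
      nlinarith [sq_nonneg (2 * (a i * o) - w)]
    have d2 : m / a i * ((1 - m) ^ 2 + 8 * (a i * o) ^ 2 + 2 * w ^ 2) =
        m * (1 / a i) * ((1 - m) ^ 2 + 2 * w ^ 2) + 8 * (m * o) * (a i * o) := by
      field_simp; ring
    have d3 : m * (1 / a i) * ((1 - m) ^ 2 + 2 * w ^ 2) ≤ m * (1 + o) * ((1 - m) ^ 2 + 2 * w ^ 2) :=
      mul_le_mul_of_nonneg_right (mul_le_mul_of_nonneg_left (by linarith) m0) (by positivity)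
    have mo : 0 ≤ m * o := mul_nonneg m0 o0
    have d4 : 8 * (m * o) * (a i * o) ≤ 8 * (m * o) * L :=
      mul_le_mul_of_nonneg_left o1 (by linarith)
    have d5 : (1 - m) ^ 2 ≤ 1 := pow_le_one₀ (by linarith) (by linarith)
    have d6 : w ^ 2 ≤ 1 := pow_le_one₀ w0 w1
    have d7 : m * w ^ 2 ≤ w := by nlinarith [mul_le_one₀ m1 w0 w1]
    have d8 := mul_le_mul_of_nonneg_left d1 (div_nonneg m0 ha.le)
    nlinarith [mul_le_mul_of_nonneg_left d5 mo, mul_le_mul_of_nonneg_left d6 mo]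
  have h2 : (mu y L s (fun k => b k * (1 - h * r k)) - mu y L s b) ^ 2 / h ≤
      4 * h * (Fintype.card ι : ℝ) ^ 2 := by
    have key : ∀ w : ι → ℝ, (∀ k, 0 ≤ w k ∧ w k ≤ 1) →
        0 ≤ mass w y b - mass w y (fun k => b k * (1 - h * r k)) ∧
        mass w y b - mass w y (fun k => b k * (1 - h * r k)) ≤ h * Fintype.card ι := by
      intro w hw
      have e : mass w y b - mass w y (fun k => b k * (1 - h * r k)) =
          ∑ k, h * (w k * (y k * b k * r k)) := by
        rw [mass, mass, ← sum_sub_distrib]; exact sum_congr rfl fun k _ => by ring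
      have e' : h * (Fintype.card ι : ℝ) = ∑ _k : ι, h := by simp [mul_comm]
      rw [e, e']
      refine ⟨sum_nonneg fun k _ => mul_nonneg H.h0.le
        (mul_nonneg (hw k).1 (mul_nonneg (H.m0 k) (H.r0 k))), sum_le_sum fun k _ => ?_⟩
      exact mul_le_of_le_one_right H.h0.le (mul_le_one₀ (hw k).2 (mul_nonneg (H.m0 k) (H.r0 k))
        (mul_le_one₀ (H.m1 k) (H.r0 k) (H.r_le k)))
    obtain ⟨k1, k2⟩ := key (fun _ => 1) fun _ => ⟨zero_le_one, le_rfl⟩
    obtain ⟨k3, k4⟩ := key (fun k => 1 - y k) fun k =>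
      ⟨sub_nonneg.2 (H.y1 k), sub_le_self _ (H.y0 k)⟩
    have k5 := div_nonneg k3 hL.le
    have k6 := div_le_self k3 H.L1
    have e : (mu y L s (fun k => b k * (1 - h * r k)) - mu y L s b) ^ 2 =
        ((mass (fun _ => 1) y b - mass (fun _ => 1) y (fun k => b k * (1 - h * r k))) +
        (mass (fun k => 1 - y k) y b -
          mass (fun k => 1 - y k) y (fun k => b k * (1 - h * r k))) / L) ^ 2 := by
      rw [mu, mu]; ring
    rw [e, div_le_iff₀ H.h0]
    refine (pow_le_pow_left₀ (by linarith) (show _ ≤ 2 * (h * Fintype.card ι) by linarith) 2).trans_eq ?_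
    ring
  have h3 := sum_le_sum fun i (_ : i ∈ univ) => h1 i
  rw [sum_add_distrib, sum_add_distrib, ← mul_sum, ← mul_sum] at h3
  have h4 := mul_le_mul_of_nonneg_left H.sum_out (show 0 ≤ 8 * L + 3 by linarith)
  have h5 : mass (fun k => 1 - y k) y b = ∑ i, (1 - y i) * (y i * b i) := rfl
  linarith

theorem Step.psi_gen (H : Step y b r a K L τ h) {μ s n : ℝ} (hμ : 0 ≤ μ) (hs : s ≤ n)
    (hn : (Fintype.card ι : ℝ) ≤ n) :
    ∑ i, y i * b i / a i * (psi y L μ (s + 1) (opn b i (a i) (K i)) - psi y L μ s b) +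
      (psi y L μ s (fun k => b k * (1 - h * r k)) - psi y L μ s b) / h ≤
      τ * (12 * n ^ 2 + (8 * L + 6) * n) + 4 * h * n ^ 2 := by
  have hL : 0 < L := lt_of_lt_of_le one_pos H.L1
  have hn0 : 0 ≤ n := (Nat.cast_nonneg _).trans hn
  have hmax : ∀ x z : ℝ, max 0 z ^ 2 - max 0 x ^ 2 ≤ 2 * max 0 x * (z - x) + (z - x) ^ 2 := by
    intro x z
    rcases le_total 0 x with hx | hx <;> rcases le_total 0 z with hz | hz
    · rw [max_eq_right hx, max_eq_right hz]; nlinarith
    · rw [max_eq_right hx, max_eq_left hz]; nlinarith [sq_nonneg z]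
    · rw [max_eq_left hx, max_eq_right hz]; nlinarith [mul_nonneg hz (neg_nonneg.2 hx), sq_nonneg x]
    · rw [max_eq_left hx, max_eq_left hz]; nlinarith [sq_nonneg (z - x)]
  have hmass : ∀ w : ι → ℝ, (∀ k, 0 ≤ w k ∧ w k ≤ 1) → 0 ≤ mass w y b ∧ mass w y b ≤ n := by
    intro w hw
    refine ⟨sum_nonneg fun k _ => mul_nonneg (hw k).1 (H.m0 k), le_trans ?_ hn⟩
    have e : (Fintype.card ι : ℝ) = ∑ _k : ι, (1 : ℝ) := by simp
    rw [e]
    exact sum_le_sum fun k _ => mul_le_one₀ (hw k).2 (H.m0 k) (H.m1 k)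
  obtain ⟨M0, M1⟩ := hmass (fun _ => 1) fun _ => ⟨zero_le_one, le_rfl⟩
  obtain ⟨A0, A1⟩ := hmass (fun k => 1 - y k) fun k =>
    ⟨sub_nonneg.2 (H.y1 k), sub_le_self _ (H.y0 k)⟩
  have A2 := div_le_self A0 H.L1
  have A3 := div_nonneg A0 hL.le
  have g1 := H.mass_gen (w := fun _ => 1) fun _ => zero_le_one
  have g2 := H.mass_gen (w := fun k => 1 - y k) fun k => sub_nonneg.2 (H.y1 k)
  have g3 := H.phi_gen
  have g4 := H.var s
  have g5 := H.weight
  set X := max 0 (mu y L s b - μ) with hX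
  have X0 : 0 ≤ X := le_max_left _ _
  have X1 : X ≤ 3 * n := max_le (by linarith) (by rw [mu]; linarith)
  -- the drift of `mu`
  have dr : ∑ i, y i * b i / a i * (mu y L (s + 1) (opn b i (a i) (K i)) - mu y L s b) +
      (mu y L s (fun k => b k * (1 - h * r k)) - mu y L s b) / h ≤ τ * (2 * n) := by
    have e1 : ∑ i, y i * b i / a i * (mu y L (s + 1) (opn b i (a i) (K i)) - mu y L s b) =
        ∑ i, y i * b i / a i +
        ∑ i, y i * b i / a i * (mass (fun _ => 1) y (opn b i (a i) (K i)) - mass (fun _ => 1) y b) +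
        (∑ i, y i * b i / a i * (mass (fun k => 1 - y k) y (opn b i (a i) (K i)) -
          mass (fun k => 1 - y k) y b)) / L := by
      rw [sum_div, ← sum_add_distrib, ← sum_add_distrib]
      exact sum_congr rfl fun i _ => by rw [mu, mu]; ring
    have e2 : (mu y L s (fun k => b k * (1 - h * r k)) - mu y L s b) / h =
        (mass (fun _ => 1) y (fun k => b k * (1 - h * r k)) - mass (fun _ => 1) y b) / h +
        (mass (fun k => 1 - y k) y (fun k => b k * (1 - h * r k)) -
          mass (fun k => 1 - y k) y b) / h / L := by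
      rw [mu, mu]; ring
    have g2' := div_le_div_of_nonneg_right g2 hL.le
    rw [add_div, neg_div, mul_div_assoc] at g2'
    have t := mul_le_mul_of_nonneg_left (show mass (fun _ => 1) y b +
      mass (fun k => 1 - y k) y b / L ≤ 2 * n by linarith) H.τ0
    rw [e1, e2]
    nlinarith
  have s1 : ∑ i, y i * b i / a i * (psi y L μ (s + 1) (opn b i (a i) (K i)) - psi y L μ s b) ≤
      2 * X * ∑ i, y i * b i / a i * (mu y L (s + 1) (opn b i (a i) (K i)) - mu y L s b) +
      ∑ i, y i * b i / a i * (mu y L (s + 1) (opn b i (a i) (K i)) - mu y L s b) ^ 2 +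
      ∑ i, y i * b i / a i *
        (∑ k, y k * opn b i (a i) (K i) k * (1 - y k * opn b i (a i) (K i) k) -
          ∑ k, y k * b k * (1 - y k * b k)) +
      (8 * L + 5) * ∑ i, y i * b i / a i * (mass (fun k => 1 - y k) y (opn b i (a i) (K i)) -
        mass (fun k => 1 - y k) y b) := by
    rw [mul_sum, mul_sum, ← sum_add_distrib, ← sum_add_distrib, ← sum_add_distrib]
    refine sum_le_sum fun i _ => ?_
    have t := mul_le_mul_of_nonneg_left
      (hmax (mu y L s b - μ) (mu y L (s + 1) (opn b i (a i) (K i)) - μ))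
      (div_nonneg (H.m0 i) (H.a_pos i).le)
    rw [← hX, sub_sub_sub_cancel_right] at t
    rw [psi, psi, ← hX]
    linarith
  have s2 : (psi y L μ s (fun k => b k * (1 - h * r k)) - psi y L μ s b) / h ≤
      2 * X * ((mu y L s (fun k => b k * (1 - h * r k)) - mu y L s b) / h) +
      (mu y L s (fun k => b k * (1 - h * r k)) - mu y L s b) ^ 2 / h +
      (∑ k, y k * (b k * (1 - h * r k)) * (1 - y k * (b k * (1 - h * r k))) -
        ∑ k, y k * b k * (1 - y k * b k)) / h +
      (8 * L + 5) * ((mass (fun k => 1 - y k) y (fun k => b k * (1 - h * r k)) -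
        mass (fun k => 1 - y k) y b) / h) := by
    have t := hmax (mu y L s b - μ) (mu y L s (fun k => b k * (1 - h * r k)) - μ)
    rw [← hX, sub_sub_sub_cancel_right] at t
    rw [← mul_div_assoc, ← mul_div_assoc, ← add_div, ← add_div, ← add_div]
    refine div_le_div_of_nonneg_right ?_ H.h0.le
    rw [psi, psi, ← hX]
    linarith
  have t1 := mul_le_mul_of_nonneg_left dr (show 0 ≤ 2 * X by linarith)
  have t2 := mul_le_mul_of_nonneg_right X1 (mul_nonneg H.τ0 hn0)
  have t3 := mul_le_mul_of_nonneg_left g2 (show 0 ≤ 8 * L + 5 by linarith)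
  have t4 := mul_le_mul_of_nonneg_left A1 (mul_nonneg H.τ0 (show 0 ≤ 8 * L + 5 by linarith))
  have t5 := mul_le_mul_of_nonneg_left hn H.τ0
  have t6 := mul_le_mul_of_nonneg_left (pow_le_pow_left₀ (Nat.cast_nonneg _) hn 2) H.h0.le
  nlinarith

theorem psi_nonneg (hy : ∀ k, 0 ≤ y k ∧ y k ≤ 1) (hb : ∀ k, 0 ≤ b k ∧ b k ≤ 1) (hL : 0 ≤ L)
    (μ s : ℝ) : 0 ≤ psi y L μ s b := by
  refine add_nonneg (add_nonneg (sq_nonneg _) (sum_nonneg fun k _ => ?_))
    (mul_nonneg (by linarith) (sum_nonneg fun k _ => ?_))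
  · exact mul_nonneg (mul_nonneg (hy k).1 (hb k).1)
      (sub_nonneg.2 (mul_le_one₀ (hy k).2 (hb k).1 (hb k).2))
  · exact mul_nonneg (sub_nonneg.2 (hy k).2) (mul_nonneg (hy k).1 (hb k).1)

/-- rounding down -/
theorem psi_round {b' : ι → ℝ} {e : ℝ} (hy : ∀ k, 0 ≤ y k ∧ y k ≤ 1) (hb : ∀ k, b k ≤ 1)
    (hb' : ∀ k, 0 ≤ b' k ∧ b' k ≤ b k ∧ b k - b' k ≤ e) (hL : 0 ≤ L) (μ s : ℝ) :
    psi y L μ s b' ≤ psi y L μ s b + Fintype.card ι * e := by
  have hm : ∀ w : ι → ℝ, (∀ k, 0 ≤ w k) → mass w y b' ≤ mass w y b := fun w hw =>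
    sum_le_sum fun k _ => mul_le_mul_of_nonneg_left
      (mul_le_mul_of_nonneg_left (hb' k).2.1 (hy k).1) (hw k)
  have h1 := hm (fun _ => 1) fun _ => zero_le_one
  have h2 := hm (fun k => 1 - y k) fun k => sub_nonneg.2 (hy k).2
  have h3 := div_le_div_of_nonneg_right h2 hL
  have h4 : max 0 (mu y L s b' - μ) ^ 2 ≤ max 0 (mu y L s b - μ) ^ 2 :=
    pow_le_pow_left₀ (le_max_left _ _) (max_le_max le_rfl (by rw [mu, mu]; linarith)) 2
  have h5 : ∑ k, y k * b' k * (1 - y k * b' k) ≤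
      ∑ k, y k * b k * (1 - y k * b k) + Fintype.card ι * e := by
    have e' : (Fintype.card ι : ℝ) * e = ∑ _k : ι, e := by simp
    rw [e', ← sum_add_distrib]
    refine sum_le_sum fun k _ => ?_
    obtain ⟨q0, q1, q2⟩ := hb' k
    obtain ⟨y0, y1⟩ := hy k
    have q3 : y k * b k ≤ 1 := mul_le_one₀ y1 (q0.trans q1) (hb k)
    have q4 : y k * b' k ≤ y k * b k := mul_le_mul_of_nonneg_left q1 y0
    have q5 : y k * (b k - b' k) ≤ e := (mul_le_of_le_one_left (sub_nonneg.2 q1) y1).trans q2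
    nlinarith [mul_nonneg (sub_nonneg.2 q4) (show 0 ≤ 2 - y k * b k - y k * b' k by linarith)]
  have h6 := mul_le_mul_of_nonneg_left h2 (show 0 ≤ 8 * L + 5 by linarith)
  rw [psi, psi]
  linarith

theorem psi_start (L : ℝ) :
    psi y L (∑ k, y k + (∑ k, y k * (1 - y k)) / L) 0 (fun _ => 1) =
      (8 * L + 6) * ∑ k, y k * (1 - y k) := by
  have e1 : mass (fun _ => 1) y (fun _ => 1) = ∑ k, y k := by simp [mass]
  have e2 : mass (fun k => 1 - y k) y (fun _ => 1) = ∑ k, y k * (1 - y k) := by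
    simp [mass, mul_comm]
  rw [psi, mu, e1, e2, zero_add, sub_self, max_self]
  simp only [mul_one]
  ring

/-- the final count -/
theorem le_of_psi (hy : ∀ k, 0 ≤ y k ∧ y k ≤ 1) (hb : ∀ k, 0 ≤ b k ∧ b k ≤ 1) {θ Q A s k : ℝ}
    (hθ : 0 < θ) (hL : 4 / θ ≤ L) (hA : 0 ≤ A) (hQ : 0 ≤ Q) (hm : ∑ i, y i + θ / 2 * A ≤ k + 1)
    (hp : psi y L (∑ i, y i + A / L) s b ≤ Q * (A + 1)) : s ≤ k + 1 + (Q / θ + θ / 4) := by
  have hL0 : 0 < L := lt_of_lt_of_le (by positivity) hL
  have p1 : 0 ≤ ∑ k, y k * b k * (1 - y k * b k) := sum_nonneg fun k _ =>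
    mul_nonneg (mul_nonneg (hy k).1 (hb k).1)
      (sub_nonneg.2 (mul_le_one₀ (hy k).2 (hb k).1 (hb k).2))
  have p2 : 0 ≤ mass (fun k => 1 - y k) y b := sum_nonneg fun k _ =>
    mul_nonneg (sub_nonneg.2 (hy k).2) (mul_nonneg (hy k).1 (hb k).1)
  have p3 : 0 ≤ mass (fun _ => 1) y b := sum_nonneg fun k _ =>
    mul_nonneg zero_le_one (mul_nonneg (hy k).1 (hb k).1)
  have p4 := mul_nonneg (show 0 ≤ 8 * L + 5 by linarith) p2
  have p5 := div_nonneg p2 hL0.le
  rw [psi] at hp
  have h1 : max 0 (mu y L s b - (∑ i, y i + A / L)) ≤ θ / 4 * (A + 1) + Q / θ := by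
    refine le_of_sq_le_sq ?_ (by positivity)
    have e : Q * (A + 1) = 4 * (θ / 4 * (A + 1)) * (Q / θ) := by field_simp
    nlinarith [sq_nonneg (θ / 4 * (A + 1) - Q / θ)]
  have h2 := le_max_right 0 (mu y L s b - (∑ i, y i + A / L))
  have h3 : A / L ≤ θ / 4 * A := by
    rw [div_le_iff₀ hL0]
    rw [div_le_iff₀ hθ] at hL
    nlinarith
  rw [mu] at h1 h2
  linarith

end Crest.Agent.R310.Bk
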