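import Crest.Agent.R310.GenDefs

/-!
Row 310, module BOOK (helper43): the potential that controls the number of open facilities.
The remaining mass of `k` is `y k * b k`.
-/

set_option autoImplicit false
set_option linter.unusedVariables false
set_option linter.unusedSectionVars false

open Set Finset

noncomputable section

namespace Crest.Agent.R310.Bk

variable {ι : Type} [DecidableEq ι]

/-- total remaining mass -/
def mass (F : Finset ι) (y b : ι → ℝ) : ℝ := ∑ k ∈ F, y k * b k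
/-- activity -/
def act (F : Finset ι) (y b : ι → ℝ) : ℝ := ∑ k ∈ F, (1 - y k) * (y k * b k)
/-- open facilities plus weighted remaining mass -/
def mu (F S : Finset ι) (y : ι → ℝ) (L : ℝ) (b : ι → ℝ) : ℝ := S.card + mass F y b + act F y b / L
/-- the potential -/
def psi (F S : Finset ι) (y : ι → ℝ) (L μ₀ : ℝ) (b : ι → ℝ) : ℝ :=
  (max 0 (mu F S y L b - μ₀)) ^ 2 + 2 * ∑ k ∈ F \ S, (y k ^ 2 - (y k * b k) ^ 2) +
    (8 + 8 * L) * act F y b
/-- mass of the others that a full opening of `i` kills -/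
def dout (F : Finset ι) (y b : ι → ℝ) (κ : ι → ι → ℝ) (i : ι) : ℝ :=
  ∑ k ∈ F.erase i, y k * b k * κ i k
/-- rate at which the others kill `k` -/
def fout (F : Finset ι) (y b : ι → ℝ) (κ : ι → ι → ℝ) (k : ι) : ℝ :=
  ∑ i ∈ F.erase k, y i * b i * κ i k

/-- the data of one step: `κ i k` kill fractions, `a i` caps, `r k` decay rates -/
structure Step (F S : Finset ι) (y b : ι → ℝ) (κ : ι → ι → ℝ) (a r : ι → ℝ) (L τ : ℝ) : Prop where
  y_mem : ∀ k ∈ F, y k ∈ Icc (0 : ℝ) 1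
  b_mem : ∀ k ∈ F, b k ∈ Icc (0 : ℝ) 1
  sub : S ⊆ F
  b_S : ∀ k ∈ S, b k = 0
  κ_mem : ∀ i ∈ F, ∀ k ∈ F, κ i k ∈ Icc (0 : ℝ) 1
  κ_self : ∀ k ∈ F, 0 < b k → κ k k = 1
  a_mem : ∀ i ∈ F, 0 < a i ∧ a i ≤ 1
  a_cap : ∀ i ∈ F, (a i = 1 ∧ dout F y b κ i ≤ L) ∨ a i * dout F y b κ i = L
  r_mem : ∀ k ∈ F, 0 ≤ r k ∧ r k ≤ 1
  rate_le : ∀ k ∈ F, ∑ i ∈ F, y i * b i * κ i k + r k ≤ 1
  le_rate : ∀ k ∈ F, 1 - τ ≤ ∑ i ∈ F, y i * b i * κ i k + r k
  out : ∀ k ∈ F, fout F y b κ k ≤ 1 - y k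
  L_ge : 1 ≤ L
  τ_nonneg : 0 ≤ τ

variable {F S : Finset ι} {y b b' : ι → ℝ} {κ : ι → ι → ℝ} {a r : ι → ℝ} {L τ μ₀ h : ℝ}

theorem m_mem (hy : ∀ k ∈ F, y k ∈ Icc (0 : ℝ) 1) (hb : ∀ k ∈ F, b k ∈ Icc (0 : ℝ) 1) {k : ι}
    (hk : k ∈ F) : 0 ≤ y k * b k ∧ y k * b k ≤ y k ∧ y k * b k ≤ 1 := by
  obtain ⟨h1, h2⟩ := hy k hk
  obtain ⟨h3, h4⟩ := hb k hk
  have h5 : y k * b k ≤ y k := mul_le_of_le_one_right h1 h4
  exact ⟨mul_nonneg h1 h3, h5, h5.trans h2⟩

theorem act_nonneg (hy : ∀ k ∈ F, y k ∈ Icc (0 : ℝ) 1) (hb : ∀ k ∈ F, b k ∈ Icc (0 : ℝ) 1) :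
    0 ≤ act F y b :=
  sum_nonneg fun k hk => mul_nonneg (sub_nonneg.2 (hy k hk).2) (m_mem hy hb hk).1

theorem mass_nonneg (hy : ∀ k ∈ F, y k ∈ Icc (0 : ℝ) 1) (hb : ∀ k ∈ F, b k ∈ Icc (0 : ℝ) 1) :
    0 ≤ mass F y b := sum_nonneg fun k hk => (m_mem hy hb hk).1

theorem act_le_mass (hy : ∀ k ∈ F, y k ∈ Icc (0 : ℝ) 1) (hb : ∀ k ∈ F, b k ∈ Icc (0 : ℝ) 1) :
    act F y b ≤ mass F y b :=
  sum_le_sum fun k hk => mul_le_of_le_one_left (m_mem hy hb hk).1 (by linarith [(hy k hk).1])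

theorem mass_le_card (hy : ∀ k ∈ F, y k ∈ Icc (0 : ℝ) 1) (hb : ∀ k ∈ F, b k ∈ Icc (0 : ℝ) 1) :
    mass F y b ≤ F.card := by
  have := sum_le_sum (s := F) fun k hk => (m_mem hy hb hk).2.2
  simpa [mass] using this

theorem q_nonneg (hy : ∀ k ∈ F, y k ∈ Icc (0 : ℝ) 1) (hb : ∀ k ∈ F, b k ∈ Icc (0 : ℝ) 1) :
    0 ≤ ∑ k ∈ F \ S, (y k ^ 2 - (y k * b k) ^ 2) :=
  sum_nonneg fun k hk => by
    obtain ⟨h1, h2, -⟩ := m_mem hy hb (mem_sdiff.1 hk).1
    exact sub_nonneg.2 (pow_le_pow_left₀ h1 h2 2)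

theorem psi_nonneg (hy : ∀ k ∈ F, y k ∈ Icc (0 : ℝ) 1) (hb : ∀ k ∈ F, b k ∈ Icc (0 : ℝ) 1)
    (hL : 0 ≤ L) : 0 ≤ psi F S y L μ₀ b := by
  unfold psi
  have h1 := act_nonneg hy hb
  have h2 := q_nonneg (S := S) hy hb
  positivity

theorem psi_start (hb : ∀ k ∈ F, b k = 1) :
    psi F ∅ y L (mu F ∅ y L b) b = (8 + 8 * L) * ∑ k ∈ F, y k * (1 - y k) := by
  unfold psi
  have h1 : ∑ k ∈ F \ ∅, (y k ^ 2 - (y k * b k) ^ 2) = 0 :=
    sum_eq_zero fun k hk => by rw [hb k (mem_sdiff.1 hk).1]; ring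
  have h2 : act F y b = ∑ k ∈ F, y k * (1 - y k) :=
    sum_congr rfl fun k hk => by rw [hb k hk]; ring
  rw [h1, h2]
  simp

/-- rounding the budgets down -/
theorem psi_round (hy : ∀ k ∈ F, y k ∈ Icc (0 : ℝ) 1) (hb : ∀ k ∈ F, b k ∈ Icc (0 : ℝ) 1)
    (hL : 0 < L) {e : ℝ} (he : 0 ≤ e) (hb' : ∀ k ∈ F, 0 ≤ b' k ∧ b' k ≤ b k ∧ b k - b' k ≤ e) :
    psi F S y L μ₀ b' ≤ psi F S y L μ₀ b + 4 * F.card * e := by
  unfold psi
  have hb'' : ∀ k ∈ F, b' k ∈ Icc (0 : ℝ) 1 := fun k hk =>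
    ⟨(hb' k hk).1, (hb' k hk).2.1.trans (hb k hk).2⟩
  have hm : ∀ k ∈ F, y k * b' k ≤ y k * b k := fun k hk =>
    mul_le_mul_of_nonneg_left (hb' k hk).2.1 (hy k hk).1
  have h1 : act F y b' ≤ act F y b :=
    sum_le_sum fun k hk => mul_le_mul_of_nonneg_left (hm k hk) (sub_nonneg.2 (hy k hk).2)
  have h2 : mass F y b' ≤ mass F y b := sum_le_sum hm
  have h3 : mu F S y L b' ≤ mu F S y L b := by
    unfold mu
    have := div_le_div_of_nonneg_right h1 hL.le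
    linarith
  have h4 : (max 0 (mu F S y L b' - μ₀)) ^ 2 ≤ (max 0 (mu F S y L b - μ₀)) ^ 2 :=
    pow_le_pow_left₀ (le_max_left _ _) (max_le_max le_rfl (by linarith)) 2
  have h5 : ∑ k ∈ F \ S, (y k ^ 2 - (y k * b' k) ^ 2) ≤
      ∑ k ∈ F \ S, (y k ^ 2 - (y k * b k) ^ 2 + 2 * e) := sum_le_sum fun k hk => by
    have hk' := (mem_sdiff.1 hk).1
    obtain ⟨a1, -, a2⟩ := m_mem hy hb hk'
    obtain ⟨a3, -, a4⟩ := m_mem hy hb'' hk'
    have a5 := hm k hk'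
    have a6 : y k * b k - y k * b' k ≤ e := by
      rw [← mul_sub]
      exact (mul_le_of_le_one_left (sub_nonneg.2 (hb' k hk').2.1) (hy k hk').2).trans
        (hb' k hk').2.2
    nlinarith
  rw [sum_add_distrib, sum_const, nsmul_eq_mul] at h5
  have h6 : ((F \ S).card : ℝ) ≤ F.card := by
    exact_mod_cast Finset.card_le_card Finset.sdiff_subset
  have h7 := mul_le_mul_of_nonneg_right h6 he
  have h8 := mul_le_mul_of_nonneg_left h1 (show 0 ≤ 8 + 8 * L by linarith)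
  linarith

/-- the number of open facilities -/
theorem card_le (hy : ∀ k ∈ F, y k ∈ Icc (0 : ℝ) 1) (hb : ∀ k ∈ F, b k ∈ Icc (0 : ℝ) 1)
    {θ k c : ℝ} (hθ : 0 < θ) (hθ1 : θ ≤ 1) (hL : 4 / θ ≤ L) (hc : 0 ≤ c)
    (hm : ∑ i ∈ F, y i + θ / 2 * ∑ i ∈ F, y i * (1 - y i) ≤ k) {b₀ : ι → ℝ} (hb₀ : ∀ k ∈ F, b₀ k = 1)
    (h : psi F S y L (mu F ∅ y L b₀) b ≤ c * (∑ i ∈ F, y i * (1 - y i) + 1)) :
    (S.card : ℝ) ≤ k + 1 + c / θ := by
  set A := ∑ i ∈ F, y i * (1 - y i) with hA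
  have hA0 : 0 ≤ A := sum_nonneg fun i hi => mul_nonneg (hy i hi).1 (sub_nonneg.2 (hy i hi).2)
  have hL0 : 0 < L := lt_of_lt_of_le (by positivity) hL
  have h1 : mu F ∅ y L b₀ = ∑ i ∈ F, y i + A / L := by
    have e1 : mass F y b₀ = ∑ i ∈ F, y i := sum_congr rfl fun k hk => by rw [hb₀ k hk, mul_one]
    have e2 : act F y b₀ = A := sum_congr rfl fun k hk => by rw [hb₀ k hk]; ring
    unfold mu
    rw [e1, e2]
    simp
  have h2 : A / L ≤ θ / 4 * A := by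
    rw [div_le_iff₀ hL0]
    have : 4 ≤ L * θ := (div_le_iff₀ hθ).1 hL
    nlinarith
  have h3 : (S.card : ℝ) ≤ mu F S y L b := by
    unfold mu
    have := mass_nonneg hy hb
    have := div_nonneg (act_nonneg hy hb) hL0.le
    linarith
  have h4 : (max 0 (mu F S y L b - mu F ∅ y L b₀)) ^ 2 ≤ c * (A + 1) := by
    refine le_trans ?_ h
    unfold psi
    have := q_nonneg (S := S) hy hb
    have := mul_nonneg (show 0 ≤ 8 + 8 * L by linarith) (act_nonneg hy hb)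
    linarith
  have h5 : c * (A + 1) ≤ (θ / 4 * (A + 1) + c / θ) ^ 2 := by
    have e : c * (A + 1) = 4 * (θ / 4 * (A + 1)) * (c / θ) := by field_simp
    rw [e]
    nlinarith [sq_nonneg (θ / 4 * (A + 1) - c / θ)]
  have h6 := pow_le_pow_left₀ (le_max_left 0 (mu F S y L b - mu F ∅ y L b₀)) le_rfl 2
  have h7 := abs_le_of_sq_le_sq' (h4.trans h5) (by positivity)
  have h8 := le_max_right 0 (mu F S y L b - mu F ∅ y L b₀)
  have h9 := h7.2
  linarith

namespace Step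

theorem swap (f g : ι → ℝ) :
    ∑ i ∈ F, g i * ∑ k ∈ F.erase i, f k * κ i k = ∑ k ∈ F, f k * ∑ i ∈ F.erase k, g i * κ i k := by
  simp only [mul_sum]
  rw [sum_comm' (t' := F) (s' := fun k => F.erase k)]
  · exact sum_congr rfl fun k _ => sum_congr rfl fun i _ => by ring
  · intro i k
    simp only [mem_erase]
    constructor
    · rintro ⟨h1, h2, h3⟩
      exact ⟨⟨h2.symm, h1⟩, h3⟩
    · rintro ⟨⟨h1, h2⟩, h3⟩
      exact ⟨h2, h1.symm, h3⟩

theorem m0 (s : Step F S y b κ a r L τ) {k : ι} (hk : k ∈ F) : 0 ≤ y k * b k :=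
  (m_mem s.y_mem s.b_mem hk).1

theorem dout_nonneg (s : Step F S y b κ a r L τ) {i : ι} (hi : i ∈ F) : 0 ≤ dout F y b κ i :=
  sum_nonneg fun k hk => mul_nonneg (s.m0 (mem_of_mem_erase hk))
    (s.κ_mem i hi k (mem_of_mem_erase hk)).1

theorem kill_le (s : Step F S y b κ a r L τ) :
    ∑ i ∈ F, y i * b i * dout F y b κ i ≤ act F y b := by
  unfold dout
  rw [swap (fun k => y k * b k) (fun k => y k * b k)]
  refine sum_le_sum fun k hk => ?_
  rw [mul_comm]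
  exact mul_le_mul_of_nonneg_right (s.out k hk) (s.m0 hk)

theorem m_le_w (s : Step F S y b κ a r L τ) {i : ι} (hi : i ∈ F) : y i * b i ≤ y i * b i / a i :=
  le_div_self (s.m0 hi) (s.a_mem i hi).1 (s.a_mem i hi).2

theorem w_eq (s : Step F S y b κ a r L τ) {i : ι} (hi : i ∈ F) (h : a i * dout F y b κ i = L) :
    y i * b i / a i = y i * b i * dout F y b κ i / L := by
  have h1 := (s.a_mem i hi).1
  have h2 : 0 < L := by linarith [s.L_ge]
  rw [div_eq_div_iff h1.ne' h2.ne', ← h]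
  ring

theorem weight' (s : Step F S y b κ a r L τ) :
    ∑ i ∈ F, y i * b i / a i ≤ mass F y b + act F y b / L := by
  have h2 : 0 < L := by linarith [s.L_ge]
  have h1 : ∑ i ∈ F, y i * b i / a i ≤
      ∑ i ∈ F, (y i * b i + y i * b i * dout F y b κ i / L) := sum_le_sum fun i hi => by
    have h3 := s.m0 hi
    have h4 := div_nonneg (mul_nonneg h3 (s.dout_nonneg hi)) h2.le
    rcases s.a_cap i hi with h | h
    · rw [h.1, div_one]
      linarith
    · rw [s.w_eq hi h]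
      linarith
  rw [sum_add_distrib, ← sum_div] at h1
  have := div_le_div_of_nonneg_right s.kill_le h2.le
  unfold mass
  linarith

theorem rate_eq (s : Step F S y b κ a r L τ) {k : ι} (hk : k ∈ F) :
    y k * b k * ∑ i ∈ F, y i * b i * κ i k = y k * b k * (y k * b k + fout F y b κ k) := by
  rcases (s.b_mem k hk).1.eq_or_lt with h | h
  · simp [← h]
  · unfold fout
    rw [← add_sum_erase F _ hk, s.κ_self k hk h, mul_one]

theorem lin_opn (ω : ι → ℝ) {i : ι} (hi : i ∈ F) (α : ℝ) (K : ι → ℝ) :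
    ∑ k ∈ F, ω k * (y k * opn b i α K k) - ∑ k ∈ F, ω k * (y k * b k) =
      -(ω i * (y i * b i)) - α * ∑ k ∈ F.erase i, ω k * (y k * b k) * K k := by
  rw [← sum_sub_distrib, ← add_sum_erase F _ hi, mul_sum, sub_eq_add_neg (-_), ← sum_neg_distrib]
  congr 1
  · simp [opn]
  · refine sum_congr rfl fun k hk => ?_
    simp only [opn, if_neg (ne_of_mem_erase hk)]
    ring

theorem lin_dec (ω : ι → ℝ) (h0 : 0 < h) :
    (∑ k ∈ F, ω k * (y k * (b k * (1 - h * r k))) - ∑ k ∈ F, ω k * (y k * b k)) / h =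
      -∑ k ∈ F, ω k * (y k * b k) * r k := by
  rw [div_eq_iff h0.ne', ← sum_sub_distrib, ← sum_neg_distrib, sum_mul]
  exact sum_congr rfl fun k _ => by ring

/-- linear functionals of the mass decay at rate `1 - τ` -/
theorem gen_lin (s : Step F S y b κ a r L τ) (ω : ι → ℝ) (hω : ∀ k ∈ F, 0 ≤ ω k) :
    ∑ i ∈ F, y i * b i / a i * (∑ k ∈ F, ω k * (y k * opn b i (a i) (κ i) k) -
        ∑ k ∈ F, ω k * (y k * b k)) - ∑ k ∈ F, ω k * (y k * b k) * r k ≤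
      -((1 - τ) * ∑ k ∈ F, ω k * (y k * b k)) := by
  have h1 : ∑ i ∈ F, y i * b i / a i * (∑ k ∈ F, ω k * (y k * opn b i (a i) (κ i) k) -
        ∑ k ∈ F, ω k * (y k * b k)) ≤
      ∑ i ∈ F, (-(ω i * (y i * b i) * (y i * b i)) -
        y i * b i * ∑ k ∈ F.erase i, ω k * (y k * b k) * κ i k) := sum_le_sum fun i hi => by
    rw [lin_opn ω hi, mul_sub, ← mul_assoc _ (a i), div_mul_cancel₀ _ (s.a_mem i hi).1.ne']
    have := mul_le_mul_of_nonneg_right (s.m_le_w hi) (mul_nonneg (hω i hi) (s.m0 hi))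
    linarith
  rw [sum_sub_distrib, swap (fun k => ω k * (y k * b k)) (fun k => y k * b k)] at h1
  refine (sub_le_sub_right h1 _).trans ?_
  rw [mul_sum, ← sum_neg_distrib, ← sum_sub_distrib, ← sum_sub_distrib]
  refine sum_le_sum fun k hk => ?_
  have h2 := s.rate_eq hk
  have h3 := mul_le_mul_of_nonneg_left (s.le_rate k hk) (s.m0 hk)
  rw [mul_add, h2] at h3
  have h4 := mul_le_mul_of_nonneg_left h3 (hω k hk)
  unfold fout at h4
  linarith

/-- total opening rate -/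
theorem weight (s : Step F S y b κ a r L τ) : ∑ i ∈ F, y i * b i / a i ≤ 2 * mass F y b := by
  have h1 := s.weight'
  have h2 := act_le_mass s.y_mem s.b_mem
  have h3 := div_le_self (act_nonneg s.y_mem s.b_mem) s.L_ge
  linarith

/-- the mass decays -/
theorem gen_mass (s : Step F S y b κ a r L τ) (h0 : 0 < h) :
    ∑ i ∈ F, y i * b i / a i * (mass F y (opn b i (a i) (κ i)) - mass F y b) +
      (mass F y (fun k => b k * (1 - h * r k)) - mass F y b) / h ≤ -((1 - τ) * mass F y b) := by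
  have h1 := s.gen_lin (fun _ => 1) fun _ _ => zero_le_one
  have h2 := lin_dec (F := F) (y := y) (b := b) (r := r) (fun _ => 1) h0
  simp only [one_mul] at h1 h2
  unfold mass
  rw [h2]
  linarith

theorem w_zero (s : Step F S y b κ a r L τ) {i : ι} (hi : i ∈ S) : y i * b i / a i = 0 := by
  simp [s.b_S i hi]

theorem q_eq (hS : S ⊆ F) (h : ∀ k ∈ S, b k = 0) :
    ∑ k ∈ F \ S, (y k ^ 2 - (y k * b k) ^ 2) = ∑ k ∈ F \ S, y k ^ 2 - ∑ k ∈ F, (y k * b k) ^ 2 := by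
  rw [sum_sub_distrib]
  congr 1
  refine sum_subset Finset.sdiff_subset fun k hk hk' => ?_
  have : k ∈ S := by
    by_contra hc
    exact hk' (mem_sdiff.2 ⟨hk, hc⟩)
  simp [h k this]

theorem gen_q (s : Step F S y b κ a r L τ) (h0 : 0 < h) (h1 : h ≤ 1) :
    ∑ i ∈ F, y i * b i / a i *
        (∑ k ∈ F \ insert i S, (y k ^ 2 - (y k * opn b i (a i) (κ i) k) ^ 2) -
          ∑ k ∈ F \ S, (y k ^ 2 - (y k * b k) ^ 2)) +
      (∑ k ∈ F \ S, (y k ^ 2 - (y k * (b k * (1 - h * r k))) ^ 2) -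
        ∑ k ∈ F \ S, (y k ^ 2 - (y k * b k) ^ 2)) / h ≤
      -∑ k ∈ F, y k * b k * (1 - y k * b k) ^ 2 + 2 * act F y b := by
  have a1 : ∑ i ∈ F, y i * b i / a i *
        (∑ k ∈ F \ insert i S, (y k ^ 2 - (y k * opn b i (a i) (κ i) k) ^ 2) -
          ∑ k ∈ F \ S, (y k ^ 2 - (y k * b k) ^ 2)) ≤
      ∑ i ∈ F, (-(y i * b i * (y i ^ 2 - (y i * b i) ^ 2)) +
        y i * b i * ∑ k ∈ F.erase i, 2 * (y k * b k) ^ 2 * κ i k) := sum_le_sum fun i hi => by
    obtain ⟨m1, m2, m3⟩ := m_mem s.y_mem s.b_mem hi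
    have hsum0 : 0 ≤ ∑ k ∈ F.erase i, 2 * (y k * b k) ^ 2 * κ i k := sum_nonneg fun k hk =>
      mul_nonneg (by positivity) (s.κ_mem i hi k (mem_of_mem_erase hk)).1
    by_cases hiS : i ∈ S
    · simp [s.b_S i hiS]
    have hy2 : 0 ≤ y i ^ 2 - (y i * b i) ^ 2 := sub_nonneg.2 (pow_le_pow_left₀ m1 m2 2)
    rw [q_eq (insert_subset hi s.sub) (fun k hk => by
      rcases mem_insert.1 hk with rfl | hk
      · simp [opn]
      · simp [opn, s.b_S k hk]), q_eq s.sub s.b_S, sdiff_insert,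
      ← add_sum_erase (F \ S) _ (mem_sdiff.2 ⟨hi, hiS⟩),
      ← add_sum_erase F (fun k => (y k * b k) ^ 2) hi,
      ← add_sum_erase F (fun k => (y k * opn b i (a i) (κ i) k) ^ 2) hi]
    have b1 : ∑ k ∈ F.erase i, (y k * b k) ^ 2 - ∑ k ∈ F.erase i, (y k * opn b i (a i) (κ i) k) ^ 2
        ≤ a i * ∑ k ∈ F.erase i, 2 * (y k * b k) ^ 2 * κ i k := by
      rw [← sum_sub_distrib, mul_sum]
      refine sum_le_sum fun k hk => ?_
      simp only [opn, if_neg (ne_of_mem_erase hk)]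
      nlinarith [sq_nonneg (y k * b k * (a i * κ i k))]
    have b2 : opn b i (a i) (κ i) i = 0 := by simp [opn]
    have b3 := mul_le_mul_of_nonneg_left b1 (m1.trans (s.m_le_w hi))
    rw [← mul_assoc _ (a i), div_mul_cancel₀ _ (s.a_mem i hi).1.ne'] at b3
    have b4 := mul_le_mul_of_nonneg_right (s.m_le_w hi) hy2
    rw [b2]
    linarith
  have a2 : (∑ k ∈ F \ S, (y k ^ 2 - (y k * (b k * (1 - h * r k))) ^ 2) -
        ∑ k ∈ F \ S, (y k ^ 2 - (y k * b k) ^ 2)) / h ≤ ∑ k ∈ F, 2 * (y k * b k) ^ 2 * r k := by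
    rw [q_eq (b := fun k => b k * (1 - h * r k)) s.sub (fun k hk => by simp [s.b_S k hk]),
      q_eq s.sub s.b_S, div_le_iff₀ h0, sum_mul]
    have : ∑ k ∈ F, (y k * b k) ^ 2 - ∑ k ∈ F, (y k * (b k * (1 - h * r k))) ^ 2 ≤
        ∑ k ∈ F, 2 * (y k * b k) ^ 2 * r k * h := by
      rw [← sum_sub_distrib]
      refine sum_le_sum fun k _ => ?_
      nlinarith [sq_nonneg (y k * b k * (h * r k))]
    linarith
  rw [sum_add_distrib, swap (fun k => 2 * (y k * b k) ^ 2) (fun k => y k * b k)] at a1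
  refine (add_le_add a1 a2).trans ?_
  unfold act
  rw [mul_sum, ← sum_neg_distrib, ← sum_add_distrib, ← sum_add_distrib, ← sum_add_distrib]
  refine sum_le_sum fun k hk => ?_
  obtain ⟨m1, m2, m3⟩ := m_mem s.y_mem s.b_mem hk
  have c1 := mul_le_mul_of_nonneg_left (s.rate_le k hk) m1
  rw [mul_add, s.rate_eq hk] at c1
  have c2 := mul_le_mul_of_nonneg_left c1 m1
  have c3 := mul_nonneg m1 (sq_nonneg (1 - y k))
  unfold fout at c2
  generalize y k * b k = m at *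
  nlinarith

theorem sq_step (x J : ℝ) : (max 0 (x + J)) ^ 2 - (max 0 x) ^ 2 ≤ 2 * max 0 x * J + J ^ 2 := by
  rcases le_total 0 x with h | h <;> rcases le_total 0 (x + J) with h' | h'
  · rw [max_eq_right h, max_eq_right h']
    nlinarith
  · rw [max_eq_right h, max_eq_left h']
    nlinarith [sq_nonneg (x + J)]
  · rw [max_eq_left h, max_eq_right h']
    nlinarith
  · rw [max_eq_left h, max_eq_left h']
    nlinarith [sq_nonneg J]

theorem mu_eq (hL : 0 < L) (S : Finset ι) (b : ι → ℝ) :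
    mu F S y L b = S.card + ∑ k ∈ F, (1 + (1 - y k) / L) * (y k * b k) := by
  unfold mu mass act
  rw [sum_div, add_assoc, ← sum_add_distrib]
  congr 1
  exact sum_congr rfl fun k _ => by ring

theorem var_le {m u X Δ w α t : ℝ} (hL : 1 ≤ L) (hm0 : 0 ≤ m) (hm1 : m ≤ 1) (ht0 : 0 ≤ t)
    (ht1 : t ≤ 1) (hu : u = 1 - (1 + t / L) * m) (hX0 : 0 ≤ X) (hX : X ≤ 2 * Δ) (hα : 0 ≤ α)
    (h : (α = 1 ∧ Δ ≤ L ∧ w = m) ∨ (α * Δ = L ∧ w = m * Δ / L)) :
    w * (u - α * X) ^ 2 ≤ 2 * (m * (1 - m) ^ 2) + 2 * (t * m) + (2 + 8 * L) * (m * Δ) := by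
  have hL0 : 0 < L := by linarith
  have hΔ : 0 ≤ Δ := by linarith
  have h1 : 0 ≤ t / L := div_nonneg ht0 hL0.le
  have h2 : t / L ≤ t := div_le_self ht0 hL
  have h3 : 0 ≤ t / L * m := mul_nonneg h1 hm0
  have h4 : t / L * m ≤ t := (mul_le_of_le_one_right h1 hm1).trans h2
  have h5 : u = (1 - m) - t / L * m := by rw [hu]; ring
  have h6 : u ^ 2 ≤ (1 - m) ^ 2 + t := by
    rw [h5]
    have := mul_nonneg (sub_nonneg.2 hm1) h3
    nlinarith
  have h7 : u ^ 2 ≤ 1 := by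
    rw [h5]
    exact (sq_le_one_iff_abs_le_one _).2 (abs_le.2 ⟨by linarith, by linarith⟩)
  have h8 : ∀ z : ℝ, (u - z) ^ 2 ≤ 2 * u ^ 2 + 2 * z ^ 2 := fun z => by nlinarith [sq_nonneg (u + z)]
  have hmΔ := mul_nonneg hm0 hΔ
  rcases h with ⟨rfl, h, rfl⟩ | ⟨h, rfl⟩
  · have h9 : X ^ 2 ≤ 4 * L * Δ := by nlinarith
    have h10 : (u - 1 * X) ^ 2 ≤ 2 * ((1 - w) ^ 2 + t) + 2 * (4 * L * Δ) := by
      rw [one_mul]
      linarith [h8 X]
    have := mul_le_mul_of_nonneg_left h10 hm0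
    linarith
  · have h9 : (α * X) ^ 2 ≤ (2 * L) ^ 2 := by
      refine pow_le_pow_left₀ (mul_nonneg hα hX0) ?_ 2
      have := mul_le_mul_of_nonneg_left hX hα
      linarith
    have h10 : (u - α * X) ^ 2 ≤ (2 + 8 * L) * L := by nlinarith [h8 (α * X)]
    have h11 := mul_le_mul_of_nonneg_left h10 (div_nonneg hmΔ hL0.le)
    have e : m * Δ / L * ((2 + 8 * L) * L) = (2 + 8 * L) * (m * Δ) := by field_simp
    have h12 := mul_nonneg hm0 (sq_nonneg (1 - m))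
    have h13 := mul_nonneg ht0 hm0
    linarith

theorem gen_sq (s : Step F S y b κ a r L τ) (h0 : 0 < h) (hμ : 0 ≤ μ₀) :
    ∑ i ∈ F, y i * b i / a i *
        ((max 0 (mu F (insert i S) y L (opn b i (a i) (κ i)) - μ₀)) ^ 2 -
          (max 0 (mu F S y L b - μ₀)) ^ 2) +
      ((max 0 (mu F S y L (fun k => b k * (1 - h * r k)) - μ₀)) ^ 2 -
        (max 0 (mu F S y L b - μ₀)) ^ 2) / h ≤
      12 * (τ * F.card ^ 2) + 4 * (h * F.card ^ 2) +
        2 * ∑ k ∈ F, y k * b k * (1 - y k * b k) ^ 2 + (4 + 8 * L) * act F y b := by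
  have hL0 : 0 < L := by linarith [s.L_ge]
  set n : ℝ := (F.card : ℝ) with hn
  have hn0 : 0 ≤ n := Nat.cast_nonneg _
  have ha0 := act_nonneg s.y_mem s.b_mem
  have ha1 := act_le_mass s.y_mem s.b_mem
  have ha2 := div_le_self ha0 s.L_ge
  have ha3 := div_nonneg ha0 hL0.le
  have hm0 := mass_nonneg s.y_mem s.b_mem
  have hm1 : mass F y b ≤ n := mass_le_card s.y_mem s.b_mem
  have hS : (S.card : ℝ) ≤ n := by
    rw [hn]
    exact_mod_cast Finset.card_le_card s.sub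
  set ω : ι → ℝ := fun k => 1 + (1 - y k) / L with hω
  have hω0 : ∀ k ∈ F, 0 ≤ ω k := fun k hk =>
    add_nonneg zero_le_one (div_nonneg (sub_nonneg.2 (s.y_mem k hk).2) hL0.le)
  have hω2 : ∀ k ∈ F, ω k ≤ 2 := fun k hk => by
    have := div_le_self (sub_nonneg.2 (s.y_mem k hk).2) s.L_ge
    have := (s.y_mem k hk).1
    simp only [hω]
    linarith
  have hlin : ∑ k ∈ F, ω k * (y k * b k) = mass F y b + act F y b / L := by
    have := mu_eq (F := F) (y := y) hL0 S b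
    unfold mu at this
    simp only [hω]
    linarith
  set p := max 0 (mu F S y L b - μ₀) with hp
  have hp0 : 0 ≤ p := le_max_left _ _
  have hp1 : p ≤ 3 * n := max_le (by linarith) (by unfold mu; linarith)
  set J : ι → ℝ := fun i => 1 + (∑ k ∈ F, ω k * (y k * opn b i (a i) (κ i) k) -
    ∑ k ∈ F, ω k * (y k * b k)) with hJ
  set X := ∑ k ∈ F, ω k * (y k * b k) * r k with hX
  have hX0 : 0 ≤ X := sum_nonneg fun k hk =>
    mul_nonneg (mul_nonneg (hω0 k hk) (s.m0 hk)) (s.r_mem k hk).1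
  have hX1 : X ≤ 2 * n := by
    have : X ≤ ∑ k ∈ F, ω k * (y k * b k) := sum_le_sum fun k hk =>
      mul_le_of_le_one_right (mul_nonneg (hω0 k hk) (s.m0 hk)) (s.r_mem k hk).2
    linarith
  have a1 : ∑ i ∈ F, y i * b i / a i *
        ((max 0 (mu F (insert i S) y L (opn b i (a i) (κ i)) - μ₀)) ^ 2 - p ^ 2) ≤
      ∑ i ∈ F, (2 * p * (y i * b i / a i * J i) + y i * b i / a i * J i ^ 2) :=
    sum_le_sum fun i hi => by
      by_cases hiS : i ∈ S
      · simp [s.w_zero hiS]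
      have e : mu F (insert i S) y L (opn b i (a i) (κ i)) - μ₀ = (mu F S y L b - μ₀) + J i := by
        rw [mu_eq hL0, mu_eq hL0, card_insert_of_notMem hiS]
        simp only [hJ, hω]
        push_cast
        ring
      have := mul_le_mul_of_nonneg_left (sq_step (mu F S y L b - μ₀) (J i))
        ((s.m0 hi).trans (s.m_le_w hi))
      rw [e]
      linarith
  have a2 : ((max 0 (mu F S y L (fun k => b k * (1 - h * r k)) - μ₀)) ^ 2 - p ^ 2) / h ≤
      -(2 * p * X) + h * X ^ 2 := by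
    have e : mu F S y L (fun k => b k * (1 - h * r k)) - μ₀ = (mu F S y L b - μ₀) + -(h * X) := by
      have := lin_dec (F := F) (y := y) (b := b) (r := r) ω h0
      rw [div_eq_iff h0.ne'] at this
      rw [mu_eq hL0, mu_eq hL0]
      simp only [hω] at this
      simp only [hX, hω]
      linarith
    rw [e, div_le_iff₀ h0]
    have := sq_step (mu F S y L b - μ₀) (-(h * X))
    linarith
  have a3 : ∑ i ∈ F, y i * b i / a i * J i - X ≤ τ * (2 * n) := by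
    have g := s.gen_lin ω hω0
    have e : ∑ i ∈ F, y i * b i / a i * J i = ∑ i ∈ F, y i * b i / a i +
        ∑ i ∈ F, y i * b i / a i * (∑ k ∈ F, ω k * (y k * opn b i (a i) (κ i) k) -
          ∑ k ∈ F, ω k * (y k * b k)) := by
      rw [← sum_add_distrib]
      exact sum_congr rfl fun i _ => by simp only [hJ]; ring
    have w := s.weight'
    have := mul_le_mul_of_nonneg_left (show mass F y b + act F y b / L ≤ 2 * n by linarith)
      s.τ_nonneg
    rw [e]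
    rw [hlin] at g ⊢
    linarith
  have a4 : ∑ i ∈ F, y i * b i / a i * J i ^ 2 ≤
      ∑ i ∈ F, (2 * (y i * b i * (1 - y i * b i) ^ 2) + 2 * ((1 - y i) * (y i * b i)) +
        (2 + 8 * L) * (y i * b i * dout F y b κ i)) := sum_le_sum fun i hi => by
    obtain ⟨m1, m2, m3⟩ := m_mem s.y_mem s.b_mem hi
    have e : J i = (1 - (1 + (1 - y i) / L) * (y i * b i)) -
        a i * ∑ k ∈ F.erase i, ω k * (y k * b k) * κ i k := by
      simp only [hJ]
      rw [lin_opn ω hi]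
      simp only [hω]
      ring
    rw [e]
    refine var_le s.L_ge m1 m3 (sub_nonneg.2 (s.y_mem i hi).2) (by linarith [(s.y_mem i hi).1]) rfl
      (sum_nonneg fun k hk => ?_) ?_ (s.a_mem i hi).1.le ?_
    · have hk' := mem_of_mem_erase hk
      exact mul_nonneg (mul_nonneg (hω0 k hk') (s.m0 hk')) (s.κ_mem i hi k hk').1
    · unfold dout
      rw [mul_sum]
      refine sum_le_sum fun k hk => ?_
      have hk' := mem_of_mem_erase hk
      have := mul_le_mul_of_nonneg_right (hω2 k hk') (mul_nonneg (s.m0 hk') (s.κ_mem i hi k hk').1)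
      linarith
    · rcases s.a_cap i hi with h | h
      · exact Or.inl ⟨h.1, h.2, by rw [h.1, div_one]⟩
      · exact Or.inr ⟨h, s.w_eq hi h⟩
  rw [sum_add_distrib, sum_add_distrib, ← mul_sum, ← mul_sum, ← mul_sum] at a4
  rw [sum_add_distrib, ← mul_sum] at a1
  have a5 := mul_le_mul_of_nonneg_left s.kill_le (show 0 ≤ 2 + 8 * L by linarith)
  have a6 := mul_le_mul_of_nonneg_left a3 (show 0 ≤ 2 * p by linarith)
  have a7 : p * (τ * n) ≤ 3 * n * (τ * n) :=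
    mul_le_mul_of_nonneg_right hp1 (mul_nonneg s.τ_nonneg hn0)
  have a8 : h * X ^ 2 ≤ h * (2 * n) ^ 2 :=
    mul_le_mul_of_nonneg_left (pow_le_pow_left₀ hX0 hX1 2) h0.le
  have a9 : ∑ i ∈ F, (1 - y i) * (y i * b i) = act F y b := rfl
  rw [a9] at a4
  linarith

/-- **the generator of the bookkeeping potential** -/
theorem gen_psi (s : Step F S y b κ a r L τ) (h0 : 0 < h) (h1 : h ≤ 1) (hμ : 0 ≤ μ₀) :
    ∑ i ∈ F, y i * b i / a i *
        (psi F (insert i S) y L μ₀ (opn b i (a i) (κ i)) - psi F S y L μ₀ b) +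
      (psi F S y L μ₀ (fun k => b k * (1 - h * r k)) - psi F S y L μ₀ b) / h ≤
      (20 + 8 * L) * F.card ^ 2 * (τ + h) := by
  have hL0 : 0 < L := by linarith [s.L_ge]
  set n : ℝ := (F.card : ℝ) with hn
  have hn0 : 0 ≤ n := Nat.cast_nonneg _
  have hnn : n ≤ n ^ 2 := by
    rw [hn]
    exact_mod_cast Nat.le_self_pow two_ne_zero _
  have ha0 := act_nonneg s.y_mem s.b_mem
  have ha1 := act_le_mass s.y_mem s.b_mem
  have hm1 : mass F y b ≤ n := mass_le_card s.y_mem s.b_mem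
  have g1 := s.gen_sq h0 hμ
  have g2 := s.gen_q h0 h1
  have g3 := s.gen_lin (fun k => 1 - y k) fun k hk => sub_nonneg.2 (s.y_mem k hk).2
  have g4 := lin_dec (F := F) (y := y) (b := b) (r := r) (fun k => 1 - y k) h0
  have g5 : ∑ i ∈ F, y i * b i / a i * (act F y (opn b i (a i) (κ i)) - act F y b) +
      (act F y (fun k => b k * (1 - h * r k)) - act F y b) / h ≤ -((1 - τ) * act F y b) := by
    unfold act
    rw [g4]
    linarith
  have e : ∑ i ∈ F, y i * b i / a i *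
        (psi F (insert i S) y L μ₀ (opn b i (a i) (κ i)) - psi F S y L μ₀ b) +
      (psi F S y L μ₀ (fun k => b k * (1 - h * r k)) - psi F S y L μ₀ b) / h =
      (∑ i ∈ F, y i * b i / a i *
        ((max 0 (mu F (insert i S) y L (opn b i (a i) (κ i)) - μ₀)) ^ 2 -
          (max 0 (mu F S y L b - μ₀)) ^ 2) +
      ((max 0 (mu F S y L (fun k => b k * (1 - h * r k)) - μ₀)) ^ 2 -
        (max 0 (mu F S y L b - μ₀)) ^ 2) / h) +
      2 * (∑ i ∈ F, y i * b i / a i *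
        (∑ k ∈ F \ insert i S, (y k ^ 2 - (y k * opn b i (a i) (κ i) k) ^ 2) -
          ∑ k ∈ F \ S, (y k ^ 2 - (y k * b k) ^ 2)) +
      (∑ k ∈ F \ S, (y k ^ 2 - (y k * (b k * (1 - h * r k))) ^ 2) -
        ∑ k ∈ F \ S, (y k ^ 2 - (y k * b k) ^ 2)) / h) +
      (8 + 8 * L) * (∑ i ∈ F, y i * b i / a i * (act F y (opn b i (a i) (κ i)) - act F y b) +
      (act F y (fun k => b k * (1 - h * r k)) - act F y b) / h) := by
    unfold psi
    rw [mul_add 2, mul_add (8 + 8 * L), mul_sum F _ 2, mul_sum F _ (8 + 8 * L)]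
    have e1 : ∀ p q t u v w : ℝ, p + q + (t + u) + (v + w) = (p + t + v) + (q + u + w) := by
      intros
      ring
    rw [e1, ← sum_add_distrib, ← sum_add_distrib]
    congr 1
    · exact sum_congr rfl fun i _ => by ring
    · ring
  rw [e]
  have g6 := mul_le_mul_of_nonneg_left g5 (show 0 ≤ 8 + 8 * L by linarith)
  have g7 : (8 + 8 * L) * (τ * act F y b) ≤ (8 + 8 * L) * (τ * n ^ 2) :=
    mul_le_mul_of_nonneg_left (mul_le_mul_of_nonneg_left (by linarith) s.τ_nonneg) (by linarith)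
  have g8 : 0 ≤ (16 + 8 * L) * (h * n ^ 2) := by positivity
  rw [← hn] at g1
  linarith

end Step

/-! ### the invariant that bounds the outside kill rate -/

/-- `k` is untouched, or the others can kill it at rate `1 - y k` at most -/
def Inv (F : Finset ι) (y : ι → ℝ) (κf : ℝ → ℝ → ℝ) (ρ : ι → ι → ℝ) (dS b : ι → ℝ) : Prop :=
  ∀ k ∈ F, b k = 1 ∨ ∑ i ∈ F.erase k, y i * b i * κf (dS k) (ρ i k) ≤ 1 - y k

variable {κf : ℝ → ℝ → ℝ} {ρ : ι → ι → ℝ} {dS dS' c : ι → ℝ}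

theorem inv_start (hb : ∀ k ∈ F, b k = 1) : Inv F y κf ρ dS b := fun k hk => Or.inl (hb k hk)

/-- the field `Step.out` -/
theorem Inv.out (hI : Inv F y κf ρ dS b)
    (hmono : ∀ c c' ρ : ℝ, 0 ≤ c → c ≤ c' → 0 < ρ → κf c ρ ≤ κf c' ρ)
    (hρ : ∀ i ∈ F, ∀ k ∈ F, i ≠ k → 0 < ρ i k) (hy : ∀ k ∈ F, 0 ≤ y k) (hb : ∀ k ∈ F, 0 ≤ b k)
    (hc0 : ∀ k ∈ F, 0 ≤ c k) (hc : ∀ k ∈ F, c k ≤ dS k)
    (hself : ∀ k ∈ F, 0 < b k → κf (c k) (ρ k k) = 1)
    (hr : ∀ k ∈ F, ∑ i ∈ F, y i * b i * κf (c k) (ρ i k) ≤ 1) :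
    ∀ k ∈ F, fout F y b (fun i k => κf (c k) (ρ i k)) k ≤ 1 - y k := by
  intro k hk
  rcases hI k hk with h | h
  · have h1 := hr k hk
    rw [← add_sum_erase F _ hk, hself k hk (by rw [h]; exact one_pos), h] at h1
    unfold fout
    linarith
  · refine le_trans (sum_le_sum fun i hi => ?_) h
    have hi' := mem_of_mem_erase hi
    exact mul_le_mul_of_nonneg_left
      (hmono _ _ _ (hc0 k hk) (hc k hk) (hρ i hi' k hk (ne_of_mem_erase hi)))
      (mul_nonneg (hy i hi') (hb i hi'))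

/-- all moves (opening, decay, rounding down): a budget changes only if `dS' k ≤ c k` -/
theorem Inv.step (hI : Inv F y κf ρ dS b)
    (hmono : ∀ c c' ρ : ℝ, 0 ≤ c → c ≤ c' → 0 < ρ → κf c ρ ≤ κf c' ρ) (hκ : ∀ c ρ, 0 ≤ κf c ρ)
    (hρ : ∀ i ∈ F, ∀ k ∈ F, i ≠ k → 0 < ρ i k) (hy : ∀ k ∈ F, 0 ≤ y k)
    (hout : ∀ k ∈ F, fout F y b (fun i k => κf (c k) (ρ i k)) k ≤ 1 - y k)
    (hb' : ∀ k ∈ F, 0 ≤ b' k ∧ b' k ≤ b k) (hd : ∀ k ∈ F, 0 ≤ dS' k ∧ dS' k ≤ dS k)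
    (hch : ∀ k ∈ F, b' k = b k ∨ dS' k ≤ c k) : Inv F y κf ρ dS' b' := by
  intro k hk
  have key : ∀ t, dS' k ≤ t → ∑ i ∈ F.erase k, y i * b' i * κf (dS' k) (ρ i k) ≤
      ∑ i ∈ F.erase k, y i * b i * κf t (ρ i k) := fun t ht => sum_le_sum fun i hi => by
    have hi' := mem_of_mem_erase hi
    exact mul_le_mul (mul_le_mul_of_nonneg_left (hb' i hi').2 (hy i hi'))
      (hmono _ _ _ (hd k hk).1 ht (hρ i hi' k hk (ne_of_mem_erase hi))) (hκ _ _)
      (mul_nonneg (hy i hi') ((hb' i hi').1.trans (hb' i hi').2))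
  rcases hch k hk with h | h
  · rcases hI k hk with h' | h'
    · exact Or.inl (h.trans h')
    · exact Or.inr ((key _ (hd k hk).2).trans h')
  · exact Or.inr ((key _ h).trans (hout k hk))

end Crest.Agent.R310.Bk
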