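import Crest.Agent.R310.CertHalf

/-! # Row 310: certificate glue, one chart (G4) -/

set_option autoImplicit false

open Crest.Agent.Lib.PolyBB

namespace Crest.Agent.R310.Cert

open Des

/-- the box of the inner variables -/
def CB : Box := [⟨1, 0, 1, 1⟩, ⟨1, 0, 1, 1⟩, ⟨1, 0, 1, 3⟩]

/-- only outer variables and outer parameters occur -/
def scp : E → Bool
  | .var i => decide (i < 4)
  | .par j => decide (j < 19)
  | .cst _ => true
  | .add a b => scp a && scp b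
  | .sub a b => scp a && scp b
  | .mul a b => scp a && scp b
  | .pow a _ => scp a

theorem scp_congr {e : E} (h : scp e = true) {x x' : ℕ → ℝ} {p p' : ℕ → ℤ}
    (hx : ∀ i < 4, x' i = x i) (hp : ∀ j < 19, p' j = p j) : e.eval x' p' = e.eval x p := by
  induction e with
  | var i => exact hx i (of_decide_eq_true h)
  | par j => rw [E.eval_par, E.eval_par, hp j (of_decide_eq_true h)]
  | cst z => rfl
  | add a b iha ihb =>
    rw [scp, Bool.and_eq_true] at h; rw [E.eval_add, E.eval_add, iha h.1, ihb h.2]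
  | sub a b iha ihb =>
    rw [scp, Bool.and_eq_true] at h; rw [E.eval_sub, E.eval_sub, iha h.1, ihb h.2]
  | mul a b iha ihb =>
    rw [scp, Bool.and_eq_true] at h; rw [E.eval_mul, E.eval_mul, iha h.1, ihb h.2]
  | pow a k ih => rw [E.eval_pow, E.eval_pow, ih h]

section

variable {Q : Cell} {x : ℕ → ℝ} {p : ℕ → ℤ} {y' y b : ℝ}

theorem sel_spec {j : ℤ} (H : ∀ e ∈ sel j, 0 ≤ e.eval x p) : 2 * j - 1 ≤ 2 * x 6 ∧ 2 * x 6 ≤ 2 * j + 1 := by
  simp only [sel, List.forall_mem_cons, c, Cert.x, E.eval_sub, E.eval_mul, E.eval_cst,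
    E.eval_var] at H
  obtain ⟨h1, h2, -⟩ := H
  push_cast at h1 h2
  constructor <;> linarith

theorem esB_spec {k k' : ℕ} (H : ∀ e ∈ esB Q k k', 0 ≤ e.eval x p) :
    (x 6 = 0 → ∀ e ∈ (hk Q).famB (k' % 8), 0 ≤ e.eval x p) ∧
    (x 6 = 1 → ∀ e ∈ (hk Q).famC (k' % 8), 0 ≤ e.eval x p) ∧
    (x 6 = 2 → ∀ e ∈ two k (fun g => (hi Q g).famB (k' % 8)), 0 ≤ e.eval x p) ∧
    (x 6 = 3 → ∀ e ∈ two k (fun g => (hi Q g).famC (k' % 8)), 0 ≤ e.eval x p) := by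
  unfold esB at H
  split at H <;> rw [List.forall_mem_append] at H <;> obtain ⟨h1, h2⟩ := sel_spec H.1 <;>
    push_cast at h1 h2 <;> refine ⟨fun h => ?_, fun h => ?_, fun h => ?_, fun h => ?_⟩ <;>
    first
      | exact H.2
      | (exfalso; linarith)

theorem dz_eval (hY : Q.Yk.eval x p = 6 * y) (hY' : Q.Yi.eval x p = 6 * y') (z : ℤ) :
    (dz Q z).eval x p = 6 * (4 * (y - y') - z * (2 * y')) := by
  simp only [dz, c, E.eval_sub, E.eval_mul, E.eval_cst, tt_eval hY', hY, hY']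
  push_cast
  ring

theorem exists_piece (hY : Q.Yk.eval x p = 6 * y) (hY' : Q.Yi.eval x p = 6 * y') {k : ℕ}
    (hk : k < 8) (H : ∀ e ∈ rng Q k, 0 ≤ e.eval x p) :
    ∃ g, (g = 0 ∨ Piece g (y - y') (2 * y')) ∧ ∀ f : ℕ → List E, f g ⊆ two k f := by
  have P1 := fun (h1 : 2 * y' / 4 ≤ y - y') (h2 : y - y' ≤ 2 * y' / 2) =>
    (Or.inr ⟨h1, h2⟩ : 1 = 0 ∨ Piece 1 (y - y') (2 * y'))
  have P2 := fun (h1 : 2 * y' / 2 ≤ y - y') (h2 : y - y' ≤ 2 * y') =>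
    (Or.inr ⟨h1, h2⟩ : 2 = 0 ∨ Piece 2 (y - y') (2 * y'))
  have P3 := fun (h1 : 2 * y' ≤ y - y') (h2 : y - y' ≤ 5 / 4 * (2 * y')) =>
    (Or.inr ⟨h1, h2⟩ : 3 = 0 ∨ Piece 3 (y - y') (2 * y'))
  have P4 := fun h1 : 5 / 4 * (2 * y') ≤ y - y' =>
    (Or.inr h1 : 4 = 0 ∨ Piece 4 (y - y') (2 * y'))
  interval_cases k <;>
    simp only [rng, List.forall_mem_cons, c, E.eval_sub, E.eval_cst, dz_eval hY hY'] at H <;>
    push_cast at H
  · exact ⟨0, Or.inl rfl, fun f => List.Subset.refl _⟩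
  · exact ⟨1, P1 (by linarith [H.1]) (by linarith [H.2.1]), fun f => List.Subset.refl _⟩
  · rcases le_total (y - y') (2 * y' / 2) with h | h
    · exact ⟨1, P1 (by linarith [H.1]) h, fun f => List.subset_append_left _ _⟩
    · exact ⟨2, P2 h (by linarith [H.2.1]), fun f => List.subset_append_right _ _⟩
  · exact ⟨2, P2 (by linarith [H.1]) (by linarith [H.2.1]), fun f => List.Subset.refl _⟩
  · rcases le_total (y - y') (2 * y') with h | h
    · exact ⟨2, P2 (by linarith [H.1]) h, fun f => List.subset_append_left _ _⟩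
    · exact ⟨3, P3 h (by linarith [H.2.1]), fun f => List.subset_append_right _ _⟩
  · exact ⟨3, P3 (by linarith [H.1]) (by linarith [H.2.1]), fun f => List.Subset.refl _⟩
  · rcases le_total (y - y') (5 / 4 * (2 * y')) with h | h
    · exact ⟨3, P3 (by linarith [H.1]) h, fun f => List.subset_append_left _ _⟩
    · exact ⟨4, P4 h, fun f => List.subset_append_right _ _⟩
  · exact ⟨4, P4 (by linarith [H.1]), fun f => List.Subset.refl _⟩

theorem gt_le {m : ℕ} {be Y : E} (hb : be.eval x p = b) (hY : Y.eval x p = 6 * y) (y0 : 0 ≤ y)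
    (b0 : 0 ≤ b) (b1 : b ≤ 1) (P : Piece m (1 - y) (2 * y)) :
    (gt m be Y).eval x p ≤ 1088640000000 * (Phi b (1 - y) (2 * y) - (1 - y) * (1 - b)) := by
  have h := phi_le (m := m) (e := ee be (c 1)) (by norm_num : (0 : ℝ) < 6) hb (uu_eval hY)
    (tt_eval hY) (by linarith) P (by
      have := ebR_one_le b0 b1
      simp only [ee, c, E.eval_mul, E.eval_cst, eb_eval, hb]
      push_cast
      linarith)
  rw [gt]
  simp only [E.eval_sub, E.eval_mul, uu_eval hY, hb]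
  simp only [c, E.eval_cst] at h ⊢
  push_cast
  linarith

end

theorem NAt_of (Q : Cell) {B : Box} (h : Holds2 (esA Q) (esB8 Q) 19 CB B) (x0 x1 x2 x3 : ℝ)
    (hB : B.length = 4) (hs : scp (tau Q) = true) (hx : B.mem (pt [x0, x1, x2, x3]))
    {y' y b b' : ℝ}
    (hev : ∀ (m : List ℝ) (p : ℕ → ℤ),
      Q.bk.eval (pt (x0 :: x1 :: x2 :: x3 :: m)) p = b ∧
      Q.bi.eval (pt (x0 :: x1 :: x2 :: x3 :: m)) p = b' ∧
      Q.Yk.eval (pt (x0 :: x1 :: x2 :: x3 :: m)) p = 6 * y ∧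
      Q.Yi.eval (pt (x0 :: x1 :: x2 :: x3 :: m)) p = 6 * y')
    (Pk : Piece Q.mK (1 - y) (2 * y)) (Pi : Piece Q.mi (1 - y') (2 * y'))
    (h0 : 0 ≤ y') (h1 : y' ≤ y) (h3 : y ≤ 2 / 3) (b0 : 0 ≤ b) (b1 : b ≤ 1) (b0' : 0 ≤ b')
    (b1' : b' ≤ 1) : ∃ τ, NAt y' y b b' τ := by
  obtain ⟨k, p, hA, hI⟩ := h.elim [x0, x1, x2, x3] hB.symm hx
  simp only [esA, List.forall_mem_cons, E.eval_add, E.eval_sub] at hA
  obtain ⟨a1, a2, a3⟩ := hA
  obtain ⟨e1, e2, e3, e4⟩ := hev [] p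
  have y0 : 0 ≤ y := h0.trans h1
  obtain ⟨g, hg, hsub⟩ := exists_piece e3 e4 (Nat.mod_lt k (by norm_num)) a3
  obtain ⟨θ, t0, t1, hθ⟩ := exists_theta b0 b1
  obtain ⟨θ', t0', t1', hθ'⟩ := exists_theta b0' b1'
  obtain ⟨τ, hτ⟩ : ∃ τ : ℝ, (tau Q).eval (pt [x0, x1, x2, x3]) p = 1088640000000 * τ :=
    ⟨_, (mul_div_cancel₀ _ (by norm_num)).symm⟩
  have key : ∀ w θ j : ℝ, 0 ≤ w → w ≤ 1 → 0 ≤ θ → θ ≤ 1 → 0 ≤ j → j ≤ 3 → ∃ (k' : ℕ) (p' : ℕ → ℤ),
      (tau Q).eval (pt [x0, x1, x2, x3, w, θ, j]) p' = 1088640000000 * τ ∧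
      ∀ e ∈ esB Q (k % 8) k', 0 ≤ e.eval (pt [x0, x1, x2, x3, w, θ, j]) p' := by
    intro w θ j w0 w1 t0 t1 j0 j1
    obtain ⟨k', p', hp, H⟩ := hI [w, θ, j] (by simp [CB, *])
    refine ⟨k', p', (scp_congr hs (fun i hi => ?_) hp).trans hτ, H⟩
    interval_cases i <;> rfl
  have ok : ∀ (w j : ℝ) (p' : ℕ → ℤ), 0 ≤ w → w ≤ 1 →
      (hk Q).OK (pt [x0, x1, x2, x3, w, θ, j]) p' b b' y y' := fun w j p' w0 w1 => by
    obtain ⟨e1, e2, e3, e4⟩ := hev [w, θ, j] p'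
    exact ⟨e1, e2, e3, e4, b0, b1, b0', b1', y0, h3, h0, Pk, Pi, hθ, w0, w1⟩
  have oi : ∀ (w j : ℝ) (p' : ℕ → ℤ), 0 ≤ w → w ≤ 1 →
      (hi Q g).OK (pt [x0, x1, x2, x3, w, θ', j]) p' b' b y' y := fun w j p' w0 w1 => by
    obtain ⟨e1, e2, e3, e4⟩ := hev [w, θ', j] p'
    exact ⟨e2, e1, e4, e3, b0', b1', b0, b1, h0, h1.trans h3, y0, Pi, Pk, hθ', w0, w1⟩
  have Hk' : ∀ {x : ℕ → ℝ} {p' : ℕ → ℤ}, (hk Q).OK x p' b b' y y' →
      (tau Q).eval x p' = 1088640000000 * τ →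
      (hk Q).H.eval x p' ≤ 1088640000000 * Hk y' y b b' τ := fun o ht => by
    have := o.H_le
    simp only [hk, ht] at this
    rw [Hk, hk]
    linarith
  have Hi' : ∀ {x : ℕ → ℝ} {p' : ℕ → ℤ}, (hi Q g).OK x p' b' b y' y →
      (tau Q).eval x p' = 1088640000000 * τ →
      (hi Q g).H.eval x p' ≤ 1088640000000 * Hi y' y b b' τ := fun o ht => by
    have := o.H_le
    simp only [hi, E.eval_sub, c, E.eval_cst, ht] at this
    push_cast at this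
    rw [Hi, hi, c]
    linarith
  have Gk : ∀ (x : ℕ → ℝ) (p' : ℕ → ℤ), (hk Q).G.eval x p' ≤ 1088640000000 * (b' * 0) :=
    fun x p' => by rw [Half.G_zero rfl]; simp
  refine ⟨τ, ?_, ?_, fun w w0 w1 hw => ?_, fun w w0 w1 hw => ?_, fun w w0 w1 hw => ?_,
    fun w w0 w1 hw => ?_⟩
  · linarith [gt_le e2 e4 h0 b0' b1' Pi]
  · linarith [gt_le e1 e3 y0 b0 b1 Pk]
  · obtain ⟨k', p', ht, H⟩ := key w θ 0 w0 w1 t0 t1 (by norm_num) (by norm_num)
    have o := ok w 0 p' w0 w1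
    simpa using o.famB (Hk' o ht) (Gk _ _) _ ((esB_spec H).1 rfl) hw
  · obtain ⟨k', p', ht, H⟩ := key w θ 1 w0 w1 t0 t1 (by norm_num) (by norm_num)
    have o := ok w 1 p' w0 w1
    simpa using o.famC (Hk' o ht) (Gk _ _) _ ((esB_spec H).2.1 rfl) hw
  · obtain ⟨k', p', ht, H⟩ := key w θ' 2 w0 w1 t0' t1' (by norm_num) (by norm_num)
    have o := oi w 2 p' w0 w1
    rw [add_comm y y'] at hw ⊢
    exact o.famB (Hi' o ht) (o.G_le hg) _
      (fun e he => (esB_spec H).2.2.1 rfl e (hsub (fun g => (hi Q g).famB (k' % 8)) he)) hw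
  · obtain ⟨k', p', ht, H⟩ := key w θ' 3 w0 w1 t0' t1' (by norm_num) (by norm_num)
    have o := oi w 3 p' w0 w1
    rw [add_comm y y'] at hw ⊢
    exact o.famC (Hi' o ht) (o.G_le hg) _
      (fun e he => (esB_spec H).2.2.2 rfl e (hsub (fun g => (hi Q g).famC (k' % 8)) he)) hw

end Crest.Agent.R310.Cert
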