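import Crest.Agent.R310.CertCell

/-! # Row 310: certificate glue, the charts cover the domain (G5) -/

set_option autoImplicit false
set_option linter.unusedSimpArgs false

open Crest.Agent.Lib.PolyBB

namespace Crest.Agent.R310.Cert

open Des

/-- The chart `Q` is certified on `[0, 1]² × I × J`. -/
def Cert (Q : Cell) (I J : Iv) : Prop :=
  Holds2 (esA Q) (esB8 Q) 19 [⟨1, 0, 1, 1⟩, ⟨1, 0, 1, 1⟩, ⟨1, 0, 1, 3⟩]
    [⟨1, 0, 1, 1⟩, ⟨1, 0, 1, 1⟩, I, J]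

/-- The data of the chart depend on the outer variables only. -/
def Cell.Out (Q : Cell) : Prop :=
  scp (tau Q) = true ∧ ∀ (x0 x1 x2 x3 : ℝ) (m : List ℝ) (p : ℕ → ℤ),
    ∀ e ∈ [Q.bk, Q.bi, Q.Yk, Q.Yi],
    e.eval (pt (x0 :: x1 :: x2 :: x3 :: m)) p = e.eval (pt [x0, x1, x2, x3]) 0

/-- the domain of `HypN` -/
structure Dom (y' y b b' : ℝ) : Prop where
  h0 : 0 ≤ y'
  h1 : y' ≤ y
  h3 : y ≤ 2 / 3
  b0 : 0 ≤ b
  b1 : b ≤ 1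
  b0' : 0 ≤ b'
  b1' : b' ≤ 1

theorem Cert.use {Q : Cell} {I J : Iv} (h : Cert Q I J) (hQ : Q.Out) {y' y b b' : ℝ}
    (D : Dom y' y b b') (x0 x1 x2 x3 : ℝ) (m0 : 0 ≤ x0 ∧ x0 ≤ 1) (m1 : 0 ≤ x1 ∧ x1 ≤ 1)
    (m2 : I.mem x2) (m3 : J.mem x3)
    (e0 : Q.bk.eval (pt [x0, x1, x2, x3]) 0 = b) (e1 : Q.bi.eval (pt [x0, x1, x2, x3]) 0 = b')
    (e2 : Q.Yk.eval (pt [x0, x1, x2, x3]) 0 = 6 * y)
    (e3 : Q.Yi.eval (pt [x0, x1, x2, x3]) 0 = 6 * y')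
    (Pk : Piece Q.mK (1 - y) (2 * y)) (Pi : Piece Q.mi (1 - y') (2 * y')) :
    ∃ τ, NAt y' y b b' τ := by
  have o := fun m p => hQ.2 x0 x1 x2 x3 m p
  have hx : Box.mem [⟨1, 0, 1, 1⟩, ⟨1, 0, 1, 1⟩, I, J] (pt [x0, x1, x2, x3]) := by
    simp only [Box.mem_cons_pt, Box.mem_nil, and_true]
    refine ⟨?_, ?_, m2, m3⟩ <;> rw [Iv.mem_mk] <;> push_cast <;> constructor <;>
      linarith [m0.1, m0.2, m1.1, m1.2]
  exact NAt_of Q h x0 x1 x2 x3 rfl hQ.1 hx (fun m p => ⟨(o m p Q.bk (by simp)).trans e0,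
    (o m p Q.bi (by simp)).trans e1, (o m p Q.Yk (by simp)).trans e2,
    (o m p Q.Yi (by simp)).trans e3⟩) Pk Pi D.h0 D.h1 D.h3 D.b0 D.b1 D.b0' D.b1'

theorem ratio {a c : ℝ} (h0 : 0 ≤ a) (h1 : a ≤ c) : ∃ r : ℝ, (0 ≤ r ∧ r ≤ 1) ∧ c * r = a := by
  rcases (h0.trans h1).eq_or_lt with h | h
  · exact ⟨0, ⟨le_rfl, zero_le_one⟩, by linarith⟩
  · exact ⟨a / c, ⟨div_nonneg h0 h.le, (div_le_one h).2 h1⟩, mul_div_cancel₀ a h.ne'⟩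

theorem P1 {y : ℝ} (h : 1 / 2 ≤ y) (h' : y ≤ 2 / 3) : Piece 1 (1 - y) (2 * y) :=
  ⟨by linarith, by linarith⟩
theorem P2 {y : ℝ} (h : 1 / 3 ≤ y) (h' : y ≤ 1 / 2) : Piece 2 (1 - y) (2 * y) :=
  ⟨by linarith, by linarith⟩
theorem P3 {y : ℝ} (h : 2 / 7 ≤ y) (h' : y ≤ 1 / 3) : Piece 3 (1 - y) (2 * y) :=
  ⟨by linarith, by linarith⟩
theorem P4 {y : ℝ} (h' : y ≤ 2 / 7) : Piece 4 (1 - y) (2 * y) :=
  show 5 / 4 * (2 * y) ≤ 1 - y by linarith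

theorem mem01 {t : ℝ} (h : 0 ≤ t ∧ t ≤ 1) : Iv.mem ⟨1, 0, 1, 1⟩ t := by
  rw [Iv.mem_mk]; push_cast; constructor <;> linarith [h.1, h.2]
theorem mem34 {y : ℝ} (h : 1 / 2 ≤ y) (h' : y ≤ 2 / 3) : Iv.mem ⟨1, 3, 1, 4⟩ (6 * y) := by
  rw [Iv.mem_mk]; push_cast; constructor <;> linarith
theorem mem23 {y : ℝ} (h : 1 / 3 ≤ y) (h' : y ≤ 1 / 2) : Iv.mem ⟨1, 2, 1, 3⟩ (6 * y) := by
  rw [Iv.mem_mk]; push_cast; constructor <;> linarith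
theorem mem12 {y : ℝ} (h : 2 / 7 ≤ y) (h' : y ≤ 1 / 3) : Iv.mem ⟨7, 12, 1, 2⟩ (6 * y) := by
  rw [Iv.mem_mk]; push_cast; constructor <;> linarith
theorem mem0 {y : ℝ} (h : 0 ≤ y) (h' : y ≤ 2 / 7) : Iv.mem ⟨1, 0, 7, 12⟩ (6 * y) := by
  rw [Iv.mem_mk]; push_cast; constructor <;> linarith

theorem out11 : Q11.Out :=
  ⟨by decide, fun _ _ _ _ _ _ => by simp [Q11, x, c]⟩
theorem out12 : Q12.Out :=
  ⟨by decide, fun _ _ _ _ _ _ => by simp [Q12, x, c]⟩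
theorem out13 : Q13.Out :=
  ⟨by decide, fun _ _ _ _ _ _ => by simp [Q13, x, c]⟩
theorem out14 : Q14.Out :=
  ⟨by decide, fun _ _ _ _ _ _ => by simp [Q14, x, c]⟩
theorem out24 : Q24.Out :=
  ⟨by decide, fun _ _ _ _ _ _ => by simp [Q24, x, c]⟩
theorem out34 : Q34.Out :=
  ⟨by decide, fun _ _ _ _ _ _ => by simp [Q34, x, c]⟩
theorem out44 : Q44.Out :=
  ⟨by decide, fun _ _ _ _ _ _ => by simp [Q44, x, c]⟩
theorem out22a : Q22a.Out :=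
  ⟨by decide, fun _ _ _ _ _ _ => by simp [Q22a, x, c]⟩
theorem out22b : Q22b.Out :=
  ⟨by decide, fun _ _ _ _ _ _ => by simp [Q22b, x, c]⟩
theorem out23a : Q23a.Out :=
  ⟨by decide, fun _ _ _ _ _ _ => by simp [Q23a, x, c]⟩
theorem out23b : Q23b.Out :=
  ⟨by decide, fun _ _ _ _ _ _ => by simp [Q23b, x, c]⟩
theorem out33a : Q33a.Out :=
  ⟨by decide, fun _ _ _ _ _ _ => by simp [Q33a, x, c]⟩
theorem out33b : Q33b.Out :=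
  ⟨by decide, fun _ _ _ _ _ _ => by simp [Q33b, x, c]⟩

theorem hypN_of (h11 : Cert Q11 ⟨1, 0, 1, 1⟩ ⟨1, 0, 1, 1⟩)
    (h12 : Cert Q12 ⟨1, 3, 1, 4⟩ ⟨1, 2, 1, 3⟩) (h13 : Cert Q13 ⟨1, 3, 1, 4⟩ ⟨7, 12, 1, 2⟩)
    (h14 : Cert Q14 ⟨1, 3, 1, 4⟩ ⟨1, 0, 7, 12⟩) (h22a : Cert Q22a ⟨1, 0, 1, 1⟩ ⟨1, 0, 1, 1⟩)
    (h22b : Cert Q22b ⟨1, 0, 1, 1⟩ ⟨1, 0, 1, 1⟩) (h23a : Cert Q23a ⟨1, 2, 1, 3⟩ ⟨7, 12, 1, 2⟩)
    (h23b : Cert Q23b ⟨1, 2, 1, 3⟩ ⟨7, 12, 1, 2⟩) (h24 : Cert Q24 ⟨1, 2, 1, 3⟩ ⟨1, 0, 7, 12⟩)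
    (h33a : Cert Q33a ⟨1, 0, 7, 2⟩ ⟨1, 0, 1, 1⟩) (h33b : Cert Q33b ⟨1, 0, 7, 2⟩ ⟨1, 0, 1, 1⟩)
    (h34 : Cert Q34 ⟨7, 12, 1, 2⟩ ⟨1, 0, 7, 12⟩) (h44 : Cert Q44 ⟨1, 0, 7, 12⟩ ⟨1, 0, 1, 1⟩) :
    HypN := by
  intro y' y b b' h0 h1 _ h3 b0 b1 b0' b1'
  have D : Dom y' y b b' := ⟨h0, h1, h3, b0, b1, b0', b1'⟩
  have hb : 0 ≤ b ∧ b ≤ 1 := ⟨b0, b1⟩
  have hb' : 0 ≤ b' ∧ b' ≤ 1 := ⟨b0', b1'⟩
  rcases le_total (1 / 2) y with k1 | k1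
  · rcases le_total (1 / 2) y' with i1 | i1
    · obtain ⟨r, hr, e⟩ := ratio (a := 6 * y' - 3) (c := 6 * y - 3) (by linarith) (by linarith)
      exact h11.use out11 D b b' (6 * y - 3) r hb hb' (mem01 ⟨by linarith, by linarith⟩) (mem01 hr)
        rfl rfl (by simp [Q11, x, c]) (by simp [Q11, x, c, e]) (P1 k1 h3) (P1 i1 (h1.trans h3))
    rcases le_total (1 / 3) y' with i2 | i2
    · exact h12.use out12 D b b' _ _ hb hb' (mem34 k1 h3) (mem23 i2 i1) rfl rfl rfl rfl (P1 k1 h3)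
        (P2 i2 i1)
    rcases le_total (2 / 7) y' with i3 | i3
    · exact h13.use out13 D b b' _ _ hb hb' (mem34 k1 h3) (mem12 i3 i2) rfl rfl rfl rfl (P1 k1 h3)
        (P3 i3 i2)
    · exact h14.use out14 D b b' _ _ hb hb' (mem34 k1 h3) (mem0 h0 i3) rfl rfl rfl rfl (P1 k1 h3)
        (P4 i3)
  rcases le_total (1 / 3) y with k2 | k2
  · rcases le_total (1 / 3) y' with i2 | i2
    · obtain ⟨r, hr, e⟩ := ratio (a := 6 * y' - 2) (c := 6 * y - 2) (by linarith) (by linarith)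
      rcases le_total b' b with hbb | hbb
      · obtain ⟨s, hs, es⟩ := ratio b0' hbb
        exact h22a.use out22a D b s (6 * y - 2) r hb hs (mem01 ⟨by linarith, by linarith⟩)
          (mem01 hr) rfl es (by simp [Q22a, x, c]) (by simp [Q22a, x, c, e]) (P2 k2 k1)
          (P2 i2 (h1.trans k1))
      · obtain ⟨s, hs, es⟩ := ratio b0 hbb
        exact h22b.use out22b D b' s (6 * y - 2) r hb' hs (mem01 ⟨by linarith, by linarith⟩)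
          (mem01 hr) es rfl (by simp [Q22b, x, c]) (by simp [Q22b, x, c, e]) (P2 k2 k1)
          (P2 i2 (h1.trans k1))
    rcases le_total (2 / 7) y' with i3 | i3
    · rcases le_total b' b with hbb | hbb
      · obtain ⟨s, hs, es⟩ := ratio b0' hbb
        exact h23a.use out23a D b s _ _ hb hs (mem23 k2 k1) (mem12 i3 i2) rfl es rfl rfl (P2 k2 k1)
          (P3 i3 i2)
      · obtain ⟨s, hs, es⟩ := ratio b0 hbb
        exact h23b.use out23b D b' s _ _ hb' hs (mem23 k2 k1) (mem12 i3 i2) es rfl rfl rfl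
          (P2 k2 k1) (P3 i3 i2)
    · exact h24.use out24 D b b' _ _ hb hb' (mem23 k2 k1) (mem0 h0 i3) rfl rfl rfl rfl (P2 k2 k1)
        (P4 i3)
  rcases le_total (2 / 7) y with k3 | k3
  · rcases le_total (2 / 7) y' with i3 | i3
    · obtain ⟨r, hr, e⟩ := ratio (a := 2 - 6 * y) (c := 2 - 6 * y') (by linarith) (by linarith)
      have m2 : Iv.mem ⟨1, 0, 7, 2⟩ (2 - 6 * y') := by
        rw [Iv.mem_mk]; push_cast; constructor <;> linarith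
      rcases le_total b' b with hbb | hbb
      · obtain ⟨s, hs, es⟩ := ratio b0' hbb
        exact h33a.use out33a D b s (2 - 6 * y') r hb hs m2 (mem01 hr) rfl es
          (by simp [Q33a, x, c, e]) (by simp [Q33a, x, c]) (P3 k3 k2) (P3 i3 (h1.trans k2))
      · obtain ⟨s, hs, es⟩ := ratio b0 hbb
        exact h33b.use out33b D b' s (2 - 6 * y') r hb' hs m2 (mem01 hr) es rfl
          (by simp [Q33b, x, c, e]) (by simp [Q33b, x, c]) (P3 k3 k2) (P3 i3 (h1.trans k2))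
    · exact h34.use out34 D b b' _ _ hb hb' (mem12 k3 k2) (mem0 h0 i3) rfl rfl rfl rfl (P3 k3 k2)
        (P4 i3)
  · obtain ⟨r, hr, e⟩ := ratio (a := 6 * y') (c := 6 * y) (by linarith) (by linarith)
    exact h44.use out44 D b b' (6 * y) r hb hb' (mem0 (h0.trans h1) k3) (mem01 hr) rfl rfl rfl e
      (P4 k3) (P4 (h1.trans k3))

end Crest.Agent.R310.Cert
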