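import Crest.Agent.Lib.PolyBB.Core

/-!
# Row 310: the polynomial families of the certificate for `HypN`

Units: `D = 6`; `Φ` is scaled by `504000 * 360 = 181440000` (`phi`), then by `1000`.
Variables: `0, 1` states, `2, 3` geometry (outer); `4 = w`, `5 = θ`, `6 = j` (inner).
Parameters: `0 … 18` the coefficients of `τ`; `19 …` multipliers.
-/

set_option autoImplicit false

open Crest.Agent.Lib.PolyBB

namespace Crest.Agent.R310.Cert

local infixl:65 " +' " => E.add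
local infixl:65 " -' " => E.sub
local infixl:70 " *' " => E.mul

def c (z : Int) : E := .cst z

/-- `5040 * exp (-b)` for a suitable `θ ∈ [0, 1]` -/
def eb (b θ : E) : E :=
  c 5040 -' b *' (c 5040 -' b *' (c 2520 -' b *' (c 840 -' b *' (c 210 -' b *' (c 42 +' θ -' c 7 *' b)))))
/-- `126000 * exp (-b)` -/
def ee (b θ : E) : E := c 25 *' eb b θ
/-- `1000 * sm` etc. -/
def sm1 (b : E) : E :=
  c 1000 +' b *' (c (-1564) +' b *' (c 952 +' b *' (c (-500) +' b *' c 112)))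
def smd1 (b : E) : E := c (-1564) +' b *' (c 1904 +' b *' (c (-1500) +' b *' c 448))
def sp1 (b : E) : E :=
  c 1000 +' b *' (c (-934) +' b *' (c (-1131) +' b *' (c 2249 +' b *' (c (-1694) +' b *' c 510))))
def spd1 (b : E) : E :=
  c (-934) +' b *' (c (-2262) +' b *' (c 6747 +' b *' (c (-6776) +' b *' c 2550)))
def h2 (w : E) : E := c 2 -' w
def h3 (w : E) : E := c 1 +' (c 1 -' w) *' h2 w
def h4 (w : E) : E := c 1 +' (c 1 -' w) *' h3 w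
def h5 (w : E) : E := c 1 +' (c 1 -' w) *' h4 w
/-- `(sm1 (b (1 - w)) - sm1 b) / w` -/
def secSm (b w : E) : E :=
  b *' (c 1564 +' b *' (c (-952) *' h2 w +' b *' (c 500 *' h3 w +' b *' (c (-112) *' h4 w))))
/-- `(sp1 (b (1 - w)) - sp1 b) / w` -/
def secSp (b w : E) : E :=
  b *' (c 934 +' b *' (c 1131 *' h2 w +' b *' (c (-2249) *' h3 w +' b *' (c 1694 *' h4 w +'
    b *' (c (-510) *' h5 w)))))

/-- coefficient of `ee` on the piece `m ∈ {1, 2, 3, 4}`: `504000 Φ = We * ee + Ap` -/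
def We : Nat → E → E → E
  | 1, U, T => c 4 *' (c 4 *' U -' T)
  | _, _, T => c 4 *' T
def Ap : Nat → E → E → E → E
  | 1, b, U, T => c 126000 *' T -' (c 4 *' U -' T) *' (c 252 *' sm1 b +' c 126000)
  | 2, b, U, T => c 504 *' (U -' T) *' sm1 b
  | 3, b, U, T => c 504 *' (U -' T) *' sp1 b
  | _, b, U, T => c 126 *' T *' sp1 b +' c 126000 *' (c 4 *' U -' c 5 *' T) *' (c 1 -' b)
/-- `504000 π = We * ee + Ad` -/
def Ad : Nat → E → E → E → E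
  | 1, b, U, T => c 252 *' (c 4 *' U -' T) *' smd1 b
  | 2, b, U, T => c (-504) *' (U -' T) *' smd1 b
  | 3, b, U, T => c (-504) *' (U -' T) *' spd1 b
  | _, b, U, T => c 126000 *' (c 4 *' U -' c 5 *' T) -' c 126 *' T *' spd1 b
/-- `(Ap (b (1 - w)) - Ap b) / w` -/
def As : Nat → E → E → E → E → E
  | 1, b, U, T, w => c (-252) *' (c 4 *' U -' T) *' secSm b w
  | 2, b, U, T, w => c 504 *' (U -' T) *' secSm b w
  | 3, b, U, T, w => c 504 *' (U -' T) *' secSp b w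
  | _, b, U, T, w => c 126 *' T *' secSp b w +' c 126000 *' (c 4 *' U -' c 5 *' T) *' b
/-- `181440000 * Φ` on the piece `m` -/
def phi (m : Nat) (b e U T : E) : E := c 360 *' (We m U T *' e +' Ap m b U T)
/-- `181440000 * (b π + Φ)` on the piece `m` -/
def nn (m : Nat) (b e U T : E) : E :=
  c 360 *' (We m U T *' (e *' (c 1 +' b)) +' (b *' Ad m b U T +' Ap m b U T))
/-- the slope of `nn` in `U` (only a multiplier) -/
def nsl : Nat → E → E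
  | 2, b => c 181440 *' (sm1 b -' b *' smd1 b)
  | 3, b => c 181440 *' (sp1 b -' b *' spd1 b)
  | _, _ => c 181440000
/-- upper bound of `181440000 * S`, from `exp x ≤ 1 + x + x² / 2 + x³ / 6 + 19 x⁴ / 360` -/
def sb (m : Nat) (b e U T w : E) : E :=
  We m U T *' (e *' b *' (c 360 +' b *' w *' (c 180 +' b *' w *' (c 60 +' c 19 *' (b *' w))))) +'
    c 360 *' As m b U T w
/-- `360 *` the Taylor polynomial of degree `5` of `exp` -/
def t5 (d : E) : E :=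
  c 360 +' d *' (c 360 +' d *' (c 180 +' d *' (c 60 +' d *' (c 15 +' c 3 *' d))))
/-- lower bound of `181440000 * Φ` of the other piece, from `exp (-bo) = exp (-b) exp (b - bo)` -/
def low (m : Nat) (bo U T b e : E) : E :=
  We m U T *' (e *' t5 (b -' bo)) +' c 360 *' Ap m bo U T

/-- A chart of a cell. -/
structure Cell where
  mK : Nat
  mi : Nat
  bk : E
  bi : E
  Yk : E
  Yi : E
  F1 : E
  F2 : E
  G2 : E
  G3 : E

def p (j : Nat) : E := .par j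
def x (j : Nat) : E := .var j

/-- `181440000000 * 6 * τ` -/
def tau (Q : Cell) : E :=
  Q.F1 *' ((p 0 +' p 1 *' x 2 +' p 2 *' x 3 +' p 3 *' (x 2 *' x 3)) +'
      x 0 *' ((p 4 +' p 5 *' x 2 +' p 6 *' x 3) +' p 7 *' x 0) +'
      x 1 *' ((p 8 +' p 9 *' x 2 +' p 10 *' x 3) +' p 11 *' x 0 +' x 1 *' (p 12 +' p 13 *' x 0))) +'
    Q.F2 *' (p 14 +' p 15 *' x 0 +' p 16 *' x 1 +' p 17 *' Q.G2 +' p 18 *' Q.G3)

def uu (Y : E) : E := c 6 -' Y
def tt (Y : E) : E := c 2 *' Y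

/-- lower bound of `181440000 * Φ` of the other piece; direct in the cell `(1, 4)` -/
def lw : Nat → Nat → E → E → E → E → E
  | 4, 1, bo, U, T, _ => phi 1 bo (ee bo (c 1)) U T
  | _, mo, bo, U, T, b => low mo bo U T b (ee b (x 5))

/-- `H` without `τ`: self `(m, b, Y)`, other `(mo, bo, Yo)` -/
def H0 (m : Nat) (b Y : E) (mo : Nat) (bo Yo : E) : E :=
  c 181440000 *' (Yo -' Y) *' (c 1 -' bo) +' lw m mo bo (uu Yo) (tt Yo) b -'
    phi m b (ee b (x 5)) (uu Y) (tt Y) *' (c 1 -' bo)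

/-- lower bound of `g0` from the piece `g` of `Φ (b; δ, t)`, `δ = Yo - Y` -/
def gg : Nat → E → E → E → E
  | 0, _, _, _ => c 0
  | g, b, Y, Yo => c 181440000 *' (Yo -' Y) -' phi g b (ee b (x 5)) (Yo -' Y) (tt Y)

/-- The data of one half: `τ` with its sign, self, other, piece of the gain. -/
structure Half where
  t : E
  m : Nat
  b : E
  Y : E
  mo : Nat
  bo : E
  Yo : E
  g : Nat

def Half.H (h : Half) : E := h.t +' c 1000 *' H0 h.m h.b h.Y h.mo h.bo h.Yo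
def Half.G (h : Half) : E := c 1000 *' (h.bo *' gg h.g h.b h.Y h.Yo)
def Half.S (h : Half) : E := c 1000 *' sb h.m h.b (ee h.b (x 5)) (uu h.Y) (tt h.Y) (x 4)
def cden : E := c 5 -' c 2 *' x 4
/-- `2 U * Klin` -/
def Half.KL (h : Half) : E := c 5 *' uu h.Y -' (h.Y +' h.Yo) *' cden
def Half.KU (h : Half) : E := c 2 *' uu h.Y -' h.KL
def Half.B0 (h : Half) : E := h.H +' h.G -' h.S +' p 19 *' (h.b *' h.bo *' h.KL)
def Half.B1 (h : Half) : E :=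
  c 2 *' uu h.Y *' h.H +' h.G *' h.KU -' h.S *' (c 2 *' uu h.Y -' h.bo *' h.KL) -'
    h.b *' h.bo *' (p 20 *' h.KL +' p 21 *' h.KU)
def Half.D (h : Half) : E := h.bo *' h.S -' h.G -' p 19 *' (c 2 *' uu h.Y *' (h.b *' h.bo))
/-- `cden * (u - c)` -/
def Half.gu (h : Half) : E := uu h.Y *' cden -' c 5 *' (h.Y +' h.Yo)
/-- `cden * (4 c - z t)` -/
def Half.gz (h : Half) (z : Int) : E := c 20 *' (h.Y +' h.Yo) -' c z *' tt h.Y *' cden
def Half.lu (h : Half) (n : Nat) : E :=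
  p (11 + 4 * n) *' (nsl n h.b *' (c 1 -' h.bo *' x 4)) -' p (12 + 4 * n) *' (h.b *' h.bo)
def lo4 : Nat → Int
  | 1 => 1
  | 2 => 2
  | 3 => 4
  | _ => 5
def Half.C (h : Half) (n : Nat) : E :=
  cden *' (h.H +' h.G *' (c 1 -' x 4)) -'
    c 1000 *' ((nn n h.b (ee h.b (x 5)) (c 5 *' (h.Y +' h.Yo)) (tt h.Y *' cden) -'
      cden *' phi h.m h.b (ee h.b (x 5)) (uu h.Y) (tt h.Y)) *' (c 1 -' h.bo *' x 4)) -'
    h.lu n *' h.gu -'
    h.b *' h.b *' (p (13 + 4 * n) *' h.gz (lo4 n) -' p (14 + 4 * n) *' h.gz (lo4 (n + 1)))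
/-- the checks for the piece `n` (for `n = 4` the last multiplier must vanish) -/
def Half.Cs (h : Half) : Nat → List E
  | 4 => [h.C 4, h.lu 4, p 29, p 30, c 0 -' p 30]
  | n => [h.C n, h.lu n, p (13 + 4 * n), p (14 + 4 * n)]
/-- `c < u` implies `4 c ≤ z t` -/
def Half.up (h : Half) (z : Int) : List E := [c 0 -' h.gz z -' p 31 *' h.gu, p 31]

def Half.famB (h : Half) : Nat → List E
  | 0 => [c 0 -' h.KU]
  | 1 => [c 0 -' h.KL, h.B0, p 19]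
  | 2 => [h.KL, h.B1, p 20, p 21]
  | 3 => [h.B0, h.B1, p 19, p 20, p 21]
  | _ => [h.B0, h.D, p 19]

def Half.famC (h : Half) : Nat → List E
  | 0 => [c 0 -' h.gu]
  | 1 => h.gz 2 :: (h.up 4 ++ h.Cs 2)
  | 2 => h.gz 2 :: (h.up 5 ++ (h.Cs 2 ++ h.Cs 3))
  | 3 => h.gz 4 :: (h.up 5 ++ h.Cs 3)
  | 4 => h.gz 4 :: (h.Cs 3 ++ h.Cs 4)
  | 5 => h.gz 5 :: h.Cs 4
  | _ => h.gz 2 :: (h.Cs 2 ++ (h.Cs 3 ++ h.Cs 4))

def hk (Q : Cell) : Half := ⟨tau Q, Q.mK, Q.bk, Q.Yk, Q.mi, Q.bi, Q.Yi, 0⟩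
def hi (Q : Cell) (g : Nat) : Half := ⟨c 0 -' tau Q, Q.mi, Q.bi, Q.Yi, Q.mK, Q.bk, Q.Yk, g⟩

/-- first and last piece of `Φ (b_i; δ, t_i)` for the outer family `k` -/
def g1 (k : Nat) : Nat := (k + 1) / 2
def g2 (k : Nat) : Nat := k / 2 + 1

def sel (j : Int) : List E := [c 2 *' x 6 -' c (2 * j - 1), c (2 * j + 1) -' c 2 *' x 6]

def two (k : Nat) (f : Nat → List E) : List E :=
  match k % 2, k with
  | _, 0 => f 0
  | 1, _ => f (g1 k)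
  | _, _ => f (g1 k) ++ f (g2 k)

/-- inner families: `k' = 8 * j + v` -/
def esB (Q : Cell) (k k' : Nat) : List E :=
  match k' / 8 with
  | 0 => sel 0 ++ (hk Q).famB (k' % 8)
  | 1 => sel 1 ++ (hk Q).famC (k' % 8)
  | 2 => sel 2 ++ two k (fun g => (hi Q g).famB (k' % 8))
  | _ => sel 3 ++ two k (fun g => (hi Q g).famC (k' % 8))

/-- `Φ - u (1 - b)` from below -/
def gt (m : Nat) (b Y : E) : E :=
  c 1000 *' (phi m b (ee b (c 1)) (uu Y) (tt Y) -' c 181440000 *' uu Y *' (c 1 -' b))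
/-- `4 δ - z t_i` -/
def dz (Q : Cell) (z : Int) : E := c 4 *' (Q.Yk -' Q.Yi) -' c z *' tt Q.Yi

def rng (Q : Cell) : Nat → List E
  | 0 => []
  | 1 => [dz Q 1, c 0 -' dz Q 2]
  | 2 => [dz Q 1, c 0 -' dz Q 4]
  | 3 => [dz Q 2, c 0 -' dz Q 4]
  | 4 => [dz Q 2, c 0 -' dz Q 5]
  | 5 => [dz Q 4, c 0 -' dz Q 5]
  | 6 => [dz Q 4]
  | _ => [dz Q 5]

/-- outer families `k ≤ 7` (larger `k` are reduced mod 8) -/
def esA (Q : Cell) (k : Nat) : List E :=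
  (gt Q.mi Q.bi Q.Yi +' tau Q) :: (gt Q.mK Q.bk Q.Yk -' tau Q) :: rng Q (k % 8)

def esB8 (Q : Cell) (k k' : Nat) : List E := esB Q (k % 8) k'

/-! The charts. -/
def f3 : E := x 0 *' (x 2 *' x 3)
def Q11 : Cell := ⟨1, 1, x 0, x 1, c 3 +' x 2, c 3 +' x 2 *' x 3, x 0, x 1, x 2, x 3⟩
def Q12 : Cell := ⟨1, 2, x 0, x 1, x 2, x 3, x 0, x 1, x 2, x 3⟩
def Q13 : Cell := ⟨1, 3, x 0, x 1, x 2, x 3, x 0, x 1, x 2, x 3⟩
def Q14 : Cell := ⟨1, 4, x 0, x 1, x 2, x 3, x 0, x 1 *' x 3, x 2, x 3⟩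
def Q24 : Cell := ⟨2, 4, x 0, x 1, x 2, x 3, x 0, x 1 *' x 3, x 2, x 3⟩
def Q34 : Cell := ⟨3, 4, x 0, x 1, x 2, x 3, x 0, x 1 *' x 3, x 2, x 3⟩
def Q44 : Cell := ⟨4, 4, x 0, x 1, x 2, x 2 *' x 3, x 2 *' x 0, x 2 *' (x 1 *' x 3), x 2, x 3⟩
def Q22a : Cell := ⟨2, 2, x 0, x 0 *' x 1, c 2 +' x 2, c 2 +' x 2 *' x 3, x 0, f3, c 0, c 0⟩
def Q22b : Cell := ⟨2, 2, x 0 *' x 1, x 0, c 2 +' x 2, c 2 +' x 2 *' x 3, x 0, f3, c 0, c 0⟩
def Q23a : Cell := ⟨2, 3, x 0, x 0 *' x 1, x 2, x 3, x 0, f3, c 0, c 0⟩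
def Q23b : Cell := ⟨2, 3, x 0 *' x 1, x 0, x 2, x 3, x 0, f3, c 0, c 0⟩
def Q33a : Cell := ⟨3, 3, x 0, x 0 *' x 1, c 2 -' x 2 *' x 3, c 2 -' x 2, x 0, f3, c 0, c 0⟩
def Q33b : Cell := ⟨3, 3, x 0 *' x 1, x 0, c 2 -' x 2 *' x 3, c 2 -' x 2, x 0, f3, c 0, c 0⟩

end Crest.Agent.R310.Cert
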