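import Crest.Agent.R310.DesRed

/-! # Row 310: the decoupled form (N) of (P) -/

set_option autoImplicit false

open Set

namespace Crest.Agent.R310.Des

noncomputable section

/-- `b π + Φ` -/
def N (b c t : ℝ) : ℝ := b * Pi b c t + Phi b c t

/-- the value `y + Φ` for `D = 1` -/
def ph (y b : ℝ) : ℝ := y + Phi b (1 - y) (2 * y)

/-- the gain of the near facility -/
def g0 (y' y b' : ℝ) : ℝ := y - y' - Phi b' (y - y') (2 * y')

/-- the killed fraction at distance `ρ` when the fraction at distance `u` is `w` -/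
def Kl (u ρ w : ℝ) : ℝ := 5 / 2 - ρ * (5 - 2 * w) / (2 * u)

/-- the radius for which the fraction at distance `ρ` is `K` -/
def cK (ρ K : ℝ) : ℝ := 5 * ρ / (5 - 2 * K)

def Hk (y' y b b' τ : ℝ) : ℝ := τ + ph y' b' - ph y b - b' * (y' - ph y b)

def Hi (y' y b b' τ : ℝ) : ℝ := -τ + ph y b - ph y' b' - b * (y - ph y' b')

/-- The six inequalities at one point. -/
structure NAt (y' y b b' τ : ℝ) : Prop where
  I1 : 0 ≤ Phi b' (1 - y') (2 * y') - (1 - y') * (1 - b') + τ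
  I2 : 0 ≤ Phi b (1 - y) (2 * y) - (1 - y) * (1 - b) - τ
  Bk : ∀ w, 0 ≤ w → w ≤ 1 → Kl (1 - y) (y + y') w < 1 →
    S b (1 - y) (2 * y) w * (1 - b' * max 0 (Kl (1 - y) (y + y') w)) ≤ Hk y' y b b' τ
  Ck : ∀ K, 0 ≤ K → K ≤ 1 → cK (y + y') K < 1 - y →
    (N b (cK (y + y') K) (2 * y) - Phi b (1 - y) (2 * y)) * (1 - b' * K) ≤ Hk y' y b b' τ
  Bi : ∀ w, 0 ≤ w → w ≤ 1 → Kl (1 - y') (y + y') w < 1 →
    S b' (1 - y') (2 * y') w * (1 - b * max 0 (Kl (1 - y') (y + y') w)) ≤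
      Hi y' y b b' τ + b * (1 - max 0 (Kl (1 - y') (y + y') w)) * g0 y' y b'
  Ci : ∀ K, 0 ≤ K → K ≤ 1 → cK (y + y') K < 1 - y' →
    (N b' (cK (y + y') K) (2 * y') - Phi b' (1 - y') (2 * y')) * (1 - b * K) ≤
      Hi y' y b b' τ + b * (1 - K) * g0 y' y b'

/-- The decoupled form of (P). -/
def HypN : Prop :=
  ∀ y' y b b' : ℝ, 0 ≤ y' → y' ≤ y → 0 < y → y ≤ 2 / 3 → 0 ≤ b → b ≤ 1 → 0 ≤ b' → b' ≤ 1 →
    ∃ τ, NAt y' y b b' τ

end

/-- One side: `H + a (1 - K) g` bounds `Λ (1 - a K)`. -/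
theorem side {b a u t ρ H g K c : ℝ} (ht : 0 ≤ t) (hb : b ∈ Icc (0 : ℝ) 1) (ha : a ≤ 1)
    (hu : 0 < u) (hρ : 0 < ρ) (hI : (u - Phi b u t) * (1 - a) ≤ H)
    (hB : ∀ w, 0 ≤ w → w ≤ 1 → Kl u ρ w < 1 →
      S b u t w * (1 - a * max 0 (Kl u ρ w)) ≤ H + a * (1 - max 0 (Kl u ρ w)) * g)
    (hC : ∀ K, 0 ≤ K → K ≤ 1 → cK ρ K < u →
      (N b (cK ρ K) t - Phi b u t) * (1 - a * K) ≤ H + a * (1 - K) * g)
    (h0 : 0 ≤ K) (h1 : K ≤ 1) (hc : c * (1 - 2 / 5 * K) = ρ) :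
    Lam b u t c * (1 - a * K) ≤ H + a * (1 - K) * g := by
  have h5 : 0 < 5 - 2 * K := by linarith
  have ec : c = cK ρ K := by rw [cK, eq_div_iff h5.ne', ← hc]; ring
  have hc0 : 0 < c := by rw [ec]; exact div_pos (by linarith) h5
  rcases le_or_gt u c with h | h
  swap
  · rw [Lam_of_lt h, ec]
    exact hC K h0 h1 (ec ▸ h)
  have hw := kap_mem c u
  -- the nominal fraction is at most the true one
  have hK : Kl u ρ (kap c u) ≤ K := by
    have e := le_of_kap (ρ := u) hc0.le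
    have e2 : u ≤ c * (1 - 2 / 5 * kap c u) := by
      rcases hw.1.eq_or_lt with h2 | h2
      · rw [← h2]; linarith
      · exact e h2
    rw [Kl, sub_le_comm, le_div_iff₀ (by linarith), ← hc]
    nlinarith [mul_le_mul_of_nonneg_left e2 h5.le]
  have hm : max 0 (Kl u ρ (kap c u)) ≤ K := max_le h0 hK
  have e2 : S b u t (kap c u) * (1 - a) ≤ H :=
    (mul_le_mul_of_nonneg_right (S_le u ht hb hw) (sub_nonneg.2 ha)).trans hI
  rw [Lam_of_le h]
  rcases (hm.trans h1).eq_or_lt with h2 | h2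
  · obtain rfl : K = 1 := le_antisymm h1 (h2 ▸ hm)
    linarith
  · have e1 := hB _ hw.1 hw.2 ((le_max_right _ _).trans_lt h2)
    refine le_of_mul_le_mul_left ?_ (sub_pos.2 h2)
    nlinarith [mul_le_mul_of_nonneg_left e1 (sub_nonneg.2 h1),
      mul_le_mul_of_nonneg_left e2 (sub_nonneg.2 hm)]

theorem hypP_of_N (H : HypN) : HypP := hypP_of_P1 fun y y' b b' h0 h1 h2 h3 b0 b1 b0' b1' => by
  obtain ⟨τ, h⟩ := H y' y b b' h0 h1 h2 h3 b0 b1 b0' b1'
  have hy : y ≤ 1 := by linarith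
  have hy' : y' ≤ 1 := by linarith
  have hk : ∀ x, Cand 1 y b y' b' x → x ≤ ph y' b' - ph y b + τ := by
    rintro x (rfl | ⟨K, c, k0, k1, hc, rfl⟩)
    · have := h.I1
      simp only [Full, ph, min_eq_right hy']
      linarith
    · have := side (g := 0) (H := Hk y' y b b' τ) (by linarith : 0 ≤ 2 * y) ⟨b0, b1⟩ b1'
        (by linarith : 0 < 1 - y) (by linarith : 0 < y + y')
        (by have := h.I1; simp only [Hk, ph]; linarith)
        (fun w w0 w1 hw => by simpa using h.Bk w w0 w1 hw)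
        (fun K k0 k1 hK => by simpa using h.Ck K k0 k1 hK) k0 k1 hc
      rw [Ep_far h2.le h1 hy']
      simp only [Hk, ph] at this ⊢
      linarith
  have hi : ∀ x, Cand 1 y' b' y b x → x ≤ ph y b - ph y' b' - τ := by
    rintro x (rfl | ⟨K, c, k0, k1, hc, rfl⟩)
    · have := h.I2
      simp only [Full, ph, min_eq_right hy]
      linarith
    · have := side (H := Hi y' y b b' τ) (by linarith : 0 ≤ 2 * y') ⟨b0', b1'⟩ b1
        (by linarith : 0 < 1 - y') (by linarith : 0 < y + y')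
        (by have := h.I2; simp only [Hi, ph]; linarith) h.Bi h.Ci k0 k1
        (hc.trans (add_comm _ _))
      refine (Ep_near_le h0 hy ⟨b0', b1'⟩ b0 ⟨k0, k1⟩).trans ?_
      simp only [Hi, ph, g0] at this ⊢
      linarith
  intro x x' hx hx'
  linarith [hk x hx, hi x' hx']

end Crest.Agent.R310.Des
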