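import Crest.Agent.R310.CertExp
import Crest.Agent.R310.DesN

/-! # Row 310: certificate glue, values of the polynomial pieces (G2) -/

set_option autoImplicit false

open Crest.Agent.Lib.PolyBB

namespace Crest.Agent.R310.Cert

open Des

/-- `u` lies in the piece `m` for `t` -/
def Piece : ℕ → ℝ → ℝ → Prop
  | 1, u, t => t / 4 ≤ u ∧ u ≤ t / 2
  | 2, u, t => t / 2 ≤ u ∧ u ≤ t
  | 3, u, t => t ≤ u ∧ u ≤ 5 / 4 * t
  | _, u, t => 5 / 4 * t ≤ u

variable {x : ℕ → ℝ} {p : ℕ → ℤ} {m : ℕ} {b bo e U T w : E} {br bor u t wr a : ℝ}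

/-! In all lemmas `U`, `T` have the values `a * u`, `a * t` with `0 < a`. -/

/-- real versions for `a = 1` -/
noncomputable def WeR : ℕ → ℝ → ℝ → ℝ
  | 1, u, t => 4 * (4 * u - t)
  | _, _, t => 4 * t
noncomputable def ApR : ℕ → ℝ → ℝ → ℝ → ℝ
  | 1, b, u, t => 126000 * t - (4 * u - t) * (252000 * sm b + 126000)
  | 2, b, u, t => 504000 * (u - t) * sm b
  | 3, b, u, t => 504000 * (u - t) * sp b
  | _, b, u, t => 126000 * t * sp b + 126000 * (4 * u - 5 * t) * (1 - b)
noncomputable def AdR : ℕ → ℝ → ℝ → ℝ → ℝ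
  | 1, b, u, t => 252000 * (4 * u - t) * smd b
  | 2, b, u, t => -504000 * (u - t) * smd b
  | 3, b, u, t => -504000 * (u - t) * spd b
  | _, b, u, t => 126000 * (4 * u - 5 * t) - 126000 * t * spd b

theorem sm1_eval (b : E) : (sm1 b).eval x p = 1000 * sm (b.eval x p) := by
  simp only [sm1, c, E.eval_cst, E.eval_add, E.eval_mul, sm]; push_cast; ring
theorem sp1_eval (b : E) : (sp1 b).eval x p = 1000 * sp (b.eval x p) := by
  simp only [sp1, c, E.eval_cst, E.eval_add, E.eval_mul, sp]; push_cast; ring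
theorem smd1_eval (b : E) : (smd1 b).eval x p = 1000 * smd (b.eval x p) := by
  simp only [smd1, c, E.eval_cst, E.eval_add, E.eval_mul, smd]; push_cast; ring
theorem spd1_eval (b : E) : (spd1 b).eval x p = 1000 * spd (b.eval x p) := by
  simp only [spd1, c, E.eval_cst, E.eval_add, E.eval_mul, spd]; push_cast; ring

theorem secSm_mul (b w : E) : w.eval x p * (secSm b w).eval x p =
    1000 * (sm (b.eval x p * (1 - w.eval x p)) - sm (b.eval x p)) := by
  simp only [secSm, h2, h3, h4, c, E.eval_cst, E.eval_add, E.eval_sub, E.eval_mul, sm]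
  push_cast; ring
theorem secSp_mul (b w : E) : w.eval x p * (secSp b w).eval x p =
    1000 * (sp (b.eval x p * (1 - w.eval x p)) - sp (b.eval x p)) := by
  simp only [secSp, h2, h3, h4, h5, c, E.eval_cst, E.eval_add, E.eval_sub, E.eval_mul, sp]
  push_cast; ring
theorem secSm_zero (b : E) (hw : w.eval x p = 0) :
    (secSm b w).eval x p = -(1000 * (b.eval x p * smd (b.eval x p))) := by
  simp only [secSm, h2, h3, h4, c, E.eval_cst, E.eval_add, E.eval_sub, E.eval_mul, smd, hw]
  push_cast; ring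
theorem secSp_zero (b : E) (hw : w.eval x p = 0) :
    (secSp b w).eval x p = -(1000 * (b.eval x p * spd (b.eval x p))) := by
  simp only [secSp, h2, h3, h4, h5, c, E.eval_cst, E.eval_add, E.eval_sub, E.eval_mul, spd, hw]
  push_cast; ring

theorem We_eval (m : ℕ) (hU : U.eval x p = a * u) (hT : T.eval x p = a * t) :
    (We m U T).eval x p = a * WeR m u t := by
  match m with
  | 0 | 1 | 2 | 3 | n + 4 =>
    simp only [We, WeR, c, E.eval_cst, E.eval_sub, E.eval_mul, hU, hT]; push_cast; ring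

theorem Ap_eval (m : ℕ) (hb : b.eval x p = br) (hU : U.eval x p = a * u)
    (hT : T.eval x p = a * t) : (Ap m b U T).eval x p = a * ApR m br u t := by
  match m with
  | 0 | 1 | 2 | 3 | n + 4 =>
    simp only [Ap, ApR, c, E.eval_cst, E.eval_add, E.eval_sub, E.eval_mul, sm1_eval, sp1_eval, hb,
      hU, hT]
    push_cast; ring

theorem Ad_eval (m : ℕ) (hb : b.eval x p = br) (hU : U.eval x p = a * u)
    (hT : T.eval x p = a * t) : (Ad m b U T).eval x p = a * AdR m br u t := by
  match m with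
  | 0 | 1 | 2 | 3 | n + 4 =>
    simp only [Ad, AdR, c, E.eval_cst, E.eval_add, E.eval_sub, E.eval_mul, smd1_eval, spd1_eval, hb,
      hU, hT]
    push_cast; ring

theorem As_mul (m : ℕ) (hb : b.eval x p = br) (hU : U.eval x p = a * u)
    (hT : T.eval x p = a * t) (hw : w.eval x p = wr) :
    wr * (As m b U T w).eval x p = a * (ApR m (br * (1 - wr)) u t - ApR m br u t) := by
  have h1 := secSm_mul (x := x) (p := p) b w
  have h2 := secSp_mul (x := x) (p := p) b w
  rw [hb, hw] at h1 h2
  match m with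
  | 1 =>
    simp only [As, ApR, c, E.eval_cst, E.eval_sub, E.eval_mul, hU, hT]
    push_cast; linear_combination (-252 * (4 * (a * u) - a * t)) * h1
  | 2 =>
    simp only [As, ApR, c, E.eval_cst, E.eval_sub, E.eval_mul, hU, hT]
    push_cast; linear_combination (504 * (a * u - a * t)) * h1
  | 3 =>
    simp only [As, ApR, c, E.eval_cst, E.eval_sub, E.eval_mul, hU, hT]
    push_cast; linear_combination (504 * (a * u - a * t)) * h2
  | 0 | n + 4 =>
    simp only [As, ApR, c, E.eval_cst, E.eval_add, E.eval_sub, E.eval_mul, hb, hU, hT]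
    push_cast; linear_combination (126 * (a * t)) * h2

theorem As_zero (m : ℕ) (hb : b.eval x p = br) (hU : U.eval x p = a * u)
    (hT : T.eval x p = a * t) (hw : w.eval x p = 0) :
    (As m b U T w).eval x p = a * (br * AdR m br u t) := by
  match m with
  | 0 | 1 | 2 | 3 | n + 4 =>
    simp only [As, AdR, c, E.eval_cst, E.eval_add, E.eval_sub, E.eval_mul, secSm_zero _ hw,
      secSp_zero _ hw, hb, hU, hT]
    push_cast; ring

theorem WeR_nonneg (ht : 0 ≤ t) (hP : Piece m u t) : 0 ≤ WeR m u t := by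
  match m, hP with
  | 1, hP => have := hP.1; simp only [WeR]; linarith
  | 0, _ | 2, _ | 3, _ | n + 4, _ => simp only [WeR]; linarith

theorem Phi_piece (ht : 0 ≤ t) (hP : Piece m u t) (br : ℝ) :
    504000 * Phi br u t = WeR m u t * (126000 * Real.exp (-br)) + ApR m br u t := by
  match m, hP with
  | 1, hP => rw [Phi_P1 hP.1 hP.2]; simp only [WeR, ApR]; ring
  | 2, hP => rw [Phi_P2 hP.1 hP.2]; simp only [WeR, ApR]; ring
  | 3, hP => rw [Phi_P3 hP.1 hP.2]; simp only [WeR, ApR]; ring
  | 0, hP | n + 4, hP => rw [Phi_P4 ht hP]; simp only [WeR, ApR]; ring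

theorem Pi_piece (ht : 0 ≤ t) (hP : Piece m u t) (br : ℝ) :
    504000 * Pi br u t = WeR m u t * (126000 * Real.exp (-br)) + AdR m br u t := by
  match m, hP with
  | 1, hP => rw [Pi_P1 hP.1 hP.2]; simp only [WeR, AdR]; ring
  | 2, hP => rw [Pi_P2 hP.1 hP.2]; simp only [WeR, AdR]; ring
  | 3, hP => rw [Pi_P3 hP.1 hP.2]; simp only [WeR, AdR]; ring
  | 0, hP | n + 4, hP => rw [Pi_P4 ht hP]; simp only [WeR, AdR]; ring

theorem phi_le (ha : 0 < a) (hb : b.eval x p = br) (hU : U.eval x p = a * u)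
    (hT : T.eval x p = a * t) (ht : 0 ≤ t) (hP : Piece m u t)
    (he : e.eval x p ≤ 126000 * Real.exp (-br)) :
    (phi m b e U T).eval x p ≤ 181440000 * a * Phi br u t := by
  have h1 := Phi_piece ht hP br
  have h2 := mul_le_mul_of_nonneg_left he (mul_nonneg ha.le (WeR_nonneg ht hP))
  simp only [phi, c, E.eval_cst, E.eval_add, E.eval_mul, We_eval m hU hT, Ap_eval m hb hU hT]
  push_cast
  linear_combination 360 * h2 - 360 * a * h1

theorem phi_eval (ha : 0 < a) (hb : b.eval x p = br) (hU : U.eval x p = a * u)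
    (hT : T.eval x p = a * t) (ht : 0 ≤ t) (hP : Piece m u t)
    (he : e.eval x p = 126000 * Real.exp (-br)) :
    (phi m b e U T).eval x p = 181440000 * a * Phi br u t := by
  have h1 := Phi_piece ht hP br
  simp only [phi, c, E.eval_cst, E.eval_add, E.eval_mul, We_eval m hU hT, Ap_eval m hb hU hT, he]
  push_cast
  linear_combination - 360 * a * h1

theorem nn_eval (ha : 0 < a) (hb : b.eval x p = br) (hU : U.eval x p = a * u)
    (hT : T.eval x p = a * t) (ht : 0 ≤ t) (hP : Piece m u t)
    (he : e.eval x p = 126000 * Real.exp (-br)) :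
    (nn m b e U T).eval x p = 181440000 * a * N br u t := by
  have h1 := Phi_piece ht hP br
  have h2 := Pi_piece ht hP br
  simp only [nn, N, c, E.eval_cst, E.eval_add, E.eval_mul, We_eval m hU hT, Ap_eval m hb hU hT,
    Ad_eval m hb hU hT, he, hb]
  push_cast
  linear_combination - 360 * a * h1 - 360 * a * br * h2

theorem le_sb (ha : 0 < a) (hb : b.eval x p = br) (hU : U.eval x p = a * u)
    (hT : T.eval x p = a * t) (ht : 0 ≤ t) (hP : Piece m u t)
    (he : e.eval x p = 126000 * Real.exp (-br)) (b0 : 0 ≤ br) (b1 : br ≤ 1)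
    (hw : w.eval x p = wr) (w0 : 0 ≤ wr) (w1 : wr ≤ 1) :
    181440000 * a * S br u t wr ≤ (sb m b e U T w).eval x p := by
  have hW := mul_nonneg (mul_nonneg ha.le (WeR_nonneg ht hP)) (Real.exp_pos (-br)).le
  simp only [sb, c, E.eval_cst, E.eval_add, E.eval_mul, We_eval m hU hT, he, hb, hw]
  push_cast
  rcases w0.eq_or_lt with h0 | h0
  · subst h0
    have h2 := Pi_piece ht hP br
    rw [S_zero, As_zero m hb hU hT hw]
    apply le_of_eq
    linear_combination 360 * a * br * h2
  · refine le_of_mul_le_mul_left ?_ h0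
    have h1 := Phi_piece ht hP br
    have h2 := Phi_piece ht hP (br * (1 - wr))
    have h3 := As_mul m hb hU hT hw
    have h4 := mul_S br u t wr
    have h5 : Real.exp (-(br * (1 - wr))) = Real.exp (-br) * Real.exp (br * wr) := by
      rw [← Real.exp_add]; congr 1; ring
    have h6 := mul_le_mul_of_nonneg_left
      (exp_le4 (mul_nonneg b0 w0) (mul_le_one₀ b1 w0 w1)) hW
    rw [h5] at h2
    linear_combination 181440000 * a * h4 + 360 * a * h2 - 360 * a * h1 - 360 * h3 + 126000 * h6

theorem low_le (ha : 0 < a) (hb : b.eval x p = br) (hbo : bo.eval x p = bor)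
    (hU : U.eval x p = a * u) (hT : T.eval x p = a * t) (ht : 0 ≤ t) (hP : Piece m u t)
    (he : e.eval x p = 126000 * Real.exp (-br)) (b0 : 0 ≤ br) (b1 : br ≤ 1) (bo0 : 0 ≤ bor)
    (bo1 : bor ≤ 1) :
    (low m bo U T b e).eval x p ≤ 181440000 * a * Phi bor u t := by
  have hW := mul_nonneg (mul_nonneg ha.le (WeR_nonneg ht hP)) (Real.exp_pos (-br)).le
  have h1 := Phi_piece ht hP bor
  have h5 : Real.exp (-bor) = Real.exp (-br) * Real.exp (br - bor) := by
    rw [← Real.exp_add]; congr 1; ring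
  have h6 := mul_le_mul_of_nonneg_left
    (t5_le (d := br - bor) (by linarith) (by linarith)) hW
  rw [h5] at h1
  simp only [low, t5, c, E.eval_cst, E.eval_add, E.eval_sub, E.eval_mul, We_eval m hU hT,
    Ap_eval m hbo hU hT, he, hb, hbo]
  push_cast
  linear_combination 126000 * h6 - 360 * a * h1

end Crest.Agent.R310.Cert
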