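import Crest.Agent.Lib.PolyBB.Basic
import Crest.Agent.R310.CertDefs

/-! # Row 310: certificate glue, bounds for `exp` (G1) -/

set_option autoImplicit false

open Crest.Agent.Lib.PolyBB

namespace Crest.Agent.R310.Cert

/-- real version of `eb` -/
def ebR (b θ : ℝ) : ℝ :=
  5040 - b * (5040 - b * (2520 - b * (840 - b * (210 - b * (42 + θ - 7 * b)))))

theorem eb_eval (b θ : E) (x : ℕ → ℝ) (p : ℕ → ℤ) :
    (eb b θ).eval x p = ebR (b.eval x p) (θ.eval x p) := by
  simp [eb, c, ebR]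

theorem exp_neg_le6 {b : ℝ} (h0 : 0 ≤ b) (h1 : b ≤ 1) : 5040 * Real.exp (-b) ≤ ebR b 0 := by
  have h := Real.exp_bound (x := -b) (by rw [abs_neg, abs_of_nonneg h0]; exact h1) (n := 8)
    (by norm_num)
  rw [abs_neg, abs_of_nonneg h0] at h
  have h2 := (abs_le.1 h).2
  simp only [Finset.sum_range_succ, Finset.sum_range_zero, Nat.factorial] at h2
  norm_num at h2
  have h7 : b ^ 8 ≤ b ^ 7 := pow_le_pow_of_le_one h0 h1 (by norm_num)
  have h8 : 0 ≤ b ^ 7 := by positivity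
  simp only [ebR]
  nlinarith

theorem ebR_one_le {b : ℝ} (h0 : 0 ≤ b) (h1 : b ≤ 1) : ebR b 1 ≤ 5040 * Real.exp (-b) := by
  have h := Real.exp_bound (x := -b) (by rw [abs_neg, abs_of_nonneg h0]; exact h1) (n := 9)
    (by norm_num)
  rw [abs_neg, abs_of_nonneg h0] at h
  have h2 := (abs_le.1 h).1
  simp only [Finset.sum_range_succ, Finset.sum_range_zero, Nat.factorial] at h2
  norm_num at h2
  have h7 : b ^ 9 ≤ b ^ 8 := pow_le_pow_of_le_one h0 h1 (by norm_num)
  have h5 : b ^ 7 ≤ b ^ 5 := pow_le_pow_of_le_one h0 h1 (by norm_num)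
  have h8 : 0 ≤ b ^ 8 := by positivity
  simp only [ebR]
  nlinarith

theorem exists_theta {b : ℝ} (h0 : 0 ≤ b) (h1 : b ≤ 1) :
    ∃ θ : ℝ, 0 ≤ θ ∧ θ ≤ 1 ∧ ebR b θ = 5040 * Real.exp (-b) := by
  have hc : Continuous (ebR b) := by unfold ebR; fun_prop
  obtain ⟨θ, hθ, e⟩ := intermediate_value_Icc' zero_le_one hc.continuousOn
    ⟨ebR_one_le h0 h1, exp_neg_le6 h0 h1⟩
  exact ⟨θ, hθ.1, hθ.2, e⟩

theorem t5_le {d : ℝ} (h0 : -1 ≤ d) (h1 : d ≤ 1) :
    360 + d * (360 + d * (180 + d * (60 + d * (15 + 3 * d)))) ≤ 360 * Real.exp d := by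
  rcases le_total 0 d with h | h
  · have h2 := Real.sum_le_exp_of_nonneg h 6
    simp only [Finset.sum_range_succ, Finset.sum_range_zero, Nat.factorial] at h2
    norm_num at h2
    nlinarith
  · obtain ⟨b, rfl⟩ : ∃ b, d = -b := ⟨-d, by ring⟩
    have b0 : 0 ≤ b := by linarith
    have b1 : b ≤ 1 := by linarith
    have h := Real.exp_bound (x := -b) (by rw [abs_neg, abs_of_nonneg b0]; exact b1) (n := 7)
      (by norm_num)
    rw [abs_neg, abs_of_nonneg b0] at h
    have h2 := (abs_le.1 h).1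
    simp only [Finset.sum_range_succ, Finset.sum_range_zero, Nat.factorial] at h2
    norm_num at h2
    have h7 : b ^ 7 ≤ b ^ 6 := pow_le_pow_of_le_one b0 b1 (by norm_num)
    have h8 : 0 ≤ b ^ 6 := by positivity
    nlinarith

theorem exp_le4 {z : ℝ} (h0 : 0 ≤ z) (h1 : z ≤ 1) :
    360 * Real.exp z ≤ 360 + z * (360 + z * (180 + z * (60 + 19 * z))) := by
  have h := Real.exp_bound (x := z) (by rw [abs_of_nonneg h0]; exact h1) (n := 4) (by norm_num)
  rw [abs_of_nonneg h0] at h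
  have h2 := (abs_le.1 h).2
  simp only [Finset.sum_range_succ, Finset.sum_range_zero, Nat.factorial] at h2
  norm_num at h2
  have h8 : 0 ≤ z ^ 4 := by positivity
  nlinarith

end Crest.Agent.R310.Cert
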