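import Crest.Agent.R310.CertEval

/-! # Row 310: certificate glue, one half (G3) -/

set_option autoImplicit false

open Crest.Agent.Lib.PolyBB

namespace Crest.Agent.R310.Cert

open Des

/-- The values of the data of a half at a point. -/
structure Half.OK (h : Half) (x : ℕ → ℝ) (p : ℕ → ℤ) (b bo y yo : ℝ) : Prop where
  hb : h.b.eval x p = b
  hbo : h.bo.eval x p = bo
  hY : h.Y.eval x p = 6 * y
  hYo : h.Yo.eval x p = 6 * yo
  b0 : 0 ≤ b
  b1 : b ≤ 1
  bo0 : 0 ≤ bo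
  bo1 : bo ≤ 1
  y0 : 0 ≤ y
  y1 : y ≤ 2 / 3
  yo0 : 0 ≤ yo
  P : Piece h.m (1 - y) (2 * y)
  Po : Piece h.mo (1 - yo) (2 * yo)
  th : ebR b (x 5) = 5040 * Real.exp (-b)
  w0 : 0 ≤ x 4
  w1 : x 4 ≤ 1

variable {h : Half} {x : ℕ → ℝ} {p : ℕ → ℤ} {b bo y yo Hr g : ℝ}

theorem uu_eval {Y : E} (hY : Y.eval x p = 6 * y) : (uu Y).eval x p = 6 * (1 - y) := by
  simp only [uu, c, E.eval_sub, E.eval_cst, hY]; push_cast; ring

theorem tt_eval {Y : E} (hY : Y.eval x p = 6 * y) : (tt Y).eval x p = 6 * (2 * y) := by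
  simp only [tt, c, E.eval_mul, E.eval_cst, hY]; push_cast; ring

theorem Half.OK.ee (o : h.OK x p b bo y yo) :
    (ee h.b (Cert.x 5)).eval x p = 126000 * Real.exp (-b) := by
  simp only [Cert.ee, c, E.eval_mul, E.eval_cst, eb_eval, o.hb, Cert.x, E.eval_var, o.th]
  push_cast; ring

theorem Half.OK.phi (o : h.OK x p b bo y yo) :
    (phi h.m h.b (Cert.ee h.b (Cert.x 5)) (uu h.Y) (tt h.Y)).eval x p =
      181440000 * 6 * Phi b (1 - y) (2 * y) :=
  phi_eval (by norm_num) o.hb (uu_eval o.hY) (tt_eval o.hY) (by linarith [o.y0]) o.P o.ee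

theorem Half.OK.H_le (o : h.OK x p b bo y yo) :
    h.H.eval x p ≤ h.t.eval x p + 1088640000000 * (ph yo bo - ph y b - bo * (yo - ph y b)) := by
  have h1 : (lw h.m h.mo h.bo (uu h.Yo) (tt h.Yo) h.b).eval x p ≤
      181440000 * 6 * Phi bo (1 - yo) (2 * yo) := by
    have hP := o.Po
    generalize h.m = m
    generalize h.mo = mo at hP
    unfold lw
    split
    · refine phi_le (by norm_num : (0 : ℝ) < 6) o.hbo (uu_eval o.hYo) (tt_eval o.hYo)
        (by linarith [o.yo0]) hP ?_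
      have := ebR_one_le o.bo0 o.bo1
      simp only [Cert.ee, c, E.eval_mul, E.eval_cst, eb_eval, o.hbo]
      push_cast
      linarith
    · exact low_le (by norm_num : (0 : ℝ) < 6) o.hb o.hbo (uu_eval o.hYo)
        (tt_eval o.hYo) (by linarith [o.yo0]) hP o.ee o.b0 o.b1 o.bo0 o.bo1
  simp only [Half.H, H0, c, E.eval_add, E.eval_sub, E.eval_mul, E.eval_cst, o.phi, o.hY, o.hYo,
    o.hbo, ph]
  push_cast
  linarith

theorem Half.G_zero (hg : h.g = 0) : h.G.eval x p = 0 := by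
  simp [Half.G, hg, gg, c]

theorem Half.OK.G_le (o : h.OK x p b bo y yo) (hg : h.g = 0 ∨ Piece h.g (yo - y) (2 * y)) :
    h.G.eval x p ≤ 1088640000000 * (bo * g0 y yo b) := by
  have ht : 0 ≤ 2 * y := by linarith [o.y0]
  rcases hn : h.g with _ | n
  · rw [Half.G_zero hn]
    exact mul_nonneg (by norm_num) (mul_nonneg o.bo0
      (sub_nonneg.2 (Phi_le (yo - y) ht ⟨o.b0, o.b1⟩)))
  · rw [hn] at hg
    have h1 := phi_eval (m := n + 1) (U := E.sub h.Yo h.Y) (u := yo - y)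
      (by norm_num : (0 : ℝ) < 6) o.hb (by simp only [E.eval_sub, o.hY, o.hYo]; ring)
      (tt_eval o.hY) ht (hg.resolve_left n.succ_ne_zero) o.ee
    simp only [Half.G, hn, gg, c, E.eval_sub, E.eval_mul, E.eval_cst, h1, o.hY, o.hYo, o.hbo, g0]
    push_cast
    linarith

theorem cden_eval : cden.eval x p = 5 - 2 * x 4 := by
  simp [cden, c, Cert.x]

theorem Half.OK.KL (o : h.OK x p b bo y yo) :
    h.KL.eval x p = 12 * (1 - y) * Kl (1 - y) (y + yo) (x 4) := by
  have : (1 - y) ≠ 0 := by linarith [o.y1]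
  simp only [Half.KL, c, E.eval_add, E.eval_sub, E.eval_mul, E.eval_cst, uu_eval o.hY, o.hY, o.hYo,
    cden_eval, Kl]
  push_cast
  field_simp
  ring

theorem Half.OK.KU (o : h.OK x p b bo y yo) :
    h.KU.eval x p = 12 * (1 - y) * (1 - Kl (1 - y) (y + yo) (x 4)) := by
  simp only [Half.KU, c, E.eval_sub, E.eval_mul, E.eval_cst, uu_eval o.hY, o.KL]
  push_cast
  ring

theorem Half.OK.le_S (o : h.OK x p b bo y yo) :
    1088640000000 * Des.S b (1 - y) (2 * y) (x 4) ≤ h.S.eval x p := by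
  have := le_sb (m := h.m) (w := Cert.x 4) (by norm_num : (0 : ℝ) < 6) o.hb (uu_eval o.hY)
    (tt_eval o.hY) (by linarith [o.y0]) o.P o.ee o.b0 o.b1 rfl o.w0 o.w1
  simp only [Half.S, c, E.eval_mul, E.eval_cst]
  push_cast
  exact (by linarith : _ ≤ 1000 * (181440000 * 6 * Des.S b (1 - y) (2 * y) (x 4))).trans
    (mul_le_mul_of_nonneg_left this (by norm_num))

theorem Half.OK.B0 (o : h.OK x p b bo y yo) (hH : h.H.eval x p ≤ 1088640000000 * Hr)
    (hG : h.G.eval x p ≤ 1088640000000 * (bo * g)) (hK : Kl (1 - y) (y + yo) (x 4) ≤ 0)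
    (h0 : 0 ≤ h.B0.eval x p) (h1 : 0 ≤ (Cert.p 19).eval x p) :
    Des.S b (1 - y) (2 * y) (x 4) * (1 - bo * max 0 (Kl (1 - y) (y + yo) (x 4))) ≤
      Hr + bo * (1 - max 0 (Kl (1 - y) (y + yo) (x 4))) * g := by
  have hu : 0 ≤ 12 * (1 - y) := by linarith [o.y1]
  have h2 := mul_nonneg h1 (mul_nonneg (mul_nonneg o.b0 o.bo0) (mul_nonneg hu (neg_nonneg.2 hK)))
  have h3 := o.le_S
  simp only [Half.B0, E.eval_add, E.eval_sub, E.eval_mul, o.KL, o.hb, o.hbo] at h0
  rw [max_eq_left hK]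
  linarith

theorem Half.OK.B1 (o : h.OK x p b bo y yo) (hH : h.H.eval x p ≤ 1088640000000 * Hr)
    (hG : h.G.eval x p ≤ 1088640000000 * (bo * g)) (hK0 : 0 ≤ Kl (1 - y) (y + yo) (x 4))
    (hK : Kl (1 - y) (y + yo) (x 4) < 1)
    (h0 : 0 ≤ h.B1.eval x p) (h1 : 0 ≤ (Cert.p 20).eval x p) (h2 : 0 ≤ (Cert.p 21).eval x p) :
    Des.S b (1 - y) (2 * y) (x 4) * (1 - bo * max 0 (Kl (1 - y) (y + yo) (x 4))) ≤
      Hr + bo * (1 - max 0 (Kl (1 - y) (y + yo) (x 4))) * g := by
  have hu : 0 < 12 * (1 - y) := by linarith [o.y1]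
  simp only [Half.B1, c, E.eval_add, E.eval_sub, E.eval_mul, E.eval_cst, o.KL, o.KU, o.hb, o.hbo,
    uu_eval o.hY] at h0
  push_cast at h0
  rw [max_eq_right hK0]
  have h3 := o.le_S
  generalize Kl (1 - y) (y + yo) (x 4) = k at *
  have hk : 0 ≤ 1 - k := by linarith
  have a1 := mul_nonneg (mul_nonneg o.b0 o.bo0) (add_nonneg (mul_nonneg h1 (mul_nonneg hu.le hK0))
    (mul_nonneg h2 (mul_nonneg hu.le hk)))
  have a2 := mul_le_mul_of_nonneg_left hH hu.le
  have a3 := mul_le_mul_of_nonneg_right hG (mul_nonneg hu.le hk)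
  have a4 := mul_le_mul_of_nonneg_right h3 (mul_nonneg hu.le
    (sub_nonneg.2 (mul_le_one₀ o.bo1 hK0 hK.le)))
  refine le_of_mul_le_mul_left ?_ (mul_pos hu (by norm_num : (0 : ℝ) < 1088640000000))
  linarith

theorem Half.OK.famB (o : h.OK x p b bo y yo) (hH : h.H.eval x p ≤ 1088640000000 * Hr)
    (hG : h.G.eval x p ≤ 1088640000000 * (bo * g)) (v : ℕ) (H : ∀ e ∈ h.famB v, 0 ≤ e.eval x p)
    (hK : Kl (1 - y) (y + yo) (x 4) < 1) :
    Des.S b (1 - y) (2 * y) (x 4) * (1 - bo * max 0 (Kl (1 - y) (y + yo) (x 4))) ≤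
      Hr + bo * (1 - max 0 (Kl (1 - y) (y + yo) (x 4))) * g := by
  have hu : 0 < 12 * (1 - y) := by linarith [o.y1]
  match v, H with
  | 0, H =>
    simp only [Half.famB, List.forall_mem_cons, c, E.eval_sub, E.eval_cst, o.KU] at H
    have := mul_pos hu (sub_pos.2 hK)
    have := H.1
    push_cast at this
    linarith
  | 1, H =>
    simp only [Half.famB, List.forall_mem_cons] at H
    obtain ⟨h1, h2, h3, -⟩ := H
    simp only [c, E.eval_sub, E.eval_cst, o.KL] at h1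
    push_cast at h1
    exact o.B0 hH hG (nonpos_of_mul_nonpos_right (by linarith) hu) h2 h3
  | 2, H =>
    simp only [Half.famB, List.forall_mem_cons] at H
    obtain ⟨h1, h2, h3, h4, -⟩ := H
    rw [o.KL] at h1
    exact o.B1 hH hG (nonneg_of_mul_nonneg_right h1 hu) hK h2 h3 h4
  | 3, H =>
    simp only [Half.famB, List.forall_mem_cons] at H
    obtain ⟨h1, h2, h3, h4, h5, -⟩ := H
    rcases le_total (Kl (1 - y) (y + yo) (x 4)) 0 with h | h
    · exact o.B0 hH hG h h1 h3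
    · exact o.B1 hH hG h hK h2 h4 h5
  | n + 4, H =>
    simp only [Half.famB, List.forall_mem_cons] at H
    obtain ⟨h1, h2, h3, -⟩ := H
    rcases le_total (Kl (1 - y) (y + yo) (x 4)) 0 with h | h
    · exact o.B0 hH hG h h1 h3
    simp only [Half.B0, Half.D, c, E.eval_add, E.eval_sub, E.eval_mul, E.eval_cst, o.KL, o.hb,
      o.hbo, uu_eval o.hY] at h1 h2
    push_cast at h2
    rw [max_eq_right h]
    have h3 := o.le_S
    generalize Kl (1 - y) (y + yo) (x 4) = k at *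
    have a1 := mul_nonneg h h2
    have a3 := mul_le_mul_of_nonneg_right hG (sub_nonneg.2 hK.le)
    have a4 := mul_le_mul_of_nonneg_right h3 (sub_nonneg.2 (mul_le_one₀ o.bo1 h hK.le))
    linarith

theorem Half.OK.gu (o : h.OK x p b bo y yo) :
    h.gu.eval x p = 6 * (5 - 2 * x 4) * (1 - y - cK (y + yo) (x 4)) := by
  have : (5 - 2 * x 4) ≠ 0 := by linarith [o.w1]
  simp only [Half.gu, c, E.eval_add, E.eval_sub, E.eval_mul, E.eval_cst, uu_eval o.hY, o.hY, o.hYo,
    cden_eval, cK]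
  push_cast
  field_simp

theorem Half.OK.gz (o : h.OK x p b bo y yo) (z : ℤ) :
    (h.gz z).eval x p = 6 * (5 - 2 * x 4) * (4 * cK (y + yo) (x 4) - z * (2 * y)) := by
  have : (5 - 2 * x 4) ≠ 0 := by linarith [o.w1]
  simp only [Half.gz, c, E.eval_add, E.eval_sub, E.eval_mul, E.eval_cst, tt_eval o.hY, o.hY, o.hYo,
    cden_eval, cK]
  push_cast
  field_simp
  ring

theorem Half.OK.C (o : h.OK x p b bo y yo) (hH : h.H.eval x p ≤ 1088640000000 * Hr)
    (hG : h.G.eval x p ≤ 1088640000000 * (bo * g)) (hK : cK (y + yo) (x 4) < 1 - y) {n : ℕ}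
    (hP : Piece n (cK (y + yo) (x 4)) (2 * y)) (h0 : 0 ≤ (h.C n).eval x p)
    (h1 : 0 ≤ (h.lu n).eval x p)
    (h2 : 0 ≤ (Cert.p (13 + 4 * n)).eval x p * (h.gz (lo4 n)).eval x p -
      (Cert.p (14 + 4 * n)).eval x p * (h.gz (lo4 (n + 1))).eval x p) :
    (N b (cK (y + yo) (x 4)) (2 * y) - Phi b (1 - y) (2 * y)) * (1 - bo * x 4) ≤
      Hr + bo * (1 - x 4) * g := by
  have hq : 0 < 5 - 2 * x 4 := by linarith [o.w1]
  have hn := nn_eval (m := n) (U := E.mul (c 5) (E.add h.Y h.Yo)) (T := E.mul (tt h.Y) cden)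
    (u := cK (y + yo) (x 4)) (t := 2 * y) (mul_pos (by norm_num : (0 : ℝ) < 6) hq) o.hb
    (by
      simp only [c, E.eval_add, E.eval_mul, E.eval_cst, o.hY, o.hYo, cK]
      push_cast
      field_simp)
    (by simp only [E.eval_mul, tt_eval o.hY, cden_eval]; ring) (by linarith [o.y0]) hP o.ee
  have hgu : 0 ≤ h.gu.eval x p := by
    rw [o.gu]; exact mul_nonneg (by linarith) (by linarith)
  have a1 := mul_nonneg h1 hgu
  have a2 := mul_nonneg (mul_nonneg o.b0 o.b0) h2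
  have a3 := mul_le_mul_of_nonneg_left hH hq.le
  have a4 := mul_le_mul_of_nonneg_left hG (mul_nonneg hq.le (sub_nonneg.2 o.w1))
  rw [Half.C] at h0
  simp only [E.eval_add, E.eval_sub, E.eval_mul, hn, o.phi, o.hb, o.hbo, cden_eval] at h0
  simp only [c, E.eval_cst, Cert.x, E.eval_var] at h0
  push_cast at h0
  refine le_of_mul_le_mul_left ?_ (mul_pos hq (by norm_num : (0 : ℝ) < 1088640000000))
  linarith

theorem Half.OK.Cs (o : h.OK x p b bo y yo) (hH : h.H.eval x p ≤ 1088640000000 * Hr)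
    (hG : h.G.eval x p ≤ 1088640000000 * (bo * g)) (hK : cK (y + yo) (x 4) < 1 - y) {n : ℕ}
    (hn : n = 2 ∨ n = 3 ∨ n = 4) (hP : Piece n (cK (y + yo) (x 4)) (2 * y))
    (H : ∀ e ∈ h.Cs n, 0 ≤ e.eval x p) :
    (N b (cK (y + yo) (x 4)) (2 * y) - Phi b (1 - y) (2 * y)) * (1 - bo * x 4) ≤
      Hr + bo * (1 - x 4) * g := by
  have hq : 0 ≤ 6 * (5 - 2 * x 4) := by linarith [o.w1]
  rcases hn with rfl | rfl | rfl
  · simp only [Half.Cs, List.forall_mem_cons] at H
    obtain ⟨h1, h2, h3, h4, -⟩ := H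
    refine o.C hH hG hK hP h1 h2 (sub_nonneg.2 (le_trans (mul_nonpos_of_nonneg_of_nonpos h4 ?_)
      (mul_nonneg h3 ?_))) <;> rw [o.gz]
    · exact mul_nonpos_of_nonneg_of_nonpos hq (by simp only [lo4]; push_cast; linarith [hP.2])
    · exact mul_nonneg hq (by simp only [lo4]; push_cast; linarith [hP.1])
  · simp only [Half.Cs, List.forall_mem_cons] at H
    obtain ⟨h1, h2, h3, h4, -⟩ := H
    refine o.C hH hG hK hP h1 h2 (sub_nonneg.2 (le_trans (mul_nonpos_of_nonneg_of_nonpos h4 ?_)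
      (mul_nonneg h3 ?_))) <;> rw [o.gz]
    · exact mul_nonpos_of_nonneg_of_nonpos hq (by simp only [lo4]; push_cast; linarith [hP.2])
    · exact mul_nonneg hq (by simp only [lo4]; push_cast; linarith [hP.1])
  · simp only [Half.Cs, List.forall_mem_cons] at H
    obtain ⟨h1, h2, h3, h4, h5, -⟩ := H
    simp only [c, E.eval_sub, E.eval_cst] at h5
    push_cast at h5
    have h6 : (Cert.p (14 + 4 * 4)).eval x p = 0 := le_antisymm (by linarith) h4
    refine o.C hH hG hK hP h1 h2 ?_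
    rw [h6, zero_mul, sub_zero]
    refine mul_nonneg h3 ?_
    rw [o.gz]
    have : 5 / 4 * (2 * y) ≤ cK (y + yo) (x 4) := hP
    exact mul_nonneg hq (by simp only [lo4]; push_cast; linarith)

theorem Half.OK.lo (o : h.OK x p b bo y yo) {z : ℤ} (H : 0 ≤ (h.gz z).eval x p) :
    z * (2 * y) ≤ 4 * cK (y + yo) (x 4) := by
  rw [o.gz] at H
  exact sub_nonneg.1 (nonneg_of_mul_nonneg_right H (by linarith [o.w1]))

theorem Half.OK.up (o : h.OK x p b bo y yo) (hK : cK (y + yo) (x 4) < 1 - y) {z : ℤ}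
    (H : ∀ e ∈ h.up z, 0 ≤ e.eval x p) : 4 * cK (y + yo) (x 4) ≤ z * (2 * y) := by
  have hq : 0 < 6 * (5 - 2 * x 4) := by linarith [o.w1]
  simp only [Half.up, List.forall_mem_cons] at H
  obtain ⟨h1, h2, -⟩ := H
  simp only [c, E.eval_sub, E.eval_mul, E.eval_cst, o.gz, o.gu] at h1
  push_cast at h1
  have := mul_nonneg h2 (mul_nonneg hq.le (sub_nonneg.2 hK.le))
  exact sub_nonpos.1 (nonpos_of_mul_nonpos_right (by linarith) hq)

theorem Half.OK.famC (o : h.OK x p b bo y yo) (hH : h.H.eval x p ≤ 1088640000000 * Hr)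
    (hG : h.G.eval x p ≤ 1088640000000 * (bo * g)) (v : ℕ) (H : ∀ e ∈ h.famC v, 0 ≤ e.eval x p)
    (hK : cK (y + yo) (x 4) < 1 - y) :
    (N b (cK (y + yo) (x 4)) (2 * y) - Phi b (1 - y) (2 * y)) * (1 - bo * x 4) ≤
      Hr + bo * (1 - x 4) * g := by
  have c2 := fun h1 h2 => o.Cs hH hG hK (n := 2) (by simp) ⟨h1, h2⟩
  have c3 := fun h1 h2 => o.Cs hH hG hK (n := 3) (by simp) ⟨h1, h2⟩
  have c4 := fun h1 : 5 / 4 * (2 * y) ≤ cK (y + yo) (x 4) => o.Cs hH hG hK (n := 4) (by simp) h1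
  match v, H with
  | 0, H =>
    simp only [Half.famC, List.forall_mem_cons, c, E.eval_sub, E.eval_cst, o.gu] at H
    have := mul_pos (by linarith [o.w1] : 0 < 6 * (5 - 2 * x 4)) (sub_pos.2 hK)
    have := H.1
    push_cast at this
    linarith
  | 1, H =>
    simp only [Half.famC, List.forall_mem_cons, List.forall_mem_append] at H
    have h1 := o.lo H.1
    have h2 := o.up hK H.2.1
    push_cast at h1 h2
    exact c2 (by linarith) (by linarith) H.2.2
  | 2, H =>
    simp only [Half.famC, List.forall_mem_cons, List.forall_mem_append] at H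
    have h1 := o.lo H.1
    have h2 := o.up hK H.2.1
    push_cast at h1 h2
    rcases le_total (cK (y + yo) (x 4)) (2 * y) with h | h
    · exact c2 (by linarith) h H.2.2.1
    · exact c3 h (by linarith) H.2.2.2
  | 3, H =>
    simp only [Half.famC, List.forall_mem_cons, List.forall_mem_append] at H
    have h1 := o.lo H.1
    have h2 := o.up hK H.2.1
    push_cast at h1 h2
    exact c3 (by linarith) (by linarith) H.2.2
  | 4, H =>
    simp only [Half.famC, List.forall_mem_cons, List.forall_mem_append] at H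
    have h1 := o.lo H.1
    push_cast at h1
    rcases le_total (cK (y + yo) (x 4)) (5 / 4 * (2 * y)) with h | h
    · exact c3 (by linarith) h H.2.1
    · exact c4 h H.2.2
  | 5, H =>
    simp only [Half.famC, List.forall_mem_cons] at H
    have h1 := o.lo H.1
    push_cast at h1
    exact c4 (by linarith) H.2
  | n + 6, H =>
    simp only [Half.famC, List.forall_mem_cons, List.forall_mem_append] at H
    have h1 := o.lo H.1
    push_cast at h1
    rcases le_total (cK (y + yo) (x 4)) (2 * y) with h | h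
    · exact c2 (by linarith) h H.2.1
    rcases le_total (cK (y + yo) (x 4)) (5 / 4 * (2 * y)) with h' | h'
    · exact c3 h h' H.2.2.1
    · exact c4 h' H.2.2.2

end Crest.Agent.R310.Cert
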