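import Crest.Agent.Lib.PolyTime.More

/-!
Row 310, module LP (helper54): fractional maximum coverage by integer dual ascent.
`A` is a list of sets, `Fs` the list of candidates; `run` chooses `T` candidates.
-/

set_option autoImplicit false

namespace Crest.Agent.R310.LP

open Crest.Agent.Lib.PolyTime

/-- Dual weight of the set `a` after the choices `ch`. -/
def wt (k W : ℕ) (a ch : List ℕ) : ℕ :=
  ch.foldr (fun i x => min W (x + 1 - if i ∈ a then k else 0)) 0

/-- Total weight of the sets that contain `i`. -/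
def score (k W : ℕ) (A : List (List ℕ)) (ch : List ℕ) (i : ℕ) : ℕ :=
  (A.map fun a => if i ∈ a then wt k W a ch else 0).sum

/-- A member of `Fs` of maximal score. -/
def best (s : ℕ → ℕ) (Fs : List ℕ) : ℕ :=
  Fs.foldl (fun b i => if s b < s i then i else b) (Fs.headD 0)

def step (k W : ℕ) (A : List (List ℕ)) (Fs ch : List ℕ) : List ℕ :=
  best (score k W A ch) Fs :: ch

def run (k W T : ℕ) (A : List (List ℕ)) (Fs : List ℕ) : List ℕ := (step k W A Fs)^[T] []

/-- Number of choices that lie in `a`. -/
def cnt (a ch : List ℕ) : ℕ := ch.countP fun i => decide (i ∈ a)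

theorem foldl_best (s : ℕ → ℕ) (l : List ℕ) (b : ℕ) :
    (l.foldl (fun b i => if s b < s i then i else b) b = b ∨
      l.foldl (fun b i => if s b < s i then i else b) b ∈ l) ∧
    s b ≤ s (l.foldl (fun b i => if s b < s i then i else b) b) ∧
    ∀ i ∈ l, s i ≤ s (l.foldl (fun b i => if s b < s i then i else b) b) := by
  induction l generalizing b with
  | nil => simp
  | cons x l ih =>
    obtain ⟨h1, h2, h3⟩ := ih (if s b < s x then x else b)
    rw [List.foldl_cons]
    refine ⟨?_, ?_, fun i hi => ?_⟩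
    · rcases h1 with h1 | h1
      · rw [h1]
        split_ifs <;> simp
      · exact Or.inr (List.mem_cons_of_mem _ h1)
    · refine le_trans ?_ h2
      split_ifs <;> omega
    · rcases List.mem_cons.1 hi with rfl | hi
      · refine le_trans ?_ h2
        split_ifs <;> omega
      · exact h3 i hi

theorem best_mem (s : ℕ → ℕ) {Fs : List ℕ} (h : Fs ≠ []) : best s Fs ∈ Fs := by
  rcases (foldl_best s Fs (Fs.headD 0)).1 with h1 | h1
  · unfold best
    rw [h1]
    cases Fs with
    | nil => exact absurd rfl h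
    | cons x l => simp
  · exact h1

theorem le_best (s : ℕ → ℕ) {Fs : List ℕ} {i : ℕ} (h : i ∈ Fs) : s i ≤ s (best s Fs) :=
  (foldl_best s Fs (Fs.headD 0)).2.2 i h

theorem wt_le (k W : ℕ) (a ch : List ℕ) : wt k W a ch ≤ W := by
  cases ch with
  | nil => exact Nat.zero_le _
  | cons i ch => exact min_le_left _ _

theorem run_succ (k W T : ℕ) (A : List (List ℕ)) (Fs : List ℕ) :
    run k W (T + 1) A Fs = best (score k W A (run k W T A Fs)) Fs :: run k W T A Fs :=
  Function.iterate_succ_apply' _ _ _

theorem length_run (k W T : ℕ) (A : List (List ℕ)) (Fs : List ℕ) :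
    (run k W T A Fs).length = T := by
  induction T with
  | zero => rfl
  | succ T ih => rw [run_succ, List.length_cons, ih]

theorem mem_run {k W T : ℕ} {A : List (List ℕ)} {Fs : List ℕ} (h : Fs ≠ []) :
    ∀ i ∈ run k W T A Fs, i ∈ Fs := by
  induction T with
  | zero => simp [run]
  | succ T ih =>
    intro i hi
    rw [run_succ] at hi
    rcases List.mem_cons.1 hi with rfl | hi
    · exact best_mem _ h
    · exact ih i hi

/-- Number of sets that `S` misses. -/
def miss (A : List (List ℕ)) (S : Finset ℕ) : ℕ := A.countP fun a => decide (∀ i ∈ S, i ∉ a)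

theorem sum_wt_le (k W : ℕ) (A : List (List ℕ)) (ch : List ℕ) (S : Finset ℕ) :
    (A.map fun a => wt k W a ch).sum ≤ ∑ i ∈ S, score k W A ch i + W * miss A S := by
  induction A with
  | nil => simp
  | cons a A ih =>
    simp only [score, miss, List.map_cons, List.sum_cons, List.countP_cons,
      Finset.sum_add_distrib] at ih ⊢
    have h : wt k W a ch ≤ (∑ i ∈ S, if i ∈ a then wt k W a ch else 0) +
        W * (if decide (∀ i ∈ S, i ∉ a) = true then 1 else 0) := by
      by_cases h : ∀ i ∈ S, i ∉ a
      · have := wt_le k W a ch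
        rw [if_pos (decide_eq_true h)]
        omega
      · push Not at h
        obtain ⟨i, hi, hia⟩ := h
        refine le_trans ?_ (Nat.le_add_right _ _)
        refine le_trans (le_of_eq (if_pos hia).symm)
          (Finset.single_le_sum (f := fun i => if i ∈ a then wt k W a ch else 0)
            (fun _ _ => Nat.zero_le _) hi)
    rw [Nat.mul_add]
    omega

theorem sum_wt_le_best (k W : ℕ) (A : List (List ℕ)) (ch : List ℕ) {Fs : List ℕ} {S : Finset ℕ}
    (hS : ∀ i ∈ S, i ∈ Fs) (hk : S.card ≤ k) :
    (A.map fun a => wt k W a ch).sum ≤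
      k * score k W A ch (best (score k W A ch) Fs) + W * miss A S := by
  refine (sum_wt_le k W A ch S).trans (Nat.add_le_add_right ?_ _)
  refine (Finset.sum_le_card_nsmul _ _ _ fun i hi => le_best _ (hS i hi)).trans ?_
  exact Nat.mul_le_mul_right _ hk

/-- The potential of one set. -/
def pot (k W : ℕ) (u : ℤ) (a ch : List ℕ) : ℤ :=
  ((wt k W a ch : ℤ) - W * u) ^ 2 + 2 * W * u * (ch.length - k * cnt a ch)

theorem pot_cons {k : ℕ} (hk : 1 ≤ k) (W : ℕ) {u : ℤ} (hu : u = 0 ∨ u = 1) (a ch : List ℕ) (i : ℕ) :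
    pot k W u a (i :: ch) ≤ pot k W u a ch + k ^ 2 +
      2 * ((wt k W a ch : ℤ) - k * (if i ∈ a then wt k W a ch else 0 : ℕ)) := by
  have hw := wt_le k W a ch
  have e : wt k W a (i :: ch) = min W (wt k W a ch + 1 - if i ∈ a then k else 0) := rfl
  have key : ∀ c : ℕ, ((min W (wt k W a ch + 1 - c) : ℕ) - W * u : ℤ) ^ 2 ≤
      ((wt k W a ch : ℤ) + 1 - c - W * u) ^ 2 := by
    intro c
    rw [sq_le_sq]
    rcases hu with rfl | rfl <;> simp only [mul_zero, mul_one, abs_eq_max_neg] <;> omega
  have hk' : (1 : ℤ) ≤ k := by exact_mod_cast hk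
  simp only [pot, e, cnt, List.countP_cons, List.length_cons]
  by_cases h : i ∈ a
  · have := key k
    simp only [h, if_true, decide_true] at this ⊢
    push_cast at this ⊢
    nlinarith
  · have := key 0
    simp only [h, if_false, decide_false] at this ⊢
    push_cast at this ⊢
    nlinarith

theorem sum_pot_cons {k : ℕ} (hk : 1 ≤ k) (W : ℕ) {u : List ℕ → ℤ} (hu : ∀ a, u a = 0 ∨ u a = 1)
    (A : List (List ℕ)) (ch : List ℕ) (i : ℕ) :
    (A.map fun a => pot k W (u a) a (i :: ch)).sum ≤ (A.map fun a => pot k W (u a) a ch).sum +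
      A.length * k ^ 2 + 2 * (((A.map fun a => wt k W a ch).sum : ℕ) - k * score k W A ch i) := by
  induction A with
  | nil => simp [score]
  | cons a A ih =>
    have := pot_cons hk W (hu a) a ch i
    simp only [score, List.map_cons, List.sum_cons, List.length_cons, Nat.cast_add,
      Nat.cast_one] at ih ⊢
    linarith

theorem sum_pot_run {k : ℕ} (hk : 1 ≤ k) (W T : ℕ) {u : List ℕ → ℤ} (hu : ∀ a, u a = 0 ∨ u a = 1)
    (A : List (List ℕ)) {Fs : List ℕ} {S : Finset ℕ} (hS : ∀ i ∈ S, i ∈ Fs) (hSk : S.card ≤ k) :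
    (A.map fun a => pot k W (u a) a (run k W T A Fs)).sum ≤
      A.length * W ^ 2 + T * (A.length * k ^ 2 + 2 * W * miss A S) := by
  induction T with
  | zero =>
    have := List.sum_le_card_nsmul (A.map fun a => pot k W (u a) a (run k W 0 A Fs)) ((W : ℤ) ^ 2)
      (by
        intro x hx
        obtain ⟨a, -, rfl⟩ := List.mem_map.1 hx
        rcases hu a with h | h <;> simp [pot, run, wt, cnt, h])
    simpa using this
  | succ T ih =>
    rw [run_succ]
    have h1 := sum_pot_cons hk W hu A (run k W T A Fs) (best (score k W A (run k W T A Fs)) Fs)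
    have h2 := sum_wt_le_best k W A (run k W T A Fs) hS hSk
    have h3 : (((A.map fun a => wt k W a (run k W T A Fs)).sum : ℕ) : ℤ) ≤
        k * score k W A (run k W T A Fs) (best (score k W A (run k W T A Fs)) Fs) +
          W * miss A S := by exact_mod_cast h2
    push_cast [Nat.cast_add] at h1 h3 ⊢
    linarith

/-- The uncovered mass is at most that of `S` plus `1 / c`. -/
theorem run_spec {c k W T : ℕ} (hk : 1 ≤ k) (hW0 : 0 < W) (A : List (List ℕ))
    (hW : c * A.length * k ^ 2 ≤ W) (hT : c * A.length * W ≤ T) {Fs : List ℕ} {S : Finset ℕ}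
    (hS : ∀ i ∈ S, i ∈ Fs) (hSk : S.card ≤ k) :
    c * (A.map fun a => T - k * cnt a (run k W T A Fs)).sum ≤ T * (c * miss A S + 1) := by
  set ch := run k W T A Fs with hch
  have h1 := sum_pot_run hk W T (u := fun a => if k * cnt a ch ≤ T then 1 else 0)
    (fun a => by split_ifs <;> simp) A hS hSk
  rw [← hch] at h1
  have h2 : ∀ B : List (List ℕ), 2 * (W : ℤ) * ((B.map fun a => T - k * cnt a ch).sum : ℕ) ≤
      (B.map fun a => pot k W (if k * cnt a ch ≤ T then 1 else 0) a ch).sum := by
    intro B
    induction B with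
    | nil => simp
    | cons a B ih =>
      simp only [List.map_cons, List.sum_cons, Nat.cast_add, mul_add]
      refine add_le_add ?_ ih
      unfold pot
      rw [hch, length_run, ← hch]
      split_ifs with h
      · rw [Nat.cast_sub h]
        push_cast
        nlinarith [sq_nonneg ((wt k W a ch : ℤ) - W * 1)]
      · rw [Nat.sub_eq_zero_of_le (not_le.1 h).le]
        simp only [Nat.cast_zero, mul_zero, zero_mul, add_zero]
        positivity
  have h3 := (h2 A).trans h1
  have hW' : (c : ℤ) * A.length * k ^ 2 ≤ W := by exact_mod_cast hW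
  have hT' : (c : ℤ) * A.length * W ≤ T := by exact_mod_cast hT
  have hW0' : (0 : ℤ) < 2 * W := by positivity
  have h4 : c * (((A.map fun a => T - k * cnt a ch).sum : ℕ) : ℤ) ≤ T * (c * miss A S + 1) := by
    refine le_of_mul_le_mul_left ?_ hW0'
    have h5 := mul_le_mul_of_nonneg_left hW' (Int.natCast_nonneg T)
    have h6 := mul_le_mul_of_nonneg_left hT' (Int.natCast_nonneg W)
    have h7 := mul_le_mul_of_nonneg_left h3 (Int.natCast_nonneg c)
    nlinarith
  exact_mod_cast h4

/-! ### polynomial time -/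

variable {α : Type*} [PEnc α]

@[fun_prop] theorem poly_wt {k W : α → ℕ} {a ch : α → List ℕ} (hk : Poly k) (hW : Poly W)
    (ha : Poly a) (hch : Poly ch) : Poly fun x => wt (k x) (W x) (a x) (ch x) :=
  Poly.foldr_inv hch (by fun_prop) (by fun_prop) (fun x s => s ≤ W x) (fun _ => Nat.zero_le _)
    (fun _ _ _ _ _ => min_le_left _ _) (B := fun x => 4 * sz (W x)) (by fun_prop)
    fun _ _ h => sz_le_of_le h

@[fun_prop] theorem poly_score {k W i : α → ℕ} {A : α → List (List ℕ)} {ch : α → List ℕ}
    (hk : Poly k) (hW : Poly W) (hA : Poly A) (hch : Poly ch) (hi : Poly i) :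
    Poly fun x => score (k x) (W x) (A x) (ch x) (i x) := by
  unfold score; fun_prop

theorem poly_best {s : α → ℕ → ℕ} {Fs : α → List ℕ} (hs : Poly fun p : α × ℕ => s p.1 p.2)
    (hF : Poly Fs) : Poly fun x => best (s x) (Fs x) :=
  Poly.foldl_select hF (by fun_prop)
    (Poly.ite (Poly.decide_lt (hs.comp (g := fun p : α × ℕ × ℕ => (p.1, p.2.1)) (by fun_prop))
      (hs.comp (g := fun p : α × ℕ × ℕ => (p.1, p.2.2)) (by fun_prop))) (by fun_prop) (by fun_prop))
    fun _ _ _ => by split_ifs <;> simp

theorem sz_best_le (s : ℕ → ℕ) (Fs : List ℕ) : sz (best s Fs) ≤ sz Fs := by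
  cases Fs with
  | nil => exact le_rfl
  | cons x l => exact sz_le_of_mem (best_mem s (List.cons_ne_nil x l))

@[fun_prop] theorem poly_run {k W T : α → ℕ} {A : α → List (List ℕ)} {Fs : α → List ℕ}
    (hk : Poly k) (hW : Poly W) (hT : Poly T) (hb : PB T) (hA : Poly A) (hF : Poly Fs) :
    Poly fun x => run (k x) (W x) (T x) (A x) (Fs x) :=
  Poly.iterate_add hT hb (by fun_prop)
    (Poly.cons (poly_best (by fun_prop) (by fun_prop)) (by fun_prop))
    (fun x => sz (Fs x) + 1) (by fun_prop) fun x s => by
      have := sz_best_le (score (k x) (W x) (A x) s) (Fs x)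
      simp only [step, sz_cons]
      omega

@[fun_prop] theorem poly_cnt {a ch : α → List ℕ} (ha : Poly a) (hch : Poly ch) :
    Poly fun x => cnt (a x) (ch x) := by
  unfold cnt; fun_prop

end Crest.Agent.R310.LP
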