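import Mathlib

/-! Row 310, module LP (helper54): the greedy fractional assignment. -/

set_option autoImplicit false

namespace Crest.Agent.R310.LP

variable {ι : Type*} [Fintype ι]

theorem fill {y x : ι → ℚ} (B : ι → Prop) [DecidablePred B] (hxy : ∀ i, x i ≤ y i)
    (hB : ∀ i, ¬ B i → x i = 0) {μ : ℚ} (h1 : ∑ i, x i ≤ μ)
    (h2 : μ ≤ ∑ i, if B i then y i else 0) :
    ∃ z : ι → ℚ, (∀ i, 0 ≤ z i) ∧ (∀ i, x i + z i ≤ y i) ∧ (∀ i, ¬ B i → z i = 0) ∧
      ∑ i, z i = μ - ∑ i, x i := by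
  set s : ℚ := ∑ i, if B i then y i - x i else 0 with hs
  have hs' : s = (∑ i, if B i then y i else 0) - ∑ i, x i := by
    rw [hs, ← Finset.sum_sub_distrib]
    refine Finset.sum_congr rfl fun i _ => ?_
    split_ifs with h
    · rfl
    · rw [hB i h, sub_zero]
  set δ : ℚ := μ - ∑ i, x i with hδ
  have hδ0 : 0 ≤ δ := sub_nonneg.2 h1
  have hδs : δ ≤ s := by rw [hs', hδ]; linarith
  have hl0 : 0 ≤ δ / s := div_nonneg hδ0 (hδ0.trans hδs)
  have hl1 : δ / s ≤ 1 := div_le_one_of_le₀ hδs (hδ0.trans hδs)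
  refine ⟨fun i => δ / s * if B i then y i - x i else 0, fun i => ?_, fun i => ?_,
    fun i h => by simp [h], ?_⟩
  · refine mul_nonneg hl0 ?_
    split_ifs
    · exact sub_nonneg.2 (hxy i)
    · exact le_rfl
  · have := hxy i
    dsimp only
    split_ifs
    · nlinarith
    · linarith
  · rw [← Finset.mul_sum, ← hs]
    rcases eq_or_ne s 0 with h | h
    · rw [h, mul_zero]
      exact le_antisymm hδ0 (h ▸ hδs)
    · exact div_mul_cancel₀ _ h

/-- Mass of the ball of radius `t`. -/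
def ballM (y d : ι → ℚ) (t : ℕ) : ℚ := ∑ i, if d i ≤ t then y i else 0

theorem ballM_mono {y : ι → ℚ} (hy : ∀ i, 0 ≤ y i) (d : ι → ℚ) (t : ℕ) :
    ballM y d t ≤ ballM y d (t + 1) :=
  Finset.sum_le_sum fun i _ => by
    have := hy i
    push_cast
    split_ifs with h h'
    · exact le_rfl
    · exact absurd (by linarith) h'
    · exact this
    · exact le_rfl

theorem greedy_aux {y : ι → ℚ} (hy : ∀ i, 0 ≤ y i) (d : ι → ℚ) (R : ℕ) :
    ∃ x : ι → ℚ, (∀ i, 0 ≤ x i) ∧ (∀ i, x i ≤ y i) ∧ (∀ i, ¬ d i ≤ R → x i = 0) ∧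
      ∑ i, x i = min 1 (ballM y d R) ∧
      ∑ i, x i * d i ≤ ∑ t ∈ Finset.range R, (min 1 (ballM y d R) - min 1 (ballM y d t)) := by
  have hcost : ∀ (z : ι → ℚ) (R : ℕ), (∀ i, 0 ≤ z i) → (∀ i, ¬ d i ≤ R → z i = 0) →
      ∑ i, z i * d i ≤ (∑ i, z i) * R := fun z R h0 h1 => by
    rw [Finset.sum_mul]
    refine Finset.sum_le_sum fun i _ => ?_
    by_cases h : d i ≤ R
    · exact mul_le_mul_of_nonneg_left h (h0 i)
    · simp [h1 i h]
  induction R with
  | zero =>
    obtain ⟨z, h1, h2, h3, h4⟩ := fill (x := fun _ => 0) (μ := min 1 (ballM y d 0))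
      (fun i => d i ≤ (0 : ℕ)) hy (fun _ _ => rfl)
      (by
        rw [Finset.sum_const_zero]
        exact le_min zero_le_one (Finset.sum_nonneg fun i _ => by split_ifs <;> simp [hy i]))
      (min_le_right _ _)
    refine ⟨z, h1, fun i => by simpa using h2 i, h3, by simpa using h4, ?_⟩
    simpa using hcost z 0 h1 h3
  | succ R ih =>
    obtain ⟨x, h1, h2, h3, h4, h5⟩ := ih
    have h3' : ∀ i, ¬ d i ≤ (R + 1 : ℕ) → x i = 0 := fun i h =>
      h3 i fun h' => h (by push_cast; linarith)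
    obtain ⟨z, k1, k2, k3, k4⟩ := fill (μ := min 1 (ballM y d (R + 1)))
      (fun i => d i ≤ (R + 1 : ℕ)) h2 h3'
      (h4.le.trans (min_le_min le_rfl (ballM_mono hy d R))) (min_le_right _ _)
    refine ⟨fun i => x i + z i, fun i => add_nonneg (h1 i) (k1 i), k2,
      fun i h => by simp [h3' i h, k3 i h], by rw [Finset.sum_add_distrib, k4]; ring, ?_⟩
    have k5 := hcost z (R + 1) k1 k3
    rw [k4, h4] at k5
    simp only [add_mul, Finset.sum_add_distrib, Finset.sum_range_succ, Finset.sum_sub_distrib,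
      Finset.sum_const, Finset.card_range, nsmul_eq_mul] at h5 ⊢
    push_cast at k5 ⊢
    linarith

/-- A unit of mass can be assigned at cost `∑_{t<R} (1 - y(B t))⁺`. -/
theorem greedy {y : ι → ℚ} (hy : ∀ i, 0 ≤ y i) (d : ι → ℚ) (R : ℕ) (h : 1 ≤ ballM y d R) :
    ∃ x : ι → ℚ, (∀ i, 0 ≤ x i) ∧ (∀ i, x i ≤ y i) ∧ ∑ i, x i = 1 ∧
      ∑ i, x i * d i ≤ ∑ t ∈ Finset.range R, max 0 (1 - ballM y d t) := by
  obtain ⟨x, h1, h2, -, h4, h5⟩ := greedy_aux hy d R
  rw [min_eq_left h] at h4 h5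
  refine ⟨x, h1, h2, h4, h5.trans (Finset.sum_le_sum fun t _ => ?_)⟩
  rcases le_total 1 (ballM y d t) with h' | h'
  · simp [min_eq_left h']
  · simp [min_eq_right h']

theorem min_sum_le (T : ℕ) (s : Finset ι) (Y : ι → ℕ) :
    min T (∑ i ∈ s, Y i) ≤ ∑ i ∈ s, min T (Y i) := by
  classical
  induction s using Finset.induction_on with
  | empty => simp
  | insert i s hi ih => rw [Finset.sum_insert hi, Finset.sum_insert hi]; omega

theorem countP_eq_sum {N : ℕ} (P : ℕ → Bool) (ch : List ℕ) (h : ∀ i ∈ ch, i < N) :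
    ch.countP P = ∑ i : Fin N, if P i then ch.count (i : ℕ) else 0 := by
  induction ch with
  | nil => simp
  | cons x ch ih =>
    have hx : x < N := h x List.mem_cons_self
    rw [List.countP_cons, ih fun i hi => h i (List.mem_cons_of_mem _ hi)]
    have : (if P x = true then 1 else 0) =
        ∑ i : Fin N, if P i then (if x = (i : ℕ) then 1 else 0) else 0 := by
      rw [Finset.sum_eq_single (⟨x, hx⟩ : Fin N)]
      · simp
      · intro b _ hb
        rw [if_neg (show ¬ x = (b : ℕ) from fun e => hb (Fin.ext e.symm))]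
        simp
      · simp
    rw [this, ← Finset.sum_add_distrib]
    refine Finset.sum_congr rfl fun i _ => ?_
    split_ifs with h1 h2 <;> simp [*]

end Crest.Agent.R310.LP
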