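import Crest.Agent.R310.Iface
import Crest.Agent.R310.LPCov
import Crest.Agent.R310.LPFill

/-!
Row 310, module LP (helper54): a polynomial-time fractional solution `y i = lpY[i] / lpT` of the
k-median LP on bounded integer metrics, with additive error `1 / a`.
-/

set_option autoImplicit false

open Crest.LogicCS.KMedian Crest.Agent.Lib.PolyTime

namespace Crest.Agent.R310

open LP

def lpN (r : Raw) : ℕ := r.2.2.1.length
def lpK (r : Raw) : ℕ := min r.k (lpN r)
def lpBall (r : Raw) (j t : ℕ) : List ℕ := r.fa.filter fun i => decide (r.d j i ≤ (t : ℚ))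
def lpA (C : ℕ) (r : Raw) : List (List ℕ) :=
  r.cl.flatMap fun j => (List.range (C * lpN r ^ 2)).map (lpBall r j)
def lpW (a C : ℕ) (r : Raw) : ℕ := a * (lpA C r).length * lpK r ^ 2 + 1
/-- The common denominator. -/
def lpT (a C : ℕ) (r : Raw) : ℕ := a * (lpA C r).length * lpW a C r + 1
def lpCh (a C : ℕ) (r : Raw) : List ℕ := run (lpK r) (lpW a C r) (lpT a C r) (lpA C r) r.fa
/-- The numerators. -/
def lpY (a C : ℕ) (r : Raw) : List ℕ :=
  (List.range (lpN r)).map fun i => min (lpT a C r) (lpK r * (lpCh a C r).count i)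

/-- The fractional solution. -/
def lpy (a C : ℕ) (I : Instance) (i : Fin I.N) : ℚ :=
  ((lpY a C (toRaw I)).getD i 0 : ℚ) / lpT a C (toRaw I)

/-! ### polynomial time -/

section
variable {α : Type*} [PEnc α] {r : α → Raw}

theorem lp_poly_cl (hr : Poly r) : Poly fun x => (r x).cl := by unfold Raw.cl; fun_prop
theorem lp_poly_fa (hr : Poly r) : Poly fun x => (r x).fa := by unfold Raw.fa; fun_prop
theorem lp_poly_d {i j : α → ℕ} (hr : Poly r) (hi : Poly i) (hj : Poly j) :
    Poly fun x => (r x).d (i x) (j x) := by unfold Raw.d; fun_prop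
attribute [local fun_prop] lp_poly_cl lp_poly_fa lp_poly_d

@[fun_prop] theorem poly_lpN (hr : Poly r) : Poly fun x => lpN (r x) := by unfold lpN; fun_prop
@[fun_prop] theorem pb_lpN (hr : Poly r) : PB fun x => lpN (r x) := by unfold lpN; fun_prop
@[fun_prop] theorem poly_lpK (hr : Poly r) : Poly fun x => lpK (r x) := by
  unfold lpK Raw.k; fun_prop
@[fun_prop] theorem pb_lpK (hr : Poly r) : PB fun x => lpK (r x) :=
  (pb_lpN hr).mono fun _ => min_le_right _ _
@[fun_prop] theorem poly_lpBall {j t : α → ℕ} (hr : Poly r) (hj : Poly j) (ht : Poly t) :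
    Poly fun x => lpBall (r x) (j x) (t x) := by unfold lpBall; fun_prop
@[fun_prop] theorem poly_lpA (C : ℕ) (hr : Poly r) : Poly fun x => lpA C (r x) := by
  unfold lpA
  refine (lp_poly_cl hr).flatMap (Lib.PolyTime.Poly.map
    (l := fun p : α × ℕ => List.range (C * lpN (r p.1) ^ 2))
    (f := fun p t => lpBall (r p.1) p.2 t) ?_ ?_) <;> fun_prop
@[fun_prop] theorem poly_lpW (a C : ℕ) (hr : Poly r) : Poly fun x => lpW a C (r x) := by
  unfold lpW; fun_prop
@[fun_prop] theorem pb_lpW (a C : ℕ) (hr : Poly r) : PB fun x => lpW a C (r x) := by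
  unfold lpW; fun_prop
@[fun_prop] theorem poly_lpT (a C : ℕ) (hr : Poly r) : Poly fun x => lpT a C (r x) := by
  unfold lpT; fun_prop
@[fun_prop] theorem pb_lpT (a C : ℕ) (hr : Poly r) : PB fun x => lpT a C (r x) := by
  unfold lpT; fun_prop
@[fun_prop] theorem poly_lpCh (a C : ℕ) (hr : Poly r) : Poly fun x => lpCh a C (r x) :=
  poly_run (by fun_prop) (by fun_prop) (by fun_prop) (by fun_prop) (by fun_prop) (by fun_prop)
@[fun_prop] theorem poly_lpY (a C : ℕ) (hr : Poly r) : Poly fun x => lpY a C (r x) := by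
  unfold lpY
  refine Lib.PolyTime.Poly.map (l := fun x => List.range (lpN (r x)))
    (f := fun x i => min (lpT a C (r x)) (lpK (r x) * (lpCh a C (r x)).count i)) ?_ ?_ <;> fun_prop

end

/-! ### the list level instance -/

variable (a C : ℕ) (I : Instance)

theorem lpT_pos (r : Raw) : 0 < lpT a C r := Nat.succ_pos _

@[simp] theorem lpN_toRaw : lpN (toRaw I) = I.N := by simp [lpN, toRaw]

theorem length_lpY : (lpY a C (toRaw I)).length = I.N := by simp [lpY]

theorem lp_d_toRaw (i j : Fin I.N) : (toRaw I).d i j = I.dist i j := by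
  simp [Raw.d, toRaw]

theorem lp_mem_fa {i : ℕ} : i ∈ (toRaw I).fa ↔ ∃ h : i < I.N, ⟨i, h⟩ ∈ I.facilities := by
  simp only [Raw.fa, toRaw, List.length_map, List.length_finRange, List.mem_filter, List.mem_range]
  constructor
  · rintro ⟨h, h'⟩
    exact ⟨h, by simpa [h] using h'⟩
  · rintro ⟨h, h'⟩
    exact ⟨h, by simpa [h] using h'⟩

theorem lp_sum_range (R : ℕ) (f : ℕ → ℕ) :
    ((List.range R).map f).sum = ∑ t ∈ Finset.range R, f t := by
  induction R with
  | zero => simp
  | succ R ih => rw [List.range_succ, Finset.sum_range_succ, ← ih]; simp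

theorem lp_sum_cl (f : ℕ → ℕ) : ((toRaw I).cl.map f).sum = ∑ j ∈ I.clients, f j := by
  have h : ∀ (l : List ℕ) (p : ℕ → Bool),
      ((l.filter p).map f).sum = (l.map fun j => if p j then f j else 0).sum := by
    intro l p
    induction l with
    | nil => rfl
    | cons x l ih => by_cases hx : p x <;> simp [hx, ih]
  unfold Raw.cl
  rw [h, lp_sum_range]
  rw [show (toRaw I).2.2.1.length = I.N from lpN_toRaw I, Finset.sum_range,
    ← Finset.univ_inter I.clients, ← Finset.sum_ite_mem]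
  refine Finset.sum_congr rfl fun j _ => ?_
  have : (toRaw I).2.2.1.getD j false = decide (j ∈ I.clients) := by simp [toRaw]
  simp only [this, decide_eq_true_eq]

theorem lp_sum_A (f : List ℕ → ℕ) : ((lpA C (toRaw I)).map f).sum =
    ∑ j ∈ I.clients, ∑ t ∈ Finset.range (C * I.N ^ 2), f (lpBall (toRaw I) j t) := by
  have h : ∀ (l : List ℕ) (g : ℕ → List (List ℕ)),
      ((l.flatMap g).map f).sum = (l.map fun j => ((g j).map f).sum).sum := by
    intro l g
    induction l with
    | nil => rfl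
    | cons x l ih => simp [← ih]
  unfold lpA
  rw [h, lp_sum_cl]
  refine Finset.sum_congr rfl fun j _ => ?_
  rw [List.map_map, lp_sum_range, lpN_toRaw]
  rfl

theorem lpY_getD (i : Fin I.N) : (lpY a C (toRaw I)).getD i 0 =
    min (lpT a C (toRaw I)) (lpK (toRaw I) * (lpCh a C (toRaw I)).count (i : ℕ)) := by
  simp [lpY]

theorem lpy_nonneg (i : Fin I.N) : 0 ≤ lpy a C I i := by unfold lpy; positivity

theorem lpy_le_one (i : Fin I.N) : lpy a C I i ≤ 1 := by
  unfold lpy
  rw [lpY_getD]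
  exact div_le_one_of_le₀ (by exact_mod_cast min_le_left _ _) (Nat.cast_nonneg _)

variable {I}

theorem lpK_toRaw (hI : I.Valid) : lpK (toRaw I) = I.k := by
  have := hI.2.2.2.2.2.trans (Finset.card_le_univ _)
  rw [Fintype.card_fin] at this
  rw [lpK, lpN_toRaw]
  exact min_eq_left this

theorem lp_fa_ne_nil (hI : I.Valid) : (toRaw I).fa ≠ [] := by
  obtain ⟨i, hi⟩ := Finset.card_pos.1 (hI.2.2.2.2.1.trans hI.2.2.2.2.2)
  exact List.ne_nil_of_mem ((lp_mem_fa I).2 ⟨i.2, hi⟩)

theorem lp_mem_ch (hI : I.Valid) {i : ℕ} (hi : i ∈ lpCh a C (toRaw I)) :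
    ∃ h : i < I.N, ⟨i, h⟩ ∈ I.facilities := (lp_mem_fa I).1 (mem_run (lp_fa_ne_nil hI) i hi)

theorem lpy_eq_zero (hI : I.Valid) {i : Fin I.N} (hi : i ∉ I.facilities) : lpy a C I i = 0 := by
  unfold lpy
  rw [lpY_getD, List.count_eq_zero_of_not_mem fun h => hi (lp_mem_ch a C hI h).2]
  simp

theorem lp_sum_count (hI : I.Valid) :
    ∑ i : Fin I.N, (lpCh a C (toRaw I)).count (i : ℕ) = lpT a C (toRaw I) := by
  have := countP_eq_sum (fun _ => true) (lpCh a C (toRaw I)) fun i hi => (lp_mem_ch a C hI hi).1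
  simp only [List.countP_true, if_true] at this
  rw [← this]
  exact length_run _ _ _ _ _

theorem sum_lpy_le (hI : I.Valid) : ∑ i, lpy a C I i ≤ I.k := by
  unfold lpy
  have hT : (0 : ℚ) < lpT a C (toRaw I) := by exact_mod_cast lpT_pos a C _
  rw [← Finset.sum_div, div_le_iff₀ hT]
  have : ∑ i : Fin I.N, (lpY a C (toRaw I)).getD i 0 ≤ I.k * lpT a C (toRaw I) := by
    conv_rhs => rw [← lp_sum_count a C hI, Finset.mul_sum]
    exact Finset.sum_le_sum fun i _ => by rw [lpY_getD, lpK_toRaw hI]; exact min_le_right _ _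
  exact_mod_cast this

theorem one_le_sum_lpy (hI : I.Valid) : 1 ≤ ∑ i, lpy a C I i := by
  unfold lpy
  have hT : (0 : ℚ) < lpT a C (toRaw I) := by exact_mod_cast lpT_pos a C _
  rw [← Finset.sum_div, le_div_iff₀ hT, one_mul]
  have h := min_sum_le (lpT a C (toRaw I)) Finset.univ
    fun i : Fin I.N => lpK (toRaw I) * (lpCh a C (toRaw I)).count (i : ℕ)
  rw [← Finset.mul_sum, lp_sum_count a C hI, lpK_toRaw hI,
    min_eq_left (Nat.le_mul_of_pos_left _ hI.2.2.2.2.1)] at h
  simp only [lpY_getD, lpK_toRaw hI]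
  exact_mod_cast h

theorem lp_deficit (hI : I.Valid) (j : Fin I.N) (t : ℕ) :
    max 0 (1 - ballM (lpy a C I) (I.dist j) t) ≤
      ((lpT a C (toRaw I) - I.k * cnt (lpBall (toRaw I) j t) (lpCh a C (toRaw I)) : ℕ) : ℚ) /
        lpT a C (toRaw I) := by
  have hT : (0 : ℚ) < lpT a C (toRaw I) := by exact_mod_cast lpT_pos a C _
  refine max_le (by positivity) ?_
  have h1 : cnt (lpBall (toRaw I) j t) (lpCh a C (toRaw I)) ≤
      ∑ i ∈ Finset.univ.filter fun i => I.dist j i ≤ t, (lpCh a C (toRaw I)).count (i : ℕ) := by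
    unfold cnt
    rw [countP_eq_sum _ _ fun i hi => (lp_mem_ch a C hI hi).1, Finset.sum_filter]
    refine Finset.sum_le_sum fun i _ => ?_
    split_ifs with h h'
    · exact le_rfl
    · refine absurd ?_ h'
      have := (List.mem_filter.1 (of_decide_eq_true h)).2
      rw [lp_d_toRaw] at this
      exact of_decide_eq_true this
    · exact Nat.zero_le _
    · exact le_rfl
  have h2 := min_sum_le (lpT a C (toRaw I)) (Finset.univ.filter fun i => I.dist j i ≤ t)
    fun i : Fin I.N => I.k * (lpCh a C (toRaw I)).count (i : ℕ)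
  rw [← Finset.mul_sum] at h2
  have h3 := Nat.mul_le_mul_left I.k h1
  have h4 : ballM (lpy a C I) (I.dist j) t =
      ((∑ i ∈ Finset.univ.filter fun i => I.dist j i ≤ t,
        min (lpT a C (toRaw I)) (I.k * (lpCh a C (toRaw I)).count (i : ℕ)) : ℕ) : ℚ) /
        lpT a C (toRaw I) := by
    rw [ballM, ← Finset.sum_filter, Nat.cast_sum, Finset.sum_div]
    refine Finset.sum_congr rfl fun i _ => ?_
    rw [lpy, lpY_getD, lpK_toRaw hI]
  rw [h4, sub_le_iff_le_add, ← add_div, le_div_iff₀ hT, one_mul]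
  exact_mod_cast (by omega)

theorem lp_miss (hC : IntInst C I) {S : Finset (Fin I.N)} (hS : S ⊆ I.facilities)
    (hne : S.Nonempty) : (miss (lpA C (toRaw I)) (S.map Fin.valEmbedding) : ℚ) ≤ I.cost S := by
  have h : ∀ (A : List (List ℕ)) (S' : Finset ℕ),
      miss A S' = (A.map fun b => if ∀ i ∈ S', i ∉ b then 1 else 0).sum := by
    intro A S'
    induction A with
    | nil => rfl
    | cons b A ih =>
      simp only [miss, List.countP_cons, List.map_cons, List.sum_cons, decide_eq_true_eq] at ih ⊢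
      omega
  rw [h, lp_sum_A, Instance.cost, dif_pos hne, Nat.cast_sum]
  refine Finset.sum_le_sum fun j _ => ?_
  obtain ⟨i, hi, he⟩ := Finset.exists_mem_eq_inf' hne (I.dist j)
  obtain ⟨m, hm, -⟩ := hC j i
  rw [he, hm, Nat.cast_le, ← Finset.card_filter]
  refine (Finset.card_le_card fun t ht => ?_).trans (Finset.card_range m).le
  rw [Finset.mem_range]
  by_contra hlt
  refine (Finset.mem_filter.1 ht).2 i (Finset.mem_map_of_mem _ hi) (List.mem_filter.2
    ⟨(lp_mem_fa I).2 ⟨i.2, hS hi⟩, decide_eq_true ?_⟩)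
  rw [lp_d_toRaw, hm]
  exact_mod_cast not_lt.1 hlt

variable {a C}

/-- The threshold form of the LP bound. -/
theorem lp_cover (ha : 0 < a) (hI : I.Valid) (hC : IntInst C I) {S : Finset (Fin I.N)}
    (hS : S ⊆ I.facilities) (hne : S.Nonempty) (hk : S.card ≤ I.k) :
    ∑ j ∈ I.clients, ∑ t ∈ Finset.range (C * I.N ^ 2), max 0 (1 - ballM (lpy a C I) (I.dist j) t)
      ≤ I.cost S + 1 / a := by
  have hT : (0 : ℚ) < lpT a C (toRaw I) := by exact_mod_cast lpT_pos a C _
  have ha' : (0 : ℚ) < a := by exact_mod_cast ha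
  have h := run_spec (c := a) (k := lpK (toRaw I)) (W := lpW a C (toRaw I))
    (T := lpT a C (toRaw I)) (by rw [lpK_toRaw hI]; exact hI.2.2.2.2.1) (Nat.succ_pos _)
    (lpA C (toRaw I)) (Nat.le_succ _) (Nat.le_succ _) (Fs := (toRaw I).fa)
    (S := S.map Fin.valEmbedding)
    (fun i hi => by
      obtain ⟨i', hi', rfl⟩ := Finset.mem_map.1 hi
      exact (lp_mem_fa I).2 ⟨i'.2, hS hi'⟩)
    (by rw [lpK_toRaw hI, Finset.card_map]; exact hk)
  change a * ((lpA C (toRaw I)).map fun b =>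
    lpT a C (toRaw I) - lpK (toRaw I) * cnt b (lpCh a C (toRaw I))).sum ≤ _ at h
  rw [lp_sum_A, lpK_toRaw hI] at h
  refine (Finset.sum_le_sum fun j _ => Finset.sum_le_sum fun t _ => lp_deficit a C hI j t).trans ?_
  simp only [← Finset.sum_div, ← Nat.cast_sum]
  rw [div_le_iff₀ hT]
  have h' := (Nat.cast_le (α := ℚ)).2 h
  rw [Nat.cast_mul, Nat.cast_mul, Nat.cast_add, Nat.cast_mul, Nat.cast_one] at h'
  have h2 := lp_miss C hC hS hne
  refine le_of_mul_le_mul_left (h'.trans ?_) ha'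
  have e : (a : ℚ) * ((I.cost S + 1 / a) * lpT a C (toRaw I)) =
      lpT a C (toRaw I) * (a * I.cost S + 1) := by field_simp
  rw [e]
  gcongr

/-- The assignment form of the LP bound. -/
theorem lp_spec (ha : 0 < a) (hI : I.Valid) (hC : IntInst C I) :
    ∃ x : Fin I.N → Fin I.N → ℚ, (∀ j i, 0 ≤ x j i) ∧ (∀ j i, x j i ≤ lpy a C I i) ∧
      (∀ j, ∑ i, x j i = 1) ∧
      ∀ S : Finset (Fin I.N), S ⊆ I.facilities → S.Nonempty → S.card ≤ I.k →
        ∑ j ∈ I.clients, ∑ i, x j i * I.dist j i ≤ I.cost S + 1 / a := by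
  have h : ∀ j, 1 ≤ ballM (lpy a C I) (I.dist j) (C * I.N ^ 2) := fun j => by
    refine (one_le_sum_lpy a C hI).trans (le_of_eq (Finset.sum_congr rfl fun i _ => ?_))
    obtain ⟨m, hm, hm'⟩ := hC j i
    rw [if_pos (by rw [hm]; exact_mod_cast hm')]
  choose x h1 h2 h3 h4 using fun j => greedy (lpy_nonneg a C I) (I.dist j) _ (h j)
  exact ⟨x, h1, h2, h3, fun S hS hne hk =>
    (Finset.sum_le_sum fun j _ => h4 j).trans (lp_cover ha hI hC hS hne hk)⟩

end Crest.Agent.R310
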