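import Crest.Agent.R310.Pre2

/-! Row 310, module PRE: the cost of the preprocessing. -/

set_option autoImplicit false
set_option linter.unusedVariables false
set_option linter.unusedSectionVars false

namespace Crest.Agent.R310.Pre

open Finset

variable {ι : Type*} [Fintype ι] [LinearOrder ι] {d : ι → ι → ℚ} {y : ι → ℚ} {J : Finset ι}
  {e : ℚ} {x : ι → ι → ℚ} {C R : ι → ℚ} {O : Finset ι} {g σ : ι → ι}

namespace Spec

theorem pre3_cap_nonneg (hy : ∀ i, 0 ≤ y i) (k : ι) : 0 ≤ cap σ y k := by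
  unfold cap push
  refine le_min zero_le_one (sum_nonneg fun i _ => ?_)
  split_ifs
  · exact hy i
  · exact le_rfl

theorem pre3_e3 (h : Spec d y J e x C R O g σ) : 0 ≤ e ^ 3 ∧ e ^ 3 ≤ 1 :=
  ⟨pow_nonneg h.e0.le 3, pow_le_one₀ h.e0.le (by linarith [h.e1])⟩

theorem pre3_uniq (h : Spec d y J e x C R O g σ) {o o' j : ι} (ho : o ∈ O) (ho' : o' ∈ O)
    (hn : d j o ≤ e * R o) (hn' : d j o' ≤ e * R o') : o = o' := by
  by_contra hne
  have h1 := h.toSpec0.sep ho ho' hne
  have h2 := h.met.tri o j o'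
  rw [h.met.symm o j] at h2
  linarith

theorem pre3_sum_near (h : Spec d y J e x C R O g σ) {o j : ι} (ho : o ∈ O)
    (hn : d j o ≤ e * R o) (f : ι → ℚ) :
    ∑ o' ∈ O, (if d j o' ≤ e * R o' then f o' else 0) = f o := by
  rw [sum_eq_single o]
  · rw [if_pos hn]
  · intro o' ho' hne
    rw [if_neg]
    intro hn'
    exact hne (h.pre3_uniq ho' ho hn' hn)
  · intro h'
    exact absurd ho h'

/-- clients that are not near a centre -/
theorem free (h : Spec d y J e x C R O g σ) {j : ι} (hj : j ∈ J)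
    (hf : ∀ o ∈ O, ¬ d j o ≤ e * R o) :
    ∃ x', Feas (thin (e ^ 3) σ y) x' ∧ cst d j x' ≤ (1 + 5 * e) * C j := by
  obtain ⟨x', hx', hc⟩ := reroute (σ := σ) h.met h.y0 h.pre3_e3.1 h.pre3_e3.2 (h.feas j) j
    (h.heavy j)
  refine ⟨x', hx', hc.trans ?_⟩
  have he := h.e0
  have hC : e ^ 2 * R j ≤ C j := by
    by_contra hlt
    obtain ⟨o, ho, hn⟩ := h.toSpec0.cover hj (not_le.1 hlt)
    exact hf o ho hn
  have h1 : ∑ k, x j k * d j (σ k) ≤ (1 + 3 * e) * C j := by
    calc ∑ k, x j k * d j (σ k) ≤ ∑ k, (1 + 3 * e) * (x j k * d j k) := by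
          refine sum_le_sum fun k _ => ?_
          have := mul_le_mul_of_nonneg_left (h.far j k fun o ho _ => hf o ho) ((h.feas j).1 k)
          linarith
      _ = (1 + 3 * e) * cst d j (x j) := by rw [cst, mul_sum]
      _ ≤ (1 + 3 * e) * C j := mul_le_mul_of_nonneg_left (h.cx j) (by linarith)
  have h2 : ∑ k, x j k * (1 - cap σ y (σ k)) ≤ 1 := by
    calc ∑ k, x j k * (1 - cap σ y (σ k)) ≤ ∑ k, x j k := by
          refine sum_le_sum fun k _ => ?_
          have := mul_nonneg ((h.feas j).1 k) (pre3_cap_nonneg (σ := σ) h.y0 (σ k))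
          linarith
      _ = 1 := (h.feas j).2.2
  have hR := h.toSpec0.R_nonneg j
  have h3 : 2 * R j * e ^ 3 * ∑ k, x j k * (1 - cap σ y (σ k)) ≤ 2 * R j * e ^ 3 * 1 :=
    mul_le_mul_of_nonneg_left h2 (by positivity)
  have h4 := mul_le_mul_of_nonneg_left hC he.le
  have h5 : e * (e ^ 2 * R j) = R j * e ^ 3 := by ring
  linarith

/-- clients near a centre, one at a time -/
theorem near1 (h : Spec d y J e x C R O g σ) {o j : ι} (ho : o ∈ O) (hj : j ∈ J)
    (hn : d j o ≤ e * R o) :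
    ∃ x', Feas (thin (e ^ 3) σ y) x' ∧ cst d j x' ≤
      bal d (x o) o (e ^ 2 * R o) * d j (g o) +
        (1 + 3 * e) * (∑ k, if d o k ≤ e ^ 2 * R o then 0 else x o k * d j k) + 12 * e * C j := by
  obtain ⟨x', hx', hc⟩ := reroute (σ := σ) h.met h.y0 h.pre3_e3.1 h.pre3_e3.2 (h.feas o) j
    (h.heavy j)
  refine ⟨x', hx', hc.trans ?_⟩
  have he := h.e0
  have he1 := h.e1
  have hx0 := (h.feas o).1
  set X := bal d (x o) o (e ^ 2 * R o) with hX
  have h1 : ∑ k, x o k * d j (σ k) ≤ X * d j (g o) +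
      (1 + 3 * e) * (∑ k, if d o k ≤ e ^ 2 * R o then 0 else x o k * d j k) := by
    rw [hX, bal, sum_mul, mul_sum, ← sum_add_distrib]
    refine sum_le_sum fun k _ => ?_
    by_cases hk : d o k ≤ e ^ 2 * R o
    · rw [if_pos hk, if_pos hk, h.sig_eq ho hk]
      simp
    · rw [if_neg hk, if_neg hk]
      have hfar : d j (σ k) ≤ (1 + 3 * e) * d j k := by
        refine h.far j k fun o' ho' hk' hn' => hk ?_
        rw [h.pre3_uniq ho ho' hn hn']
        exact hk'
      have := mul_le_mul_of_nonneg_left hfar (hx0 k)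
      linarith
  have hsplit : ∑ k, (if d o k ≤ e ^ 2 * R o then 0 else x o k) = 1 - X := by
    rw [hX, bal, ← (h.feas o).2.2, ← sum_sub_distrib]
    refine sum_congr rfl fun k _ => ?_
    split_ifs <;> simp
  have hX1 : X ≤ 1 := by
    have : 0 ≤ ∑ k, (if d o k ≤ e ^ 2 * R o then 0 else x o k) :=
      sum_nonneg fun k _ => by split_ifs; exacts [le_rfl, hx0 k]
    linarith
  have hXc : X ≤ cap σ y (g o) := by
    refine le_min hX1 ?_
    rw [hX, bal, push]
    refine sum_le_sum fun k _ => ?_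
    by_cases hk : d o k ≤ e ^ 2 * R o
    · rw [if_pos hk, if_pos (h.sig_eq ho hk)]
      exact (h.feas o).2.1 k
    · rw [if_neg hk]
      split_ifs
      · exact h.y0 k
      · exact le_rfl
  have h2 : ∑ k, x o k * (1 - cap σ y (σ k)) ≤ 2 * (1 - X) := by
    calc ∑ k, x o k * (1 - cap σ y (σ k))
        ≤ ∑ k, (x o k * (1 - X) + if d o k ≤ e ^ 2 * R o then 0 else x o k) := by
          refine sum_le_sum fun k _ => ?_
          by_cases hk : d o k ≤ e ^ 2 * R o
          · rw [if_pos hk, h.sig_eq ho hk]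
            have := mul_le_mul_of_nonneg_left hXc (hx0 k)
            linarith
          · rw [if_neg hk]
            have h1 := mul_nonneg (hx0 k) (pre3_cap_nonneg (σ := σ) h.y0 (σ k))
            have h2 := mul_nonneg (hx0 k) (sub_nonneg.2 hX1)
            linarith
      _ = 2 * (1 - X) := by
          rw [sum_add_distrib, hsplit, ← sum_mul, (h.feas o).2.2]
          ring
  have hRj := h.toSpec0.R_nonneg j
  have hRo := h.toSpec0.R_nonneg o
  have hCj := h.toSpec0.C_nonneg j
  have h3 : 2 * R j * e ^ 3 * ∑ k, x o k * (1 - cap σ y (σ k)) ≤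
      2 * R j * e ^ 3 * (2 * (1 - X)) := mul_le_mul_of_nonneg_left h2 (by positivity)
  have h4 : R j ≤ (1 + e) * R o := by
    have := h.toSpec0.R_lip j o
    linarith
  have h5 : (1 - X) * (e ^ 2 * R o) ≤ 2 * C j :=
    (h.toSpec0.markov o _).trans (h.toSpec0.near_C ho hj hn)
  have h6 : R j * (4 * e ^ 3 * (1 - X)) ≤ (1 + e) * R o * (4 * e ^ 3 * (1 - X)) :=
    mul_le_mul_of_nonneg_right h4 (mul_nonneg (by positivity) (sub_nonneg.2 hX1))
  have h7 : 4 * e * (1 + e) * ((1 - X) * (e ^ 2 * R o)) ≤ 4 * e * (1 + e) * (2 * C j) :=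
    mul_le_mul_of_nonneg_left h5 (by positivity)
  have h8 : e * (e * C j) ≤ 1 / 100 * (e * C j) :=
    mul_le_mul_of_nonneg_right he1 (mul_nonneg he.le hCj)
  have h9 := mul_nonneg he.le hCj
  nlinarith

/-- the atom is at most the average -/
theorem avg (h : Spec d y J e x C R O g σ) {o : ι} (ho : o ∈ O) :
    ∑ j ∈ J.filter (fun j => d j o ≤ e * R o), bal d (x o) o (e ^ 2 * R o) * d j (g o) ≤
      ∑ j ∈ J.filter (fun j => d j o ≤ e * R o),
        ∑ k, if d o k ≤ e ^ 2 * R o then x o k * d j k else 0 := by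
  rw [sum_comm, ← mul_sum, bal, sum_mul]
  refine sum_le_sum fun k _ => ?_
  by_cases hk : d o k ≤ e ^ 2 * R o
  · simp only [if_pos hk]
    rw [← mul_sum]
    rcases (h.y0 k).eq_or_lt with hy | hy
    · have h0 : x o k = 0 := le_antisymm (hy ▸ (h.feas o).2.1 k) ((h.feas o).1 k)
      simp [h0]
    · exact mul_le_mul_of_nonneg_left (h.g2 o ho k hy hk) ((h.feas o).1 k)
  · simp only [if_neg hk]
    simp

/-- the cost of the preprocessing -/
theorem main (h : Spec d y J e x C R O g σ) :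
    ∃ x' : ι → ι → ℚ, (∀ j ∈ J, Feas (thin (e ^ 3) σ y) (x' j)) ∧
      ∑ j ∈ J, cst d j (x' j) ≤ (1 + 30 * e) * ∑ j ∈ J, C j := by
  classical
  have he := h.e0
  have he1 := h.e1
  set F : ι → ι → ℚ := fun o j => bal d (x o) o (e ^ 2 * R o) * d j (g o) +
    (1 + 3 * e) * (∑ k, if d o k ≤ e ^ 2 * R o then 0 else x o k * d j k) + 12 * e * C j with hF
  have key : ∀ j, ∃ x' : ι → ℚ, j ∈ J → Feas (thin (e ^ 3) σ y) x' ∧ cst d j x' ≤
      (if ∀ o ∈ O, ¬ d j o ≤ e * R o then (1 + 30 * e) * C j else 0) +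
        ∑ o ∈ O, if d j o ≤ e * R o then F o j else 0 := by
    intro j
    by_cases hj : j ∈ J
    swap
    · exact ⟨0, fun h' => absurd h' hj⟩
    by_cases hf : ∀ o ∈ O, ¬ d j o ≤ e * R o
    · obtain ⟨x', h1, h2⟩ := h.free hj hf
      refine ⟨x', fun _ => ⟨h1, ?_⟩⟩
      rw [if_pos hf, sum_eq_zero fun o ho => if_neg (hf o ho)]
      have := mul_nonneg he.le (h.toSpec0.C_nonneg j)
      linarith
    · rw [if_neg hf]
      push Not at hf
      obtain ⟨o, ho, hn⟩ := hf
      obtain ⟨x', h1, h2⟩ := h.near1 ho hj hn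
      refine ⟨x', fun _ => ⟨h1, ?_⟩⟩
      rw [h.pre3_sum_near ho hn (fun o => F o j), zero_add]
      exact h2
  choose x' hx' using key
  refine ⟨x', fun j hj => (hx' j hj).1, ?_⟩
  have hfib : ∀ o ∈ O, ∑ j ∈ J, (if d j o ≤ e * R o then F o j else 0) ≤
      ∑ j ∈ J, (if d j o ≤ e * R o then (1 + 30 * e) * C j else 0) := by
    intro o ho
    rw [← sum_filter, ← sum_filter]
    have ha := h.avg ho
    simp only [hF]
    rw [sum_add_distrib, sum_add_distrib]
    refine (add_le_add (add_le_add ha le_rfl) le_rfl).trans ?_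
    rw [← sum_add_distrib, ← sum_add_distrib]
    refine sum_le_sum fun j hj => ?_
    rw [mem_filter] at hj
    have hc := h.toSpec0.near_cst ho hj.1 hj.2
    have hs : cst d j (x o) = (∑ k, if d o k ≤ e ^ 2 * R o then x o k * d j k else 0) +
        ∑ k, if d o k ≤ e ^ 2 * R o then 0 else x o k * d j k := by
      rw [cst, ← sum_add_distrib]
      refine sum_congr rfl fun k _ => ?_
      split_ifs <;> simp
    have hp : 0 ≤ ∑ k, if d o k ≤ e ^ 2 * R o then x o k * d j k else 0 :=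
      sum_nonneg fun k _ => by
        split_ifs
        exacts [mul_nonneg ((h.feas o).1 k) (h.met.nonneg j k), le_rfl]
    have hCj := h.toSpec0.C_nonneg j
    have h1 : (1 + 3 * e) * cst d j (x o) ≤ (1 + 3 * e) * ((1 + 12 * e) * C j) :=
      mul_le_mul_of_nonneg_left hc (by linarith)
    have h2 := mul_nonneg he.le hp
    have h8 : e * (e * C j) ≤ 1 / 100 * (e * C j) :=
      mul_le_mul_of_nonneg_right he1 (mul_nonneg he.le hCj)
    have h9 := mul_nonneg he.le hCj
    rw [hs] at h1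
    nlinarith
  calc ∑ j ∈ J, cst d j (x' j)
      ≤ ∑ j ∈ J, ((if ∀ o ∈ O, ¬ d j o ≤ e * R o then (1 + 30 * e) * C j else 0) +
        ∑ o ∈ O, if d j o ≤ e * R o then F o j else 0) := sum_le_sum fun j hj => (hx' j hj).2
    _ ≤ ∑ j ∈ J, ((if ∀ o ∈ O, ¬ d j o ≤ e * R o then (1 + 30 * e) * C j else 0) +
        ∑ o ∈ O, if d j o ≤ e * R o then (1 + 30 * e) * C j else 0) := by
        rw [sum_add_distrib, sum_add_distrib, sum_comm (s := J) (t := O),
          sum_comm (s := J) (t := O)]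
        exact add_le_add le_rfl (sum_le_sum hfib)
    _ = (1 + 30 * e) * ∑ j ∈ J, C j := by
        rw [mul_sum]
        refine sum_congr rfl fun j _ => ?_
        by_cases hf : ∀ o ∈ O, ¬ d j o ≤ e * R o
        · rw [if_pos hf, sum_eq_zero fun o ho => if_neg (hf o ho), add_zero]
        · rw [if_neg hf]
          push Not at hf
          obtain ⟨o, ho, hn⟩ := hf
          rw [h.pre3_sum_near ho hn (fun _ => (1 + 30 * e) * C j), zero_add]

end Spec

end Crest.Agent.R310.Pre
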