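import Crest.Agent.R310.IO
import Crest.Agent.R310.AlgGreedy

/-! Row 310: the list version of the preprocessing. -/

set_option autoImplicit false

open Crest.LogicCS.KMedian Crest.Agent.Lib.PolyTime

namespace Crest.Agent.R310.PL

def bm (r : Raw) (y : List ℚ) (j t : ℕ) : ℚ :=
  ∑ i ∈ Finset.range r.n, if r.d j i ≤ (t : ℚ) then y.getD i 0 else 0

def cq (C : ℕ) (r : Raw) (y : List ℚ) (j : ℕ) : ℚ :=
  ((List.range (C * r.n ^ 2)).map fun t => max 0 (1 - bm r y j t)).sum

def rq (C : ℕ) (e : ℚ) (r : Raw) (y : List ℚ) (j : ℕ) : ℚ :=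
  (((List.range (C * r.n ^ 2 + 1)).countP fun t => decide (bm r y j t < 1 + e) : ℕ) : ℚ)

def isO (C : ℕ) (e : ℚ) (r : Raw) (y : List ℚ) (o : ℕ) : Bool :=
  decide (cq C r y o < e ^ 2 * rq C e r y o) &&
    r.cl.all fun j => !decide (cq C r y j < e ^ 2 * rq C e r y j) ||
      (!decide (r.d j o ≤ e * rq C e r y o) ||
        (decide (cq C r y o < cq C r y j) || (decide (cq C r y o = cq C r y j) && decide (o ≤ j))))

def ol (C : ℕ) (e : ℚ) (r : Raw) (y : List ℚ) : List ℕ := r.cl.filter (isO C e r y)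

def sc (C : ℕ) (e : ℚ) (r : Raw) (y : List ℚ) (o k : ℕ) : ℚ :=
  (r.cl.map fun j => if r.d j o ≤ e * rq C e r y o then r.d j k else 0).sum

def cands (C : ℕ) (e : ℚ) (r : Raw) (y : List ℚ) (o : ℕ) : List ℕ :=
  (List.range r.n).filter fun k =>
    decide (0 < y.getD k 0) && decide (r.d o k ≤ e ^ 2 * rq C e r y o)

def gn (C : ℕ) (e : ℚ) (r : Raw) (y : List ℚ) (o : ℕ) : ℕ :=
  Alg.pick (sc C e r y o) ((cands C e r y o).headD o) (cands C e r y o)

def sg (C : ℕ) (e : ℚ) (r : Raw) (y : List ℚ) (k : ℕ) : ℕ :=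
  (((ol C e r y).find? fun o => decide (r.d o k ≤ e ^ 2 * rq C e r y o)).map (gn C e r y)).getD k

def cp (C : ℕ) (e : ℚ) (r : Raw) (y : List ℚ) (k' : ℕ) : ℚ :=
  min 1 ((List.range r.n).map fun k => if sg C e r y k = k' then y.getD k 0 else 0).sum

def tot (r : Raw) (y : List ℚ) : ℚ := ((List.range r.n).map fun k => y.getD k 0).sum

def pre (C : ℕ) (e : ℚ) (r : Raw) (y : List ℚ) : List ℚ :=
  if tot r y < 1 + e then y else
    (List.range r.n).map fun k => cp C e r y k * (1 - e ^ 3 * (1 - cp C e r y k))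

section
variable {α : Type} [PEnc α] {r : α → Raw} {y : α → List ℚ} {j k : α → ℕ}

@[fun_prop] theorem poly_bm (hr : Poly r) (hy : Poly y) (hj : Poly j) (hk : Poly k) :
    Poly fun a => bm (r a) (y a) (j a) (k a) := by
  unfold bm
  refine Poly.sum_range (f := fun a i => if (r a).d (j a) i ≤ (k a : ℚ) then (y a).getD i 0 else 0)
    (by fun_prop) (by fun_prop) ?_
  fun_prop

@[fun_prop] theorem poly_cq (C : ℕ) (hr : Poly r) (hy : Poly y) (hj : Poly j) :
    Poly fun a => cq C (r a) (y a) (j a) := by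
  unfold cq
  refine Poly.listSum (Lib.PolyTime.Poly.map
    (f := fun a t => max 0 (1 - bm (r a) (y a) (j a) t)) (by fun_prop) ?_)
  fun_prop

@[fun_prop] theorem poly_rq (C : ℕ) (e : ℚ) (hr : Poly r) (hy : Poly y) (hj : Poly j) :
    Poly fun a => rq C e (r a) (y a) (j a) := by
  unfold rq
  refine Poly.natCastRat (Poly.countP
    (f := fun a t => decide (bm (r a) (y a) (j a) t < 1 + e)) (by fun_prop) ?_)
  fun_prop

theorem poly_cmul (c : ℚ) {f : α → ℚ} (hf : Poly f) : Poly fun a => c * f a := by fun_prop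

@[fun_prop] theorem poly_isO (C : ℕ) (e : ℚ) (hr : Poly r) (hy : Poly y) (hj : Poly j) :
    Poly fun a => isO C e (r a) (y a) (j a) := by
  unfold isO
  generalize e ^ 2 = e2
  refine Poly.and (by fun_prop) (Poly.all (f := fun a i =>
    !decide (cq C (r a) (y a) i < e2 * rq C e (r a) (y a) i) ||
      (!decide ((r a).d i (j a) ≤ e * rq C e (r a) (y a) (j a)) ||
        (decide (cq C (r a) (y a) (j a) < cq C (r a) (y a) i) ||
          (decide (cq C (r a) (y a) (j a) = cq C (r a) (y a) i) && decide (j a ≤ i)))))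
    (by fun_prop) ?_)
  fun_prop

@[fun_prop] theorem poly_ol (C : ℕ) (e : ℚ) (hr : Poly r) (hy : Poly y) :
    Poly fun a => ol C e (r a) (y a) := by
  unfold ol
  refine Poly.filter (f := fun a o => isO C e (r a) (y a) o) (by fun_prop) ?_
  fun_prop

@[fun_prop] theorem poly_sc (C : ℕ) (e : ℚ) (hr : Poly r) (hy : Poly y) (hj : Poly j)
    (hk : Poly k) : Poly fun a => sc C e (r a) (y a) (j a) (k a) := by
  unfold sc
  refine Poly.listSum (Lib.PolyTime.Poly.map (f := fun a i =>
    if (r a).d i (j a) ≤ e * rq C e (r a) (y a) (j a) then (r a).d i (k a) else 0) (by fun_prop) ?_)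
  fun_prop

@[fun_prop] theorem poly_cands (C : ℕ) (e : ℚ) (hr : Poly r) (hy : Poly y) (hj : Poly j) :
    Poly fun a => cands C e (r a) (y a) (j a) := by
  unfold cands
  generalize e ^ 2 = e2
  refine Poly.filter (f := fun a i => decide (0 < (y a).getD i 0) &&
    decide ((r a).d (j a) i ≤ e2 * rq C e (r a) (y a) (j a))) (by fun_prop) ?_
  fun_prop

@[fun_prop] theorem poly_gn (C : ℕ) (e : ℚ) (hr : Poly r) (hy : Poly y) (hj : Poly j) :
    Poly fun a => gn C e (r a) (y a) (j a) := by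
  unfold gn
  exact Alg.poly_pick (ψ := fun a => sc C e (r a) (y a) (j a)) (by fun_prop) (by fun_prop)
    (by fun_prop)

@[fun_prop] theorem poly_sg (C : ℕ) (e : ℚ) (hr : Poly r) (hy : Poly y) (hk : Poly k) :
    Poly fun a => sg C e (r a) (y a) (k a) := by
  unfold sg
  generalize e ^ 2 = e2
  refine Poly.getD (Poly.optionMap (g := fun a => gn C e (r a) (y a)) (Poly.find?
    (f := fun a o => decide ((r a).d o (k a) ≤ e2 * rq C e (r a) (y a) o)) (by fun_prop) ?_) ?_) hk
  · fun_prop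
  · fun_prop

@[fun_prop] theorem poly_cp (C : ℕ) (e : ℚ) (hr : Poly r) (hy : Poly y) (hk : Poly k) :
    Poly fun a => cp C e (r a) (y a) (k a) := by
  unfold cp
  refine Poly.ratMin (by fun_prop) (Poly.listSum (Lib.PolyTime.Poly.map (f := fun a i =>
    if sg C e (r a) (y a) i = k a then (y a).getD i 0 else 0) (by fun_prop) ?_))
  fun_prop

@[fun_prop] theorem poly_tot (hr : Poly r) (hy : Poly y) : Poly fun a => tot (r a) (y a) := by
  unfold tot
  refine Poly.listSum (Lib.PolyTime.Poly.map (f := fun a i => (y a).getD i 0) (by fun_prop) ?_)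
  fun_prop

theorem poly_pre (C : ℕ) (e : ℚ) (hr : Poly r) (hy : Poly y) :
    Poly fun a => pre C e (r a) (y a) := by
  unfold pre
  generalize e ^ 3 = e3
  refine Poly.ite (by fun_prop) hy (Lib.PolyTime.Poly.map (f := fun a i =>
    cp C e (r a) (y a) i * (1 - e3 * (1 - cp C e (r a) (y a) i))) (by fun_prop) ?_)
  fun_prop
end

end Crest.Agent.R310.PL
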