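import Crest.Agent.R310.IO
import Crest.Agent.R310.LP
import Crest.Agent.R310.Pre3
import Crest.Agent.R310.PreList

/-! Row 310: the preprocessed fractional solution in polynomial time. -/

set_option autoImplicit false

open Crest.LogicCS.KMedian Crest.Agent.Lib.PolyTime

namespace Crest.Agent.R310

/-- the properties of the preprocessed fractional solution -/
structure PreSpec (ε θ : ℚ) (a : ℕ) (I : Instance) (y : Fin I.N → ℚ) : Prop where
  nonneg : ∀ i, 0 ≤ y i
  le_one : ∀ i, y i ≤ 1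
  off : ∀ i, i ∉ I.facilities → y i = 0
  one_le : 1 ≤ ∑ i, y i
  mass : ∑ i, y i + θ / 2 * ∑ i, y i * (1 - y i) ≤ I.k + 1
  cost : ∃ x : Fin I.N → Fin I.N → ℚ, (∀ j i, 0 ≤ x j i) ∧ (∀ j i, x j i ≤ y i) ∧
    (∀ j ∈ I.clients, ∑ i, x j i = 1) ∧
    ∀ S : Finset (Fin I.N), S ⊆ I.facilities → S.Nonempty → S.card ≤ I.k →
      ∑ j ∈ I.clients, ∑ i, x j i * I.dist j i ≤ (1 + ε) * (I.cost S + 1 / a)

namespace PL

section
variable {C : ℕ} {e : ℚ} {I : Instance} {yl : List ℚ}

theorem sum_map_range (n : ℕ) (f : ℕ → ℚ) :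
    ((List.range n).map f).sum = ∑ t ∈ Finset.range n, f t := by
  induction n with
  | zero => simp
  | succ n ih => rw [List.range_succ, Finset.sum_range_succ, ← ih]; simp

theorem countP_range (n : ℕ) (p : ℕ → Prop) [DecidablePred p] :
    ((List.range n).countP fun t => decide (p t)) = ((Finset.range n).filter p).card := by
  induction n with
  | zero => simp
  | succ n ih =>
    rw [List.range_succ, List.countP_append, ih, Finset.range_add_one, Finset.filter_insert]
    split_ifs with h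
    · rw [Finset.card_insert_of_notMem (by simp)]
      simp [h]
    · simp [h]

theorem bm_eq (j : Fin I.N) (t : ℕ) :
    bm (toRaw I) yl j t = LP.ballM (fun i : Fin I.N => yl.getD i 0) (I.dist j) t := by
  rw [bm, toRaw_n, Finset.sum_range, LP.ballM]
  simp only [toRaw_d]

theorem cq_eq (j : Fin I.N) : cq C (toRaw I) yl j = ∑ t ∈ Finset.range (C * I.N ^ 2),
    max 0 (1 - LP.ballM (fun i : Fin I.N => yl.getD i 0) (I.dist j) t) := by
  rw [cq, sum_map_range, toRaw_n]
  simp only [bm_eq]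

theorem rq_eq (j : Fin I.N) : rq C e (toRaw I) yl j =
    (((Finset.range (C * I.N ^ 2 + 1)).filter fun t =>
      LP.ballM (fun i : Fin I.N => yl.getD i 0) (I.dist j) t < 1 + e).card : ℚ) := by
  rw [rq, countP_range, toRaw_n]
  simp only [bm_eq]

theorem tot_eq : tot (toRaw I) yl = ∑ i : Fin I.N, yl.getD i 0 := by
  rw [tot, sum_map_range, toRaw_n, Finset.sum_range]

theorem mem_ol (o : Fin I.N) : (o : ℕ) ∈ ol C e (toRaw I) yl ↔ o ∈ I.clients ∧
    cq C (toRaw I) yl o < e ^ 2 * rq C e (toRaw I) yl o ∧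
    ∀ j ∈ I.clients, cq C (toRaw I) yl j < e ^ 2 * rq C e (toRaw I) yl j →
      I.dist j o ≤ e * rq C e (toRaw I) yl o →
      cq C (toRaw I) yl o < cq C (toRaw I) yl j ∨
        (cq C (toRaw I) yl o = cq C (toRaw I) yl j ∧ o ≤ j) := by
  rw [ol, List.mem_filter, val_mem_cl, isO]
  simp only [Bool.and_eq_true, decide_eq_true_eq, List.all_eq_true, Bool.or_eq_true,
    Bool.not_eq_true', decide_eq_false_iff_not]
  refine and_congr_right fun _ => and_congr_right fun _ => ⟨fun h j hj h1 h2 => ?_, fun h j hj => ?_⟩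
  · have := h j (val_mem_cl.2 hj)
    rw [toRaw_d] at this
    tauto
  · obtain ⟨hlt, hj'⟩ := mem_cl.1 hj
    have := h ⟨j, hlt⟩ hj'
    rw [← toRaw_d I ⟨j, hlt⟩ o] at this
    tauto

theorem lt_of_mem_ol {o : ℕ} (h : o ∈ ol C e (toRaw I) yl) : o < I.N :=
  (mem_cl.1 (List.mem_filter.1 h).1).1

theorem mem_cands (o : Fin I.N) (k : ℕ) : k ∈ cands C e (toRaw I) yl o ↔ k < I.N ∧
    0 < yl.getD k 0 ∧ (toRaw I).d o k ≤ e ^ 2 * rq C e (toRaw I) yl o := by
  simp [cands]

theorem gn_mem {o : ℕ} (h : cands C e (toRaw I) yl o ≠ []) :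
    gn C e (toRaw I) yl o ∈ cands C e (toRaw I) yl o := by
  rcases Alg.pick_mem (sc C e (toRaw I) yl o) ((cands C e (toRaw I) yl o).headD o)
    (cands C e (toRaw I) yl o) with h1 | h1
  · rw [gn, h1]
    cases hh : cands C e (toRaw I) yl o with
    | nil => exact absurd hh h
    | cons x l => simp
  · exact h1

theorem gn_lt (o : Fin I.N) : gn C e (toRaw I) yl o < I.N := by
  by_cases h : cands C e (toRaw I) yl o = []
  · simp [gn, h, Alg.pick]
  · exact ((mem_cands o _).1 (gn_mem h)).1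

theorem sg_cases (k : Fin I.N) :
    (∃ o : Fin I.N, (o : ℕ) ∈ ol C e (toRaw I) yl ∧ I.dist o k ≤ e ^ 2 * rq C e (toRaw I) yl o ∧
      sg C e (toRaw I) yl k = gn C e (toRaw I) yl o) ∨
    ((∀ o : Fin I.N, (o : ℕ) ∈ ol C e (toRaw I) yl →
      ¬ I.dist o k ≤ e ^ 2 * rq C e (toRaw I) yl o) ∧ sg C e (toRaw I) yl k = k) := by
  unfold sg
  cases hh : (ol C e (toRaw I) yl).find?
      fun o => decide ((toRaw I).d o k ≤ e ^ 2 * rq C e (toRaw I) yl o) with
  | none =>
    refine Or.inr ⟨fun o ho => ?_, rfl⟩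
    have := List.find?_eq_none.1 hh o ho
    simpa using this
  | some o =>
    have h1 := List.mem_of_find?_eq_some hh
    have h2 := List.find?_some hh
    refine Or.inl ⟨⟨o, lt_of_mem_ol h1⟩, h1, ?_, rfl⟩
    rw [← toRaw_d]
    simpa using h2

theorem sg_lt (k : Fin I.N) : sg C e (toRaw I) yl k < I.N := by
  rcases sg_cases (C := C) (e := e) (yl := yl) k with ⟨o, -, -, h⟩ | ⟨-, h⟩
  · rw [h]; exact gn_lt o
  · rw [h]; exact k.2

theorem sc_eq (o k : Fin I.N) : sc C e (toRaw I) yl o k =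
    ∑ j ∈ I.clients.filter (fun j => I.dist j o ≤ e * rq C e (toRaw I) yl o), I.dist j k := by
  rw [sc, sum_cl, Finset.sum_filter]
  simp only [toRaw_d]

theorem cp_eq (k : Fin I.N) : cp C e (toRaw I) yl k =
    Pre.cap (fun i : Fin I.N => (⟨sg C e (toRaw I) yl i, sg_lt i⟩ : Fin I.N))
      (fun i => yl.getD i 0) k := by
  rw [cp, sum_map_range, toRaw_n, Finset.sum_range, Pre.cap, Pre.push]
  simp only [Fin.ext_iff]

theorem exists_spec (hI : I.Valid) (hC : IntInst C I) (he : 0 < e) (he1 : e ≤ 1 / 100)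
    (h0 : ∀ i : Fin I.N, 0 ≤ yl.getD i 0) (hs : 1 + e ≤ ∑ i : Fin I.N, yl.getD i 0) :
    ∃ x : Fin I.N → Fin I.N → ℚ, Pre.Spec I.dist (fun i => yl.getD i 0) I.clients e x
      (fun j => cq C (toRaw I) yl j) (fun j => rq C e (toRaw I) yl j)
      (Finset.univ.filter fun o : Fin I.N => (o : ℕ) ∈ ol C e (toRaw I) yl)
      (fun o => ⟨gn C e (toRaw I) yl o, gn_lt o⟩)
      (fun k => ⟨sg C e (toRaw I) yl k, sg_lt k⟩) := by
  have h : ∀ j, 1 ≤ LP.ballM (fun i : Fin I.N => yl.getD i 0) (I.dist j) (C * I.N ^ 2) := fun j => by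
    refine le_trans (by linarith) (hs.trans (le_of_eq (Finset.sum_congr rfl fun i _ => ?_)))
    obtain ⟨m, hm, hm'⟩ := hC j i
    rw [if_pos (by rw [hm]; exact_mod_cast hm')]
  choose x h1 h2 h3 h4 using fun j => LP.greedy h0 (I.dist j) _ (h j)
  have hR := fun j => Pre.rad_spec (y := fun i : Fin I.N => yl.getD i 0) (dj := I.dist j)
    (μ := 1 + e) h0 (by linarith) (C * I.N ^ 2) (hC j) hs
  have S0 : Pre.Spec0 I.dist (fun i => yl.getD i 0) I.clients e x
      (fun j => cq C (toRaw I) yl j) (fun j => rq C e (toRaw I) yl j)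
      (Finset.univ.filter fun o : Fin I.N => (o : ℕ) ∈ ol C e (toRaw I) yl) :=
    { met := ⟨hI.1, hI.2.2.1, hI.2.2.2.1⟩
      e0 := he
      e1 := he1
      y0 := h0
      feas := fun j => ⟨h1 j, h2 j, h3 j⟩
      cx := fun j => by rw [cq_eq]; exact h4 j
      opt := fun j z hz => by
        rw [cq_eq]
        exact Pre.cake_le _ (fun i => (hC j i).imp fun _ h => h.1) hz
      R1 := fun j => by rw [rq_eq]; exact (hR j).1
      R2 := fun j => by rw [rq_eq]; exact (hR j).2
      memO := fun o => by rw [Finset.mem_filter, mem_ol]; simp }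
  have hne : ∀ o : Fin I.N, (o : ℕ) ∈ ol C e (toRaw I) yl → cands C e (toRaw I) yl o ≠ [] := by
    intro o ho
    obtain ⟨k, hk1, hk2⟩ := S0.exists_pos (o := o) (by simpa using ho)
    exact List.ne_nil_of_mem ((mem_cands o k).2 ⟨k.2, hk1, by rw [toRaw_d]; exact hk2⟩)
  refine ⟨x, S0, fun o ho => ?_, fun o ho k hk1 hk2 => ?_, fun k => ?_⟩
  · obtain ⟨a1, a2, a3⟩ := (mem_cands o _).1 (gn_mem (hne o (by simpa using ho)))
    rw [toRaw_d' I o.2 a1] at a3
    exact ⟨a2, a3⟩
  · rw [← sc_eq, ← sc_eq]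
    exact (Alg.pick_le _ _ _).2 _ ((mem_cands o k).2 ⟨k.2, hk1, by rw [toRaw_d]; exact hk2⟩)
  · rcases sg_cases (C := C) (e := e) (yl := yl) k with ⟨o, a1, a2, a3⟩ | ⟨a1, a2⟩
    · exact Or.inl ⟨o, by simpa using a1, a2, Fin.ext a3⟩
    · exact Or.inr ⟨fun o ho => a1 o (by simpa using ho), Fin.ext a2⟩
end

end PL

/-- the LP solution as a list of rationals -/
def lpL (a C : ℕ) (r : Raw) : List ℚ := (lpY a C r).map fun m : ℕ => (m : ℚ) / lpT a C r

theorem lpL_getD (a C : ℕ) (I : Instance) (i : Fin I.N) :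
    (lpL a C (toRaw I)).getD i 0 = lpy a C I i := by
  have h : (i : ℕ) < (lpY a C (toRaw I)).length := by rw [length_lpY]; exact i.2
  simp [lpL, lpy, List.getD_eq_getElem?_getD, h]

theorem poly_lpL (a C : ℕ) : Poly (lpL a C) := by
  unfold lpL
  refine Lib.PolyTime.Poly.map (l := fun r => lpY a C r)
    (f := fun r (m : ℕ) => (m : ℚ) / lpT a C r) (by fun_prop) ?_
  fun_prop

theorem exists_pre {ε : ℚ} (hε : 0 < ε) (C : ℕ) {a : ℕ} (ha : 0 < a) :
    ∃ (θ : ℚ) (Y : Raw → List ℚ), 0 < θ ∧ θ ≤ 1 ∧ Poly Y ∧ ∀ I : Instance, I.Valid →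
      IntInst C I → PreSpec ε θ a I fun i => (Y (toRaw I)).getD i 0 := by
  obtain ⟨e, he, he1, he2⟩ : ∃ e : ℚ, 0 < e ∧ e ≤ 1 / 100 ∧ 30 * e ≤ ε :=
    ⟨min (ε / 30) (1 / 100), by positivity, min_le_right _ _, by
      have := min_le_left (ε / 30) (1 / 100); linarith⟩
  have hθ0 : 0 < e ^ 3 := by positivity
  have hθ1 : e ^ 3 ≤ 1 := pow_le_one₀ he.le (by linarith)
  refine ⟨e ^ 3, fun r => PL.pre C e r (lpL a C r), hθ0, hθ1,
    PL.poly_pre C e (by fun_prop) (poly_lpL a C), fun I hI hC => ?_⟩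
  have hy : (fun i : Fin I.N => (lpL a C (toRaw I)).getD i 0) = lpy a C I :=
    funext (lpL_getD a C I)
  have hk : (1 : ℚ) ≤ I.k := by exact_mod_cast hI.2.2.2.2.1
  have hpos : ∀ S : Finset (Fin I.N), S.Nonempty → 0 ≤ I.cost S + 1 / a := by
    intro S hS
    have : 0 ≤ I.cost S := by
      rw [Instance.cost, dif_pos hS]
      refine Finset.sum_nonneg fun j _ => Finset.le_inf' _ _ fun i _ => ?_
      obtain ⟨m, hm, -⟩ := hC j i
      rw [hm]; positivity
    positivity
  by_cases ht : PL.tot (toRaw I) (lpL a C (toRaw I)) < 1 + e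
  · simp only [PL.pre, if_pos ht]
    rw [PL.tot_eq] at ht
    rw [hy] at ht ⊢
    obtain ⟨x, x1, x2, x3, x4⟩ := lp_spec ha hI hC
    refine ⟨lpy_nonneg a C I, lpy_le_one a C I, fun i hi => lpy_eq_zero a C hI hi,
      one_le_sum_lpy a C hI, ?_, x, x1, x2, fun j _ => x3 j, fun S h1 h2 h3 => ?_⟩
    · have h1 : ∑ i, lpy a C I i * (1 - lpy a C I i) ≤ ∑ i, lpy a C I i :=
        Finset.sum_le_sum fun i _ => by nlinarith [lpy_nonneg a C I i]
      have h2 : e ^ 3 / 2 * ∑ i, lpy a C I i * (1 - lpy a C I i) ≤ 1 / 2 * (1 + e) := by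
        refine mul_le_mul (by linarith) (by linarith) ?_ (by norm_num)
        exact Finset.sum_nonneg fun i _ =>
          mul_nonneg (lpy_nonneg a C I i) (sub_nonneg.2 (lpy_le_one a C I i))
      linarith
    · have := hpos S h2
      have := x4 S h1 h2 h3
      nlinarith
  · simp only [PL.pre, if_neg ht]
    rw [PL.tot_eq, not_lt] at ht
    obtain ⟨x, hS⟩ := PL.exists_spec hI hC he he1
      (fun i => by rw [lpL_getD]; exact lpy_nonneg a C I i) ht
    have e1 : (fun i : Fin I.N => ((List.range (toRaw I).n).map fun k =>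
        PL.cp C e (toRaw I) (lpL a C (toRaw I)) k *
          (1 - e ^ 3 * (1 - PL.cp C e (toRaw I) (lpL a C (toRaw I)) k))).getD i 0) =
        Pre.thin (e ^ 3) (fun k : Fin I.N =>
          (⟨PL.sg C e (toRaw I) (lpL a C (toRaw I)) k, PL.sg_lt k⟩ : Fin I.N))
          fun i => (lpL a C (toRaw I)).getD i 0 := by
      funext i
      rw [Pre.thin, ← PL.cp_eq]
      simp [List.getD_eq_getElem?_getD]
    rw [e1]
    obtain ⟨x', hx1, hx2⟩ := hS.main
    have y0 := hS.y0
    have t0 := Pre.thin_nonneg (σ := fun k : Fin I.N =>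
      (⟨PL.sg C e (toRaw I) (lpL a C (toRaw I)) k, PL.sg_lt k⟩ : Fin I.N)) y0 hθ0.le hθ1
    obtain ⟨f, -⟩ := Finset.card_pos.1 (hI.2.2.2.2.1.trans hI.2.2.2.2.2)
    refine ⟨t0, Pre.thin_le_one y0 hθ0.le hθ1, fun i hi => hS.thin_supp ?_, ?_, ?_,
      fun j i => if j ∈ I.clients then x' j i else 0, fun j i => ?_, fun j i => ?_,
      fun j hj => ?_, fun S h1 h2 h3 => ?_⟩
    · rw [lpL_getD]; exact lpy_eq_zero a C hI hi
    · refine (hS.heavy f).trans (Finset.sum_le_sum fun i _ => ?_)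
      split_ifs
      · exact le_rfl
      · exact t0 i
    · refine (Pre.thin_mass y0 hθ0.le hθ1).trans ?_
      have := sum_lpy_le a C hI
      simp only [lpL_getD]
      linarith
    · beta_reduce
      split_ifs with hj
      · exact (hx1 j hj).1 i
      · exact le_rfl
    · beta_reduce
      split_ifs with hj
      · exact (hx1 j hj).2.1 i
      · exact t0 i
    · simp only [if_pos hj]
      exact (hx1 j hj).2.2
    · have h4 := lp_cover ha hI hC h1 h2 h3
      have h5 : ∑ j ∈ I.clients, PL.cq C (toRaw I) (lpL a C (toRaw I)) j ≤ I.cost S + 1 / a := by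
        simp only [PL.cq_eq, hy]
        exact h4
      have h6 : ∑ j ∈ I.clients, ∑ i, (if j ∈ I.clients then x' j i else 0) * I.dist j i =
          ∑ j ∈ I.clients, Pre.cst I.dist j (x' j) :=
        Finset.sum_congr rfl fun j hj => by simp only [if_pos hj, Pre.cst]
      rw [h6]
      have := hpos S h2
      refine hx2.trans ?_
      calc _ ≤ (1 + 30 * e) * (I.cost S + 1 / a) := mul_le_mul_of_nonneg_left h5 (by linarith)
        _ ≤ _ := mul_le_mul_of_nonneg_right (by linarith) this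

end Crest.Agent.R310
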