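import Crest.Agent.R310.ProcRun
import Crest.Agent.R310.PreAlg

/-! Row 310: the pseudo-approximation on bounded integer metrics, for an abstract design. -/

set_option autoImplicit false

open Finset Crest.LogicCS.KMedian Crest.Agent.Lib.PolyTime

namespace Crest.Agent.R310

namespace Env

theorem poly_lp {α : Type} [PEnc α] {E : α → Env} (h : Poly E) : Poly fun a => (E a).lp :=
  Poly.listSum (Lib.PolyTime.Poly.map (by fun_prop)
    (poly_sm (by fun_prop) (by fun_prop) (by fun_prop)))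

variable {E : Env}

theorem lp_eq (E : Env) : E.lp = ∑ j ∈ E.1.cl.toFinset,
    ∑ k : Fin E.n, fill (fun i : Fin E.n => E.y i) (fun i => E.d j i) k * E.d j k := by
  rw [lp, ← List.sum_toFinset _ E.1.nodup_cl]
  simp only [sm_fin, x_eq]

theorem Ok.lp_nonneg (hE : E.Ok) : 0 ≤ E.lp := by
  rw [lp_eq]
  exact sum_nonneg fun j hj => sum_nonneg fun k _ =>
    mul_nonneg (fill_nonneg (fun i => hE.y0 i i.2) _ k) (hE.d_nonneg (lt_of_cl hj) k.2)

theorem Ok.lp_le (hE : E.Ok) : E.lp ≤ E.n * E.M := by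
  rw [lp_eq]
  refine (sum_le_card_nsmul _ _ (E.M : ℚ) fun j hj => ?_).trans ?_
  · refine (sum_le_sum fun (k : Fin E.n) _ => mul_le_mul_of_nonneg_left
      (hE.d_le j (lt_of_cl hj) k k.2)
      (fill_nonneg (fun i => hE.y0 i i.2) _ k)).trans_eq ?_
    rw [← sum_mul, sum_fill (fun i => hE.y0 i i.2) _ (sm_fin _ _ ▸ hE.ysum), one_mul]
  · rw [nsmul_eq_mul]
    exact mul_le_mul_of_nonneg_right (by exact_mod_cast card_cl E) (Nat.cast_nonneg _)

theorem Ok.lp_opt (hE : E.Ok) {x : ℕ → ℕ → ℚ} (h0 : ∀ j k, 0 ≤ x j k)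
    (hy : ∀ j, ∀ k < E.n, x j k ≤ E.y k) (h1 : ∀ j ∈ E.1.cl, sm E.n (x j) = 1) :
    E.lp ≤ (E.1.cl.map fun j => sm E.n fun k => x j k * E.d j k).sum := by
  rw [lp_eq, ← List.sum_toFinset _ E.1.nodup_cl]
  refine sum_le_sum fun j hj => ?_
  rw [sm_fin]
  exact fill_opt (fun i => hE.y0 i i.2) _ (sm_fin _ _ ▸ hE.ysum) (x := fun k => x j k)
    (fun k => h0 j k) (fun k => hy j k k.2) (sm_fin _ _ ▸ h1 j (List.mem_toFinset.1 hj))

end Env

namespace Core

variable (C L W : ℕ) (ε : ℚ)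

def Mx (r : Raw) : ℕ := C * r.n ^ 2 + 1
def Pp (r : Raw) : ℕ := W * (r.n + 1) ^ 3 * (Mx C r + 1)
def env₀ (r : Raw) (y : List ℚ) : Env := (r, y, (⟨0⟩, ⟨0⟩, ⟨0⟩), 0, 0, 0, 0, 0, 0, 0)
def act (r : Raw) (y : List ℚ) : ℚ := sm r.n fun k => y.getD k 0 * (1 - y.getD k 0)
def env (r : Raw) (y : List ℚ) : Env :=
  (r, y, (⟨Mx C r⟩, ⟨Pp C W r * (320 * Pp C W r ^ 3)⟩, ⟨Pp C W r * (163840 * Pp C W r ^ 5)⟩),
    2 * Pp C W r * (163840 * Pp C W r ^ 5), L, 1 / (320 * Pp C W r ^ 3),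
    ε * ((env₀ r y).lp + 1) / ((8 * L + 6) * (act r y + 1)), 1 / (4 * Pp C W r),
    sm r.n (fun k => y.getD k 0) + act r y / L, 1 / (4 * Pp C W r))
def alg {s : Design} (A : s.Alg) (r : Raw) (y : List ℚ) : List Bool :=
  mask r.n (r.fa.headD 0 ::
    ((env C L W ε r y).run A ((Pp C W r + 1) * (163840 * Pp C W r ^ 5))).1)

theorem poly_alg {α : Type} [PEnc α] {r : α → Raw} {y : α → List ℚ} {s : Design} (A : s.Alg)
    (hr : Poly r) (hy : Poly y) : Poly fun a => alg C L W ε A (r a) (y a) := by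
  have h1 : Poly fun a => Mx C (r a) := by unfold Mx; fun_prop
  have h2 : PB fun a => Mx C (r a) := by unfold Mx; fun_prop
  have h3 : Poly fun a => Pp C W (r a) := by unfold Pp; fun_prop
  have h4 : PB fun a => Pp C W (r a) := by unfold Pp; fun_prop
  have h5 : Poly fun a => env₀ (r a) (y a) := by unfold env₀; fun_prop
  have h6 : Poly fun a => (env₀ (r a) (y a)).lp := Env.poly_lp h5
  have h7 : Poly fun a => act (r a) (y a) := poly_sm (by fun_prop) (by fun_prop) (by fun_prop)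
  have h8 : Poly fun a => sm (r a).n fun k => (y a).getD k 0 :=
    poly_sm (by fun_prop) (by fun_prop) (by fun_prop)
  have h9 : Poly fun a => env C L W ε (r a) (y a) := by unfold env; fun_prop
  have h10 := Env.poly_run A h9 (T := fun a => (Pp C W (r a) + 1) * (163840 * Pp C W (r a) ^ 5))
    (by fun_prop) (by fun_prop)
  unfold alg
  fun_prop

variable {C L W ε} {s : Design} (A : s.Alg)

theorem par {r : Raw} {y : List ℚ} (hE : (env C L W ε r y).Ok) (hε : 0 ≤ ε) (hε1 : ε ≤ 1)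
    (hW : s.C + s.θ + 2 * A.K + 8 * L + 21 ≤ W) : Env.Par A (env C L W ε r y) (Pp C W r) := by
  set E := env C L W ε r y with hEq
  have hC := s.C_nonneg
  have hθ := s.one_le_θ
  have hK : (0 : ℝ) ≤ A.K := Nat.cast_nonneg _
  have hL : (0 : ℝ) ≤ L := Nat.cast_nonneg _
  have hn : (0 : ℝ) ≤ E.n := Nat.cast_nonneg _
  have hM : (0 : ℝ) ≤ E.M := Nat.cast_nonneg _
  have hP : (Pp C W r : ℝ) = W * ((E.n + 1) ^ 3 * (E.M + 1)) := by
    rw [Pp]; push_cast; rw [mul_assoc]; rfl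
  have h3 : (E.n + 1 : ℝ) ≤ (E.n + 1) ^ 3 := le_self_pow₀ (by linarith) (by norm_num)
  have hU : (E.n + 1 : ℝ) * (E.M + 1) ≤ (E.n + 1) ^ 3 * (E.M + 1) := by gcongr
  have hnM := mul_nonneg hn hM
  have key : ∀ {u v : ℝ}, u ≤ W → 0 ≤ v → v ≤ (E.n + 1 : ℝ) * (E.M + 1) → u * v ≤ Pp C W r :=
    fun hu hv hv' => hP ▸ mul_le_mul hu (hv'.trans hU) hv (Nat.cast_nonneg _)
  have hP1 : (1 : ℝ) ≤ Pp C W r := by
    simpa using key (u := 1) (v := 1) (by linarith) zero_le_one (by nlinarith)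
  have hn1 : (E.n : ℝ) ≤ Pp C W r := by
    simpa using key (u := 1) (v := E.n) (by linarith) hn (by nlinarith)
  have hA : 0 ≤ act r y := hE.A_nonneg
  have hl0 : 0 ≤ E.lp := hE.lp_nonneg
  have hl1 : (E.lp : ℝ) ≤ E.n * E.M := by exact_mod_cast hE.lp_le
  have hη : E.η = ε * (E.lp + 1) / ((8 * L + 6) * (act r y + 1)) := rfl
  have hη0 : 0 ≤ E.η := by rw [hη]; positivity
  have hη1 : E.η * ((8 * L + 6) * (act r y + 1)) ≤ E.lp + 1 := by
    rw [hη, div_mul_cancel₀ _ (by positivity)]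
    exact mul_le_of_le_one_left (by linarith) hε1
  have hη2 : (E.η : ℝ) * ((8 * L + 6) * (act r y + 1)) ≤ E.lp + 1 := by exact_mod_cast hη1
  have hη0' : (0 : ℝ) ≤ E.η := by exact_mod_cast hη0
  have hA' : (0 : ℝ) ≤ act r y := by exact_mod_cast hA
  have hη3 : (E.η : ℝ) ≤ (E.n + 1) * (E.M + 1) := by
    nlinarith [mul_nonneg hη0' hA', mul_nonneg hη0' hL, mul_nonneg (mul_nonneg hη0' hL) hA']
  have hEL : ((E.L : ℚ) : ℝ) = L := Rat.cast_natCast L
  refine ⟨by exact_mod_cast hP1, rfl, rfl, rfl, rfl, rfl, rfl, hη0, rfl, ?_, ?_,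
    by exact_mod_cast hn1, ?_, ?_⟩
  · rw [mul_left_comm]
    exact key (by linarith) hnM (by nlinarith)
  · have := mul_le_mul_of_nonneg_right (by linarith : (8 * L + 18 : ℝ) ≤ W) (sq_nonneg (E.n + 1 : ℝ))
    rw [hP, hEL]
    calc _ ≤ (E.n + 1 : ℝ) * (E.M + 1) * (W * (E.n + 1) ^ 2) :=
          mul_le_mul hη3 (by nlinarith [mul_nonneg hL hn, mul_nonneg hL (sq_nonneg (E.n : ℝ))])
            (by positivity) (by positivity)
      _ = _ := by ring
  · have := key (u := 2 * A.K) (by linarith) hnM (by nlinarith)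
    have h : (E.n : ℝ) * (A.K * (2 * E.M)) ≤ Pp C W r := by linarith
    exact_mod_cast h
  · have h1 := hE.Ψ_start (s := s) (show 0 ≤ 1 / (4 * (Pp C W r : ℚ)) by positivity) rfl
    have h2 : ((E.ζ : ℚ) : ℝ) * E.n ≤ 1 := by
      have : ((E.ζ : ℚ) : ℝ) = 1 / (4 * Pp C W r) := by
        change ((1 / (4 * (Pp C W r : ℚ)) : ℚ) : ℝ) = _
        push_cast
        rfl
      rw [this, one_div, inv_mul_le_iff₀ (by positivity)]
      linarith
    have h4 := key (u := s.θ + 3) (by linarith) (by positivity) le_rfl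
    have h5 := mul_le_mul_of_nonneg_left hl1 (by linarith : 0 ≤ s.θ)
    rw [hEL] at h1
    change Env.Ψ s E E.X₀ ≤ s.θ * E.lp + E.η * ((8 * L + 6) * act r y) + E.ζ * E.n at h1
    nlinarith [mul_nonneg hη0' hL]

theorem ok {I : Instance} (hI : I.Valid) (hC : IntInst C I) {θ : ℚ} {a : ℕ} {y : List ℚ}
    (hy : PreSpec ε θ a I fun i => y.getD i 0) (hL : 1 ≤ L) (hW : 1 ≤ W) :
    (env C L W ε (toRaw I) y).Ok := by
  have hn : (env C L W ε (toRaw I) y).n = I.N := toRaw_n I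
  have hd : ∀ {i j : ℕ} (hi : i < I.N) (hj : j < I.N),
      (env C L W ε (toRaw I) y).d i j = I.dist ⟨i, hi⟩ ⟨j, hj⟩ := fun hi hj => toRaw_d' I hi hj
  have hP : 1 ≤ Pp C W (toRaw I) := Nat.succ_le_of_lt (by unfold Pp; positivity)
  have hP' : (1 : ℚ) ≤ Pp C W (toRaw I) := by exact_mod_cast hP
  refine ⟨?_, ?_, ?_, ?_, ?_, Nat.le_add_left _ _, Nat.succ_le_of_lt ?_, Nat.succ_le_of_lt ?_, ?_,
    ?_, ?_, ?_, ?_, ?_⟩
  · rw [hn]
    intro i hi
    rw [hd hi hi, hI.1]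
  · rw [hn]
    intro i hi j hj
    rw [hd hi hj, hd hj hi, hI.2.2.1]
  · rw [hn]
    intro i hi j hj k hk
    rw [hd hi hj, hd hi hk, hd hj hk]
    exact hI.2.2.2.1 _ _ _
  · rw [hn]
    intro i hi j hj h
    obtain ⟨m, hm, -⟩ := hC ⟨i, hi⟩ ⟨j, hj⟩
    have := hI.2.1 ⟨i, hi⟩ ⟨j, hj⟩ fun e => h (congrArg Fin.val e)
    rw [hd hi hj, hm]
    rw [hm] at this
    exact_mod_cast this
  · rw [hn]
    intro i hi j hj
    obtain ⟨m, hm, hm'⟩ := hC ⟨i, hi⟩ ⟨j, hj⟩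
    rw [hd hi hj, hm]
    change (m : ℚ) ≤ (C * (toRaw I).n ^ 2 + 1 : ℕ)
    rw [toRaw_n]
    exact_mod_cast hm'.trans (Nat.le_succ _)
  · change 0 < Pp C W (toRaw I) * (320 * Pp C W (toRaw I) ^ 3)
    positivity
  · change 0 < 2 * Pp C W (toRaw I) * (163840 * Pp C W (toRaw I) ^ 5)
    positivity
  · change (1 : ℚ) ≤ L
    exact_mod_cast hL
  · change (0 : ℚ) < 1 / (320 * (Pp C W (toRaw I) : ℚ) ^ 3)
    positivity
  · change 1 / (320 * (Pp C W (toRaw I) : ℚ) ^ 3) ≤ 1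
    exact div_le_one_of_le₀ (by linarith [one_le_pow₀ (n := 3) hP']) (by positivity)
  · rw [hn]
    exact fun i hi => hy.nonneg ⟨i, hi⟩
  · rw [hn]
    exact fun i hi => hy.le_one ⟨i, hi⟩
  · rw [hn, sm_fin]
    exact hy.one_le

theorem good {I : Instance} (hI : I.Valid) (hC : IntInst C I) {θ : ℚ} {a c : ℕ} {y : List ℚ}
    (hy : PreSpec ε θ a I fun i => y.getD i 0) (hθ : 0 < θ) (hL1 : 1 ≤ L) (hL : 4 / (θ : ℝ) ≤ L)
    (hε : 0 < ε) (hε1 : ε ≤ 1 / 4) (hW : s.C + s.θ + 2 * A.K + 8 * L + 21 ≤ W) {α : ℝ}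
    (hα : (s.θ + ε) * (1 + ε) ≤ α) (ha : α * (1 / a) ≤ 1 / 4)
    (hc : (s.θ + 2) * (8 * L + 6) / ε / θ + θ / 4 + 2 ≤ c) :
    Good α 1 c I (decodeSet I.N (alg C L W ε A (toRaw I) y)) := by
  have hθ1 := s.one_le_θ
  have hW1 : 1 ≤ W := by
    have : (1 : ℝ) ≤ W := by
      linarith [s.C_nonneg, Nat.cast_nonneg (α := ℝ) A.K, Nat.cast_nonneg (α := ℝ) L]
    exact_mod_cast this
  have hE := ok hI hC hy hL1 hW1
  have hp := par A hE hε.le (by linarith) hW
  obtain ⟨hX, hdn, hΨ⟩ := hp.run_spec hE rfl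
  obtain ⟨h1, h2⟩ := hp.Ψ_end hE hX hdn
  have h0 := hE.Ψ_start (s := s) (by rw [hp.ζ_eq]; positivity) rfl
  rw [alg, toRaw_n]
  set E := env C L W ε (toRaw I) y with hEq
  set X := E.run A ((Pp C W (toRaw I) + 1) * (163840 * Pp C W (toRaw I) ^ 5))
  set f := (toRaw I).fa.headD 0
  have hn : E.n = I.N := toRaw_n I
  obtain ⟨hf, hf'⟩ : ∃ h : f < I.N, ⟨f, h⟩ ∈ I.facilities := mem_fa.1 (by
    have := lp_fa_ne_nil hI
    obtain ⟨z, l, e⟩ := List.exists_cons_of_ne_nil this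
    simp [f, e])
  have hne : (decodeSet I.N (mask I.N (f :: X.1))).Nonempty := ⟨⟨f, hf⟩, by simp⟩
  have hε' : (0 : ℝ) < ε := by exact_mod_cast hε
  have hε1' : (ε : ℝ) ≤ 1 / 4 := by
    have := (Rat.cast_le (K := ℝ)).2 hε1
    push_cast at this
    exact this
  have hθ' : (0 : ℝ) < θ := by exact_mod_cast hθ
  have hA : (0 : ℝ) ≤ act (toRaw I) y := by exact_mod_cast hE.A_nonneg
  have hl : (0 : ℝ) ≤ E.lp := by exact_mod_cast hE.lp_nonneg
  have hEL : ((E.L : ℚ) : ℝ) = L := Rat.cast_natCast L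
  have hL0 : (0 : ℝ) ≤ L := Nat.cast_nonneg _
  have hη : (E.η : ℝ) = ε * (E.lp + 1) / ((8 * L + 6) * (act (toRaw I) y + 1)) := by
    change ((ε * (E.lp + 1) / ((8 * L + 6) * (act (toRaw I) y + 1)) : ℚ) : ℝ) = _
    push_cast
    rfl
  have hη0 : (0 : ℝ) < E.η := by rw [hη]; positivity
  have hη1 : (E.η : ℝ) * ((8 * L + 6) * (act (toRaw I) y + 1)) = ε * (E.lp + 1) := by
    rw [hη, div_mul_cancel₀ _ (by positivity)]
  have hζ : ((E.ζ : ℚ) : ℝ) * E.n ≤ 1 / 4 := by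
    have hP : (0 : ℝ) < Pp C W (toRaw I) := by exact_mod_cast hp.P1
    have hn1 : (E.n : ℝ) ≤ Pp C W (toRaw I) := by exact_mod_cast hp.a3
    rw [hp.ζ_eq]
    push_cast
    rw [one_div, inv_mul_le_iff₀ (by positivity)]
    linarith
  rw [hEL] at h0
  change Env.Ψ s E E.X₀ ≤ s.θ * E.lp + E.η * ((8 * L + 6) * act (toRaw I) y) + E.ζ * E.n at h0
  have h3 : Env.Ψ s E X ≤ (s.θ + ε) * E.lp + ε + 1 / 4 := by nlinarith [mul_nonneg hη0.le hL0]
  refine ⟨fun i hi => ?_, hne, ?_, fun S hS hS' hk => ?_⟩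
  · rcases List.mem_cons.1 (mem_decodeSet_mask.1 hi) with e | h
    · exact (Fin.ext e : i = ⟨f, hf⟩) ▸ hf'
    · exact by_contra fun hi' => (hX.pos i h).ne' (hy.off i hi')
  · have h4 : (decodeSet I.N (mask I.N (f :: X.1))).card ≤ X.1.length + 1 := by
      rw [← card_image_of_injective _ Fin.val_injective]
      refine (card_le_card fun i hi => ?_).trans (List.toFinset_card_le (f :: X.1))
      obtain ⟨j, hj, rfl⟩ := mem_image.1 hi
      exact List.mem_toFinset.2 (mem_decodeSet_mask.1 hj)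
    have hs : ∑ i, E.yR i = (sm E.n E.y : ℚ) := (cast_sm _ _).symm
    have h5 := Bk.le_of_psi hE.yR_mem hX.bR_mem hθ' hL hA (Q := (s.θ + 2) * (8 * L + 6) / ε)
      (s := X.1.length) (k := I.k) (by positivity) (by
        have := hy.mass
        rw [← sm_fin I.N fun i => y.getD i 0,
          ← sm_fin I.N fun i => y.getD i 0 * (1 - y.getD i 0), ← toRaw_n I] at this
        rw [hs]
        exact_mod_cast this) (by
        have e : ∑ i, E.yR i + (act (toRaw I) y : ℝ) / L = E.μ := by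
          rw [hs, hp.μ_eq]
          push_cast
          rw [hEL]
          rfl
        rw [e, ← hEL]
        refine le_of_mul_le_mul_left (h2.trans (h3.trans ?_)) hη0
        have : (E.η : ℝ) * ((s.θ + 2) * (8 * (E.L : ℝ) + 6) / ε * (act (toRaw I) y + 1)) =
            (s.θ + 2) * (E.lp + 1) := by
          rw [hη, hEL]
          field_simp
        rw [this]
        nlinarith)
    have h6 : (X.1.length + 1 : ℝ) ≤ I.k + c := by linarith
    exact h4.trans (by exact_mod_cast h6)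
  · obtain ⟨x, x0, xy, x1, hx⟩ := hy.cost
    have h4 : E.lp ≤ ∑ j ∈ I.clients, ∑ i, x j i * I.dist j i := by
      refine (hE.lp_opt (x := fun j k => if h : j < I.N ∧ k < I.N then x ⟨j, h.1⟩ ⟨k, h.2⟩ else 0)
        (fun j k => ?_) (fun j k hk => ?_) fun j hj => ?_).trans_eq ?_
      · split_ifs
        exacts [x0 _ _, le_rfl]
      · split_ifs with h
        exacts [xy _ _, hE.y0 k hk]
      · obtain ⟨h, h'⟩ := mem_cl.1 hj
        rw [hn, sm_fin, ← x1 _ h']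
        simp [h]
      · refine (sum_cl I _).trans (sum_congr rfl fun j _ => ?_)
        rw [hn, sm_fin]
        exact sum_congr rfl fun k _ => by rw [dif_pos ⟨j.2, k.2⟩]; exact congrArg _ (toRaw_d I j k)
    have h5 : I.cost (decodeSet I.N (mask I.N (f :: X.1))) ≤ ∑ j ∈ E.1.cl.toFinset, E.D X.1 j := by
      rw [List.sum_toFinset _ E.1.nodup_cl]
      refine le_of_le_of_eq ?_ (sum_cl I _).symm
      rw [Instance.cost, dif_pos hne]
      refine sum_le_sum fun j _ => Env.le_D ?_ fun i hi => ?_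
      · refine (inf'_le _ (show ⟨f, hf⟩ ∈ _ by simp)).trans ?_
        rw [← toRaw_d' I j.2 hf]
        exact hE.d_le j (j.2.trans_eq hn.symm) f (hf.trans_eq hn.symm)
      · have hi' : i < I.N := hn ▸ hX.lt i hi
        exact (inf'_le _ (show ⟨i, hi'⟩ ∈ _ by simp [hi])).trans_eq (toRaw_d' I j.2 hi').symm
    have h6 := (Rat.cast_le (K := ℝ)).2 (h4.trans (hx S hS hS' hk))
    have h7 := (Rat.cast_le (K := ℝ)).2 h5
    push_cast at h6 h7
    have h8 : (0 : ℝ) ≤ I.cost S + 1 / a := le_of_mul_le_mul_left (by linarith) (by linarith : (0 : ℝ) < 1 + ε)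
    have h9 := mul_le_mul_of_nonneg_left h6 (by linarith : 0 ≤ s.θ + ε)
    have h10 := mul_le_mul_of_nonneg_right hα h8
    linarith

end Core

theorem core (s : Design) (A : s.Alg) {ε : ℝ} (hε : 0 < ε) (C : ℕ) :
    ∃ (c : ℕ) (g : List Bool → List Bool), Poly g ∧ CorePseudo (s.θ + ε) C c g := by
  have hθ := s.one_le_θ
  obtain ⟨e, he, he'⟩ := exists_rat_btwn (show 0 < min (1 / 4) (ε / (s.θ + 2)) by positivity)
  have he0 : 0 < e := by exact_mod_cast he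
  have he1 : (e : ℝ) ≤ 1 / 4 := (he'.trans_le (min_le_left _ _)).le
  have he2 : (e : ℝ) * (s.θ + 2) ≤ ε :=
    (le_div_iff₀ (by positivity)).1 (he'.trans_le (min_le_right _ _)).le
  have he3 : e ≤ 1 / 4 := (Rat.cast_le (K := ℝ)).1 (by push_cast; exact he1)
  obtain ⟨a, ha⟩ := exists_nat_ge (4 * (s.θ + ε))
  have ha0 : (0 : ℝ) < a := by linarith
  obtain ⟨θ, Y, h0, -, hY, hp⟩ := exists_pre he0 C (a := a) (by exact_mod_cast ha0)
  obtain ⟨L, hL⟩ := exists_nat_ge (max 1 (4 / (θ : ℝ)))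
  obtain ⟨W, hW⟩ := exists_nat_ge (s.C + s.θ + 2 * A.K + 8 * L + 21)
  obtain ⟨c, hc⟩ := exists_nat_ge ((s.θ + 2) * (8 * L + 6) / e / θ + θ / 4 + 2)
  obtain ⟨p, hpp, hp'⟩ := exists_parse
  refine ⟨c, fun w => Core.alg C L W e A (p w) (Y (p w)),
    Core.poly_alg C L W e A hpp (hY.comp hpp), fun I hI hC => ?_⟩
  simp only [Instance.opened, hp']
  refine Core.good A hI hC (hp I hI hC) h0 (by exact_mod_cast (le_max_left _ _).trans hL)
    ((le_max_right _ _).trans hL) he0 he3 hW (by nlinarith) ?_ hc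
  rw [mul_one_div, div_le_iff₀ ha0]
  linarith

end Crest.Agent.R310
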