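import Crest.Agent.R310.DesA

/-! # Row 310: the concrete design is a `Design` once (O) and (P) are known -/

set_option autoImplicit false

open Set

namespace Crest.Agent.R310.Des

section Kap

variable {c c' ρ ρ' : ℝ}

theorem kap_of_nonpos (h : ρ ≤ 0) : kap c ρ = 1 := if_pos h

theorem kap_of_le (h0 : 0 < ρ) (h : c ≤ ρ) : kap c ρ = 0 := by rw [kap, if_neg h0.not_ge, if_pos h]

theorem kap_of_lt (h0 : 0 < ρ) (h : ρ < c) : kap c ρ = min 1 (5 / 2 * (1 - ρ / c)) := by
  rw [kap, if_neg h0.not_ge, if_neg h.not_ge]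

theorem kap_mem (c ρ : ℝ) : kap c ρ ∈ Icc (0 : ℝ) 1 := by
  rcases le_or_gt ρ 0 with h | h
  · rw [kap_of_nonpos h]; exact ⟨zero_le_one, le_rfl⟩
  rcases le_or_gt c ρ with h' | h'
  · rw [kap_of_le h h']; exact ⟨le_rfl, zero_le_one⟩
  · rw [kap_of_lt h h']
    have : ρ / c ≤ 1 := (div_le_one (h.trans h')).2 h'.le
    exact ⟨le_min zero_le_one (by linarith), min_le_left _ _⟩

/-- the distance is at most the nominal one -/
theorem le_of_kap (hc : 0 ≤ c) (h : 0 < kap c ρ) : ρ ≤ c * (1 - 2 / 5 * kap c ρ) := by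
  rcases le_or_gt ρ 0 with h0 | h0
  · rw [kap_of_nonpos h0]; linarith
  rcases le_or_gt c ρ with h' | h'
  · rw [kap_of_le h0 h'] at h; exact absurd h (lt_irrefl _)
  · have hc' := h0.trans h'
    have h1 : kap c ρ ≤ 5 / 2 * (1 - ρ / c) := by rw [kap_of_lt h0 h']; exact min_le_right _ _
    have h2 := mul_le_mul_of_nonneg_left h1 hc
    have h3 : c * (ρ / c) = ρ := by field_simp
    nlinarith

/-- the distance is the nominal one -/
theorem eq_of_kap (h : ρ ≤ c) (h1 : kap c ρ < 1) : ρ = c * (1 - 2 / 5 * kap c ρ) := by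
  rcases le_or_gt ρ 0 with h0 | h0
  · rw [kap_of_nonpos h0] at h1; exact absurd h1 (lt_irrefl _)
  rcases h.eq_or_lt with rfl | h'
  · rw [kap_of_le h0 le_rfl]; ring
  · have hc' := h0.trans h'
    rw [kap_of_lt h0 h'] at h1 ⊢
    rw [min_eq_right ((min_lt_iff.1 h1).resolve_left (lt_irrefl _)).le]
    field_simp
    ring

theorem kap_anti (h : ρ ≤ ρ') : kap c ρ' ≤ kap c ρ := by
  rcases le_or_gt ρ 0 with h0 | h0
  · rw [kap_of_nonpos h0]; exact (kap_mem _ _).2
  rcases le_or_gt c ρ' with h' | h'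
  · rw [kap_of_le (h0.trans_le h) h']; exact (kap_mem _ _).1
  · rw [kap_of_lt (h0.trans_le h) h', kap_of_lt h0 (h.trans_lt h')]
    have := div_le_div_of_nonneg_right h ((h0.trans_le h).trans h').le
    exact min_le_min_left _ (by linarith)

theorem kap_mono (h : c ≤ c') : kap c ρ ≤ kap c' ρ := by
  rcases le_or_gt ρ 0 with h0 | h0
  · rw [kap_of_nonpos h0, kap_of_nonpos h0]
  rcases le_or_gt c ρ with h' | h'
  · rw [kap_of_le h0 h']; exact (kap_mem _ _).1
  · rw [kap_of_lt h0 h', kap_of_lt h0 (h'.trans_le h)]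
    have := div_le_div_of_nonneg_left h0.le (h0.trans h') h
    exact min_le_min_left _ (by linarith)

end Kap

section Lam

variable {b u t c k k' ρ : ℝ}

theorem mem_mul (hb : b ∈ Icc (0 : ℝ) 1) (hk : k ∈ Icc (0 : ℝ) 1) : b * (1 - k) ∈ Icc (0 : ℝ) 1 :=
  ⟨mul_nonneg hb.1 (sub_nonneg.2 hk.2), mul_le_one₀ hb.2 (sub_nonneg.2 hk.2) (sub_le_self _ hk.1)⟩

theorem mul_S (b u t k : ℝ) : k * S b u t k = Phi (b * (1 - k)) u t - Phi b u t := by
  rw [S]
  split_ifs with h
  · simp [h]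
  · field_simp

theorem S_zero (b u t : ℝ) : S b u t 0 = b * Pi b u t := if_pos rfl

theorem S_one (b u : ℝ) (ht : 0 ≤ t) : S b u t 1 = u - Phi b u t := by
  have := mul_S b u t 1
  rwa [one_mul, sub_self, mul_zero, Phi_zero u ht] at this

theorem le_S (u : ℝ) (ht : 0 ≤ t) (hb : b ∈ Icc (0 : ℝ) 1) (hk : k ∈ Icc (0 : ℝ) 1) :
    b * Pi b u t ≤ S b u t k := by
  rcases hk.1.eq_or_lt with rfl | h
  · rw [S_zero]
  · refine le_of_mul_le_mul_left ?_ h
    have := Phi_tan u ht hb (mem_mul hb hk)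
    rw [mul_S]
    linarith

/-- the chord slope is monotone -/
theorem chord_le (u : ℝ) (ht : 0 ≤ t) (hb : b ∈ Icc (0 : ℝ) 1) (hk : k ∈ Icc (0 : ℝ) 1)
    (h0 : 0 ≤ k') (h : k' ≤ k) : Phi (b * (1 - k')) u t - Phi b u t ≤ k' * S b u t k := by
  rcases hk.1.eq_or_lt with rfl | hk0
  · obtain rfl : k' = 0 := le_antisymm h h0
    simp
  · have := Phi_chord u ht hb (a := k' / k) ⟨div_nonneg h0 hk.1, (div_le_one hk0).2 h⟩ hk
    rwa [← mul_S b u t k, ← mul_assoc, div_mul_cancel₀ _ hk0.ne'] at this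

theorem S_mono (u : ℝ) (ht : 0 ≤ t) (hb : b ∈ Icc (0 : ℝ) 1) (hk : k ∈ Icc (0 : ℝ) 1)
    (h0 : 0 ≤ k') (h : k' ≤ k) : S b u t k' ≤ S b u t k := by
  rcases h0.eq_or_lt with rfl | h1
  · rw [S_zero]; exact le_S u ht hb hk
  · refine le_of_mul_le_mul_left ?_ h1
    rw [mul_S]
    exact chord_le u ht hb hk h0 h

theorem S_le (u : ℝ) (ht : 0 ≤ t) (hb : b ∈ Icc (0 : ℝ) 1) (hk : k ∈ Icc (0 : ℝ) 1) :
    S b u t k ≤ u - Phi b u t :=
  (S_mono u ht hb ⟨zero_le_one, le_rfl⟩ hk.1 hk.2).trans_eq (S_one b u ht)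

theorem Lam_of_le (h : u ≤ c) : Lam b u t c = S b u t (kap c u) := if_pos h

theorem Lam_of_lt (h : c < u) : Lam b u t c = b * Pi b c t + Phi b c t - Phi b u t :=
  if_neg h.not_ge

theorem Lam_le (ht : 0 ≤ t) (hb : b ∈ Icc (0 : ℝ) 1) : Lam b u t c ≤ u - Phi b u t := by
  rcases le_or_gt u c with h | h
  · rw [Lam_of_le h]; exact S_le u ht hb (kap_mem _ _)
  · have := Phi_tan c ht hb ⟨le_rfl, zero_le_one⟩
    rw [Phi_zero c ht] at this
    rw [Lam_of_lt h]
    linarith

theorem le_Lam (ht : 0 ≤ t) (hc : 0 ≤ c) (hb : b ∈ Icc (0 : ℝ) 1) : -max u 0 ≤ Lam b u t c := by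
  have h0 := le_max_left u 0
  have h1 := le_max_right u 0
  rcases le_or_gt u c with h | h
  · have := le_S u ht hb (kap_mem c u)
    have := mul_nonneg hb.1 (Pi_nonneg u ht hb)
    rw [Lam_of_le h]
    linarith
  · have := mul_nonneg hb.1 (Pi_nonneg c ht hb)
    have := Phi_nonneg hc ht hb
    have := Phi_le u ht hb
    rw [Lam_of_lt h]
    linarith

theorem Lam_ge_le (hO : HypO) (ht : 0 ≤ t) (hc : 0 ≤ c) (hb : b ∈ Icc (0 : ℝ) 1) (h : u ≤ c)
    (ρ : ℝ) : Phi (b * (1 - kap c ρ)) (min u ρ) t - Phi b u t ≤ S b u t (kap c u) * kap c ρ := by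
  have hK := kap_mem c ρ
  have hk := kap_mem c u
  rw [mul_comm (S _ _ _ _)]
  rcases le_or_gt (kap c ρ) (kap c u) with h1 | h1
  · have := Phi_mono (t := t) (mem_mul hb hK) (min_le_left u ρ)
    linarith [chord_le u ht hb hk hK.1 h1]
  · have e := eq_of_kap h (h1.trans_le hK.2)
    have h2 := hO b t c _ _ hb.1 hb.2 ht hc hk.1 h1.le hK.2
    rw [← e] at h2
    have := Phi_mono (t := t) (mem_mul hb hK)
      ((min_le_right u ρ).trans (le_of_kap hc (hk.1.trans_lt h1)))
    linarith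

theorem Lam_ge (hO : HypO) (ht : 0 ≤ t) (hc : 0 ≤ c) (hb : b ∈ Icc (0 : ℝ) 1) (u ρ : ℝ) :
    Phi (b * (1 - kap c ρ)) (min u ρ) t - Phi b u t ≤ Lam b u t c * kap c ρ := by
  rcases le_or_gt u c with h | h
  · rw [Lam_of_le h]; exact Lam_ge_le hO ht hc hb h ρ
  have hK := kap_mem c ρ
  have hm := Phi_mono (t := t) hb h.le
  rw [Lam_of_lt h]
  rcases hK.1.eq_or_lt with h0 | h0
  · rw [← h0, sub_zero, mul_one, mul_zero, sub_nonpos]
    exact Phi_mono hb (min_le_left _ _)
  · have h2 := hO b t c 0 _ hb.1 hb.2 ht hc le_rfl hK.1 hK.2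
    rw [mul_zero, sub_zero, mul_one, S_zero] at h2
    have := Phi_mono (t := t) (mem_mul hb hK) ((min_le_right u ρ).trans (le_of_kap hc h0))
    nlinarith [mul_nonneg (sub_nonneg.2 hK.2) (sub_nonneg.2 hm)]

end Lam

/-- The design. -/
noncomputable def design (hO : HypO) (hP : HypP) : Design where
  V := V
  sl D d b := Pi b (D - d) (2 * d)
  κ := kap
  Λ D d b c := Lam b (D - d) (2 * d) c
  C := 4
  θ := 1 + 2 / Real.exp 1
  C_nonneg := by norm_num
  zero D d _ hd := by rw [V, Phi_zero _ (by linarith)]; ring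
  one D d _ hd := by
    have := Phi_one (D - d) (t := 2 * d) (by linarith)
    rw [Real.exp_neg, ← div_eq_mul_inv] at this
    rw [V, add_mul, one_mul, div_mul_eq_mul_div]
    linarith
  low D d b hb _ hd := by
    have := min_le_Phi (D - d) (t := 2 * d) (by linarith) hb
    rw [V]
    rcases le_total D d with h | h
    · rw [min_eq_left (by linarith)] at this
      linarith [min_le_left D d]
    · rw [min_eq_right (by linarith)] at this
      linarith [min_le_right D d]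
  mono D D' d b hb _ h _ := add_le_add le_rfl (Phi_mono hb (by linarith))
  tan D d b hb b' hb' _ hd := by
    have := Phi_tan (D - d) (t := 2 * d) (by linarith) hb hb'
    simp only [V]
    linarith
  sec D d b hb b' hb' _ hd _ := by
    have := Phi_sec (D - d) (t := 2 * d) (by linarith) hb hb'
    simp only [V]
    nlinarith [mul_nonneg hd (sq_nonneg (b - b'))]
  sl_nonneg D d b hb _ hd := Pi_nonneg _ (by linarith) hb
  sl_le D d b hb hD hd := (Pi_le _ (by linarith) hb).trans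
    (mul_le_mul_of_nonneg_left (max_le (by linarith) hD) (by norm_num))
  κ_mem := kap_mem
  κ_zero _ _ := kap_of_nonpos le_rfl
  Λ_ge D d c ρ b hb _ hd hc _ _ := by
    have := Lam_ge hO (t := 2 * d) (by linarith) hc hb (D - d) ρ
    have e : min D (d + ρ) - d = min (D - d) ρ := by rw [← min_sub_sub_right, add_sub_cancel_left]
    simp only [V, e]
    linarith
  Λ_sl D d c b hb _ hd _ _ h := by
    rw [Lam_of_le h]
    exact le_S _ (by linarith) hb (kap_mem _ _)
  Λ_abs D d c b hb hD hd hc _ := by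
    have h1 := le_Lam (u := D - d) (t := 2 * d) (by linarith) hc hb
    have h2 := Lam_le (u := D - d) (c := c) (t := 2 * d) (by linarith) hb
    have h3 := min_le_Phi (D - d) (t := 2 * d) (by linarith) hb
    have h4 := max_add_min (D - d) 0
    have h5 : max (D - d) 0 ≤ D := max_le (by linarith) hD
    rw [abs_le]
    constructor <;> linarith
  pair D d d' c c' ρ ρ' b hb b' hb' := hP D d d' c c' ρ ρ' b b' hb.1 hb.2 hb'.1 hb'.2

theorem design_V (hO : HypO) (hP : HypP) : (design hO hP).V = V := rfl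
theorem design_κ (hO : HypO) (hP : HypP) : (design hO hP).κ = kap := rfl
theorem design_C (hO : HypO) (hP : HypP) : (design hO hP).C = 4 := rfl
theorem design_θ (hO : HypO) (hP : HypP) : (design hO hP).θ = 1 + 2 / Real.exp 1 := rfl

end Crest.Agent.R310.Des
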