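import Crest.Agent.R310.DesDefs

/-! # Row 310: the concrete design, properties of `Phi` -/

set_option autoImplicit false

open Set

namespace Crest.Agent.R310.Des

theorem tan_of {f f' f'' : ℝ → ℝ} (h1 : ∀ x, HasDerivAt f (f' x) x)
    (h2 : ∀ x, HasDerivAt f' (f'' x) x) (h : ∀ x ∈ Icc (0 : ℝ) 1, 0 ≤ f'' x) {b b' : ℝ}
    (hb : b ∈ Icc (0 : ℝ) 1) (hb' : b' ∈ Icc (0 : ℝ) 1) : f b + f' b * (b' - b) ≤ f b' := by
  have hm : MonotoneOn f' (Icc 0 1) :=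
    monotoneOn_of_deriv_nonneg (convex_Icc 0 1) (fun x _ => (h2 x).continuousAt.continuousWithinAt)
      (fun x _ => (h2 x).differentiableAt.differentiableWithinAt) fun x hx => by
        rw [(h2 x).deriv]; exact h x (interior_subset hx)
  rcases lt_trichotomy b b' with hlt | rfl | hlt
  · obtain ⟨c, hc, e⟩ := exists_hasDerivAt_eq_slope f f' hlt
      (fun x _ => (h1 x).continuousAt.continuousWithinAt) fun x _ => h1 x
    have := hm hb ⟨hb.1.trans hc.1.le, hc.2.le.trans hb'.2⟩ hc.1.le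
    rw [e, le_div_iff₀ (sub_pos.2 hlt)] at this
    linarith
  · simp
  · obtain ⟨c, hc, e⟩ := exists_hasDerivAt_eq_slope f f' hlt
      (fun x _ => (h1 x).continuousAt.continuousWithinAt) fun x _ => h1 x
    have := hm ⟨hb'.1.trans hc.1.le, hc.2.le.trans hb.2⟩ hb hc.2.le
    rw [e, div_le_iff₀ (sub_pos.2 hlt)] at this
    linarith

theorem sec_of {f f' f'' : ℝ → ℝ} {C : ℝ} (h1 : ∀ x, HasDerivAt f (f' x) x)
    (h2 : ∀ x, HasDerivAt f' (f'' x) x) (h : ∀ x ∈ Icc (0 : ℝ) 1, f'' x ≤ 2 * C) {b b' : ℝ}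
    (hb : b ∈ Icc (0 : ℝ) 1) (hb' : b' ∈ Icc (0 : ℝ) 1) :
    f b' ≤ f b + f' b * (b' - b) + C * (b - b') ^ 2 := by
  have := tan_of (f := fun x => C * x ^ 2 - f x) (f' := fun x => C * (2 * x) - f' x)
    (f'' := fun x => C * 2 - f'' x)
    (fun x => ((by simpa using hasDerivAt_pow 2 x : HasDerivAt (fun x => x ^ 2) (2 * x) x).const_mul
      C).sub (h1 x))
    (fun x => ((by simpa using (hasDerivAt_id x).const_mul (2 : ℝ) :
      HasDerivAt (fun x : ℝ => 2 * x) 2 x).const_mul C).sub (h2 x))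
    (fun x hx => by linarith [h x hx]) hb hb'
  nlinarith

/-- second derivatives -/
noncomputable def smdd (b : ℝ) : ℝ :=
  1904 / 1000 - 3000 / 1000 * b + 1344 / 1000 * b ^ 2
noncomputable def spdd (b : ℝ) : ℝ :=
  -(2262 / 1000) + 13494 / 1000 * b - 20328 / 1000 * b ^ 2 + 10200 / 1000 * b ^ 3

theorem hasDerivAt_poly (a0 a1 a2 a3 a4 a5 x : ℝ) :
    HasDerivAt (fun x => a0 + a1 * x + a2 * x ^ 2 + a3 * x ^ 3 + a4 * x ^ 4 + a5 * x ^ 5)
      (a1 + 2 * a2 * x + 3 * a3 * x ^ 2 + 4 * a4 * x ^ 3 + 5 * a5 * x ^ 4) x := by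
  have := ((((((hasDerivAt_id x).const_mul a1).const_add a0).add
    ((hasDerivAt_pow 2 x).const_mul a2)).add ((hasDerivAt_pow 3 x).const_mul a3)).add
    ((hasDerivAt_pow 4 x).const_mul a4)).add ((hasDerivAt_pow 5 x).const_mul a5)
  refine this.congr_deriv ?_
  simp
  ring

theorem hasDerivAt_sm (x : ℝ) : HasDerivAt sm (smd x) x := by
  convert hasDerivAt_poly (1000 / 1000) (-1564 / 1000) (952 / 1000) (-500 / 1000) (112 / 1000) 0 x using 1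
  · funext x; rw [sm]; ring
  · rw [smd]; ring

theorem hasDerivAt_sp (x : ℝ) : HasDerivAt sp (spd x) x := by
  convert hasDerivAt_poly (1000 / 1000) (-934 / 1000) (-1131 / 1000) (2249 / 1000) (-1694 / 1000) (510 / 1000) x using 1
  · funext x; rw [sp]; ring
  · rw [spd]; ring

theorem hasDerivAt_smd (x : ℝ) : HasDerivAt smd (smdd x) x := by
  convert hasDerivAt_poly (-1564 / 1000) (1904 / 1000) (-1500 / 1000) (448 / 1000) 0 0 x using 1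
  · funext x; rw [smd]; ring
  · rw [smdd]; ring

theorem hasDerivAt_spd (x : ℝ) : HasDerivAt spd (spdd x) x := by
  convert hasDerivAt_poly (-934 / 1000) (-2262 / 1000) (6747 / 1000) (-6776 / 1000) (2550 / 1000) 0 x using 1
  · funext x; rw [spd]; ring
  · rw [spdd]; ring

theorem hasDerivAt_E (x : ℝ) : HasDerivAt (fun x => Real.exp (-x)) (-Real.exp (-x)) x := by
  simpa using (hasDerivAt_neg x).exp

theorem hasDerivAt_Phi (u t x : ℝ) : HasDerivAt (fun b => Phi b u t) (-Pi x u t) x := by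
  have := ((((((((hasDerivAt_E x).const_mul 4).sub ((hasDerivAt_sm x).const_mul 2)).sub_const
    1).const_mul (u2 u t)).const_add (u1 u t)).add ((hasDerivAt_sm x).const_mul (u3 u t))).add
    ((hasDerivAt_sp x).const_mul (u4 u t))).add
    (((hasDerivAt_id x).const_sub 1).const_mul (u5 u t))
  refine this.congr_deriv ?_
  rw [Pi, PiE]
  ring

theorem hasDerivAt_Pi (u t x : ℝ) : HasDerivAt (fun b => -Pi b u t)
    (u2 u t * (4 * Real.exp (-x) - 2 * smdd x) + u3 u t * smdd x + u4 u t * spdd x) x := by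
  have := (((((((hasDerivAt_E x).const_mul 4).add ((hasDerivAt_smd x).const_mul 2)).const_mul
    (u2 u t)).sub ((hasDerivAt_smd x).const_mul (u3 u t))).sub
    ((hasDerivAt_spd x).const_mul (u4 u t))).add_const (u5 u t)).neg
  refine this.congr_deriv ?_
  ring

theorem exp_lb {b : ℝ} (hb : b ≤ 1) :
    3678 / 10000 * (1 + (1 - b) + (1 - b) ^ 2 / 2) ≤ Real.exp (-b) := by
  have h1 := Real.quadratic_le_exp_of_nonneg (sub_nonneg.2 hb)
  have h2 : (3678 / 10000 : ℝ) ≤ Real.exp (-1) := by linarith [Real.exp_neg_one_gt_d9]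
  have h3 : Real.exp (-b) = Real.exp (-1) * Real.exp (1 - b) := by
    rw [← Real.exp_add]; congr 1; ring
  rw [h3]
  exact mul_le_mul h2 h1 (by positivity) (Real.exp_pos _).le

theorem exp_ub {b : ℝ} (hb : 0 ≤ b) : Real.exp (-b) ≤ 1 := Real.exp_le_one_iff.2 (by linarith)

section U

variable {u u' t : ℝ}

theorem u2_nonneg (u t : ℝ) : 0 ≤ u2 u t := le_max_left _ _
theorem u3_nonneg (u t : ℝ) : 0 ≤ u3 u t := le_max_left _ _
theorem u4_nonneg (u t : ℝ) : 0 ≤ u4 u t := le_max_left _ _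
theorem u5_nonneg (u t : ℝ) : 0 ≤ u5 u t := le_max_left _ _

theorem u_P0 (ht : 0 ≤ t) (h : u ≤ t / 4) :
    u1 u t = u ∧ u2 u t = 0 ∧ u3 u t = 0 ∧ u4 u t = 0 ∧ u5 u t = 0 :=
  ⟨min_eq_left h, max_eq_left (min_le_of_left_le (by linarith)),
    max_eq_left (min_le_of_left_le (by linarith)), max_eq_left (min_le_of_left_le (by linarith)),
    max_eq_left (by linarith)⟩

theorem u_P1 (h : t / 4 ≤ u) (h' : u ≤ t / 2) :
    u1 u t = t / 4 ∧ u2 u t = u - t / 4 ∧ u3 u t = 0 ∧ u4 u t = 0 ∧ u5 u t = 0 :=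
  ⟨min_eq_right h, by rw [u2, min_eq_left (by linarith), max_eq_right (by linarith)],
    max_eq_left (min_le_of_left_le (by linarith)), max_eq_left (min_le_of_left_le (by linarith)),
    max_eq_left (by linarith)⟩

theorem u_P2 (h : t / 2 ≤ u) (h' : u ≤ t) :
    u1 u t = t / 4 ∧ u2 u t = t / 4 ∧ u3 u t = u - t / 2 ∧ u4 u t = 0 ∧ u5 u t = 0 :=
  ⟨min_eq_right (by linarith), by rw [u2, min_eq_right (by linarith), max_eq_right (by linarith)],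
    by rw [u3, min_eq_left (by linarith), max_eq_right (by linarith)],
    max_eq_left (min_le_of_left_le (by linarith)), max_eq_left (by linarith)⟩

theorem u_P3 (h : t ≤ u) (h' : u ≤ 5 / 4 * t) :
    u1 u t = t / 4 ∧ u2 u t = t / 4 ∧ u3 u t = t / 2 ∧ u4 u t = u - t ∧ u5 u t = 0 :=
  ⟨min_eq_right (by linarith), by rw [u2, min_eq_right (by linarith), max_eq_right (by linarith)],
    by rw [u3, min_eq_right (by linarith), max_eq_right (by linarith)],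
    by rw [u4, min_eq_left (by linarith), max_eq_right (by linarith)], max_eq_left (by linarith)⟩

theorem u_P4 (ht : 0 ≤ t) (h : 5 / 4 * t ≤ u) :
    u1 u t = t / 4 ∧ u2 u t = t / 4 ∧ u3 u t = t / 2 ∧ u4 u t = t / 4 ∧ u5 u t = u - 5 / 4 * t :=
  ⟨min_eq_right (by linarith), by rw [u2, min_eq_right (by linarith), max_eq_right (by linarith)],
    by rw [u3, min_eq_right (by linarith), max_eq_right (by linarith)],
    by rw [u4, min_eq_right (by linarith), max_eq_right (by linarith)], max_eq_right (by linarith)⟩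

theorem pieces (u t : ℝ) : u ≤ t / 4 ∨ (t / 4 ≤ u ∧ u ≤ t / 2) ∨ (t / 2 ≤ u ∧ u ≤ t) ∨
    (t ≤ u ∧ u ≤ 5 / 4 * t) ∨ 5 / 4 * t ≤ u := by
  rcases le_total u (t / 4) with h | h
  · exact Or.inl h
  rcases le_total u (t / 2) with h1 | h1
  · exact Or.inr (Or.inl ⟨h, h1⟩)
  rcases le_total u t with h2 | h2
  · exact Or.inr (Or.inr (Or.inl ⟨h1, h2⟩))
  rcases le_total u (5 / 4 * t) with h3 | h3
  · exact Or.inr (Or.inr (Or.inr (Or.inl ⟨h2, h3⟩)))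
  · exact Or.inr (Or.inr (Or.inr (Or.inr h3)))

theorem u_facts (u : ℝ) (ht : 0 ≤ t) : u1 u t + u2 u t + u3 u t + u4 u t + u5 u t = u ∧
    u3 u t ≤ 2 * u2 u t ∧ 2 * u4 u t ≤ u3 u t ∧ 4 * u2 u t ≤ t ∧ min u 0 ≤ u1 u t := by
  have := min_le_left u 0
  have := min_le_right u 0
  rcases pieces u t with h | ⟨h, h'⟩ | ⟨h, h'⟩ | ⟨h, h'⟩ | h
  · obtain ⟨a, b, c, d, e⟩ := u_P0 ht h
    refine ⟨?_, ?_, ?_, ?_, ?_⟩ <;> linarith
  · obtain ⟨a, b, c, d, e⟩ := u_P1 h h'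
    refine ⟨?_, ?_, ?_, ?_, ?_⟩ <;> linarith
  · obtain ⟨a, b, c, d, e⟩ := u_P2 h h'
    refine ⟨?_, ?_, ?_, ?_, ?_⟩ <;> linarith
  · obtain ⟨a, b, c, d, e⟩ := u_P3 h h'
    refine ⟨?_, ?_, ?_, ?_, ?_⟩ <;> linarith
  · obtain ⟨a, b, c, d, e⟩ := u_P4 ht h
    refine ⟨?_, ?_, ?_, ?_, ?_⟩ <;> linarith

end U

section Pieces

variable {b u t : ℝ}

theorem Phi_P0 (ht : 0 ≤ t) (h : u ≤ t / 4) : Phi b u t = u := by
  obtain ⟨a, b, c, d, e⟩ := u_P0 ht h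
  rw [Phi, PhiE, a, b, c, d, e]; ring

theorem Phi_P1 (h : t / 4 ≤ u) (h' : u ≤ t / 2) :
    Phi b u t = t / 4 + (u - t / 4) * (4 * Real.exp (-b) - 2 * sm b - 1) := by
  obtain ⟨a, b, c, d, e⟩ := u_P1 h h'
  rw [Phi, PhiE, a, b, c, d, e]; ring

theorem Phi_P2 (h : t / 2 ≤ u) (h' : u ≤ t) : Phi b u t = t * Real.exp (-b) + (u - t) * sm b := by
  obtain ⟨a, b, c, d, e⟩ := u_P2 h h'
  rw [Phi, PhiE, a, b, c, d, e]; ring

theorem Phi_P3 (h : t ≤ u) (h' : u ≤ 5 / 4 * t) :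
    Phi b u t = t * Real.exp (-b) + (u - t) * sp b := by
  obtain ⟨a, b, c, d, e⟩ := u_P3 h h'
  rw [Phi, PhiE, a, b, c, d, e]; ring

theorem Phi_P4 (ht : 0 ≤ t) (h : 5 / 4 * t ≤ u) :
    Phi b u t = t * Real.exp (-b) + t / 4 * sp b + (u - 5 / 4 * t) * (1 - b) := by
  obtain ⟨a, b, c, d, e⟩ := u_P4 ht h
  rw [Phi, PhiE, a, b, c, d, e]; ring

theorem Pi_P0 (ht : 0 ≤ t) (h : u ≤ t / 4) : Pi b u t = 0 := by
  obtain ⟨a, b, c, d, e⟩ := u_P0 ht h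
  rw [Pi, PiE, b, c, d, e]; ring

theorem Pi_P1 (h : t / 4 ≤ u) (h' : u ≤ t / 2) :
    Pi b u t = (u - t / 4) * (4 * Real.exp (-b) + 2 * smd b) := by
  obtain ⟨a, b, c, d, e⟩ := u_P1 h h'
  rw [Pi, PiE, b, c, d, e]; ring

theorem Pi_P2 (h : t / 2 ≤ u) (h' : u ≤ t) : Pi b u t = t * Real.exp (-b) - (u - t) * smd b := by
  obtain ⟨a, b, c, d, e⟩ := u_P2 h h'
  rw [Pi, PiE, b, c, d, e]; ring

theorem Pi_P3 (h : t ≤ u) (h' : u ≤ 5 / 4 * t) :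
    Pi b u t = t * Real.exp (-b) - (u - t) * spd b := by
  obtain ⟨a, b, c, d, e⟩ := u_P3 h h'
  rw [Pi, PiE, b, c, d, e]; ring

theorem Pi_P4 (ht : 0 ≤ t) (h : 5 / 4 * t ≤ u) :
    Pi b u t = t * Real.exp (-b) - t / 4 * spd b + (u - 5 / 4 * t) := by
  obtain ⟨a, b, c, d, e⟩ := u_P4 ht h
  rw [Pi, PiE, b, c, d, e]; ring

end Pieces

section Poly

variable {b : ℝ}

theorem sm_mem (h0 : 0 ≤ b) (h1 : b ≤ 1) : 0 ≤ sm b ∧ sm b ≤ 1 - b := by
  have h : 0 ≤ 1 - b := sub_nonneg.2 h1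
  rw [sm]
  exact ⟨mul_nonneg h (by nlinarith [mul_nonneg h0 h0]),
    mul_le_of_le_one_right h (by nlinarith [mul_nonneg h0 h0])⟩

theorem sp_nonneg (h0 : 0 ≤ b) (h1 : b ≤ 1) : 0 ≤ sp b := by
  rw [sp]
  exact mul_nonneg (sub_nonneg.2 h1) (by nlinarith [mul_nonneg h0 h0, pow_nonneg h0 3])

theorem s1_nonneg (h0 : 0 ≤ b) (h1 : b ≤ 1) : 0 ≤ 4 * Real.exp (-b) - 2 * sm b - 1 := by
  have := exp_lb h1
  have := (sm_mem h0 h1).2
  nlinarith [sq_nonneg (1 - b)]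

theorem smd_mem (h0 : 0 ≤ b) (h1 : b ≤ 1) : -2 ≤ smd b ∧ smd b ≤ 0 := by
  rw [smd]
  constructor <;> nlinarith [mul_nonneg h0 h0, pow_nonneg h0 3, mul_nonneg h0 (sub_nonneg.2 h1),
    mul_nonneg (mul_nonneg h0 h0) (sub_nonneg.2 h1)]

theorem spd_mem (h0 : 0 ≤ b) (h1 : b ≤ 1) : -3 ≤ spd b ∧ spd b ≤ 0 := by
  rw [spd]
  constructor <;> nlinarith [mul_nonneg h0 h0, pow_nonneg h0 3, mul_nonneg h0 (sub_nonneg.2 h1),
    mul_nonneg (mul_nonneg h0 h0) (sub_nonneg.2 h1)]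

theorem n1d_nonneg (h0 : 0 ≤ b) (h1 : b ≤ 1) : 0 ≤ 4 * Real.exp (-b) + 2 * smd b := by
  have := exp_lb h1
  rw [smd]
  nlinarith [mul_nonneg h0 h0, pow_nonneg h0 3, mul_nonneg h0 (sub_nonneg.2 h1),
    mul_nonneg (mul_nonneg h0 h0) (sub_nonneg.2 h1), sq_nonneg (1 - b),
    mul_nonneg h0 (sq_nonneg (1 - b))]

theorem n1dd_mem (h0 : 0 ≤ b) (h1 : b ≤ 1) :
    0 ≤ Real.exp (-b) - smdd b / 2 ∧ Real.exp (-b) - smdd b / 2 ≤ 2 := by
  have := exp_lb h1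
  have := exp_ub h0
  have := Real.add_one_le_exp (-b)
  rw [smdd]
  refine ⟨?_, by nlinarith [mul_nonneg h0 h0, mul_nonneg h0 (sub_nonneg.2 h1)]⟩
  rcases le_total b (1 / 2) with h | h
  · nlinarith [mul_nonneg h0 (sub_nonneg.2 h)]
  · nlinarith [mul_nonneg (sub_nonneg.2 h) (sub_nonneg.2 h1)]

theorem n3dd_mem (h0 : 0 ≤ b) (h1 : b ≤ 1) :
    0 ≤ Real.exp (-b) + spdd b / 4 ∧ Real.exp (-b) + spdd b / 4 ≤ 2 := by
  have := exp_lb h1
  have := exp_ub h0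
  rw [spdd]
  constructor <;> nlinarith [mul_nonneg h0 h0, mul_nonneg h0 (sub_nonneg.2 h1)]

end Poly

section Main

variable {b b' u u' t : ℝ}

theorem Phidd_mem (u : ℝ) (ht : 0 ≤ t) (hb : b ∈ Icc (0 : ℝ) 1) :
    0 ≤ u2 u t * (4 * Real.exp (-b) - 2 * smdd b) + u3 u t * smdd b + u4 u t * spdd b ∧
      u2 u t * (4 * Real.exp (-b) - 2 * smdd b) + u3 u t * smdd b + u4 u t * spdd b ≤ 2 * t := by
  obtain ⟨-, h1, h2, h3, -⟩ := u_facts u ht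
  have h4 := u4_nonneg u t
  obtain ⟨a1, a2⟩ := n1dd_mem hb.1 hb.2
  obtain ⟨a3, a4⟩ := n3dd_mem hb.1 hb.2
  have a5 := (Real.exp_pos (-b)).le
  have a6 := exp_ub hb.1
  constructor
  · nlinarith [mul_nonneg (sub_nonneg.2 h1) a1, mul_nonneg (sub_nonneg.2 h2) a5, mul_nonneg h4 a3]
  · nlinarith [mul_nonneg (sub_nonneg.2 h1) (sub_nonneg.2 a2),
      mul_nonneg (sub_nonneg.2 h2) (sub_nonneg.2 a6), mul_nonneg h4 (sub_nonneg.2 a4)]

theorem Phi_tan (u : ℝ) (ht : 0 ≤ t) (hb : b ∈ Icc (0 : ℝ) 1) (hb' : b' ∈ Icc (0 : ℝ) 1) :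
    Phi b u t + Pi b u t * (b - b') ≤ Phi b' u t := by
  have := tan_of (hasDerivAt_Phi u t) (hasDerivAt_Pi u t) (fun x hx => (Phidd_mem u ht hx).1) hb hb'
  linarith

theorem Phi_sec (u : ℝ) (ht : 0 ≤ t) (hb : b ∈ Icc (0 : ℝ) 1) (hb' : b' ∈ Icc (0 : ℝ) 1) :
    Phi b' u t ≤ Phi b u t + Pi b u t * (b - b') + t * (b - b') ^ 2 := by
  have := sec_of (hasDerivAt_Phi u t) (hasDerivAt_Pi u t) (fun x hx => (Phidd_mem u ht hx).2) hb hb'
  linarith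

theorem Phi_zero (u : ℝ) (ht : 0 ≤ t) : Phi 0 u t = u := by
  have := (u_facts u ht).1
  simp only [Phi, PhiE, sm, sp, neg_zero, Real.exp_zero]
  linarith

theorem Pi_nonneg (u : ℝ) (_ht : 0 ≤ t) (hb : b ∈ Icc (0 : ℝ) 1) : 0 ≤ Pi b u t := by
  have h1 := mul_nonneg (u2_nonneg u t) (n1d_nonneg hb.1 hb.2)
  have h2 := mul_nonneg (u3_nonneg u t) (neg_nonneg.2 (smd_mem hb.1 hb.2).2)
  have h3 := mul_nonneg (u4_nonneg u t) (neg_nonneg.2 (spd_mem hb.1 hb.2).2)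
  have h4 := u5_nonneg u t
  rw [Pi, PiE]
  linarith

theorem Pi_le (u : ℝ) (ht : 0 ≤ t) (hb : b ∈ Icc (0 : ℝ) 1) : Pi b u t ≤ 4 * max u 0 := by
  obtain ⟨h0, -, -, -, h5⟩ := u_facts u ht
  have h6 := max_add_min u 0
  have a1 : 4 * Real.exp (-b) + 2 * smd b ≤ 4 := by
    linarith [exp_ub hb.1, (smd_mem hb.1 hb.2).2]
  have h1 := mul_le_mul_of_nonneg_left a1 (u2_nonneg u t)
  have h2 := mul_le_mul_of_nonneg_left (smd_mem hb.1 hb.2).1 (u3_nonneg u t)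
  have h3 := mul_le_mul_of_nonneg_left (spd_mem hb.1 hb.2).1 (u4_nonneg u t)
  have := u3_nonneg u t
  have := u4_nonneg u t
  have := u5_nonneg u t
  rw [Pi, PiE]
  linarith

theorem Phi_mono (hb : b ∈ Icc (0 : ℝ) 1) (h : u ≤ u') : Phi b u t ≤ Phi b u' t := by
  have h1 : u1 u t ≤ u1 u' t := min_le_min_right _ h
  have h2 : u2 u t ≤ u2 u' t := max_le_max_left _ (min_le_min_right _ (by linarith))
  have h3 : u3 u t ≤ u3 u' t := max_le_max_left _ (min_le_min_right _ (by linarith))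
  have h4 : u4 u t ≤ u4 u' t := max_le_max_left _ (min_le_min_right _ (by linarith))
  have h5 : u5 u t ≤ u5 u' t := max_le_max_left _ (by linarith)
  have := mul_le_mul_of_nonneg_right h2 (s1_nonneg hb.1 hb.2)
  have := mul_le_mul_of_nonneg_right h3 (sm_mem hb.1 hb.2).1
  have := mul_le_mul_of_nonneg_right h4 (sp_nonneg hb.1 hb.2)
  have := mul_le_mul_of_nonneg_right h5 (sub_nonneg.2 hb.2)
  simp only [Phi, PhiE]
  linarith

theorem Phi_anti (u : ℝ) (ht : 0 ≤ t) (hb : b ∈ Icc (0 : ℝ) 1) (hb' : b' ∈ Icc (0 : ℝ) 1)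
    (h : b' ≤ b) : Phi b u t ≤ Phi b' u t := by
  have := Phi_tan u ht hb hb'
  have := mul_nonneg (Pi_nonneg u ht hb) (sub_nonneg.2 h)
  linarith

theorem Phi_le (u : ℝ) (ht : 0 ≤ t) (hb : b ∈ Icc (0 : ℝ) 1) : Phi b u t ≤ u :=
  (Phi_anti u ht hb ⟨le_rfl, zero_le_one⟩ hb.1).trans (Phi_zero u ht).le

theorem min_le_Phi (u : ℝ) (ht : 0 ≤ t) (hb : b ∈ Icc (0 : ℝ) 1) : min u 0 ≤ Phi b u t := by
  have h := Phi_mono (t := t) hb (min_le_left u 0)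
  rwa [Phi_P0 ht ((min_le_right _ _).trans (by linarith))] at h

theorem Phi_nonneg (hu : 0 ≤ u) (ht : 0 ≤ t) (hb : b ∈ Icc (0 : ℝ) 1) : 0 ≤ Phi b u t :=
  (le_min hu le_rfl).trans (min_le_Phi u ht hb)

theorem Phi_one (u : ℝ) (ht : 0 ≤ t) : Phi 1 u t ≤ t * Real.exp (-1) := by
  have h := Phi_mono (t := t) (b := 1) ⟨zero_le_one, le_rfl⟩ (le_max_left u (5 / 4 * t))
  rw [Phi_P4 ht (le_max_right _ _)] at h
  simpa [sp] using h

/-- convexity along the killed fraction -/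
theorem Phi_chord (u : ℝ) (ht : 0 ≤ t) (hb : b ∈ Icc (0 : ℝ) 1) {a k : ℝ} (ha : a ∈ Icc (0 : ℝ) 1)
    (hk : k ∈ Icc (0 : ℝ) 1) :
    Phi (b * (1 - a * k)) u t - Phi b u t ≤ a * (Phi (b * (1 - k)) u t - Phi b u t) := by
  have m : ∀ {x : ℝ}, x ∈ Icc (0 : ℝ) 1 → b * (1 - x) ∈ Icc (0 : ℝ) 1 := fun hx =>
    ⟨mul_nonneg hb.1 (sub_nonneg.2 hx.2), mul_le_one₀ hb.2 (sub_nonneg.2 hx.2) (sub_le_self _ hx.1)⟩
  have he := m ⟨mul_nonneg ha.1 hk.1, mul_le_one₀ ha.2 hk.1 hk.2⟩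
  have h1 := mul_le_mul_of_nonneg_left (Phi_tan u ht he (m hk)) ha.1
  have h2 := mul_le_mul_of_nonneg_left (Phi_tan u ht he hb) (sub_nonneg.2 ha.2)
  nlinarith

end Main

end Crest.Agent.R310.Des
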