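import Crest.Agent.R310.GenDefs

/-!
# Row 310: the concrete design (helper14, idea 980), definitions

All shape functions are written over an ordered field, with `E` standing for `exp (-b)`.
-/

set_option autoImplicit false

namespace Crest.Agent.R310.Des

section Field

variable {K : Type} [Field K] [LinearOrder K]

/-- kill profile -/
def kap (c ρ : K) : K := if ρ ≤ 0 then 1 else if c ≤ ρ then 0 else min 1 (5 / 2 * (1 - ρ / c))

/-- slope of `Φ` in `u` on `[t/2, t]` -/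
def sm (b : K) : K :=
  (1 - b) * (1 - 564 / 1000 * b + 388 / 1000 * b ^ 2 - 112 / 1000 * b ^ 3)

/-- slope of `Φ` in `u` on `[t, 5t/4]` -/
def sp (b : K) : K :=
  (1 - b) * (1 + 66 / 1000 * b - 1065 / 1000 * b ^ 2 + 1184 / 1000 * b ^ 3 - 510 / 1000 * b ^ 4)

/-- derivative of `sm` -/
def smd (b : K) : K :=
  -(1564 / 1000) + 1904 / 1000 * b - 1500 / 1000 * b ^ 2 + 448 / 1000 * b ^ 3

/-- derivative of `sp` -/
def spd (b : K) : K :=
  -(934 / 1000) - 2262 / 1000 * b + 6747 / 1000 * b ^ 2 - 6776 / 1000 * b ^ 3 + 2550 / 1000 * b ^ 4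

/-- the parts of `u` in the five pieces -/
def u1 (u t : K) : K := min u (t / 4)
def u2 (u t : K) : K := max 0 (min (u - t / 4) (t / 4))
def u3 (u t : K) : K := max 0 (min (u - t / 2) (t / 2))
def u4 (u t : K) : K := max 0 (min (u - t) (t / 4))
def u5 (u t : K) : K := max 0 (u - 5 / 4 * t)

/-- `Φ` as a function of `E = exp (-b)` -/
def PhiE (E b u t : K) : K :=
  u1 u t + u2 u t * (4 * E - 2 * sm b - 1) + u3 u t * sm b + u4 u t * sp b + u5 u t * (1 - b)

/-- `π = -∂Φ/∂b` as a function of `E = exp (-b)` -/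
def PiE (E b u t : K) : K :=
  u2 u t * (4 * E + 2 * smd b) - u3 u t * smd b - u4 u t * spd b + u5 u t

end Field

noncomputable section

def Phi (b u t : ℝ) : ℝ := PhiE (Real.exp (-b)) b u t

def Pi (b u t : ℝ) : ℝ := PiE (Real.exp (-b)) b u t

/-- the chord slope -/
def S (b u t k : ℝ) : ℝ := if k = 0 then b * Pi b u t else (Phi (b * (1 - k)) u t - Phi b u t) / k

/-- the multiplier -/
def Lam (b u t c : ℝ) : ℝ :=
  if u ≤ c then S b u t (kap c u) else b * Pi b c t + Phi b c t - Phi b u t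

/-- the value of a facility -/
def V (D d b : ℝ) : ℝ := d + Phi b (D - d) (2 * d)

/-- The inequality (O). -/
def HypO : Prop :=
  ∀ b t c k k' : ℝ, 0 ≤ b → b ≤ 1 → 0 ≤ t → 0 ≤ c → 0 ≤ k → k ≤ k' → k' ≤ 1 →
    Phi (b * (1 - k')) (c * (1 - 2 / 5 * k')) t - Phi b (c * (1 - 2 / 5 * k)) t ≤
      k' * S b (c * (1 - 2 / 5 * k)) t k

/-- The term `E(k;i)`: `(d, b, c)` are the data of `k`, `(d', b')` those of `i`, `K` the killed
fraction. -/
def Ep (D d b c d' b' K : ℝ) : ℝ :=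
  Lam b (D - d) (2 * d) c * (1 - b' * K) + b' * (V (min D d') d (b * (1 - K)) - V D d b)

/-- The inequality (P), raw form. -/
def HypP : Prop :=
  ∀ D d d' c c' ρ ρ' b b' : ℝ, 0 ≤ b → b ≤ 1 → 0 ≤ b' → b' ≤ 1 → 0 ≤ D → 0 ≤ d → 0 ≤ d' →
    0 ≤ c → c ≤ D + d → 0 ≤ c' → c' ≤ D + d' → 0 ≤ ρ → ρ ≤ d + d' → 0 ≤ ρ' → ρ' ≤ d + d' →
    Ep D d b c d' b' (kap c ρ) + Ep D d' b' c' d b (kap c' ρ') ≤ 0

end

end Crest.Agent.R310.Des
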