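import Crest.Agent.Lib.PolyBB.Core

set_option autoImplicit false
set_option maxRecDepth 100000
set_option Elab.async false

open Crest.Agent.Lib.PolyBB

namespace Crest.Agent.R310.DesO

noncomputable def t0 : E := .mul (.var 0) (.sub (.cst 1) (.var 2))
noncomputable def e5 : E := .add (.mul t0 (.add (.mul t0 (.add (.mul (.cst (-2016)) t0) (.cst 6984))) (.cst (-10152)))) (.cst 18000)
noncomputable def t1 : E := .mul (.cst 2) e5
noncomputable def t2 : E := .mul (.var 0) (.sub (.cst 5) (.mul (.cst 2) (.var 1)))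
noncomputable def t3 : E := .mul (.var 0) (.sub (.cst 1) (.var 1))
noncomputable def t4 : E := .add t3 t0
noncomputable def t5 : E := .add (.var 0) t4
noncomputable def t6 : E := .add (.pow t0 2) (.mul t3 t4)
noncomputable def t7 : E := .add t6 (.mul (.var 0) t5)
noncomputable def t8 : E := .add (.pow t0 3) (.mul t3 t6)
noncomputable def t9 : E := .add t8 (.mul (.var 0) t7)
noncomputable def t10 : E := .add (.add (.add (.add (.cst 9000) (.mul (.cst (-3000)) t5)) (.mul (.cst 750) t7)) (.mul (.cst (-150)) t9)) (.mul (.cst 25) (.add (.add (.pow t0 4) (.mul t3 t8)) (.mul (.var 0) t9)))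
noncomputable def e0 : E := .sub t1 (.mul t2 (.sub (.mul (.cst 2) t10) (.add (.add (.cst 17136) (.mul (.cst (-9000)) t5)) (.mul (.cst 2016) t7))))
noncomputable def t11 : E := .mul t10 t2
noncomputable def e1 : E := .sub t1 t11
noncomputable def e6 : E := .add (.cst 18000) (.mul t0 (.add (.mul t0 (.add (.mul t0 (.add (.mul (.cst (-9180)) t0) (.cst 21312))) (.cst (-19170)))) (.cst 1188)))
noncomputable def e2 : E := .sub (.mul (.cst 2) e6) t11
noncomputable def t12 : E := .mul t2 (.add (.add (.add (.add (.cst (-20358)) (.mul (.cst 40482) t5)) (.mul (.cst (-30492)) t7)) (.mul (.cst 9180) t9)) (.mul (.cst 4) t10))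
noncomputable def e3 : E := .sub (.mul (.cst 10) e5) t12
noncomputable def e4 : E := .sub (.mul (.cst 10) e6) t12
noncomputable def e7 : E := .sub (.cst 18000) e5
noncomputable def e8 : E := .add (.mul t0 (.add (.mul t0 (.add (.mul (.cst (-6048)) t0) (.cst 15000))) (.cst (-15408)))) (.cst 12456)

noncomputable def es : Nat → List E := fun _ => [e0, e1, e2, e3, e4, e5, e6, e7, e8]

/- unfold with
simp only [t0, e5, t1, t2, t3, t4, t5, t6, t7, t8, t9, t10, e0, t11, e1, e6, e2, t12, e3, e4, e7, e8,
  E.eval_var, E.eval_par, E.eval_cst, E.eval_add, E.eval_sub, E.eval_mul, E.eval_pow]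
-/

end Crest.Agent.R310.DesO
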