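import Crest.Agent.R310.Des
import Crest.Agent.R310.DesOCert

/-! # Row 310: the inequality (O) (helper68)

The polynomial data (`qm`, `qp`, `ddm`, `ddp`, `s1q`, `DesODefs`, `DesOCert*`) are generated from
the coefficients of `sm`, `sp`. -/

set_option autoImplicit false

open Set Crest.Agent.Lib.PolyBB

noncomputable section

namespace Crest.Agent.R310.Des

/-- complete homogeneous symmetric polynomials -/
def h1 (x y z : ℝ) : ℝ := z + y + x
def h2 (x y z : ℝ) : ℝ := z ^ 2 + y * (z + y) + x * h1 x y z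
def h3 (x y z : ℝ) : ℝ := z ^ 3 + y * (z ^ 2 + y * (z + y)) + x * h2 x y z
def h4 (x y z : ℝ) : ℝ := z ^ 4 + y * (z ^ 3 + y * (z ^ 2 + y * (z + y))) + x * h3 x y z

def qm (x : ℝ) : ℝ := (1) * x ^ 0 + (-141 / 250) * x ^ 1 + (97 / 250) * x ^ 2 + (-14 / 125) * x ^ 3
def qp (x : ℝ) : ℝ := (1) * x ^ 0 + (33 / 500) * x ^ 1 + (-213 / 200) * x ^ 2 + (148 / 125) * x ^ 3 + (-51 / 100) * x ^ 4
def s1q (x : ℝ) : ℝ := (173 / 250) * x ^ 0 + (-107 / 125) * x ^ 1 + (5 / 6) * x ^ 2 + (-42 / 125) * x ^ 3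
def pe (x : ℝ) : ℝ := x ^ 2 / 2 - x ^ 3 / 6 + x ^ 4 / 24 - x ^ 5 / 120 + x ^ 6 / 720
def ped (x : ℝ) : ℝ := x - x ^ 2 / 2 + x ^ 3 / 6 - x ^ 4 / 24 + x ^ 5 / 120
/-- second divided differences of `pe`, `sm`, `sp` -/
def ddE (x y z : ℝ) : ℝ := (1 / 2) + (-1 / 6) * h1 x y z + (1 / 24) * h2 x y z + (-1 / 120) * h3 x y z + (1 / 720) * h4 x y z
def ddm (x y z : ℝ) : ℝ := (119 / 125) + (-1 / 2) * h1 x y z + (14 / 125) * h2 x y z
def ddp (x y z : ℝ) : ℝ := (-1131 / 1000) + (2249 / 1000) * h1 x y z + (-847 / 500) * h2 x y z + (51 / 100) * h3 x y z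

theorem sm_eq_qm (x : ℝ) : sm x = (1 - x) * qm x := by rw [sm, qm]; ring
theorem sp_eq_qp (x : ℝ) : sp x = (1 - x) * qp x := by rw [sp, qp]; ring
theorem s1q_eq (x : ℝ) : 4 * (1 - x + x ^ 2 / 2 - x ^ 3 / 6) - 3 * sm x - 1 = x * s1q x := by
  rw [sm, s1q]; ring

/-- chord slope of a function with derivative `f'` -/
def Sf (f f' : ℝ → ℝ) (b k : ℝ) : ℝ := if k = 0 then -(b * f' b) else (f (b * (1 - k)) - f b) / k

theorem Sf_dd {f f' : ℝ → ℝ} {b k k' g g0 : ℝ}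
    (h : k * (f (b * (1 - k')) - f b) - k' * (f (b * (1 - k)) - f b) = k * (k' * (k' - k) * g))
    (h0 : f (b * (1 - k')) - f b + k' * (b * f' b) = k' * k' * g0) (hg : k = 0 → g0 = g) :
    f (b * (1 - k')) - f b - k' * Sf f f' b k = k' * (k' - k) * g := by
  unfold Sf
  split_ifs with hk
  · rw [← hg hk, hk]; linarith
  · refine mul_left_cancel₀ hk ?_
    rw [← h]; field_simp

theorem dd_sm (b k k' : ℝ) : sm (b * (1 - k')) - sm b - k' * Sf sm smd b k =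
    k' * (k' - k) * (b ^ 2 * ddm b (b * (1 - k)) (b * (1 - k'))) :=
  Sf_dd (g0 := b ^ 2 * ddm b b (b * (1 - k'))) (by simp only [sm, ddm, h1, h2, h3, h4]; ring)
    (by simp only [sm, smd, ddm, h1, h2, h3, h4]; ring) fun h => by simp [h]

theorem dd_sp (b k k' : ℝ) : sp (b * (1 - k')) - sp b - k' * Sf sp spd b k =
    k' * (k' - k) * (b ^ 2 * ddp b (b * (1 - k)) (b * (1 - k'))) :=
  Sf_dd (g0 := b ^ 2 * ddp b b (b * (1 - k'))) (by simp only [sp, ddp, h1, h2, h3, h4]; ring)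
    (by simp only [sp, spd, ddp, h1, h2, h3, h4]; ring) fun h => by simp [h]

theorem dd_pe (b k k' : ℝ) : pe (b * (1 - k')) - pe b - k' * Sf pe ped b k =
    k' * (k' - k) * (b ^ 2 * ddE b (b * (1 - k)) (b * (1 - k'))) :=
  Sf_dd (g0 := b ^ 2 * ddE b b (b * (1 - k'))) (by simp only [pe, ddE, h1, h2, h3, h4]; ring)
    (by simp only [pe, ped, ddE, h1, h2, h3, h4]; ring) fun h => by simp [h]

theorem exp_T {x : ℝ} (h0 : 0 ≤ x) (h1 : x ≤ 1) :
    1 - x + x ^ 2 / 2 - x ^ 3 / 6 ≤ Real.exp (-x) ∧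
      Real.exp (-x) ≤ 1 - x + x ^ 2 / 2 - x ^ 3 / 6 + x ^ 4 / 24 := by
  have h := Real.exp_bound (x := -x) (by rwa [abs_neg, abs_of_nonneg h0]) (n := 6) (by norm_num)
  rw [abs_neg, abs_of_nonneg h0, abs_le] at h
  simp only [Finset.sum_range_succ, Finset.sum_range_zero, Nat.factorial] at h
  norm_num at h
  have h5 : x ^ 5 ≤ x ^ 4 := pow_le_pow_of_le_one h0 h1 (by norm_num)
  have h6 : x ^ 6 ≤ x ^ 5 := pow_le_pow_of_le_one h0 h1 (by norm_num)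
  have h7 : 0 ≤ x ^ 6 := by positivity
  constructor <;> nlinarith [h.1, h.2]

theorem hasDerivAt_pe (x : ℝ) : HasDerivAt pe (ped x) x := by
  have := (((((hasDerivAt_pow 2 x).div_const 2).sub ((hasDerivAt_pow 3 x).div_const 6)).add
    ((hasDerivAt_pow 4 x).div_const 24)).sub ((hasDerivAt_pow 5 x).div_const 120)).add
    ((hasDerivAt_pow 6 x).div_const 720)
  refine this.congr_deriv ?_
  rw [ped]; norm_num; ring

theorem hasDerivAt_ped (x : ℝ) :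
    HasDerivAt ped (1 - x + x ^ 2 / 2 - x ^ 3 / 6 + x ^ 4 / 24) x := by
  have := ((((hasDerivAt_id x).sub ((hasDerivAt_pow 2 x).div_const 2)).add
    ((hasDerivAt_pow 3 x).div_const 6)).sub ((hasDerivAt_pow 4 x).div_const 24)).add
    ((hasDerivAt_pow 5 x).div_const 120)
  refine this.congr_deriv ?_
  norm_num; ring

theorem tan_h {x x' : ℝ} (hx : x ∈ Icc (0 : ℝ) 1) (hx' : x' ∈ Icc (0 : ℝ) 1) :
    (pe x - Real.exp (-x)) + (ped x + Real.exp (-x)) * (x' - x) ≤ pe x' - Real.exp (-x') :=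
  tan_of (f := fun x => pe x - Real.exp (-x)) (f' := fun x => ped x + Real.exp (-x))
    (f'' := fun x => 1 - x + x ^ 2 / 2 - x ^ 3 / 6 + x ^ 4 / 24 + -Real.exp (-x))
    (fun x => ((hasDerivAt_pe x).sub (hasDerivAt_E x)).congr_deriv (by ring))
    (fun x => (hasDerivAt_ped x).add (hasDerivAt_E x))
    (fun x hx => by linarith [(exp_T hx.1 hx.2).2]) hx hx'

theorem dd_E {b k k' : ℝ} (hb : b ∈ Icc (0 : ℝ) 1) (h0 : 0 ≤ k) (h : k ≤ k') (h1 : k' ≤ 1) :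
    Real.exp (-(b * (1 - k'))) - Real.exp (-b) -
      k' * Sf (fun x => Real.exp (-x)) (fun x => -Real.exp (-x)) b k ≤
    k' * (k' - k) * (b ^ 2 * ddE b (b * (1 - k)) (b * (1 - k'))) := by
  rw [← dd_pe]
  have m1 := mem_mul hb ⟨h0, h.trans h1⟩
  have m2 := mem_mul hb ⟨h0.trans h, h1⟩
  unfold Sf
  split_ifs with hk
  · have := tan_h hb m2
    nlinarith
  · have hk0 : 0 < k := lt_of_le_of_ne h0 (Ne.symm hk)
    have t1 := mul_le_mul_of_nonneg_left (tan_h m1 m2) h0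
    have t2 := mul_le_mul_of_nonneg_left (tan_h m1 hb) (sub_nonneg.2 h)
    refine le_of_mul_le_mul_left ?_ hk0
    have e : ∀ A B : ℝ, k * (A - k' * (B / k)) = k * A - k' * B := fun A B => by field_simp
    rw [e, e]
    nlinarith

theorem S_eq (b u t k : ℝ) : S b u t k =
    u2 u t * (4 * Sf (fun x => Real.exp (-x)) (fun x => -Real.exp (-x)) b k - 2 * Sf sm smd b k) +
      u3 u t * Sf sm smd b k + u4 u t * Sf sp spd b k + u5 u t * b := by
  unfold S Sf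
  split_ifs with hk
  · rw [Pi, PiE]; ring
  · rw [Phi, Phi, PhiE, PhiE]; field_simp; ring

/-- the polynomial inequalities -/
theorem polyO {b k k' : ℝ} (hb : b ∈ Icc (0 : ℝ) 1) (hk : k ∈ Icc (0 : ℝ) 1)
    (hk' : k' ∈ Icc (0 : ℝ) 1) {e m p qa qb f : ℝ} (he : e = ddE b (b * (1 - k)) (b * (1 - k')))
    (hm : m = ddm b (b * (1 - k)) (b * (1 - k'))) (hp : p = ddp b (b * (1 - k)) (b * (1 - k')))
    (ha : qa = qm (b * (1 - k'))) (hq : qb = qp (b * (1 - k'))) (hf : f = (1 - 2 / 5 * k) * b) :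
    f * (e - m / 2) ≤ qa / 5 ∧ f * e ≤ 2 / 5 * qa ∧ f * e ≤ 2 / 5 * qb ∧
      f * (e + p / 4) ≤ qa / 2 ∧ f * (e + p / 4) ≤ qb / 2 ∧ 0 ≤ qa ∧ 0 ≤ qb ∧ qa ≤ 1 ∧
      0 ≤ s1q (b * (1 - k')) := by
  obtain ⟨j, ps, h⟩ := DesO.holds (pt [b, k, k'])
    (by simp [hb.1, hb.2, hk.1, hk.2, hk'.1, hk'.2])
  have h' : ∀ w ∈ [DesO.e0, DesO.e1, DesO.e2, DesO.e3, DesO.e4, DesO.e5, DesO.e6, DesO.e7, DesO.e8], (0 : ℝ) ≤ w.eval (pt [b, k, k']) _ := h
  simp only [List.forall_mem_cons, List.not_mem_nil, DesO.t0, DesO.e5, DesO.t1, DesO.t2, DesO.t3, DesO.t4, DesO.t5, DesO.t6, DesO.t7, DesO.t8, DesO.t9, DesO.t10, DesO.e0, DesO.t11, DesO.e1, DesO.e6, DesO.e2, DesO.t12, DesO.e3, DesO.e4, DesO.e7, DesO.e8,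
    E.eval_var, E.eval_cst, E.eval_add, E.eval_sub, E.eval_mul, E.eval_pow, pt_zero,
    pt_succ] at h'
  push_cast at h'
  obtain ⟨a0, a1, a2, a3, a4, a5, a6, a7, a8, -⟩ := h'
  subst he hm hp ha hq hf
  simp only [ddE, ddm, ddp, qm, qp, s1q, h1, h2, h3, h4]
  refine ⟨?_, ?_, ?_, ?_, ?_, ?_, ?_, ?_, ?_⟩
  · linarith
  · linarith
  · linarith
  · linarith
  · linarith
  · linarith
  · linarith
  · linarith
  · linarith

theorem u_mono {u v : ℝ} (t : ℝ) (h : v ≤ u) : u1 v t ≤ u1 u t ∧ u2 v t ≤ u2 u t ∧ u3 v t ≤ u3 u t ∧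
    u4 v t ≤ u4 u t ∧ u5 v t ≤ u5 u t :=
  ⟨min_le_min h le_rfl, max_le_max le_rfl (min_le_min (by linarith) le_rfl),
    max_le_max le_rfl (min_le_min (by linarith) le_rfl),
    max_le_max le_rfl (min_le_min (by linarith) le_rfl), max_le_max le_rfl (by linarith)⟩

/-- lower bound for the slope of `Phi` in `u` -/
theorem Phi_slope {x u v t μ : ℝ} (ht : 0 ≤ t) (h : v ≤ u) (h1 : μ ≤ 1)
    (h2 : μ ≤ 4 * Real.exp (-x) - 2 * sm x - 1) (h3 : μ ≤ sm x)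
    (h4 : u ≤ t ∨ (μ ≤ sp x ∧ μ ≤ 1 - x)) : μ * (u - v) ≤ Phi x u t - Phi x v t := by
  obtain ⟨m1, m2, m3, m4, m5⟩ := u_mono t h
  have e1 := (u_facts u ht).1
  have e2 := (u_facts v ht).1
  have q1 := mul_le_mul_of_nonneg_left h1 (sub_nonneg.2 m1)
  have q2 := mul_le_mul_of_nonneg_left h2 (sub_nonneg.2 m2)
  have q3 := mul_le_mul_of_nonneg_left h3 (sub_nonneg.2 m3)
  have q4 : (u4 u t - u4 v t) * μ ≤ (u4 u t - u4 v t) * sp x ∧
      (u5 u t - u5 v t) * μ ≤ (u5 u t - u5 v t) * (1 - x) := by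
    rcases h4 with h4 | h4
    · have z4 : u4 u t = 0 := max_eq_left ((min_le_left _ _).trans (by linarith))
      have z5 : u5 u t = 0 := max_eq_left (by linarith)
      have y4 : u4 v t = 0 := le_antisymm (z4 ▸ m4) (u4_nonneg _ _)
      have y5 : u5 v t = 0 := le_antisymm (z5 ▸ m5) (u5_nonneg _ _)
      simp [z4, z5, y4, y5]
    · exact ⟨mul_le_mul_of_nonneg_left h4.1 (sub_nonneg.2 m4),
        mul_le_mul_of_nonneg_left h4.2 (sub_nonneg.2 m5)⟩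
  rw [Phi, Phi, PhiE, PhiE]
  have e : μ * (u - v) = (u1 u t - u1 v t) * μ + (u2 u t - u2 v t) * μ + (u3 u t - u3 v t) * μ +
      (u4 u t - u4 v t) * μ + (u5 u t - u5 v t) * μ := by
    have : u - v = (u1 u t - u1 v t) + (u2 u t - u2 v t) + (u3 u t - u3 v t) +
      (u4 u t - u4 v t) + (u5 u t - u5 v t) := by linarith
    rw [this]; ring
  rw [e]
  linarith [q4.1, q4.2]

/-- interpolation between the nodes -/
theorem node_bound {u t e m p q : ℝ} (ht : 0 ≤ t) (hu : 0 ≤ u) (hq : 0 ≤ q)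
    (n2 : u ≤ t → e - m / 2 ≤ q / 5) (n3 : e ≤ 2 / 5 * q) (n4 : t ≤ u → e + p / 4 ≤ q / 2) :
    u2 u t * (4 * e - 2 * m) + u3 u t * m + u4 u t * p ≤ 2 / 5 * q * u := by
  rcases pieces u t with h | h | h | h | h
  · obtain ⟨-, a, b, c, -⟩ := u_P0 ht h
    rw [a, b, c]
    have := mul_nonneg hq hu
    linarith
  · obtain ⟨-, a, b, c, -⟩ := u_P1 h.1 h.2
    rw [a, b, c]
    have q1 := mul_le_mul_of_nonneg_left (n2 (by linarith [h.2])) (sub_nonneg.2 h.1)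
    have q2 := mul_nonneg hq (sub_nonneg.2 h.2)
    nlinarith
  · obtain ⟨-, a, b, c, -⟩ := u_P2 h.1 h.2
    rw [a, b, c]
    have q1 := mul_le_mul_of_nonneg_left (n2 h.2) (sub_nonneg.2 h.2)
    have q2 := mul_le_mul_of_nonneg_left n3 (sub_nonneg.2 h.1)
    nlinarith
  · obtain ⟨-, a, b, c, -⟩ := u_P3 h.1 h.2
    rw [a, b, c]
    have q1 := mul_le_mul_of_nonneg_left (n4 h.1) (sub_nonneg.2 h.1)
    have q2 := mul_le_mul_of_nonneg_left n3 (sub_nonneg.2 h.2)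
    nlinarith
  · obtain ⟨-, a, b, c, -⟩ := u_P4 ht h
    rw [a, b, c]
    have q1 := mul_le_mul_of_nonneg_left (n4 (by linarith)) ht
    have q2 := mul_nonneg hq (sub_nonneg.2 h)
    nlinarith

theorem hypO : HypO := by
  intro b t c k k' hb0 hb1 ht hc hk0 hkk hk1
  have hb : b ∈ Icc (0 : ℝ) 1 := ⟨hb0, hb1⟩
  have hk : k ∈ Icc (0 : ℝ) 1 := ⟨hk0, hkk.trans hk1⟩
  have hk' : k' ∈ Icc (0 : ℝ) 1 := ⟨hk0.trans hkk, hk1⟩
  have hx := mem_mul hb hk'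
  obtain ⟨a0, a1, a2, a3, a4, a5, a6, a7, a8⟩ := polyO hb hk hk' rfl rfl rfl rfl rfl rfl
  have dE := dd_E hb hk0 hkk hk1
  have dm := dd_sm b k k'
  have dp := dd_sp b k k'
  set e := ddE b (b * (1 - k)) (b * (1 - k'))
  set m := ddm b (b * (1 - k)) (b * (1 - k'))
  set p := ddp b (b * (1 - k)) (b * (1 - k'))
  set u := c * (1 - 2 / 5 * k) with hu
  set v := c * (1 - 2 / 5 * k') with hv
  set x := b * (1 - k') with hxe
  have hφ : 0 < 1 - 2 / 5 * k := by linarith [hk.2]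
  have hu0 : 0 ≤ u := mul_nonneg hc hφ.le
  have hvu : v ≤ u := mul_le_mul_of_nonneg_left (by linarith) hc
  -- the change of the chord slope
  have h1 : Phi x u t - Phi b u t - k' * S b u t k ≤
      k' * (k' - k) * (b ^ 2 * (u2 u t * (4 * e - 2 * m) + u3 u t * m + u4 u t * p)) := by
    have t1 := mul_le_mul_of_nonneg_left dE (u2_nonneg u t)
    have e5 : u5 u t * (1 - x) - u5 u t * (1 - b) = k' * (u5 u t * b) := by rw [hxe]; ring
    rw [S_eq, Phi, Phi, PhiE, PhiE]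
    linear_combination 4 * t1 + (u3 u t - 2 * u2 u t) * dm + u4 u t * dp + e5
  -- the common slope
  obtain ⟨q, hq0, hq1, hq2, hq3⟩ : ∃ q : ℝ, 0 ≤ q ∧ q ≤ qm x ∧ (u ≤ t ∨ q ≤ qp x) ∧
      (1 - 2 / 5 * k) * b * (u2 u t * (4 * e - 2 * m) + u3 u t * m + u4 u t * p) ≤
        2 / 5 * q * u := by
    have e1 : (1 - 2 / 5 * k) * b * (u2 u t * (4 * e - 2 * m) + u3 u t * m + u4 u t * p) =
        u2 u t * (4 * ((1 - 2 / 5 * k) * b * e) - 2 * ((1 - 2 / 5 * k) * b * m)) +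
          u3 u t * ((1 - 2 / 5 * k) * b * m) + u4 u t * ((1 - 2 / 5 * k) * b * p) := by ring
    rw [e1]
    rcases le_total (qm x) (qp x) with h | h
    · exact ⟨qm x, a5, le_rfl, Or.inr h,
        node_bound ht hu0 a5 (fun _ => by linarith) a1 fun _ => by linarith⟩
    · rcases le_or_gt u t with h' | h'
      · exact ⟨qm x, a5, le_rfl, Or.inl h',
          node_bound ht hu0 a5 (fun _ => by linarith) a1 fun _ => by linarith⟩
      · exact ⟨qp x, a6, h, Or.inr le_rfl,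
          node_bound ht hu0 a6 (fun h'' => absurd h'' h'.not_ge) a2 fun _ => by linarith⟩
  have hx1 : 0 ≤ 1 - x := sub_nonneg.2 hx.2
  have s3 : (1 - x) * q ≤ sm x := by rw [sm_eq_qm]; exact mul_le_mul_of_nonneg_left hq1 hx1
  have s5 : (1 - x) * q ≤ 1 - x := mul_le_of_le_one_right hx1 (hq1.trans a7)
  have h2 := Phi_slope (x := x) (μ := (1 - x) * q) ht hvu (by linarith [hx.1])
    (by linarith [(exp_T hx.1 hx.2).1, s1q_eq x, mul_nonneg hx.1 a8]) s3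
    (hq2.imp id fun h => ⟨by rw [sp_eq_qp]; exact mul_le_mul_of_nonneg_left h hx1, s5⟩)
  have h3 : b * (u2 u t * (4 * e - 2 * m) + u3 u t * m + u4 u t * p) ≤ 2 / 5 * q * c := by
    refine le_of_mul_le_mul_left ?_ hφ
    rw [← mul_assoc]
    refine hq3.trans_eq ?_
    rw [hu]; ring
  have h4 := mul_le_mul_of_nonneg_left h3 (mul_nonneg (mul_nonneg hb0 hk'.1) (sub_nonneg.2 hkk))
  have h5 : b * k' ≤ 1 - x := by rw [hxe]; linarith
  have h6 := mul_le_mul_of_nonneg_right h5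
    (mul_nonneg (sub_nonneg.2 hkk) (mul_nonneg hq0 hc))
  have h7 : u - v = 2 / 5 * c * (k' - k) := by rw [hu, hv]; ring
  rw [h7] at h2
  nlinarith

end Crest.Agent.R310.Des
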