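import Crest.Agent.R310.ExpQ
import Crest.Agent.R310.DesDefs

/-! # Row 310: the computable side of the concrete design (helper68) -/

set_option autoImplicit false

open Crest.Agent.Lib.PolyTime

namespace Crest.Agent.R310.Des

section
variable {α : Type} [PEnc α]

@[fun_prop] theorem poly_kap {c ρ : α → ℚ} (hc : Poly c) (hρ : Poly ρ) :
    Poly fun a => kap (c a) (ρ a) := by
  unfold kap
  refine Poly.ite (by fun_prop) (by fun_prop) (Poly.ite (by fun_prop) (by fun_prop) (by fun_prop))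

@[fun_prop] theorem poly_sm {b : α → ℚ} (hb : Poly b) : Poly fun a => sm (b a) := by
  unfold sm; fun_prop

@[fun_prop] theorem poly_sp {b : α → ℚ} (hb : Poly b) : Poly fun a => sp (b a) := by
  unfold sp; fun_prop

@[fun_prop] theorem poly_PhiE {E b u t : α → ℚ} (hE : Poly E) (hb : Poly b) (hu : Poly u)
    (ht : Poly t) : Poly fun a => PhiE (E a) (b a) (u a) (t a) := by
  unfold PhiE u1 u2 u3 u4 u5; fun_prop

end

theorem cast_kap (c ρ : ℚ) : ((kap c ρ : ℚ) : ℝ) = kap (c : ℝ) (ρ : ℝ) := by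
  unfold kap
  by_cases h1 : ρ ≤ 0
  · have : (ρ : ℝ) ≤ 0 := by exact_mod_cast h1
    simp [h1, this]
  · have h1' : ¬ (ρ : ℝ) ≤ 0 := by exact_mod_cast h1
    by_cases h2 : c ≤ ρ
    · have : (c : ℝ) ≤ ρ := by exact_mod_cast h2
      simp [h1, h1', h2, this]
    · have : ¬ (c : ℝ) ≤ ρ := by exact_mod_cast h2
      simp [h1, h1', h2, this]

theorem cast_PhiE (E b u t : ℚ) :
    ((PhiE E b u t : ℚ) : ℝ) = PhiE (E : ℝ) (b : ℝ) (u : ℝ) (t : ℝ) := by
  unfold PhiE u1 u2 u3 u4 u5 sm sp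
  push_cast
  rfl

theorem kap_eq {c ρ : ℝ} (hc : 0 ≤ c) (hρ : 0 < ρ) :
    kap c ρ = if c ≤ ρ then 0 else min 1 (5 / 2 * (1 - ρ / c)) := by
  unfold kap
  rw [if_neg (not_le.2 hρ)]

theorem kap_mono' {c c' ρ : ℝ} (hc : 0 ≤ c) (h : c ≤ c') (hρ : 0 < ρ) : kap c ρ ≤ kap c' ρ := by
  rw [kap_eq hc hρ, kap_eq (hc.trans h) hρ]
  by_cases h1 : c ≤ ρ
  · rw [if_pos h1]
    split_ifs with h2
    · exact le_rfl
    · have : ρ / c' ≤ 1 := by
        rw [div_le_one (hρ.trans (not_le.1 h2))]; exact (not_le.1 h2).le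
      exact le_min zero_le_one (by linarith)
  · have h2 : ¬ c' ≤ ρ := fun h' => h1 (h.trans h')
    rw [if_neg h1, if_neg h2]
    have : ρ / c' ≤ ρ / c := div_le_div_of_nonneg_left hρ.le (hρ.trans (not_le.1 h1)) h
    exact min_le_min le_rfl (by linarith)

theorem kap_pos' {c ρ : ℝ} (hc : 0 ≤ c) (hρ : 0 < ρ) (h : 0 < kap c ρ) : ρ < c := by
  rw [kap_eq hc hρ] at h
  by_contra h1
  rw [if_pos (not_lt.1 h1)] at h
  exact lt_irrefl _ h

theorem kap_lip' {c c' ρ : ℝ} (hc : 0 ≤ c) (h : c ≤ c') (hρ : 1 ≤ ρ) :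
    kap c' ρ ≤ kap c ρ + 4 * (c' - c) := by
  have hρ0 : 0 < ρ := lt_of_lt_of_le one_pos hρ
  rw [kap_eq hc hρ0, kap_eq (hc.trans h) hρ0]
  by_cases h2 : c' ≤ ρ
  · rw [if_pos h2, if_pos (h.trans h2)]; linarith
  · rw [if_neg h2]
    have h2' := not_le.1 h2
    have hc' : 0 < c' := hρ0.trans h2'
    by_cases h1 : c ≤ ρ
    · rw [if_pos h1]
      refine (min_le_right _ _).trans ?_
      have e : 1 - ρ / c' = (c' - ρ) / c' := by field_simp
      have : (c' - ρ) / c' ≤ c' - ρ := div_le_self (by linarith) (by linarith)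
      rw [e]; linarith
    · rw [if_neg h1]
      have h1' := not_le.1 h1
      have hc0 : 0 < c := hρ0.trans h1'
      have e : ρ / c - ρ / c' = (c' - c) * (ρ / c) / c' := by field_simp
      have e1 : ρ / c ≤ 1 := by rw [div_le_one hc0]; exact h1'.le
      have e2 : (c' - c) * (ρ / c) / c' ≤ c' - c :=
        (div_le_self (mul_nonneg (by linarith) (by positivity)) (by linarith)).trans
          (mul_le_of_le_one_right (by linarith) e1)
      rcases le_total 1 (5 / 2 * (1 - ρ / c)) with h3 | h3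
      · rw [min_eq_left h3]
        exact (min_le_left _ _).trans (by linarith)
      · rw [min_eq_right h3]
        exact (min_le_right _ _).trans (by linarith)

/-- Rational approximation of the value. -/
def Vq (n : ℕ) (D d b : ℚ) : ℚ := d + PhiE (expQ n b) b (D - d) (2 * d)

theorem Vq_err' (n : ℕ) (D d b : ℚ) (hn : 0 < n) (hD : 0 ≤ D) (hd : 0 ≤ d) (h0 : 0 ≤ b)
    (h1 : b ≤ 1) : |(Vq n D d b : ℝ) - V D d b| ≤ 4 * ((D : ℝ) + d) / n := by
  have hD' : (0 : ℝ) ≤ D := by exact_mod_cast hD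
  have hd' : (0 : ℝ) ≤ d := by exact_mod_cast hd
  have e : (Vq n D d b : ℝ) - V D d b =
      4 * u2 ((D : ℝ) - d) (2 * d) * ((expQ n b : ℝ) - Real.exp (-(b : ℝ))) := by
    unfold Vq V Phi
    push_cast [cast_PhiE]
    unfold PhiE
    ring
  have h2 : 0 ≤ u2 ((D : ℝ) - d) (2 * d) := le_max_left _ _
  have h3 : u2 ((D : ℝ) - d) (2 * d) ≤ d / 2 :=
    max_le (by linarith) ((min_le_right _ _).trans (by linarith))
  rw [e, abs_mul, abs_of_nonneg (by linarith)]
  refine (mul_le_mul (b := 2 * ((D : ℝ) + d)) (by linarith) (expQ_approx hn h0 h1) (abs_nonneg _)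
    (by linarith)).trans_eq ?_
  ring

/-- The computable side of every design whose kill profile is `kap` and whose value is `V`. -/
def algOf (s : Design) (hκ : ∀ c ρ, s.κ c ρ = kap c ρ) (hV : ∀ D d b, s.V D d b = V D d b) :
    s.Alg where
  κq := kap
  Vq := Vq
  K := 4
  poly_κq := by fun_prop
  poly_Vq := by unfold Vq; fun_prop
  κq_eq c ρ := by rw [hκ, cast_kap]
  κ_mono c c' ρ hc h hρ := by rw [hκ, hκ]; exact kap_mono' hc h hρ
  κ_pos c ρ hc hρ h := by rw [hκ] at h; exact kap_pos' hc hρ h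
  κ_lip c c' ρ hc h hρ := by rw [hκ, hκ]; exact_mod_cast kap_lip' hc h hρ
  Vq_err n D d b hn hD hd h0 h1 := by rw [hV]; exact_mod_cast Vq_err' n D d b hn hD hd h0 h1

end Crest.Agent.R310.Des
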