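import Crest.Agent.R310.Des

/-! # Row 310: reductions of (P) and (O) -/

set_option autoImplicit false

open Set

namespace Crest.Agent.R310.Des

noncomputable section

/-- the full kill value -/
def Full (D d b d' b' : ℝ) : ℝ := D - d - Phi b (D - d) (2 * d) - b' * (D - min D d')

/-- the candidates for the maximum of `E(k;i)` -/
def Cand (D d b d' b' x : ℝ) : Prop :=
  x = Full D d b d' b' ∨ ∃ K c, 0 ≤ K ∧ K ≤ 1 ∧ c * (1 - 2 / 5 * K) = d + d' ∧ x = Ep D d b c d' b' K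

/-- (P) for the far facility `(d, b)` and the near facility `(d', b')` -/
def PAt (D d d' b b' : ℝ) : Prop :=
  ∀ x x', Cand D d b d' b' x → Cand D d' b' d b x' → x + x' ≤ 0

/-- (P), normalised by `D = 1` -/
def HypP1 : Prop :=
  ∀ d d' b b' : ℝ, 0 ≤ d' → d' ≤ d → 0 < d → d ≤ 2 / 3 → 0 ≤ b → b ≤ 1 → 0 ≤ b' → b' ≤ 1 →
    PAt 1 d d' b b'

/-- (P), normalised by `d = 1` -/
def HypP2 : Prop :=
  ∀ D d' b b' : ℝ, 3 / 2 ≤ D → 0 ≤ d' → d' ≤ 1 → 0 ≤ b → b ≤ 1 → 0 ≤ b' → b' ≤ 1 → PAt D 1 d' b b'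

/-- (O), normalised by `c = 1` -/
def HypO1 : Prop :=
  ∀ b t k k' : ℝ, 0 ≤ b → b ≤ 1 → 0 ≤ t → t ≤ 4 → 0 ≤ k → k ≤ k' → k' ≤ 1 →
    Phi (b * (1 - k')) (1 - 2 / 5 * k') t - Phi b (1 - 2 / 5 * k) t ≤ k' * S b (1 - 2 / 5 * k) t k

end

section Scale

variable {a : ℝ}

theorem u1_smul (ha : 0 ≤ a) (u t : ℝ) : u1 (a * u) (a * t) = a * u1 u t := by
  rw [u1, u1, mul_min_of_nonneg _ _ ha, mul_div_assoc]

theorem u2_smul (ha : 0 ≤ a) (u t : ℝ) : u2 (a * u) (a * t) = a * u2 u t := by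
  rw [u2, u2, mul_max_of_nonneg _ _ ha, mul_min_of_nonneg _ _ ha]; ring_nf

theorem u3_smul (ha : 0 ≤ a) (u t : ℝ) : u3 (a * u) (a * t) = a * u3 u t := by
  rw [u3, u3, mul_max_of_nonneg _ _ ha, mul_min_of_nonneg _ _ ha]; ring_nf

theorem u4_smul (ha : 0 ≤ a) (u t : ℝ) : u4 (a * u) (a * t) = a * u4 u t := by
  rw [u4, u4, mul_max_of_nonneg _ _ ha, mul_min_of_nonneg _ _ ha]; ring_nf

theorem u5_smul (ha : 0 ≤ a) (u t : ℝ) : u5 (a * u) (a * t) = a * u5 u t := by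
  rw [u5, u5, mul_max_of_nonneg _ _ ha]; ring_nf

theorem Phi_smul (ha : 0 ≤ a) (b u t : ℝ) : Phi b (a * u) (a * t) = a * Phi b u t := by
  simp only [Phi, PhiE, u1_smul ha, u2_smul ha, u3_smul ha, u4_smul ha, u5_smul ha]; ring

theorem Pi_smul (ha : 0 ≤ a) (b u t : ℝ) : Pi b (a * u) (a * t) = a * Pi b u t := by
  simp only [Pi, PiE, u2_smul ha, u3_smul ha, u4_smul ha, u5_smul ha]; ring

theorem S_smul (ha : 0 ≤ a) (b u t k : ℝ) : S b (a * u) (a * t) k = a * S b u t k := by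
  simp only [S, Phi_smul ha, Pi_smul ha]
  split_ifs <;> ring

theorem kap_smul (ha : 0 < a) (c ρ : ℝ) : kap (a * c) (a * ρ) = kap c ρ := by
  simp only [kap, mul_le_mul_iff_right₀ ha, mul_div_mul_left _ _ ha.ne',
    show a * ρ ≤ 0 ↔ ρ ≤ 0 from by simpa using mul_le_mul_iff_right₀ (b := ρ) (c := 0) ha]

theorem Lam_smul (ha : 0 < a) (b u t c : ℝ) : Lam b (a * u) (a * t) (a * c) = a * Lam b u t c := by
  simp only [Lam, mul_le_mul_iff_right₀ ha, kap_smul ha, S_smul ha.le, Phi_smul ha.le,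
    Pi_smul ha.le]
  split_ifs <;> ring

theorem V_smul (ha : 0 ≤ a) (D d b : ℝ) : V (a * D) (a * d) b = a * V D d b := by
  rw [V, V, ← mul_sub, mul_left_comm, Phi_smul ha, mul_add]

theorem Ep_smul (ha : 0 < a) (D d b c d' b' K : ℝ) :
    Ep (a * D) (a * d) b (a * c) (a * d') b' K = a * Ep D d b c d' b' K := by
  rw [Ep, Ep, ← mul_min_of_nonneg _ _ ha.le, V_smul ha.le, V_smul ha.le, ← mul_sub a D,
    mul_left_comm 2 a, Lam_smul ha]
  ring

theorem Full_smul (ha : 0 ≤ a) (D d b d' b' : ℝ) :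
    Full (a * D) (a * d) b (a * d') b' = a * Full D d b d' b' := by
  rw [Full, Full, ← mul_min_of_nonneg _ _ ha, ← mul_sub a D, mul_left_comm 2 a, Phi_smul ha]
  ring

theorem Cand.smul (ha : 0 < a) {D d b d' b' x : ℝ} (h : Cand D d b d' b' x) :
    Cand (a * D) (a * d) b (a * d') b' (a * x) := by
  rcases h with rfl | ⟨K, c, h0, h1, h2, rfl⟩
  · exact Or.inl (Full_smul ha.le ..).symm
  · exact Or.inr ⟨K, a * c, h0, h1, by rw [mul_assoc, h2, mul_add], (Ep_smul ha ..).symm⟩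

theorem PAt.of_smul (ha : 0 < a) {D d d' b b' : ℝ} (h : PAt (a * D) (a * d) (a * d') b b') :
    PAt D d d' b b' := fun x x' hx hx' => by
  have := h _ _ (hx.smul ha) (hx'.smul ha)
  rw [← mul_add] at this
  exact nonpos_of_mul_nonpos_right this ha

end Scale

section Red

variable {b b' u t c c' D d d' K K' : ℝ}

theorem le_sp (h0 : 0 ≤ b) (h1 : b ≤ 1) : 5 / 4 * (1 - b) ≤ Real.exp (-b) + sp b / 4 := by
  have h := Real.quadratic_le_exp_of_nonneg h0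
  have h2 : (1 - b + b ^ 2 / 4) * Real.exp b ≤ 1 := by
    have := Real.exp_bound' h0 h1 (n := 3) (by norm_num)
    simp only [Finset.sum_range_succ, Finset.range_zero, Finset.sum_empty, Nat.factorial] at this
    push_cast at this
    refine (mul_le_mul_of_nonneg_left this (by nlinarith)).trans ?_
    nlinarith [mul_nonneg h0 h0, pow_nonneg h0 3, pow_nonneg h0 4, pow_nonneg h0 5,
      mul_nonneg (pow_nonneg h0 2) (sub_nonneg.2 h1), mul_nonneg (pow_nonneg h0 3) (sub_nonneg.2 h1),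
      mul_nonneg (pow_nonneg h0 4) (sub_nonneg.2 h1)]
  have h3 : 1 - b + b ^ 2 / 4 ≤ Real.exp (-b) := by
    rw [Real.exp_neg, ← one_div, le_div_iff₀ (Real.exp_pos b)]
    exact h2
  rw [sp]
  nlinarith [mul_nonneg h0 h0, pow_nonneg h0 3, pow_nonneg h0 4,
    mul_nonneg (pow_nonneg h0 2) (sub_nonneg.2 h1), mul_nonneg (pow_nonneg h0 3) (sub_nonneg.2 h1),
    mul_nonneg h0 (sub_nonneg.2 h1)]

theorem le_Phi (hu : 0 ≤ u) (ht : 0 ≤ t) (hb : b ∈ Icc (0 : ℝ) 1) : (1 - b) * u ≤ Phi b u t := by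
  have e1 : 1 - b ≤ Real.exp (-b) := by linarith [Real.add_one_le_exp (-b)]
  have e2 := (sm_mem hb.1 hb.2).2
  have e3 := le_sp hb.1 hb.2
  have e4 := hb.1
  rcases pieces u t with h | ⟨h, h'⟩ | ⟨h, h'⟩ | ⟨h, h'⟩ | h
  · rw [Phi_P0 ht h]; nlinarith
  · rw [Phi_P1 h h']
    nlinarith [mul_nonneg (sub_nonneg.2 h) (sub_nonneg.2 e1), mul_nonneg (sub_nonneg.2 h)
      (sub_nonneg.2 e2), mul_nonneg (sub_nonneg.2 h') e4]
  · rw [Phi_P2 h h']
    nlinarith [mul_nonneg ht (sub_nonneg.2 e1), mul_nonneg (sub_nonneg.2 h') (sub_nonneg.2 e2)]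
  · rw [Phi_P3 h h']
    nlinarith [mul_nonneg (sub_nonneg.2 h) (sub_nonneg.2 e3), mul_nonneg (sub_nonneg.2 h')
      (sub_nonneg.2 e1)]
  · rw [Phi_P4 ht h]
    nlinarith [mul_nonneg ht (sub_nonneg.2 e3)]

theorem Pi_add_mono (hb : b ∈ Icc (0 : ℝ) 1) (h : c ≤ c') :
    b * Pi b c t + Phi b c t ≤ b * Pi b c' t + Phi b c' t := by
  have h1 : u1 c t ≤ u1 c' t := min_le_min_right _ h
  have h2 : u2 c t ≤ u2 c' t := max_le_max_left _ (min_le_min_right _ (by linarith))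
  have h3 : u3 c t ≤ u3 c' t := max_le_max_left _ (min_le_min_right _ (by linarith))
  have h4 : u4 c t ≤ u4 c' t := max_le_max_left _ (min_le_min_right _ (by linarith))
  have h5 : u5 c t ≤ u5 c' t := max_le_max_left _ (by linarith)
  have := mul_le_mul_of_nonneg_right h2
    (add_nonneg (s1_nonneg hb.1 hb.2) (mul_nonneg hb.1 (n1d_nonneg hb.1 hb.2)))
  have := mul_le_mul_of_nonneg_right h3
    (add_nonneg (sm_mem hb.1 hb.2).1 (mul_nonneg hb.1 (neg_nonneg.2 (smd_mem hb.1 hb.2).2)))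
  have := mul_le_mul_of_nonneg_right h4
    (add_nonneg (sp_nonneg hb.1 hb.2) (mul_nonneg hb.1 (neg_nonneg.2 (spd_mem hb.1 hb.2).2)))
  simp only [Phi, PhiE, Pi, PiE]
  linarith

theorem Lam_mono (ht : 0 ≤ t) (hb : b ∈ Icc (0 : ℝ) 1) (h : c ≤ c') : Lam b u t c ≤ Lam b u t c' := by
  rcases le_or_gt u c with h1 | h1
  · rw [Lam_of_le h1, Lam_of_le (h1.trans h)]
    exact S_mono u ht hb (kap_mem _ _) (kap_mem _ _).1 (kap_mono h)
  rcases le_or_gt u c' with h2 | h2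
  · rw [Lam_of_lt h1, Lam_of_le h2]
    linarith [Pi_add_mono (t := t) hb h1.le, le_S u ht hb (kap_mem c' u)]
  · rw [Lam_of_lt h1, Lam_of_lt h2]
    linarith [Pi_add_mono (t := t) hb h]

theorem Ep_one_le (hd : 0 ≤ d) (hb : b ∈ Icc (0 : ℝ) 1) (hb' : b' ∈ Icc (0 : ℝ) 1) :
    Ep D d b c d' b' 1 ≤ Full D d b d' b' := by
  have := mul_le_mul_of_nonneg_right (Lam_le (u := D - d) (c := c) (t := 2 * d) (by linarith) hb)
    (sub_nonneg.2 hb'.2)
  rw [Ep, Full, V, V, sub_self, mul_zero, mul_one, Phi_zero _ (by linarith)]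
  linarith

/-- convexity in the killed fraction -/
theorem Ep_le_max (hd : 0 ≤ d) (hb : b ∈ Icc (0 : ℝ) 1) (hb' : b' ∈ Icc (0 : ℝ) 1) (h0 : 0 ≤ K)
    (h : K ≤ K') (h1 : K' ≤ 1) :
    Ep D d b c d' b' K' ≤ max (Ep D d b c d' b' K) (Ep D d b c d' b' 1) := by
  rcases (h.trans h1).eq_or_lt with rfl | hK
  · rw [le_antisymm h1 h]; exact le_max_left _ _
  obtain ⟨a, ha, rfl⟩ : ∃ a ∈ Icc (0 : ℝ) 1, K' = K + a * (1 - K) :=
    ⟨(K' - K) / (1 - K), ⟨div_nonneg (sub_nonneg.2 h) (sub_nonneg.2 hK.le),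
      (div_le_one (sub_pos.2 hK)).2 (by linarith)⟩, by
        rw [div_mul_cancel₀ _ (sub_pos.2 hK).ne']; ring⟩
  have h2 := mul_le_mul_of_nonneg_left (Phi_chord (min D d' - d) (t := 2 * d) (by linarith)
    (mem_mul hb ⟨h0, hK.le⟩) ha ⟨zero_le_one, le_rfl⟩) hb'.1
  have h3 := mul_le_mul_of_nonneg_left
    (le_max_left (Ep D d b c d' b' K) (Ep D d b c d' b' 1)) (sub_nonneg.2 ha.2)
  have h4 := mul_le_mul_of_nonneg_left
    (le_max_right (Ep D d b c d' b' K) (Ep D d b c d' b' 1)) ha.1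
  have e : b * (1 - (K + a * (1 - K))) = b * (1 - K) * (1 - a * 1) := by ring
  have e' : b * (1 - 1) = b * (1 - K) * (1 - 1) := by ring
  refine le_trans ?_ ((add_le_add h3 h4).trans_eq (by ring))
  simp only [Ep, V, e, e']
  linarith

theorem exists_cand {ρ : ℝ} (hd : 0 ≤ d) (hb : b ∈ Icc (0 : ℝ) 1) (hb' : b' ∈ Icc (0 : ℝ) 1)
    (hρ : ρ ≤ d + d') : ∃ x, Cand D d b d' b' x ∧ Ep D d b c d' b' (kap c ρ) ≤ x := by
  have hK := kap_mem c (d + d')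
  rcases le_max_iff.1 (Ep_le_max (D := D) (c := c) (d' := d') hd hb hb' hK.1 (kap_anti hρ)
    (kap_mem c ρ).2) with h | h
  swap
  · exact ⟨_, Or.inl rfl, h.trans (Ep_one_le hd hb hb')⟩
  rcases hK.2.eq_or_lt with h1 | h1
  · rw [h1] at h
    exact ⟨_, Or.inl rfl, h.trans (Ep_one_le hd hb hb')⟩
  rcases le_total (d + d') c with h2 | h2
  · exact ⟨_, Or.inr ⟨_, c, hK.1, hK.2, (eq_of_kap h2 h1).symm, rfl⟩, h⟩
  · have h3 : 0 < d + d' := by
      by_contra h3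
      rw [kap_of_nonpos (not_lt.1 h3)] at h1
      exact lt_irrefl _ h1
    refine ⟨_, Or.inr ⟨0, d + d', le_rfl, zero_le_one, by ring, rfl⟩, h.trans ?_⟩
    rw [kap_of_le h3 h2]
    have := Lam_mono (u := D - d) (t := 2 * d) (by linarith) hb h2
    simp only [Ep]
    linarith

theorem Ep_le_gain (hd : 0 ≤ d) (hb : b ∈ Icc (0 : ℝ) 1) (hb' : b' ∈ Icc (0 : ℝ) 1)
    (hK : K ∈ Icc (0 : ℝ) 1) : Ep D d b c d' b' K ≤ D - d - Phi b (D - d) (2 * d) := by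
  have hm : b' * K ≤ 1 := mul_le_one₀ hb'.2 hK.1 hK.2
  have h1 := mul_le_mul_of_nonneg_right (Lam_le (u := D - d) (c := c) (t := 2 * d) (by linarith) hb)
    (sub_nonneg.2 hm)
  have h2 := Phi_mono (t := 2 * d) (mem_mul hb hK) (sub_le_sub_right (min_le_left D d') d)
  have h3 := chord_le (D - d) (t := 2 * d) (by linarith) hb ⟨zero_le_one, le_rfl⟩ hK.1 hK.2
  rw [S_one _ _ (by linarith)] at h3
  have h4 := mul_le_mul_of_nonneg_left (add_le_add h2 h3) hb'.1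
  simp only [Ep, V]
  linarith

/-- the far facility is too far -/
theorem pair_far (hd' : 0 ≤ d') (h : d' ≤ d) (hD : 2 / 3 * D ≤ d) (hb : b ∈ Icc (0 : ℝ) 1)
    (hb' : b' ∈ Icc (0 : ℝ) 1) (hK : K ∈ Icc (0 : ℝ) 1) (hK' : K' ∈ Icc (0 : ℝ) 1) :
    Ep D d b c d' b' K + Ep D d' b' c' d b K' ≤ 0 := by
  have hd := hd'.trans h
  have e1 : Phi b (D - d) (2 * d) = D - d := Phi_P0 (by linarith) (by linarith)
  have e2 : Phi (b * (1 - K)) (min D d' - d) (2 * d) = min D d' - d :=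
    Phi_P0 (by linarith) (by linarith [min_le_right D d'])
  have h1 := Lam_le (u := D - d) (c := c) (t := 2 * d) (by linarith) hb
  rw [e1, sub_self] at h1
  have h2 := mul_nonpos_of_nonpos_of_nonneg h1 (sub_nonneg.2 (mul_le_one₀ hb'.2 hK.1 hK.2))
  have h3 := Ep_le_gain (D := D) (c := c') (d' := d) hd' hb' hb hK'
  have h4 : Ep D d b c d' b' K ≤ b' * (min D d' - D) := by
    rw [Ep, V, V, e1, e2]
    linarith
  rcases le_total D d' with h5 | h5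
  · rw [min_eq_left h5] at h4
    rw [Phi_P0 (by linarith) (by linarith)] at h3
    linarith
  · rw [min_eq_right h5] at h4
    linarith [le_Phi (sub_nonneg.2 h5) (by linarith : 0 ≤ 2 * d') hb']

theorem pair_zero {ρ ρ' : ℝ} (hD : 0 ≤ D) (hb : b ∈ Icc (0 : ℝ) 1) (hb' : b' ∈ Icc (0 : ℝ) 1)
    (hρ : ρ ≤ 0) (hρ' : ρ' ≤ 0) :
    Ep D 0 b c 0 b' (kap c ρ) + Ep D 0 b' c' 0 b (kap c' ρ') ≤ 0 := by
  rw [kap_of_nonpos hρ, kap_of_nonpos hρ']
  have h1 := Ep_one_le (D := D) (c := c) (d' := 0) le_rfl hb hb'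
  have h2 := Ep_one_le (D := D) (c := c') (d' := 0) le_rfl hb' hb
  have h3 := le_Phi hD le_rfl hb
  have h4 := le_Phi hD le_rfl hb'
  simp only [Full, sub_zero, mul_zero, min_eq_right hD] at h1 h2
  linarith

theorem hypP_of (H : ∀ D d d' b b' : ℝ, 0 ≤ d' → d' ≤ d → 0 < d → d ≤ 2 / 3 * D → 0 ≤ b → b ≤ 1 →
    0 ≤ b' → b' ≤ 1 → PAt D d d' b b') : HypP := by
  have key : ∀ D d d' c c' ρ ρ' b b' : ℝ, b ∈ Icc (0 : ℝ) 1 → b' ∈ Icc (0 : ℝ) 1 → 0 ≤ D →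
      0 ≤ d' → d' ≤ d → ρ ≤ d + d' → ρ' ≤ d + d' →
      Ep D d b c d' b' (kap c ρ) + Ep D d' b' c' d b (kap c' ρ') ≤ 0 := by
    intro D d d' c c' ρ ρ' b b' hb hb' hD hd' h hρ hρ'
    rcases (hd'.trans h).eq_or_lt with rfl | hd
    · obtain rfl : d' = 0 := le_antisymm h hd'
      exact pair_zero hD hb hb' (by linarith) (by linarith)
    rcases le_total d (2 / 3 * D) with h1 | h1
    · obtain ⟨x, hx, e⟩ := exists_cand (D := D) (c := c) hd.le hb hb' hρ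
      obtain ⟨x', hx', e'⟩ := exists_cand (D := D) (c := c') hd' hb' hb (hρ'.trans_eq (add_comm _ _))
      linarith [H D d d' b b' hd' h hd h1 hb.1 hb.2 hb'.1 hb'.2 x x' hx hx']
    · exact pair_far hd' h h1 hb hb' (kap_mem _ _) (kap_mem _ _)
  intro D d d' c c' ρ ρ' b b' b0 b1 b0' b1' hD hd hd' _ _ _ _ _ hρ _ hρ'
  rcases le_total d' d with h | h
  · exact key D d d' c c' ρ ρ' b b' ⟨b0, b1⟩ ⟨b0', b1'⟩ hD hd' h hρ hρ'
  · rw [add_comm]
    exact key D d' d c' c ρ' ρ b' b ⟨b0', b1'⟩ ⟨b0, b1⟩ hD hd h (hρ'.trans_eq (add_comm _ _))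
      (hρ.trans_eq (add_comm _ _))

theorem hypP_of_P1 (H : HypP1) : HypP := hypP_of fun D d d' b b' h0 h1 h2 h3 b0 b1 b0' b1' => by
  have hD : 0 < D := by linarith
  refine PAt.of_smul (inv_pos.2 hD) ?_
  rw [inv_mul_cancel₀ hD.ne']
  refine H _ _ b b' (by positivity) (mul_le_mul_of_nonneg_left h1 (by positivity)) (by positivity)
    ?_ b0 b1 b0' b1'
  rw [inv_mul_le_iff₀ hD]
  linarith

theorem hypP_of_P2 (H : HypP2) : HypP := hypP_of fun D d d' b b' h0 h1 h2 h3 b0 b1 b0' b1' => by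
  refine PAt.of_smul (inv_pos.2 h2) ?_
  rw [inv_mul_cancel₀ h2.ne']
  refine H _ _ b b' ?_ (by positivity) ?_ b0 b1 b0' b1'
  · rw [le_inv_mul_iff₀ h2]
    linarith
  · rw [inv_mul_le_iff₀ h2]
    linarith

theorem hypO_of_O1 (H : HypO1) : HypO := by
  intro b t c k k' b0 b1 ht hc h0 h1 h2
  have hS := mul_nonneg (h0.trans h1) ((mul_nonneg b0 (Pi_nonneg _ ht ⟨b0, b1⟩)).trans
    (le_S (c * (1 - 2 / 5 * k)) ht ⟨b0, b1⟩ ⟨h0, h1.trans h2⟩))
  rcases le_total (4 * c) t with h3 | h3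
  · rw [Phi_P0 ht (by nlinarith), Phi_P0 ht (by nlinarith)]
    nlinarith
  rcases hc.eq_or_lt with rfl | hc'
  · obtain rfl : t = 0 := le_antisymm (by linarith) ht
    rw [Phi_P0 le_rfl (by simp), Phi_P0 le_rfl (by simp)]
    linarith
  · obtain ⟨t, rfl⟩ : ∃ t', t = c * t' := ⟨t / c, by field_simp⟩
    rw [Phi_smul hc, Phi_smul hc, S_smul hc, ← mul_sub, mul_left_comm]
    exact mul_le_mul_of_nonneg_left (H b t k k' b0 b1 (nonneg_of_mul_nonneg_right ht hc' )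
      (le_of_mul_le_mul_left (by linarith) hc') h0 h1 h2) hc

/-- the term of the far facility -/
theorem Ep_far (hd : 0 ≤ d) (h : d' ≤ d) (hD : d' ≤ D) :
    Ep D d b c d' b' K = Lam b (D - d) (2 * d) c * (1 - b' * K) +
      b' * (d' - d - Phi b (D - d) (2 * d)) := by
  rw [Ep, V, V, min_eq_right hD, Phi_P0 (by linarith) (by linarith)]
  ring

/-- the term of the near facility -/
theorem Ep_near (hD : d' ≤ D) :
    Ep D d b c d' b' K = Lam b (D - d) (2 * d) c * (1 - b' * K) +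
      b' * (Phi (b * (1 - K)) (d' - d) (2 * d) - Phi b (D - d) (2 * d)) := by
  rw [Ep, V, V, min_eq_right hD]
  ring

/-- the term of the near facility, linearised in `K` -/
theorem Ep_near_le (hd : 0 ≤ d) (hD : d' ≤ D) (hb : b ∈ Icc (0 : ℝ) 1) (hb' : 0 ≤ b')
    (hK : K ∈ Icc (0 : ℝ) 1) :
    Ep D d b c d' b' K ≤ Lam b (D - d) (2 * d) c * (1 - b' * K) +
      b' * (d' - d - (1 - K) * (d' - d - Phi b (d' - d) (2 * d)) - Phi b (D - d) (2 * d)) := by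
  have h3 := chord_le (d' - d) (t := 2 * d) (by linarith) hb ⟨zero_le_one, le_rfl⟩ hK.1 hK.2
  rw [S_one _ _ (by linarith)] at h3
  have := mul_le_mul_of_nonneg_left h3 hb'
  rw [Ep_near hD]
  linarith

end Red

end Crest.Agent.R310.Des
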