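import Crest.Agent.R310.DesN

/-!
# Row 310: reduction of (N) from triangles to their edges (helper84)

Homogeneous coordinates `(D, d, e)`: `d` is the distance of the facility itself, `e` that of the
other one; `U` is the bound and `g` the gain, both linear on the cell.
-/

set_option autoImplicit false

open Set

namespace Crest.Agent.R310.Edge

open Des

noncomputable section

/-- the closed linear pieces of `Φ` -/
def Piece (m : ℕ) (u t : ℝ) : Prop :=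
  0 ≤ t ∧ (m = 1 → t / 4 ≤ u ∧ u ≤ t / 2) ∧ (m = 2 → t / 2 ≤ u ∧ u ≤ t) ∧
    (m = 3 → t ≤ u ∧ u ≤ 5 / 4 * t) ∧ (m ≠ 1 → m ≠ 2 → m ≠ 3 → 5 / 4 * t ≤ u)

@[ext] structure Q where
  D : ℝ
  d : ℝ
  e : ℝ
  U : ℝ
  g : ℝ

def Q.comb (α β : ℝ) (A B : Q) : Q :=
  ⟨α * A.D + β * B.D, α * A.d + β * B.d, α * A.e + β * B.e, α * A.U + β * B.U, α * A.g + β * B.g⟩

def Q.comb3 (α β γ : ℝ) (A B C : Q) : Q :=
  ⟨α * A.D + β * B.D + γ * C.D, α * A.d + β * B.d + γ * C.d, α * A.e + β * B.e + γ * C.e,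
    α * A.U + β * B.U + γ * C.U, α * A.g + β * B.g + γ * C.g⟩

def HI (b a : ℝ) (q : Q) : Prop :=
  (q.D - q.d - Phi b (q.D - q.d) (2 * q.d)) * (1 - a) ≤ q.U

def HB (b a : ℝ) (q : Q) : Prop :=
  ∀ w K : ℝ, 0 ≤ w → w ≤ 1 → 0 ≤ K → K ≤ 1 →
    (q.d + q.e) * (5 - 2 * w) = (q.D - q.d) * (5 - 2 * K) →
    S b (q.D - q.d) (2 * q.d) w * (1 - a * K) ≤ q.U + a * (1 - K) * q.g

def HB2 (b a : ℝ) (q : Q) : Prop :=
  5 * (q.D - q.d) ≤ 3 * (q.d + q.e) → q.D - q.d - Phi b (q.D - q.d) (2 * q.d) ≤ q.U + a * q.g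

def HC (b a : ℝ) (q : Q) : Prop :=
  ∀ K : ℝ, 0 ≤ K → K ≤ 1 → cK (q.d + q.e) K ≤ q.D - q.d →
    (N b (cK (q.d + q.e) K) (2 * q.d) - Phi b (q.D - q.d) (2 * q.d)) * (1 - a * K) ≤
      q.U + a * (1 - K) * q.g

def EB (b a : ℝ) (A B : Q) : Prop := ∀ α β : ℝ, 0 ≤ α → 0 ≤ β → HB b a (Q.comb α β A B)

def EC (b a : ℝ) (A B : Q) : Prop := ∀ α β : ℝ, 0 ≤ α → 0 ≤ β → HC b a (Q.comb α β A B)

/-- the three inequalities of one side of `NAt` -/
structure Side (b a u t ρ H g : ℝ) : Prop where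
  I : (u - Phi b u t) * (1 - a) ≤ H
  B : ∀ w, 0 ≤ w → w ≤ 1 → Kl u ρ w < 1 →
    S b u t w * (1 - a * max 0 (Kl u ρ w)) ≤ H + a * (1 - max 0 (Kl u ρ w)) * g
  C : ∀ K, 0 ≤ K → K ≤ 1 → cK ρ K < u →
    (N b (cK ρ K) t - Phi b u t) * (1 - a * K) ≤ H + a * (1 - K) * g

/-- a vertex of a cell -/
def InP (m : ℕ) (q : Q) : Prop := Piece m (q.D - q.d) (2 * q.d) ∧ 0 ≤ q.e

end

variable {m : ℕ} {α β u t u' t' b a : ℝ} {A B C X Y : Q}

theorem Piece.comb (hα : 0 ≤ α) (hβ : 0 ≤ β) (h : Piece m u t) (h' : Piece m u' t') :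
    Piece m (α * u + β * u') (α * t + β * t') := by
  obtain ⟨a0, a1, a2, a3, a4⟩ := h
  obtain ⟨c0, c1, c2, c3, c4⟩ := h'
  have key : ∀ {x y x' y' : ℝ}, x ≤ y → x' ≤ y' → α * x + β * x' ≤ α * y + β * y' :=
    fun h h' => add_le_add (mul_le_mul_of_nonneg_left h hα) (mul_le_mul_of_nonneg_left h' hβ)
  refine ⟨by positivity, fun e => ⟨?_, ?_⟩, fun e => ⟨?_, ?_⟩, fun e => ⟨?_, ?_⟩, fun e1 e2 e3 => ?_⟩
  · linarith [key (a1 e).1 (c1 e).1]
  · linarith [key (a1 e).2 (c1 e).2]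
  · linarith [key (a2 e).1 (c2 e).1]
  · linarith [key (a2 e).2 (c2 e).2]
  · linarith [key (a3 e).1 (c3 e).1]
  · linarith [key (a3 e).2 (c3 e).2]
  · linarith [key (a4 e1 e2 e3) (c4 e1 e2 e3)]

theorem Phi_comb (b : ℝ) (hα : 0 ≤ α) (hβ : 0 ≤ β) (h : Piece m u t) (h' : Piece m u' t') :
    Phi b (α * u + β * u') (α * t + β * t') = α * Phi b u t + β * Phi b u' t' := by
  obtain ⟨z0, z1, z2, z3, z4⟩ := h.comb hα hβ h'
  obtain ⟨a0, a1, a2, a3, a4⟩ := h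
  obtain ⟨c0, c1, c2, c3, c4⟩ := h'
  by_cases e1 : m = 1
  · rw [Phi_P1 (z1 e1).1 (z1 e1).2, Phi_P1 (a1 e1).1 (a1 e1).2, Phi_P1 (c1 e1).1 (c1 e1).2]; ring
  by_cases e2 : m = 2
  · rw [Phi_P2 (z2 e2).1 (z2 e2).2, Phi_P2 (a2 e2).1 (a2 e2).2, Phi_P2 (c2 e2).1 (c2 e2).2]; ring
  by_cases e3 : m = 3
  · rw [Phi_P3 (z3 e3).1 (z3 e3).2, Phi_P3 (a3 e3).1 (a3 e3).2, Phi_P3 (c3 e3).1 (c3 e3).2]; ring
  · rw [Phi_P4 z0 (z4 e1 e2 e3), Phi_P4 a0 (a4 e1 e2 e3), Phi_P4 c0 (c4 e1 e2 e3)]; ring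

theorem Pi_comb (b : ℝ) (hα : 0 ≤ α) (hβ : 0 ≤ β) (h : Piece m u t) (h' : Piece m u' t') :
    Pi b (α * u + β * u') (α * t + β * t') = α * Pi b u t + β * Pi b u' t' := by
  obtain ⟨z0, z1, z2, z3, z4⟩ := h.comb hα hβ h'
  obtain ⟨a0, a1, a2, a3, a4⟩ := h
  obtain ⟨c0, c1, c2, c3, c4⟩ := h'
  by_cases e1 : m = 1
  · rw [Pi_P1 (z1 e1).1 (z1 e1).2, Pi_P1 (a1 e1).1 (a1 e1).2, Pi_P1 (c1 e1).1 (c1 e1).2]; ring
  by_cases e2 : m = 2
  · rw [Pi_P2 (z2 e2).1 (z2 e2).2, Pi_P2 (a2 e2).1 (a2 e2).2, Pi_P2 (c2 e2).1 (c2 e2).2]; ring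
  by_cases e3 : m = 3
  · rw [Pi_P3 (z3 e3).1 (z3 e3).2, Pi_P3 (a3 e3).1 (a3 e3).2, Pi_P3 (c3 e3).1 (c3 e3).2]; ring
  · rw [Pi_P4 z0 (z4 e1 e2 e3), Pi_P4 a0 (a4 e1 e2 e3), Pi_P4 c0 (c4 e1 e2 e3)]; ring

theorem S_comb (b w : ℝ) (hα : 0 ≤ α) (hβ : 0 ≤ β) (h : Piece m u t) (h' : Piece m u' t') :
    S b (α * u + β * u') (α * t + β * t') w = α * S b u t w + β * S b u' t' w := by
  unfold S
  split_ifs
  · rw [Pi_comb b hα hβ h h']; ring
  · rw [Phi_comb _ hα hβ h h', Phi_comb _ hα hβ h h']; ring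

theorem comb_u (α β : ℝ) (A B : Q) :
    (Q.comb α β A B).D - (Q.comb α β A B).d = α * (A.D - A.d) + β * (B.D - B.d) := by
  simp only [Q.comb]; ring

theorem comb_t (α β : ℝ) (A B : Q) : 2 * (Q.comb α β A B).d = α * (2 * A.d) + β * (2 * B.d) := by
  simp only [Q.comb]; ring

theorem comb_r (α β : ℝ) (A B : Q) :
    (Q.comb α β A B).d + (Q.comb α β A B).e = α * (A.d + A.e) + β * (B.d + B.e) := by
  simp only [Q.comb]; ring

theorem InP.comb (hα : 0 ≤ α) (hβ : 0 ≤ β) (h : InP m A) (h' : InP m B) :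
    InP m (Q.comb α β A B) := by
  refine ⟨?_, add_nonneg (mul_nonneg hα h.2) (mul_nonneg hβ h'.2)⟩
  rw [comb_u, comb_t]; exact h.1.comb hα hβ h'.1

theorem Phi_Q (b : ℝ) (hα : 0 ≤ α) (hβ : 0 ≤ β) (h : InP m A) (h' : InP m B) :
    Phi b ((Q.comb α β A B).D - (Q.comb α β A B).d) (2 * (Q.comb α β A B).d) =
      α * Phi b (A.D - A.d) (2 * A.d) + β * Phi b (B.D - B.d) (2 * B.d) := by
  rw [comb_u, comb_t, Phi_comb b hα hβ h.1 h'.1]

theorem S_Q (b w : ℝ) (hα : 0 ≤ α) (hβ : 0 ≤ β) (h : InP m A) (h' : InP m B) :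
    S b ((Q.comb α β A B).D - (Q.comb α β A B).d) (2 * (Q.comb α β A B).d) w =
      α * S b (A.D - A.d) (2 * A.d) w + β * S b (B.D - B.d) (2 * B.d) w := by
  rw [comb_u, comb_t, S_comb b w hα hβ h.1 h'.1]

/-! ## Scaling of the edge hypotheses -/

theorem N_smul {s : ℝ} (hs : 0 ≤ s) (b c t : ℝ) : N b (s * c) (s * t) = s * N b c t := by
  rw [N, N, Phi_smul hs, Pi_smul hs]; ring

theorem cK_smul (s ρ K : ℝ) : cK (s * ρ) K = s * cK ρ K := by rw [cK, cK]; ring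

theorem HB.smul {s : ℝ} (hs : 0 < s) (h : HB b a X) : HB b a (Q.comb s 0 X X) := by
  intro w K w0 w1 K0 K1 e
  rw [comb_u, comb_r] at e
  have := h w K w0 w1 K0 K1 (mul_left_cancel₀ hs.ne' (by linarith))
  rw [comb_u, comb_t, zero_mul, add_zero, zero_mul, add_zero, S_smul hs.le]
  simp only [Q.comb]
  nlinarith [mul_le_mul_of_nonneg_left this hs.le]

theorem HC.smul {s : ℝ} (hs : 0 < s) (h : HC b a X) : HC b a (Q.comb s 0 X X) := by
  intro K K0 K1 e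
  rw [comb_u, comb_r, zero_mul, add_zero, zero_mul, add_zero, cK_smul] at e
  have := h K K0 K1 (le_of_mul_le_mul_left e hs)
  rw [comb_u, comb_t, comb_r, zero_mul, add_zero, zero_mul, add_zero, zero_mul, add_zero, cK_smul,
    N_smul hs.le, Phi_smul hs.le]
  simp only [Q.comb]
  nlinarith [mul_le_mul_of_nonneg_left this hs.le]

theorem exists_lam {s s' : ℝ} (hs : 0 < s) (hs' : 0 < s') (hα : 0 ≤ α) (hβ : 0 ≤ β)
    (h : 0 < α + β) (A B : Q) : ∃ r l : ℝ, 0 < r ∧ 0 ≤ l ∧ l ≤ 1 ∧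
      Q.comb α β A B = Q.comb r 0 (Q.comb ((1 - l) * s) (l * s') A B)
        (Q.comb ((1 - l) * s) (l * s') A B) := by
  have h1 : 0 ≤ α / s := by positivity
  have h2 : 0 ≤ β / s' := by positivity
  have h3 : 0 < α / s + β / s' := by
    rcases hα.eq_or_lt with e | e
    · have : 0 < β := by linarith
      positivity
    · positivity
  refine ⟨α / s + β / s', β / s' / (α / s + β / s'), h3, by positivity,
    (div_le_one h3).2 (by linarith), ?_⟩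
  have e1 : (α / s + β / s') * ((1 - β / s' / (α / s + β / s')) * s) = α := by
    have : (α / s + β / s') * (1 - β / s' / (α / s + β / s')) = α / s := by
      rw [mul_sub, mul_div_cancel₀ _ h3.ne']; ring
    rw [← mul_assoc, this, div_mul_cancel₀ _ hs.ne']
  have e2 : (α / s + β / s') * (β / s' / (α / s + β / s') * s') = β := by
    rw [← mul_assoc, mul_div_cancel₀ _ h3.ne', div_mul_cancel₀ _ hs'.ne']
  generalize (1 - β / s' / (α / s + β / s')) * s = x at e1 ⊢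
  generalize β / s' / (α / s + β / s') * s' = y at e2 ⊢
  generalize α / s + β / s' = r at e1 e2 ⊢
  subst e1 e2
  ext <;> simp only [Q.comb] <;> ring

theorem Phi_zero_zero (b : ℝ) : Phi b 0 0 = 0 := by
  simpa using Phi_smul (a := 0) le_rfl b 0 0

theorem EB_of {s s' : ℝ} (hs : 0 < s) (hs' : 0 < s')
    (h : ∀ l : ℝ, 0 ≤ l → l ≤ 1 → HB b a (Q.comb ((1 - l) * s) (l * s') A B)) : EB b a A B := by
  intro α β hα hβ
  rcases (add_nonneg hα hβ).eq_or_lt with e | e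
  · obtain rfl : α = 0 := by linarith
    obtain rfl : β = 0 := by linarith
    intro w K _ _ _ _ _
    have : S b 0 0 w = 0 := by simpa using S_smul (a := 0) le_rfl b 0 0 w
    simp [Q.comb, this]
  · obtain ⟨r, l, hr, l0, l1, e⟩ := exists_lam hs hs' hα hβ e A B
    rw [e]; exact (h l l0 l1).smul hr

theorem EC_of {s s' : ℝ} (hs : 0 < s) (hs' : 0 < s')
    (h : ∀ l : ℝ, 0 ≤ l → l ≤ 1 → HC b a (Q.comb ((1 - l) * s) (l * s') A B)) : EC b a A B := by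
  intro α β hα hβ
  rcases (add_nonneg hα hβ).eq_or_lt with e | e
  · obtain rfl : α = 0 := by linarith
    obtain rfl : β = 0 := by linarith
    intro K _ _ _
    have : N b 0 0 = 0 := by simpa using N_smul (s := 0) le_rfl b 0 0
    simp [Q.comb, this, cK, Phi_zero_zero]
  · obtain ⟨r, l, hr, l0, l1, e⟩ := exists_lam hs hs' hα hβ e A B
    rw [e]; exact (h l l0 l1).smul hr

theorem comb_swap (α β : ℝ) (A B : Q) : Q.comb α β A B = Q.comb β α B A := by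
  ext <;> simp only [Q.comb] <;> ring

theorem EB.symm (h : EB b a A B) : EB b a B A := fun α β hα hβ => by
  rw [comb_swap]; exact h β α hβ hα

theorem EC.symm (h : EC b a A B) : EC b a B A := fun α β hα hβ => by
  rw [comb_swap]; exact h β α hβ hα

/-! ## Linear programming on cones -/

theorem split_aux {x y l k : ℝ} (hl : 0 ≤ l) (hxy : 0 ≤ x * y) (h : x + y + l * k = 0) :
    ∃ β1 β2 : ℝ, 0 ≤ β1 ∧ 0 ≤ β2 ∧ β1 + β2 = l ∧ x + β1 * k = 0 ∧ y + β2 * k = 0 := by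
  by_cases e : x + y = 0
  · have hx : x = 0 := by nlinarith [sq_nonneg x, sq_nonneg y]
    have hy : y = 0 := by linarith
    exact ⟨l, 0, hl, le_rfl, by ring, by linarith, by linarith⟩
  · have hp : 0 < (x + y) ^ 2 := by positivity
    have hk : l * k = -(x + y) := by linarith
    refine ⟨l * (x * (x + y) / (x + y) ^ 2), l * (y * (x + y) / (x + y) ^ 2),
      mul_nonneg hl (div_nonneg (by nlinarith [sq_nonneg x]) hp.le),
      mul_nonneg hl (div_nonneg (by nlinarith [sq_nonneg y]) hp.le), by field_simp, ?_, ?_⟩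
    · rw [mul_right_comm, hk]; field_simp; ring
    · rw [mul_right_comm, hk]; field_simp; ring

theorem two {l1 l2 f1 f2 : ℝ}
    (hE : ∀ α β : ℝ, 0 ≤ α → 0 ≤ β → α * l1 + β * l2 = 0 → 0 ≤ α * f1 + β * f2)
    (h1 : 0 ≤ l1 → 0 ≤ f1) (h2 : 0 ≤ l2 → 0 ≤ f2) (hα : 0 ≤ α) (hβ : 0 ≤ β)
    (h : 0 ≤ α * l1 + β * l2) : 0 ≤ α * f1 + β * f2 := by
  have aux : ∀ {α β l1 l2 f1 f2 : ℝ},
      (∀ α β : ℝ, 0 ≤ α → 0 ≤ β → α * l1 + β * l2 = 0 → 0 ≤ α * f1 + β * f2) →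
      (0 ≤ l1 → 0 ≤ f1) → 0 ≤ α → 0 ≤ β → 0 ≤ α * l1 + β * l2 → 0 < l1 → l2 ≤ 0 →
      0 ≤ α * f1 + β * f2 := by
    intro α β l1 l2 f1 f2 hE h1 hα hβ h p1 p2
    have e := hE (-(β * l2) / l1) β (div_nonneg (by nlinarith) p1.le) hβ (by field_simp; ring)
    have e2 : -(β * l2) / l1 ≤ α := by rw [div_le_iff₀ p1]; linarith
    nlinarith [mul_nonneg (sub_nonneg.2 e2) (h1 p1.le)]
  rcases lt_or_ge 0 l1 with p1 | p1 <;> rcases lt_or_ge 0 l2 with p2 | p2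
  · exact add_nonneg (mul_nonneg hα (h1 p1.le)) (mul_nonneg hβ (h2 p2.le))
  · exact aux hE h1 hα hβ h p1 p2
  · have := aux (α := β) (β := α) (l1 := l2) (l2 := l1) (f1 := f2) (f2 := f1)
      (fun α β a b c => by linarith [hE β α b a (by linarith)]) h2 hβ hα (by linarith) p2 p1
    linarith
  · exact hE α β hα hβ (le_antisymm (by nlinarith) h)

/-- points of the cone over a triangle -/
def Cone (A B C X : Q) : Prop := ∃ α β γ : ℝ, 0 ≤ α ∧ 0 ≤ β ∧ 0 ≤ γ ∧ X = Q.comb3 α β γ A B C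

/-- points of the cones over the edges -/
def OnE (A B C X : Q) : Prop :=
  ∃ α β : ℝ, 0 ≤ α ∧ 0 ≤ β ∧ (X = Q.comb α β A B ∨ X = Q.comb α β A C ∨ X = Q.comb α β B C)

theorem OnE.cone (h : OnE A B C X) : Cone A B C X := by
  obtain ⟨α, β, hα, hβ, rfl | rfl | rfl⟩ := h
  · exact ⟨α, β, 0, hα, hβ, le_rfl, by ext <;> simp [Q.comb, Q.comb3]⟩
  · exact ⟨α, 0, β, hα, le_rfl, hβ, by ext <;> simp [Q.comb, Q.comb3]⟩
  · exact ⟨0, α, β, le_rfl, hα, hβ, by ext <;> simp [Q.comb, Q.comb3]⟩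

theorem Cone.comb (hα : 0 ≤ α) (hβ : 0 ≤ β) (h : Cone A B C X) (h' : Cone A B C Y) :
    Cone A B C (Q.comb α β X Y) := by
  obtain ⟨a1, a2, a3, p1, p2, p3, rfl⟩ := h
  obtain ⟨c1, c2, c3, q1, q2, q3, rfl⟩ := h'
  exact ⟨α * a1 + β * c1, α * a2 + β * c2, α * a3 + β * c3, by positivity, by positivity,
    by positivity, by ext <;> simp only [Q.comb, Q.comb3] <;> ring⟩

theorem comb3_eq (α β γ : ℝ) (A B C : Q) :
    Q.comb3 α β γ A B C = Q.comb 1 γ (Q.comb α β A B) C := by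
  ext <;> simp only [Q.comb, Q.comb3] <;> ring

theorem Cone.inP (hA : InP m A) (hB : InP m B) (hC : InP m C) (h : Cone A B C X) : InP m X := by
  obtain ⟨a1, a2, a3, p1, p2, p3, rfl⟩ := h
  rw [comb3_eq]; exact InP.comb zero_le_one p3 (hA.comb p1 p2 hB) hC

theorem Cone.split (h : Cone A B C X) {p q r : ℝ} (hL : p * X.D + q * X.d + r * X.e = 0) :
    ∃ Y Z : Q, X = Q.comb 1 1 Y Z ∧ OnE A B C Y ∧ OnE A B C Z ∧
      p * Y.D + q * Y.d + r * Y.e = 0 ∧ p * Z.D + q * Z.d + r * Z.e = 0 := by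
  obtain ⟨l1, l2, l3, p1, p2, p3, rfl⟩ := h
  simp only [Q.comb3] at hL
  set x := p * A.D + q * A.d + r * A.e with hx
  set y := p * B.D + q * B.d + r * B.e with hy
  set z := p * C.D + q * C.d + r * C.e with hz
  have hs : l1 * x + l2 * y + l3 * z = 0 := by rw [hx, hy, hz]; linarith
  have hc : 0 ≤ (l1 * x) * (l2 * y) ∨ 0 ≤ (l1 * x) * (l3 * z) ∨ 0 ≤ (l2 * y) * (l3 * z) := by
    rcases le_total 0 (l1 * x) with a | a <;> rcases le_total 0 (l2 * y) with b | b <;>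
      rcases le_total 0 (l3 * z) with c | c <;>
      first
        | exact Or.inl (mul_nonneg a b)
        | exact Or.inl (mul_nonneg_of_nonpos_of_nonpos a b)
        | exact Or.inr (Or.inl (mul_nonneg a c))
        | exact Or.inr (Or.inl (mul_nonneg_of_nonpos_of_nonpos a c))
        | exact Or.inr (Or.inr (mul_nonneg b c))
        | exact Or.inr (Or.inr (mul_nonneg_of_nonpos_of_nonpos b c))
  rcases hc with c | c | c
  · obtain ⟨β1, β2, b1, b2, rfl, e1, e2⟩ := split_aux p3 c hs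
    refine ⟨Q.comb l1 β1 A C, Q.comb l2 β2 B C, by ext <;> simp only [Q.comb, Q.comb3] <;> ring,
      ⟨_, _, p1, b1, Or.inr (Or.inl rfl)⟩, ⟨_, _, p2, b2, Or.inr (Or.inr rfl)⟩, ?_, ?_⟩ <;>
      simp only [Q.comb] <;> linarith
  · obtain ⟨β1, β2, b1, b2, rfl, e1, e2⟩ := split_aux (k := y) p2 c (by linarith)
    refine ⟨Q.comb l1 β1 A B, Q.comb β2 l3 B C, by ext <;> simp only [Q.comb, Q.comb3] <;> ring,
      ⟨_, _, p1, b1, Or.inl rfl⟩, ⟨_, _, b2, p3, Or.inr (Or.inr rfl)⟩, ?_, ?_⟩ <;>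
      simp only [Q.comb] <;> linarith
  · obtain ⟨β1, β2, b1, b2, rfl, e1, e2⟩ := split_aux (k := x) p1 c (by linarith)
    refine ⟨Q.comb β1 l2 A B, Q.comb β2 l3 A C, by ext <;> simp only [Q.comb, Q.comb3] <;> ring,
      ⟨_, _, b1, p2, Or.inl rfl⟩, ⟨_, _, b2, p3, Or.inr (Or.inl rfl)⟩, ?_, ?_⟩ <;>
      simp only [Q.comb] <;> linarith

end Crest.Agent.R310.Edge
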