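import Crest.Agent.R310.Edge

/-! # Row 310: from the edges to the cell, and assembly of `NAt` (helper84) -/

set_option autoImplicit false

open Set

namespace Crest.Agent.R310.Edge

open Des

variable {m : ℕ} {α β u t ρ b a H g : ℝ} {A B C X Y : Q}

theorem HI.comb (hα : 0 ≤ α) (hβ : 0 ≤ β) (hA : InP m A) (hB : InP m B) (h : HI b a A)
    (h' : HI b a B) : HI b a (Q.comb α β A B) := by
  unfold HI at *
  rw [Phi_Q b hα hβ hA hB, comb_u]
  simp only [Q.comb]
  nlinarith [mul_le_mul_of_nonneg_left h hα, mul_le_mul_of_nonneg_left h' hβ]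

theorem HB_cone (hA : InP m A) (hB : InP m B) (hC : InP m C) (e1 : EB b a A B) (e2 : EB b a A C)
    (e3 : EB b a B C) (h : Cone A B C X) : HB b a X := by
  have hE : ∀ {Y : Q}, OnE A B C Y → HB b a Y := by
    rintro Y ⟨α, β, hα, hβ, rfl | rfl | rfl⟩
    exacts [e1 α β hα hβ, e2 α β hα hβ, e3 α β hα hβ]
  intro w K w0 w1 K0 K1 e
  obtain ⟨Y, Z, rfl, hY, hZ, lY, lZ⟩ := h.split (p := -(5 - 2 * K))
    (q := (5 - 2 * w) + (5 - 2 * K)) (r := 5 - 2 * w) (by linarith)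
  have a1 := hE hY w K w0 w1 K0 K1 (by linarith)
  have a2 := hE hZ w K w0 w1 K0 K1 (by linarith)
  rw [S_Q b w zero_le_one zero_le_one (hY.cone.inP hA hB hC) (hZ.cone.inP hA hB hC)]
  simp only [Q.comb]
  linarith

theorem HB2.comb (hα : 0 ≤ α) (hβ : 0 ≤ β) (hX : InP m X) (hY : InP m Y) (h : HB2 b a X)
    (h' : HB2 b a Y) (hE : ∀ α β, 0 ≤ α → 0 ≤ β → HB b a (Q.comb α β X Y)) :
    HB2 b a (Q.comb α β X Y) := by
  intro e
  rw [comb_u, comb_r] at e
  have := two (l1 := 3 * (X.d + X.e) - 5 * (X.D - X.d)) (l2 := 3 * (Y.d + Y.e) - 5 * (Y.D - Y.d))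
    (f1 := X.U + a * X.g - (X.D - X.d - Phi b (X.D - X.d) (2 * X.d)))
    (f2 := Y.U + a * Y.g - (Y.D - Y.d - Phi b (Y.D - Y.d) (2 * Y.d))) (fun α β hα hβ e => by
      have := hE α β hα hβ 1 0 zero_le_one le_rfl le_rfl zero_le_one
        (by rw [comb_u, comb_r]; linarith)
      rw [S_one _ _ (hX.comb hα hβ hY).1.1, Phi_Q b hα hβ hX hY, comb_u] at this
      simp only [Q.comb] at this
      linarith)
    (fun e => by linarith [h (by linarith)]) (fun e => by linarith [h' (by linarith)]) hα hβ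
    (by linarith)
  rw [Phi_Q b hα hβ hX hY, comb_u]
  simp only [Q.comb]
  linarith

theorem cone_left : Cone A B C (Q.comb α β A B) ∨ ¬(0 ≤ α ∧ 0 ≤ β) := by
  by_cases h : 0 ≤ α ∧ 0 ≤ β
  · exact Or.inl (OnE.cone ⟨α, β, h.1, h.2, Or.inl rfl⟩)
  · exact Or.inr h

theorem cone_C : Cone A B C C :=
  ⟨0, 0, 1, le_rfl, le_rfl, zero_le_one, by ext <;> simp [Q.comb3]⟩

theorem HC_cone (hA : InP m A) (hB : InP m B) (hC : InP m C) (e1 : EB b a A B) (e2 : EB b a A C)
    (e3 : EB b a B C) (c1 : EC b a A B) (c2 : EC b a A C) (c3 : EC b a B C) (h : Cone A B C X)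
    (hρ : 0 < X.d + X.e) : HC b a X := by
  have hE : ∀ {Y : Q}, OnE A B C Y → HC b a Y := by
    rintro Y ⟨α, β, hα, hβ, rfl | rfl | rfl⟩
    exacts [c1 α β hα hβ, c2 α β hα hβ, c3 α β hα hβ]
  intro K K0 K1 e
  have h5 : 0 < 5 - 2 * K := by linarith
  obtain ⟨Y, Z, hX, hY, hZ, lY, lZ⟩ := h.split (p := 0) (q := -X.e) (r := X.d) (by ring)
  have pY := hY.cone.inP hA hB hC
  have pZ := hZ.cone.inP hA hB hC
  -- on the plane through `X` and the `D`-axis, `N` is linear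
  have hN : ∀ W : Q, InP m W → 0 * W.D + -X.e * W.d + X.d * W.e = 0 →
      N b (cK (W.d + W.e) K) (2 * W.d) =
        (W.d + W.e) / (X.d + X.e) * N b (cK (X.d + X.e) K) (2 * X.d) := by
    intro W pW lW
    have h0 : 0 ≤ (W.d + W.e) / (X.d + X.e) :=
      div_nonneg (by linarith [pW.1.1, pW.2]) hρ.le
    rw [← N_smul h0, ← cK_smul, div_mul_cancel₀ _ hρ.ne']
    congr 1
    field_simp
    linarith
  set n := N b (cK (X.d + X.e) K) (2 * X.d) with hn
  set r := X.d + X.e with hr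
  have := two (α := 1) (β := 1) (l1 := Y.D - Y.d - cK (Y.d + Y.e) K)
    (l2 := Z.D - Z.d - cK (Z.d + Z.e) K)
    (f1 := Y.U + a * (1 - K) * Y.g -
      ((Y.d + Y.e) / r * n - Phi b (Y.D - Y.d) (2 * Y.d)) * (1 - a * K))
    (f2 := Z.U + a * (1 - K) * Z.g -
      ((Z.d + Z.e) / r * n - Phi b (Z.D - Z.d) (2 * Z.d)) * (1 - a * K)) (fun α β hα hβ e => by
      have hW := hY.cone.comb hα hβ hZ.cone
      have ec : cK ((Q.comb α β Y Z).d + (Q.comb α β Y Z).e) K =
          (Q.comb α β Y Z).D - (Q.comb α β Y Z).d := by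
        rw [comb_u, comb_r]
        simp only [cK] at e ⊢
        linear_combination -e
      have b1 := HB_cone hA hB hC e1 e2 e3 hW 0 K le_rfl zero_le_one K0 K1 (by
        rw [← ec, cK]; field_simp; ring)
      have b2 := hN _ (hW.inP hA hB hC) (by
        simp only [Q.comb]; linear_combination α * lY + β * lZ)
      rw [ec, N, Phi_Q b hα hβ pY pZ, comb_r] at b2
      rw [S_zero] at b1
      have b3 : b * Pi b ((Q.comb α β Y Z).D - (Q.comb α β Y Z).d) (2 * (Q.comb α β Y Z).d) =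
          α * ((Y.d + Y.e) / r * n - Phi b (Y.D - Y.d) (2 * Y.d)) +
            β * ((Z.d + Z.e) / r * n - Phi b (Z.D - Z.d) (2 * Z.d)) := by
        linear_combination b2
      rw [b3] at b1
      simp only [Q.comb] at b1
      linarith)
    (fun e => by
      have := hE hY K K0 K1 (by linarith)
      rw [hN Y pY lY] at this
      linarith)
    (fun e => by
      have := hE hZ K K0 K1 (by linarith)
      rw [hN Z pZ lZ] at this
      linarith) zero_le_one zero_le_one (by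
      have e' := e
      rw [hr, hX, comb_u, comb_r] at e'
      simp only [cK] at e' ⊢
      linear_combination e')
  have hr2 : r = (Y.d + Y.e) + (Z.d + Z.e) := by rw [hr, hX, comb_r]; ring
  have hn2 : (Y.d + Y.e) / r * n + (Z.d + Z.e) / r * n = n := by
    rw [← add_mul, ← add_div, ← hr2, div_self hρ.ne', one_mul]
  have hP : Phi b (X.D - X.d) (2 * X.d) =
      Phi b (Y.D - Y.d) (2 * Y.d) + Phi b (Z.D - Z.d) (2 * Z.d) := by
    rw [hX, Phi_Q b zero_le_one zero_le_one pY pZ]; ring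
  have hU : X.U = Y.U + Z.U := by rw [hX]; simp [Q.comb]
  have hg : X.g = Y.g + Z.g := by rw [hX]; simp [Q.comb]
  rw [hP, hU, hg]
  linear_combination this - (1 - a * K) * hn2

theorem side_of (hb : b ∈ Icc (0 : ℝ) 1) (ht : 0 ≤ X.d) (hu : 0 < X.D - X.d) (hρ : 0 < X.d + X.e)
    (hI : HI b a X) (hB : HB b a X) (hB2 : HB2 b a X) (hC : HC b a X) :
    Side b a (X.D - X.d) (2 * X.d) (X.d + X.e) X.U X.g := by
  have ht2 : 0 ≤ 2 * X.d := by linarith
  refine ⟨hI, fun w w0 w1 hK => ?_, fun K K0 K1 h => hC K K0 K1 h.le⟩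
  rcases le_total 0 (Kl (X.D - X.d) (X.d + X.e) w) with h | h
  · rw [max_eq_right h]
    exact hB w _ w0 w1 h hK.le (by rw [Kl]; field_simp; ring)
  · rw [max_eq_left h]
    simp only [mul_zero, sub_zero, mul_one]
    rcases le_total (5 * (X.D - X.d)) (3 * (X.d + X.e)) with h1 | h1
    · exact (S_le _ ht2 hb ⟨w0, w1⟩).trans (hB2 h1)
    · rw [Kl, sub_nonpos, le_div_iff₀ (by linarith)] at h
      have a1 : w ≤ 5 * (X.d + X.e - (X.D - X.d)) / (2 * (X.d + X.e)) := by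
        rw [le_div_iff₀ (by linarith)]; linarith
      have a2 : 5 * (X.d + X.e - (X.D - X.d)) / (2 * (X.d + X.e)) ≤ 1 := by
        rw [div_le_one (by linarith)]; linarith
      have := hB _ 0 (w0.trans a1) a2 le_rfl zero_le_one (by field_simp; ring)
      simp only [mul_zero, sub_zero, mul_one] at this
      exact (S_mono _ ht2 hb ⟨w0.trans a1, a2⟩ w0 a1).trans this

/-- **Edge reduction.** -/
theorem side_tri (hb : b ∈ Icc (0 : ℝ) 1) (hA : InP m A) (hB : InP m B) (hC : InP m C)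
    (i1 : HI b a A) (i2 : HI b a B) (i3 : HI b a C) (j1 : HB2 b a A) (j2 : HB2 b a B)
    (j3 : HB2 b a C) (e1 : EB b a A B) (e2 : EB b a A C) (e3 : EB b a B C) (c1 : EC b a A B)
    (c2 : EC b a A C) (c3 : EC b a B C) (h : Cone A B C X) (hu : 0 < X.D - X.d)
    (hρ : 0 < X.d + X.e) : Side b a (X.D - X.d) (2 * X.d) (X.d + X.e) X.U X.g := by
  have hX := h.inP hA hB hC
  refine side_of hb (by linarith [hX.1.1]) hu hρ ?_ (HB_cone hA hB hC e1 e2 e3 h) ?_
    (HC_cone hA hB hC e1 e2 e3 c1 c2 c3 h hρ)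
  · obtain ⟨a1, a2, a3, p1, p2, p3, rfl⟩ := h
    rw [comb3_eq]
    exact HI.comb zero_le_one p3 (hA.comb p1 p2 hB) hC (HI.comb p1 p2 hA hB i1 i2) i3
  · obtain ⟨a1, a2, a3, p1, p2, p3, rfl⟩ := h
    rw [comb3_eq]
    refine HB2.comb zero_le_one p3 (hA.comb p1 p2 hB) hC (HB2.comb p1 p2 hA hB j1 j2 e1) j3
      fun α β hα hβ => HB_cone hA hB hC e1 e2 e3 (Cone.comb hα hβ ?_ cone_C)
    exact OnE.cone ⟨a1, a2, p1, p2, Or.inl rfl⟩

/-- Interpolation between two breakpoints of `a`. -/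
theorem Side.interp {a1 a2 H1 H2 s : ℝ} (h1 : Side b a1 u t ρ H1 g) (h2 : Side b a2 u t ρ H2 g)
    (s0 : 0 ≤ s) (s1 : s ≤ 1) :
    Side b ((1 - s) * a1 + s * a2) u t ρ ((1 - s) * H1 + s * H2) g := by
  have s2 : 0 ≤ 1 - s := by linarith
  refine ⟨?_, fun w w0 w1 hK => ?_, fun K K0 K1 h => ?_⟩
  · linarith [mul_le_mul_of_nonneg_left h1.I s2, mul_le_mul_of_nonneg_left h2.I s0]
  · linarith [mul_le_mul_of_nonneg_left (h1.B w w0 w1 hK) s2,
      mul_le_mul_of_nonneg_left (h2.B w w0 w1 hK) s0]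
  · linarith [mul_le_mul_of_nonneg_left (h1.C K K0 K1 h) s2,
      mul_le_mul_of_nonneg_left (h2.C K K0 K1 h) s0]

theorem Side.mono {H' g' : ℝ} (h : Side b a u t ρ H g) (ha : 0 ≤ a) (hH : H ≤ H') (hg : g ≤ g') :
    Side b a u t ρ H' g' := by
  refine ⟨h.I.trans hH, fun w w0 w1 hK => (h.B w w0 w1 hK).trans (add_le_add hH ?_),
    fun K K0 K1 e => (h.C K K0 K1 e).trans (add_le_add hH ?_)⟩
  · exact mul_le_mul_of_nonneg_left hg
      (mul_nonneg ha (sub_nonneg.2 (max_le zero_le_one hK.le)))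
  · exact mul_le_mul_of_nonneg_left hg (mul_nonneg ha (sub_nonneg.2 K1))

/-- The breakpoint `a = 0` is free. -/
theorem side_zero (hb : b ∈ Icc (0 : ℝ) 1) (ht : 0 ≤ t) : Side b 0 u t ρ (u - Phi b u t) g := by
  refine ⟨by simp, fun w w0 w1 _ => by simpa using S_le u ht hb ⟨w0, w1⟩, fun K _ _ h => ?_⟩
  have := Lam_le (u := u) (c := cK ρ K) ht hb
  rw [Lam_of_lt h] at this
  simpa [N] using this

theorem nAt_of_sides {y' y b' Uk Ui gi : ℝ} (hb : 0 ≤ b)
    (hk : Side b b' (1 - y) (2 * y) (y + y') Uk 0) (hi : Side b' b (1 - y') (2 * y') (y' + y) Ui gi)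
    (hg : gi ≤ g0 y' y b') (h : Uk + b' * (y' - ph y b) + Ui + b * (y - ph y' b') ≤ 0) :
    ∃ τ, NAt y' y b b' τ := by
  have e1 : Hk y' y b b' (Uk - ph y' b' + ph y b + b' * (y' - ph y b)) = Uk := by rw [Hk]; ring
  have e2 : Ui ≤ Hi y' y b b' (Uk - ph y' b' + ph y b + b' * (y' - ph y b)) := by
    rw [Hi]; linarith
  have hi' := hi.mono hb e2 hg
  rw [add_comm y' y] at hi'
  refine ⟨Uk - ph y' b' + ph y b + b' * (y' - ph y b), ?_, ?_, fun w w0 w1 hK => ?_,
    fun K K0 K1 e => ?_, hi'.B, hi'.C⟩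
  · have := hk.I
    simp only [ph]; linarith
  · have := hi'.I
    simp only [Hi, ph] at this ⊢; linarith
  · rw [e1]; simpa using hk.B w w0 w1 hK
  · rw [e1]; simpa using hk.C K K0 K1 e

end Crest.Agent.R310.Edge
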