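import Crest.Agent.R310.Edge2

/-! # Row 310: linear minorants of the gain, the vertex inequality (helper84) -/

set_option autoImplicit false

open Set

namespace Crest.Agent.R310.Edge

open Des

variable {b u t y y' : ℝ}

theorem exp_band (h0 : 0 ≤ b) (h1 : b ≤ 1) :
    1 - b + b ^ 2 / 2 - b ^ 3 / 6 - 5 / 96 * b ^ 4 ≤ Real.exp (-b) ∧
      Real.exp (-b) ≤ 1 - b + b ^ 2 / 2 - b ^ 3 / 6 + 5 / 96 * b ^ 4 := by
  have := Real.exp_bound (x := -b) (by rw [abs_neg, abs_of_nonneg h0]; exact h1) (n := 4)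
    (by norm_num)
  rw [abs_neg, abs_of_nonneg h0, abs_le] at this
  simp only [Finset.sum_range_succ, Finset.range_zero, Finset.sum_empty, Nat.factorial] at this
  push_cast at this
  constructor <;> nlinarith [this.1, this.2]

theorem s1_facts (h0 : 0 ≤ b) (h1 : b ≤ 1) :
    1 - b ≤ 4 * Real.exp (-b) - 2 * sm b - 1 ∧ 4 * Real.exp (-b) - 2 * sm b - 1 ≤ 1 ∧
      sp b ≤ 4 * Real.exp (-b) - 2 * sm b - 1 ∧ sp b + 2 * sm b ≤ 3 * (1 - b) := by
  obtain ⟨e1, e2⟩ := exp_band h0 h1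
  have a1 := sub_nonneg.2 h1
  have p2 := mul_nonneg h0 h0
  have p3 := pow_nonneg h0 3
  have q1 := mul_nonneg h0 a1
  have q2 := mul_nonneg p2 a1
  have q3 := mul_nonneg p3 a1
  have q4 := mul_nonneg (pow_nonneg h0 4) a1
  simp only [sm, sp]
  refine ⟨by nlinarith, by nlinarith, by nlinarith [mul_nonneg h0 (sq_nonneg (b - 1 / 10))], ?_⟩
  nlinarith [mul_nonneg q1 a1, mul_nonneg q2 a1, mul_nonneg q3 a1]

/-- the line of the first piece lies above `Φ` -/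
theorem Phi_le1 (u : ℝ) (ht : 0 ≤ t) (hb : b ∈ Icc (0 : ℝ) 1) :
    Phi b u t ≤ t / 4 + (u - t / 4) * (4 * Real.exp (-b) - 2 * sm b - 1) := by
  obtain ⟨f1, f2, f3, -⟩ := s1_facts hb.1 hb.2
  have f4 := (sm_mem hb.1 hb.2).2
  have hs := u_facts u ht
  rcases pieces u t with h | ⟨h, h'⟩ | ⟨h, h'⟩ | ⟨h, h'⟩ | h
  · rw [Phi_P0 ht h]; nlinarith [mul_nonneg (sub_nonneg.2 h) (sub_nonneg.2 f2)]
  · rw [Phi_P1 h h']
  · rw [Phi_P2 h h']; nlinarith [mul_nonneg (sub_nonneg.2 h) (sub_nonneg.2 (f4.trans f1))]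
  · rw [Phi_P3 h h']
    nlinarith [mul_nonneg ht (sub_nonneg.2 (f4.trans f1)),
      mul_nonneg (sub_nonneg.2 h) (sub_nonneg.2 f3)]
  · rw [Phi_P4 ht h]
    nlinarith [mul_nonneg ht (sub_nonneg.2 (f4.trans f1)), mul_nonneg ht (sub_nonneg.2 f3),
      mul_nonneg (sub_nonneg.2 h) (sub_nonneg.2 f1)]

/-- the line of slope `1 - b` through the node `t / 2` lies above `Φ` -/
theorem Phi_le2 (u : ℝ) (ht : 0 ≤ t) (hb : b ∈ Icc (0 : ℝ) 1) :
    Phi b u t ≤ t * (Real.exp (-b) - sm b / 2) + (u - t / 2) * (1 - b) := by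
  obtain ⟨f1, -, -, f3⟩ := s1_facts hb.1 hb.2
  have f4 := (sm_mem hb.1 hb.2).2
  rcases le_total u (t / 2) with h | h
  · have := Phi_le1 u ht hb
    nlinarith [mul_nonneg (sub_nonneg.2 h) (sub_nonneg.2 f1)]
  rcases pieces u t with h1 | ⟨h1, h'⟩ | ⟨h1, h'⟩ | ⟨h1, h'⟩ | h1
  · have := Phi_le1 u ht hb
    have e : u = t / 2 := by linarith
    subst e; linarith
  · have := Phi_le1 u ht hb
    have e : u = t / 2 := by linarith
    subst e; linarith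
  · rw [Phi_P2 h1 h']; nlinarith [mul_nonneg (sub_nonneg.2 h1) (sub_nonneg.2 f4)]
  · rw [Phi_P3 h1 h']
    nlinarith [mul_nonneg (sub_nonneg.2 h1) (sub_nonneg.2 f3),
      mul_nonneg (sub_nonneg.2 h') (sub_nonneg.2 f4)]
  · rw [Phi_P4 ht h1]
    nlinarith [mul_nonneg ht (sub_nonneg.2 f3)]

theorem g0_ge0 (hy : 0 ≤ y') (hb : b ∈ Icc (0 : ℝ) 1) : 0 ≤ g0 y' y b := by
  rw [g0]; linarith [Phi_le (y - y') (by linarith : 0 ≤ 2 * y') hb]

theorem g0_ge1 (hy : 0 ≤ y') (hb : b ∈ Icc (0 : ℝ) 1) :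
    (y - 3 / 2 * y') * (2 + 2 * sm b - 4 * Real.exp (-b)) ≤ g0 y' y b := by
  rw [g0]; linarith [Phi_le1 (y - y') (by linarith : 0 ≤ 2 * y') hb]

theorem g0_ge2 (hy : 0 ≤ y') (hb : b ∈ Icc (0 : ℝ) 1) :
    b * (y - y') - y' * (2 * Real.exp (-b) - sm b - (1 - b)) ≤ g0 y' y b := by
  rw [g0]; linarith [Phi_le2 (y - y') (by linarith : 0 ≤ 2 * y') hb]

/-- the vertex inequality at the homogeneous point `(D, d, e)`, `d` far and `e` near -/
def HV (b b' D d e Uk Ui : ℝ) : Prop :=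
  Uk + b' * (e - d - Phi b (D - d) (2 * d)) + Ui + b * (d - e - Phi b' (D - e) (2 * e)) ≤ 0

/-- One triangle: `A B C` carry the data of the far side, `A' B' C'` those of the near side. -/
theorem HV_tri {m m' : ℕ} {b' α β γ : ℝ} {A B C A' B' C' : Q} (hα : 0 ≤ α) (hβ : 0 ≤ β)
    (hγ : 0 ≤ γ) (hA : InP m A) (hB : InP m B) (hC : InP m C) (hA' : InP m' A') (hB' : InP m' B')
    (hC' : InP m' C') (eA : A'.D = A.D ∧ A'.d = A.e) (eB : B'.D = B.D ∧ B'.d = B.e)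
    (eC : C'.D = C.D ∧ C'.d = C.e) (vA : HV b b' A.D A.d A.e A.U A'.U)
    (vB : HV b b' B.D B.d B.e B.U B'.U) (vC : HV b b' C.D C.d C.e C.U C'.U) :
    HV b b' (Q.comb3 α β γ A B C).D (Q.comb3 α β γ A B C).d (Q.comb3 α β γ A B C).e
      (Q.comb3 α β γ A B C).U (Q.comb3 α β γ A' B' C').U := by
  have e1 : (Q.comb3 α β γ A B C).D = (Q.comb3 α β γ A' B' C').D := by
    simp only [Q.comb3, eA.1, eB.1, eC.1]
  have e2 : (Q.comb3 α β γ A B C).e = (Q.comb3 α β γ A' B' C').d := by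
    simp only [Q.comb3, eA.2, eB.2, eC.2]
  have p1 := Phi_Q b zero_le_one hγ (hA.comb hα hβ hB) hC
  have p2 := Phi_Q b' zero_le_one hγ (hA'.comb hα hβ hB') hC'
  rw [Phi_Q b hα hβ hA hB, ← comb3_eq] at p1
  rw [Phi_Q b' hα hβ hA' hB', ← comb3_eq, ← e1, ← e2, eA.1, eA.2, eB.1, eB.2, eC.1, eC.2] at p2
  unfold HV at *
  rw [p1, p2]
  simp only [Q.comb3]
  nlinarith [mul_le_mul_of_nonneg_left vA hα, mul_le_mul_of_nonneg_left vB hβ,
    mul_le_mul_of_nonneg_left vC hγ]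

end Crest.Agent.R310.Edge
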