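import Mathlib

/-! # Row 310: coverings of a triangle by bisection trees (edge pipeline of helper47) -/

set_option autoImplicit false

namespace Crest.Agent.R310.EdgeCov

/-- bisection trees: `split e m al be ga l r` bisects the edge `e` at the vertex `m` -/
inductive TT
  | leaf : TT
  | split (e m al be ga : ℕ) (l r : TT) : TT

/-- `ga * V m = al * V i + be * V j` with positive weights -/
def mid (V : ℕ → ℤ × ℤ × ℤ) (m al be ga i j : ℕ) : Bool :=
  decide (0 < al) && decide (0 < be) && decide (0 < ga) &&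
    decide ((ga : ℤ) * (V m).1 = al * (V i).1 + be * (V j).1) &&
    decide ((ga : ℤ) * (V m).2.1 = al * (V i).2.1 + be * (V j).2.1) &&
    decide ((ga : ℤ) * (V m).2.2 = al * (V i).2.2 + be * (V j).2.2)

def chkTT (V : ℕ → ℤ × ℤ × ℤ) (ok : ℕ → ℕ → ℕ → Bool) : TT → ℕ → ℕ → ℕ → Bool
  | .leaf, i, j, k => ok i j k
  | .split 0 m al be ga l r, i, j, k =>
      mid V m al be ga i j && chkTT V ok l i m k && chkTT V ok r m j k
  | .split 1 m al be ga l r, i, j, k =>
      mid V m al be ga j k && chkTT V ok l j m i && chkTT V ok r m k i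
  | .split (_ + 2) m al be ga l r, i, j, k =>
      mid V m al be ga k i && chkTT V ok l k m j && chkTT V ok r m i j

/-- `P` is a nonnegative combination of the vertices `i, j, k` -/
def In (V : ℕ → ℤ × ℤ × ℤ) (i j k : ℕ) (X y z : ℝ) : Prop :=
  ∃ l1 l2 l3 : ℝ, 0 ≤ l1 ∧ 0 ≤ l2 ∧ 0 ≤ l3 ∧
    X = l1 * (V i).1 + l2 * (V j).1 + l3 * (V k).1 ∧
    y = l1 * (V i).2.1 + l2 * (V j).2.1 + l3 * (V k).2.1 ∧
    z = l1 * (V i).2.2 + l2 * (V j).2.2 + l3 * (V k).2.2

variable {V : ℕ → ℤ × ℤ × ℤ} {X y z : ℝ}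

theorem In.rot {i j k : ℕ} (h : In V i j k X y z) : In V j k i X y z := by
  obtain ⟨l1, l2, l3, h1, h2, h3, e1, e2, e3⟩ := h
  exact ⟨l2, l3, l1, h2, h3, h1, by linarith, by linarith, by linarith⟩

theorem In.split {m al be ga i j k : ℕ} (hm : mid V m al be ga i j = true) (h : In V i j k X y z) :
    In V i m k X y z ∨ In V m j k X y z := by
  simp only [mid, Bool.and_eq_true, decide_eq_true_eq] at hm
  obtain ⟨⟨⟨⟨⟨a0, b0⟩, -⟩, m1⟩, m2⟩, m3⟩ := hm
  have a0 : (0 : ℝ) < al := by exact_mod_cast a0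
  have b0 : (0 : ℝ) < be := by exact_mod_cast b0
  have m1 : (ga : ℝ) * (V m).1 = al * (V i).1 + be * (V j).1 := by exact_mod_cast m1
  have m2 : (ga : ℝ) * (V m).2.1 = al * (V i).2.1 + be * (V j).2.1 := by exact_mod_cast m2
  have m3 : (ga : ℝ) * (V m).2.2 = al * (V i).2.2 + be * (V j).2.2 := by exact_mod_cast m3
  obtain ⟨l1, l2, l3, h1, h2, h3, e1, e2, e3⟩ := h
  rcases le_total (l2 / be) (l1 / al) with h | h
  · obtain ⟨s, hs⟩ : ∃ s, s = l2 / be := ⟨_, rfl⟩
    have s0 : 0 ≤ s := hs ▸ div_nonneg h2 b0.le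
    have e : l2 = s * be := by rw [hs, div_mul_cancel₀ _ b0.ne']
    rw [← hs, le_div_iff₀ a0] at h
    exact Or.inl ⟨l1 - s * al, s * ga, l3, by linarith, by positivity, h3,
      by rw [e1, e]; linear_combination -s * m1, by rw [e2, e]; linear_combination -s * m2,
      by rw [e3, e]; linear_combination -s * m3⟩
  · obtain ⟨s, hs⟩ : ∃ s, s = l1 / al := ⟨_, rfl⟩
    have s0 : 0 ≤ s := hs ▸ div_nonneg h1 a0.le
    have e : l1 = s * al := by rw [hs, div_mul_cancel₀ _ a0.ne']
    rw [← hs, le_div_iff₀ b0] at h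
    exact Or.inr ⟨s * ga, l2 - s * be, l3, by positivity, by linarith, h3,
      by rw [e1, e]; linear_combination -s * m1, by rw [e2, e]; linear_combination -s * m2,
      by rw [e3, e]; linear_combination -s * m3⟩

theorem chkTT_sound {ok : ℕ → ℕ → ℕ → Bool} {t : TT} {i j k : ℕ}
    (h : chkTT V ok t i j k = true) (hP : In V i j k X y z) :
    ∃ i' j' k', ok i' j' k' = true ∧ In V i' j' k' X y z := by
  induction t generalizing i j k with
  | leaf => exact ⟨i, j, k, h, hP⟩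
  | split e m al be ga l r ihl ihr =>
    match e with
    | 0 =>
      simp only [chkTT, Bool.and_eq_true] at h
      exact (hP.split h.1.1).elim (ihl h.1.2) (ihr h.2)
    | 1 =>
      simp only [chkTT, Bool.and_eq_true] at h
      exact (hP.rot.split h.1.1).elim (ihl h.1.2) (ihr h.2)
    | _ + 2 =>
      simp only [chkTT, Bool.and_eq_true] at h
      exact (hP.rot.rot.split h.1.1).elim (ihl h.1.2) (ihr h.2)

/-- the root triangle `(1,0,0), (3,2,0), (3,2,2)` -/
theorem in_root {i j k : ℕ} (hi : V i = (1, 0, 0)) (hj : V j = (3, 2, 0)) (hk : V k = (3, 2, 2))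
    (h0 : 0 ≤ z) (h1 : z ≤ y) (h2 : 3 * y ≤ 2 * X) : In V i j k X y z := by
  refine ⟨X - 3 / 2 * y, (y - z) / 2, z / 2, by linarith, by linarith, by linarith, ?_, ?_, ?_⟩ <;>
    simp only [hi, hj, hk] <;> push_cast <;> ring

end Crest.Agent.R310.EdgeCov
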