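import Crest.Agent.Lib.PolyBB.Core

set_option autoImplicit false
set_option maxRecDepth 100000
set_option Elab.async false

open Crest.Agent.Lib.PolyBB

namespace Crest.Agent.R310.EdgeT

noncomputable def uL : E := .add (.par 2) (.mul (.var 0) (.sub (.par 19) (.par 2)))
noncomputable def rhoL : E := .add (.par 3) (.mul (.var 0) (.sub (.par 20) (.par 3)))
noncomputable def yL : E := .add (.par 4) (.mul (.var 0) (.sub (.par 21) (.par 4)))
noncomputable def aEL : E := .add (.par 5) (.mul (.var 0) (.sub (.par 22) (.par 5)))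
noncomputable def amL : E := .add (.par 6) (.mul (.var 0) (.sub (.par 23) (.par 6)))
noncomputable def apL : E := .add (.par 7) (.mul (.var 0) (.sub (.par 24) (.par 7)))
noncomputable def a1L : E := .add (.par 8) (.mul (.var 0) (.sub (.par 25) (.par 8)))
noncomputable def gEL : E := .add (.par 9) (.mul (.var 0) (.sub (.par 26) (.par 9)))
noncomputable def gmL : E := .add (.par 10) (.mul (.var 0) (.sub (.par 27) (.par 10)))
noncomputable def gcL : E := .add (.par 11) (.mul (.var 0) (.sub (.par 28) (.par 11)))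
noncomputable def rL : E := .add (.add (.par 12) (.mul (.var 0) (.sub (.par 29) (.par 12)))) (.mul (.var 2) (.add (.add (.par 13) (.mul (.var 0) (.sub (.par 30) (.par 13)))) (.mul (.var 2) (.add (.add (.par 14) (.mul (.var 0) (.sub (.par 31) (.par 14)))) (.mul (.var 2) (.add (.add (.par 15) (.mul (.var 0) (.sub (.par 32) (.par 15)))) (.mul (.var 2) (.add (.add (.par 16) (.mul (.var 0) (.sub (.par 33) (.par 16)))) (.mul (.var 2) (.add (.add (.par 17) (.mul (.var 0) (.sub (.par 34) (.par 17)))) (.mul (.var 2) (.add (.par 18) (.mul (.var 0) (.sub (.par 35) (.par 18)))))))))))))))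
noncomputable def aN : E := .add (.mul (.var 2) (.par 0)) (.par 1)
noncomputable def eloB : E := .add (.mul (.var 2) (.add (.mul (.var 2) (.add (.mul (.var 2) (.add (.mul (.cst 25433) (.var 2)) (.cst (-153531)))) (.cst 495419))) (.cst (-999417)))) (.cst 999971)
noncomputable def m1B : E := .add (.mul (.var 2) (.add (.mul (.var 2) (.add (.mul (.cst (-112)) (.var 2)) (.cst 500))) (.cst (-952)))) (.cst 1564)
noncomputable def gL : E := .add (.add (.mul gEL (.add (.mul (.var 2) (.add (.mul (.var 2) (.add (.mul (.cst (-28249)) (.var 2)) (.cst 158830))) (.cst (-498446)))) (.cst 999899))) (.mul m1B (.mul (.cst 1000) gmL))) (.mul (.cst 1000000) gcL)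
noncomputable def vU : E := .sub (.cst 1) (.var 1)
noncomputable def t0 : E := .sub (.cst 5) (.mul (.cst 2) (.var 1))
noncomputable def KNU : E := .sub (.mul (.cst 5) (.par 2)) (.mul rhoL t0)
noncomputable def KDU : E := .mul (.cst 2) (.par 2)
noncomputable def t1 : E := .mul (.cst 10) (.par 2)
noncomputable def t2 : E := .mul aN KNU
noncomputable def t3 : E := .pow vU 2
noncomputable def t4 : E := .pow vU 3
noncomputable def t5 : E := .add (.cst 1) vU
noncomputable def t6 : E := .add t5 t3
noncomputable def t7 : E := .add t6 t4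
noncomputable def t8 : E := .mul (.cst 1000) a1L
noncomputable def t9 : E := .add (.mul aEL (.mul (.add (.cst 500003) (.mul (.var 2) (.add (.mul (.cst (-165489)) (.add vU (.cst 2))) (.mul (.var 2) (.add (.mul (.cst 38598) (.add (.add t3 (.cst 3)) (.mul (.cst 2) vU))) (.mul (.var 2) (.mul (.cst (-5118)) (.add (.add (.add t4 (.cst 4)) (.mul (.cst 2) t3)) (.mul (.cst 3) vU))))))))) (.mul (.var 2) (.sub (.cst 1) vU)))) (.mul (.cst 1000) (.add (.add (.mul amL (.add (.cst 1564) (.mul (.var 2) (.add (.mul (.cst (-952)) t5) (.mul (.var 2) (.add (.mul (.cst 500) t6) (.mul (.var 2) (.mul (.cst (-112)) t7)))))))) (.mul apL (.add (.cst 934) (.mul (.var 2) (.add (.mul (.cst 1131) t5) (.mul (.var 2) (.add (.mul (.cst (-2249)) t6) (.mul (.var 2) (.add (.mul (.cst 1694) t7) (.mul (.var 2) (.mul (.cst (-510)) (.add t7 (.pow vU 4))))))))))))) t8))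
noncomputable def fU : E := .sub (.add (.add (.mul rL t1) (.mul aEL (.mul eloB t2))) (.mul gL (.mul aN (.sub KDU KNU)))) (.mul (.sub t1 t2) t9)
noncomputable def vDR : E := .mul (.cst 2) (.par 3)
noncomputable def vNR : E := .sub (.mul uL t0) (.mul (.cst 3) (.par 3))
noncomputable def t10 : E := .pow vDR 4
noncomputable def t11 : E := .mul (.var 1) aN
noncomputable def t12 : E := .pow vDR 3
noncomputable def t13 : E := .pow vDR 2
noncomputable def t14 : E := .mul vNR t13
noncomputable def t15 : E := .pow vNR 2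
noncomputable def t16 : E := .mul vDR t15
noncomputable def t17 : E := .pow vNR 3
noncomputable def t18 : E := .add t10 (.mul vNR t12)
noncomputable def t19 : E := .add t18 (.mul t15 t13)
noncomputable def t20 : E := .add t19 (.mul vDR t17)
noncomputable def t21 : E := .add (.add (.mul amL (.add (.mul (.cst 1564) t10) (.mul (.var 2) (.add (.mul (.cst (-952)) t18) (.mul (.var 2) (.add (.mul (.cst 500) t19) (.mul (.var 2) (.mul (.cst (-112)) t20)))))))) (.mul apL (.add (.mul (.cst 934) t10) (.mul (.var 2) (.add (.mul (.cst 1131) t18) (.mul (.var 2) (.add (.mul (.cst (-2249)) t19) (.mul (.var 2) (.add (.mul (.cst 1694) t20) (.mul (.var 2) (.mul (.cst (-510)) (.add t20 (.pow vNR 4))))))))))))) (.mul a1L (.mul (.cst 1000) t10))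
noncomputable def t22 : E := .mul (.sub (.cst 5) t11) (.add (.mul aEL (.mul (.add (.mul (.cst 500003) t12) (.mul (.var 2) (.add (.mul (.cst (-165489)) (.add (.mul (.cst 2) t12) t14)) (.mul (.var 2) (.add (.mul (.cst 38598) (.add (.add (.mul (.cst 3) t12) t16) (.mul (.cst 2) t14))) (.mul (.var 2) (.mul (.cst (-5118)) (.add (.add (.add t17 (.mul (.cst 4) t12)) (.mul (.cst 2) t16)) (.mul (.cst 3) t14))))))))) (.mul (.var 2) (.sub vDR vNR)))) (.mul (.cst 1000) t21))
noncomputable def fR : E := .sub (.mul t10 (.add (.add (.mul (.cst 5) rL) (.mul aEL (.mul eloB t11))) (.mul gL (.mul aN vU)))) t22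
noncomputable def oU : E := .sub (.mul (.cst 1000) (.sub KNU KDU)) (.cst 1)
noncomputable def oR : E := .sub (.mul (.cst (-1000)) vNR) (.cst 1)
noncomputable def loL : E := .add (.par 36) (.mul (.var 0) (.sub (.par 37) (.par 36)))
noncomputable def hiL : E := .add (.par 38) (.mul (.var 0) (.sub (.par 39) (.par 38)))
noncomputable def c3 : E := .add loL (.mul (.var 1) (.sub hiL loL))
noncomputable def t23 : E := .mul (.cst 3) rhoL
noncomputable def KNC : E := .mul (.cst 5) (.sub c3 t23)
noncomputable def KDC : E := .mul (.cst 2) c3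
noncomputable def phL : E := .add (.add (.mul amL (.add (.cst 1000) (.mul (.var 2) (.add (.mul (.var 2) (.add (.mul (.var 2) (.add (.mul (.cst 112) (.var 2)) (.cst (-500)))) (.cst 952))) (.cst (-1564)))))) (.mul apL (.add (.cst 1000) (.mul (.var 2) (.add (.mul (.var 2) (.add (.mul (.var 2) (.add (.mul (.var 2) (.add (.mul (.cst 510) (.var 2)) (.cst (-1694)))) (.cst 2249))) (.cst (-1131)))) (.cst (-934))))))) (.mul t8 (.sub (.cst 1) (.var 2)))
noncomputable def t24 : E := .mul (.cst 12) yL
noncomputable def t25 : E := .mul aN KNC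
noncomputable def restC : E := .mul (.var 2) (.add (.add (.mul rL (.mul (.cst 30) c3)) (.mul t24 (.mul eloB t25))) (.mul gL (.mul (.mul (.cst 3) aN) (.sub KDC KNC))))
noncomputable def omC : E := .sub (.mul (.cst 10) c3) t25
noncomputable def sgmB : E := .add (.cst 1000) (.mul (.var 2) (.mul (.var 2) (.add (.cst (-952)) (.mul (.var 2) (.add (.cst 1000) (.mul (.cst (-336)) (.var 2)))))))
noncomputable def sgpB : E := .add (.cst 1000) (.mul (.var 2) (.mul (.var 2) (.add (.cst 1131) (.mul (.var 2) (.add (.mul (.var 2) (.add (.mul (.cst (-2040)) (.var 2)) (.cst 5082))) (.cst (-4498)))))))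
noncomputable def t26 : E := .sub c3 t24
noncomputable def t27 : E := .mul (.cst 3) phL
noncomputable def fC2 : E := .sub restC (.mul omC (.mul (.cst 1000) (.sub (.mul sgmB t26) t27)))
noncomputable def fC3 : E := .sub restC (.mul omC (.mul (.cst 1000) (.sub (.mul sgpB t26) t27)))
noncomputable def t28 : E := .mul (.cst 15) yL
noncomputable def t29 : E := .mul (.cst 1000) (.sub c3 t28)
noncomputable def fC4 : E := .sub restC (.mul omC (.mul (.cst 1000) (.sub (.add (.mul sgpB (.mul (.cst 3) yL)) t29) t27)))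
noncomputable def oC1 : E := .sub (.mul (.cst 1000) (.sub c3 (.mul (.cst 5) rhoL))) (.cst 1)
noncomputable def oC2 : E := .sub (.mul (.cst 1000) (.sub c3 (.mul (.cst 3) uL))) (.cst 1)
noncomputable def oC3 : E := .sub (.mul (.cst 1000) (.sub t23 c3)) (.cst 1)
noncomputable def oC4 : E := .sub (.mul (.cst 1000) t26) (.cst 1)
noncomputable def oC5 : E := .sub t29 (.cst 1)
noncomputable def oC6 : E := .sub (.mul (.cst 1000) (.sub t24 c3)) (.cst 1)
noncomputable def oC7 : E := .sub (.mul (.cst 1000) (.sub t28 c3)) (.cst 1)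
noncomputable def aV : E := .add (.par 1) (.mul (.var 0) (.par 0))
noncomputable def rV : E := .add (.par 12) (.mul (.var 0) (.add (.par 13) (.mul (.var 0) (.add (.par 14) (.mul (.var 0) (.add (.par 15) (.mul (.var 0) (.add (.par 16) (.mul (.var 0) (.add (.par 17) (.mul (.var 0) (.par 18))))))))))))
noncomputable def m1V : E := .add (.cst 1564) (.mul (.var 0) (.add (.cst (-952)) (.mul (.var 0) (.add (.cst 500) (.mul (.cst (-112)) (.var 0))))))
noncomputable def t30 : E := .add (.cst 934) (.mul (.var 0) (.add (.cst 1131) (.mul (.var 0) (.add (.cst (-2249)) (.mul (.var 0) (.add (.cst 1694) (.mul (.cst (-510)) (.var 0))))))))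
noncomputable def psV : E := .add (.add (.mul (.par 6) m1V) (.mul (.par 7) t30)) (.mul (.cst 1000) (.par 8))
noncomputable def t6V : E := .add (.mul (.var 0) (.add (.mul (.var 0) (.add (.mul (.var 0) (.add (.mul (.var 0) (.add (.mul (.var 0) (.add (.var 0) (.cst (-7)))) (.cst 42))) (.cst (-210)))) (.cst 840))) (.cst (-2520)))) (.cst 5040)
noncomputable def gV : E := .add (.add (.mul (.par 9) (.add (.cst 999899) (.mul (.var 0) (.add (.cst (-498446)) (.mul (.var 0) (.add (.cst 158830) (.mul (.cst (-28249)) (.var 0)))))))) (.mul m1V (.mul (.cst 1000) (.par 10)))) (.mul (.cst 1000000) (.par 11))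
noncomputable def t31 : E := .mul (.cst 315) rV
noncomputable def fI : E := .sub (.add (.mul (.mul (.cst 12500) (.par 5)) (.sub (.cst 25200) (.mul t6V (.sub (.add (.cst 5) (.mul (.cst 5) (.var 0))) aV)))) t31) (.mul (.mul (.cst 63000) psV) (.sub (.cst 5) aV))
noncomputable def fH : E := .add (.sub (.add t31 (.mul (.mul (.cst 62500) (.par 5)) (.sub (.cst 5040) (.mul t6V (.add (.var 0) (.cst 1)))))) (.mul (.cst 315000) psV)) (.mul gV (.mul (.cst 63) aV))
noncomputable def aG : E := .mul (.var 0) (.var 1)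
noncomputable def e1G : E := .add (.add (.cst 5040) (.mul (.var 0) (.add (.cst (-2520)) (.mul (.var 0) (.add (.cst 840) (.mul (.var 0) (.add (.cst (-210)) (.mul (.var 0) (.add (.cst 42) (.mul (.cst (-7)) (.var 0))))))))))) (.mul (.var 2) (.pow (.var 0) 6))
noncomputable def eG : E := .sub (.cst 5040) (.mul (.var 0) e1G)
noncomputable def t32 : E := .mul (.var 0) vU
noncomputable def x5G : E := .add (.cst 120) (.mul t32 (.add (.mul t32 (.add (.mul t32 (.add (.mul t32 (.add (.cst 5) t32)) (.cst 20))) (.cst 60))) (.cst 120)))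
noncomputable def rX : E := .add (.par 7) (.mul (.var 0) (.add (.par 8) (.mul (.var 0) (.add (.par 9) (.mul (.var 0) (.add (.par 10) (.mul (.var 0) (.add (.par 11) (.mul (.var 0) (.add (.par 12) (.mul (.var 0) (.par 13))))))))))))
noncomputable def rY : E := .add (.par 14) (.mul (.var 0) (.add (.par 15) (.mul (.var 0) (.add (.par 16) (.mul (.var 0) (.add (.par 17) (.mul (.var 0) (.add (.par 18) (.mul (.var 0) (.add (.par 19) (.mul (.var 0) (.par 20))))))))))))
noncomputable def rZ : E := .add (.par 26) (.mul aG (.add (.par 27) (.mul aG (.add (.par 28) (.mul aG (.add (.par 29) (.mul aG (.add (.par 30) (.mul aG (.add (.par 31) (.mul (.par 32) aG)))))))))))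
noncomputable def rW : E := .add (.par 33) (.mul aG (.add (.par 34) (.mul aG (.add (.par 35) (.mul aG (.add (.par 36) (.mul aG (.add (.par 37) (.mul aG (.add (.par 38) (.mul (.par 39) aG)))))))))))
noncomputable def t33 : E := .mul (.cst 75000) (.par 3)
noncomputable def PsG : E := .add (.mul e1G t33) (.mul (.cst 378000) (.add (.add (.mul (.par 4) m1V) (.mul (.par 5) t30)) (.mul (.cst 1000) (.par 6))))
noncomputable def t34 : E := .sub (.cst 1) aG
noncomputable def ph2 : E := .add (.add (.mul (.par 23) (.add (.cst 1000) (.mul aG (.add (.cst (-1564)) (.mul aG (.add (.cst 952) (.mul aG (.add (.cst (-500)) (.mul (.cst 112) aG))))))))) (.mul (.par 24) (.add (.cst 1000) (.mul aG (.add (.cst (-934)) (.mul aG (.add (.cst (-1131)) (.mul aG (.add (.cst 2249) (.mul aG (.add (.cst (-1694)) (.mul (.cst 510) aG)))))))))))) (.mul (.mul (.cst 1000) (.par 25)) t34)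
noncomputable def t35 : E := .sub (.sub (.sub (.sub (.par 21) (.par 22)) (.par 23)) (.par 24)) (.par 25)
noncomputable def comm : E := .add (.add (.sub (.mul (.cst 378000000) (.add (.mul (.var 1) (.add (.par 2) (.sub (.par 0) (.par 1)))) (.add t35 (.sub (.par 1) (.par 0))))) (.mul aG PsG)) (.mul (.cst 378000) ph2)) (.mul (.mul (.cst 625) (.par 22)) (.mul vU (.mul eG x5G)))
noncomputable def tail : E := .mul (.mul (.cst 378) (.var 1)) (.add (.mul rZ (.sub (.cst 1) (.var 0))) (.mul rW (.sub (.var 0) aG)))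
noncomputable def aEE : E := .mul eG t33
noncomputable def t36 : E := .mul (.cst 5) (.var 1)
noncomputable def fG1 : E := .sub (.mul t34 (.sub (.mul (.cst 2) (.sub comm aEE)) (.mul (.cst 378) (.add (.mul rX (.sub (.cst 5) t36)) (.mul rY (.sub t36 (.cst 3))))))) (.mul (.cst 2) tail)
noncomputable def fG0 : E := .sub (.mul t34 (.sub (.sub (.mul (.cst 3) comm) (.mul PsG (.sub (.cst 3) t36))) (.mul t36 (.add aEE (.mul (.cst 378) rY))))) (.mul (.cst 3) tail)
noncomputable def fG2 : E := .sub (.mul (.cst 1000000) (.add t35 (.sub (.sub (.sub (.sub (.par 2) (.par 3)) (.par 4)) (.par 5)) (.par 6)))) (.add (.add (.add (.add (.add (.add (.add (.par 26) (.par 14)) (.add (.par 27) (.par 15))) (.add (.par 28) (.par 16))) (.add (.par 29) (.par 17))) (.add (.par 30) (.par 18))) (.add (.par 19) (.par 31))) (.add (.par 20) (.par 32)))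

noncomputable def esU : Nat → List E
  | 0 => [fU]
  | _ => [oU]

noncomputable def esR : Nat → List E
  | 0 => [fR]
  | _ => [oR]

noncomputable def esC2 : Nat → List E
  | 0 => [fC2]
  | 1 => [oC1]
  | 2 => [oC2]
  | 3 => [oC3]
  | _ => [oC4]

noncomputable def esC3 : Nat → List E
  | 0 => [fC3]
  | 1 => [oC1]
  | 2 => [oC2]
  | 3 => [oC3]
  | 4 => [oC5]
  | _ => [oC6]

noncomputable def esC4 : Nat → List E
  | 0 => [fC4]
  | 1 => [oC1]
  | 2 => [oC2]
  | 3 => [oC3]
  | _ => [oC7]

noncomputable def esI : Nat → List E := fun _ => [fI]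

noncomputable def esH : Nat → List E := fun _ => [fH]

noncomputable def esG0 : Nat → List E := fun _ => [fG0]

noncomputable def esG1 : Nat → List E := fun _ => [fG1]

noncomputable def esG2 : Nat → List E := fun _ => [fG2]

/- unfold with
simp only [uL, rhoL, yL, aEL, amL, apL, a1L, gEL, gmL, gcL, rL, aN, eloB, m1B, gL, vU, t0, KNU, KDU, t1, t2, t3, t4, t5, t6, t7, t8, t9, fU, vDR, vNR, t10, t11, t12, t13, t14, t15, t16, t17, t18, t19, t20, t21, t22, fR, oU, oR, loL, hiL, c3, t23, KNC, KDC, phL, t24, t25, restC, omC, sgmB, sgpB, t26, t27, fC2, fC3, t28, t29, fC4, oC1, oC2, oC3, oC4, oC5, oC6, oC7, aV, rV, m1V, t30, psV, t6V, gV, t31, fI, fH, aG, e1G, eG, t32, x5G, rX, rY, rZ, rW, t33, PsG, t34, ph2, t35, comm, tail, aEE, t36, fG1, fG0, fG2,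
  E.eval_var, E.eval_par, E.eval_cst, E.eval_add, E.eval_sub, E.eval_mul, E.eval_pow]
-/

end Crest.Agent.R310.EdgeT
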