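import Crest.Agent.R310.Edge2

/-! # Row 310, edge pipeline: real form of the polynomial inequalities (helper47) -/

set_option autoImplicit false

open Set

namespace Crest.Agent.R310.EdgeT

open Des Edge

noncomputable section

def Elo (b : ℝ) : ℝ := (999971 - 999417 * b + 495419 * b ^ 2 - 153531 * b ^ 3 + 25433 * b ^ 4) / 1000000
def E1lo (b : ℝ) : ℝ := (999899 - 498446 * b + 158830 * b ^ 2 - 28249 * b ^ 3) / 1000000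
def Hb (b z : ℝ) : ℝ := (500003 - 165489 * (2 * b + z) + 38598 * (3 * b ^ 2 + 2 * b * z + z ^ 2)
  - 5118 * (4 * b ^ 3 + 3 * b ^ 2 * z + 2 * b * z ^ 2 + z ^ 3)) / 1000000
def T5 (b : ℝ) : ℝ := (5040 - 2520 * b + 840 * b ^ 2 - 210 * b ^ 3 + 42 * b ^ 4 - 7 * b ^ 5) / 5040
def X5 (d : ℝ) : ℝ := (120 + 120 * d + 60 * d ^ 2 + 20 * d ^ 3 + 5 * d ^ 4 + d ^ 5) / 120

/-- The bounds for `exp` that are used. -/
structure ExpB : Prop where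
  elo : ∀ b, 0 ≤ b → b ≤ 1 → Elo b ≤ Real.exp (-b)
  e1lo : ∀ b, 0 ≤ b → b ≤ 1 → b * E1lo b ≤ 1 - Real.exp (-b)
  hb : ∀ b z, 0 ≤ b → b ≤ 1 → 0 ≤ z → z ≤ 1 →
    Real.exp (-z) - Real.exp (-b) - (b - z) * Real.exp (-b) ≤ (b - z) ^ 2 * Hb b z
  band : ∀ b, 0 ≤ b → b ≤ 1 → ∃ θ, 0 ≤ θ ∧ θ ≤ 1 ∧
    Real.exp (-b) = 1 - b * (T5 b + θ * b ^ 6 / 5040)
  x5 : ∀ d, 0 ≤ d → X5 d ≤ Real.exp d

def m1 (b : ℝ) : ℝ := (1564 - 952 * b + 500 * b ^ 2 - 112 * b ^ 3) / 1000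
def p1 (b : ℝ) : ℝ := (934 + 1131 * b - 2249 * b ^ 2 + 1694 * b ^ 3 - 510 * b ^ 4) / 1000
def mdd (b v : ℝ) : ℝ := (1564 - 952 * b * (1 + v) + 500 * b ^ 2 * (1 + v + v ^ 2)
  - 112 * b ^ 3 * (1 + v + v ^ 2 + v ^ 3)) / 1000
def pdd (b v : ℝ) : ℝ := (934 + 1131 * b * (1 + v) - 2249 * b ^ 2 * (1 + v + v ^ 2)
  + 1694 * b ^ 3 * (1 + v + v ^ 2 + v ^ 3) - 510 * b ^ 4 * (1 + v + v ^ 2 + v ^ 3 + v ^ 4)) / 1000

/-- the polynomial with coefficients `f o, …, f (o + 6)` -/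
def rp (f : ℕ → ℝ) (b : ℝ) : ℝ :=
  (f 10 + f 11 * b + f 12 * b ^ 2 + f 13 * b ^ 3 + f 14 * b ^ 4 + f 15 * b ^ 5 + f 16 * b ^ 6) / 1000000

def g1 (f : ℕ → ℝ) (b : ℝ) : ℝ := f 7 * E1lo b + f 8 * m1 b + f 9

def psi (f : ℕ → ℝ) (b : ℝ) : ℝ := f 4 * m1 b + f 5 * p1 b + f 6

/-- the point described by a record -/
def QR (f : ℕ → ℝ) (b : ℝ) : Q :=
  ⟨f 0 + 2 * f 2, 2 * f 2, f 1 - 2 * f 2, b * (f 3 * Real.exp (-b) + rp f b), b * g1 f b⟩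

/-- the record represents `Φ` and `π` -/
structure Rep (f : ℕ → ℝ) : Prop where
  aE : 0 ≤ f 3
  phi : ∀ b, Phi b (f 0) (4 * f 2) = f 0 - f 3 - f 4 - f 5 - f 6 + f 3 * Real.exp (-b) +
    f 4 * sm b + f 5 * sp b + f 6 * (1 - b)
  pi : ∀ b, Pi b (f 0) (4 * f 2) = f 3 * Real.exp (-b) - f 4 * smd b - f 5 * spd b + f 6

def FB (f : ℕ → ℝ) (a b w K : ℝ) : ℝ :=
  rp f b + f 3 * (a * K * Elo b - b * w * Hb b (b * (1 - w)) * (1 - a * K)) -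
    (f 4 * mdd b (1 - w) + f 5 * pdd b (1 - w) + f 6) * (1 - a * K) + a * (1 - K) * g1 f b

def FC (f : ℕ → ℝ) (a b K ν : ℝ) : ℝ :=
  b * (rp f b + 4 * f 2 * (a * K * Elo b) + a * (1 - K) * g1 f b) -
    (ν - (f 4 * sm b + f 5 * sp b + f 6 * (1 - b))) * (1 - a * K)

def FI (f : ℕ → ℝ) (a b : ℝ) : ℝ :=
  f 3 * (1 - (1 + b - a) * (T5 b + b ^ 6 / 5040)) + rp f b - psi f b * (1 - a)

def FH (f : ℕ → ℝ) (a b : ℝ) : ℝ :=
  f 3 * (1 - (1 + b) * (T5 b + b ^ 6 / 5040)) + rp f b - psi f b + a * g1 f b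

end

variable {f g : ℕ → ℝ} {a b w K α β : ℝ} {m : ℕ}

theorem sm_eq (b : ℝ) : sm b = 1 - b * m1 b := by simp only [sm, m1]; ring
theorem sp_eq (b : ℝ) : sp b = 1 - b * p1 b := by simp only [sp, p1]; ring

theorem QR_u (f : ℕ → ℝ) (b : ℝ) : (QR f b).D - (QR f b).d = f 0 := by simp only [QR]; ring
theorem QR_t (f : ℕ → ℝ) (b : ℝ) : 2 * (QR f b).d = 4 * f 2 := by simp only [QR]; ring
theorem QR_r (f : ℕ → ℝ) (b : ℝ) : (QR f b).d + (QR f b).e = f 1 := by simp only [QR]; ring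

theorem QR_comb (α β : ℝ) (f g : ℕ → ℝ) (b : ℝ) :
    Q.comb α β (QR f b) (QR g b) = QR (fun i => α * f i + β * g i) b := by
  ext <;> simp only [Q.comb, QR, rp, g1] <;> ring

theorem Rep.comb (hα : 0 ≤ α) (hβ : 0 ≤ β) (hf : Rep f) (hg : Rep g)
    (pf : Piece m (f 0) (4 * f 2)) (pg : Piece m (g 0) (4 * g 2)) :
    Rep (fun i => α * f i + β * g i) := by
  have e : 4 * (α * f 2 + β * g 2) = α * (4 * f 2) + β * (4 * g 2) := by ring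
  refine ⟨add_nonneg (mul_nonneg hα hf.aE) (mul_nonneg hβ hg.aE), fun b => ?_, fun b => ?_⟩
  · rw [e, Phi_comb b hα hβ pf pg, hf.phi, hg.phi]; ring
  · rw [e, Pi_comb b hα hβ pf pg, hf.pi, hg.pi]; ring

theorem Rep.kill (h : Rep f) (b : ℝ) :
    f 0 - Phi b (f 0) (4 * f 2) = f 3 * (1 - Real.exp (-b)) + b * psi f b := by
  rw [h.phi, sm_eq, sp_eq, psi]; ring

theorem Rep.S_le (X : ExpB) (h : Rep f) (b0 : 0 ≤ b) (b1 : b ≤ 1) (w0 : 0 ≤ w) (w1 : w ≤ 1) :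
    S b (f 0) (4 * f 2) w ≤ b * (f 3 * (Real.exp (-b) + b * w * Hb b (b * (1 - w))) +
      (f 4 * mdd b (1 - w) + f 5 * pdd b (1 - w) + f 6)) := by
  rcases w0.eq_or_lt with rfl | w0
  · rw [S_zero, h.pi]
    apply le_of_eq
    simp only [mdd, pdd, smd, spd]; ring
  · refine le_of_mul_le_mul_left ?_ w0
    rw [mul_S, h.phi, h.phi]
    have e := mul_le_mul_of_nonneg_left (X.hb b (b * (1 - w)) b0 b1 (mul_nonneg b0 (by linarith))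
      (by nlinarith)) h.aE
    have e1 : sm (b * (1 - w)) - sm b = b * w * mdd b (1 - w) := by simp only [sm, mdd]; ring
    have e2 : sp (b * (1 - w)) - sp b = b * w * pdd b (1 - w) := by simp only [sp, pdd]; ring
    rw [sub_eq_iff_eq_add.1 e1, sub_eq_iff_eq_add.1 e2]
    linarith

theorem HB_of (X : ExpB) (h : Rep f) (b0 : 0 ≤ b) (b1 : b ≤ 1) (a0 : 0 ≤ a) (a1 : a ≤ 1)
    (H : ∀ w K, 0 ≤ w → w ≤ 1 → 0 ≤ K → K ≤ 1 → f 1 * (5 - 2 * w) = f 0 * (5 - 2 * K) →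
      0 ≤ FB f a b w K) : HB b a (QR f b) := by
  intro w K w0 w1 K0 K1 e
  rw [QR_u, QR_r] at e
  rw [QR_u, QR_t]
  have h1 : 0 ≤ 1 - a * K := by nlinarith
  have h2 := mul_le_mul_of_nonneg_right (h.S_le X b0 b1 w0 w1) h1
  have h3 := mul_nonneg b0 (H w K w0 w1 K0 K1 e)
  have h4 := mul_le_mul_of_nonneg_left (X.elo b b0 b1)
    (mul_nonneg (mul_nonneg b0 h.aE) (mul_nonneg a0 K0))
  simp only [QR, FB] at h3 ⊢
  linarith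

theorem kill_le (X : ExpB) (b0 : 0 ≤ b) (b1 : b ≤ 1) :
    ∃ e1, e1 ≤ T5 b + b ^ 6 / 5040 ∧ Real.exp (-b) = 1 - b * e1 := by
  obtain ⟨θ, -, t1, e⟩ := X.band b b0 b1
  refine ⟨_, ?_, e⟩
  have : θ * b ^ 6 ≤ b ^ 6 := by nlinarith [pow_nonneg b0 6]
  linarith

theorem HI_of (X : ExpB) (h : Rep f) (b0 : 0 ≤ b) (b1 : b ≤ 1) (a1 : a ≤ 1)
    (H : 0 ≤ FI f a b) : HI b a (QR f b) := by
  obtain ⟨e1, h1, e⟩ := kill_le X b0 b1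
  rw [HI, QR_u, QR_t, h.kill]
  have h3 := mul_nonneg b0 H
  have h4 := mul_le_mul_of_nonneg_left h1
    (mul_nonneg (mul_nonneg b0 h.aE) (by linarith : 0 ≤ 1 + b - a))
  simp only [QR, FI] at h3 ⊢
  rw [e]
  linarith

theorem HB2_of (X : ExpB) (h : Rep f) (b0 : 0 ≤ b) (b1 : b ≤ 1)
    (H : 0 ≤ FH f a b) : HB2 b a (QR f b) := by
  obtain ⟨e1, h1, e⟩ := kill_le X b0 b1
  intro _
  rw [QR_u, QR_t, h.kill]
  have h3 := mul_nonneg b0 H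
  have h4 := mul_le_mul_of_nonneg_left h1
    (mul_nonneg (mul_nonneg b0 h.aE) (by linarith : 0 ≤ 1 + b))
  simp only [QR, FH] at h3 ⊢
  rw [e]
  linarith

theorem HB2_vac (h : 3 * f 1 < 5 * f 0) : HB2 b a (QR f b) := by
  intro e
  rw [QR_u, QR_r] at e
  linarith

/-- (C) on an edge with `u ≤ ρ` is (B) at `w = K = 0`. -/
theorem HC_of_HB {q : Q} (h : HB b a q) (hρ : 0 ≤ q.d + q.e) (hu : q.D - q.d ≤ q.d + q.e) :
    HC b a q := by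
  intro K K0 K1 e
  have h5 : 0 < 5 - 2 * K := by linarith
  have e1 := e
  rw [cK, div_le_iff₀ h5] at e1
  have hc : cK (q.d + q.e) K = q.D - q.d := by
    refine le_antisymm e (hu.trans ?_)
    rw [cK, le_div_iff₀ h5]; nlinarith
  have e2 : (q.d + q.e) * (5 - 2 * 0) = (q.D - q.d) * (5 - 2 * K) := by
    rw [← hc, cK]; field_simp; ring
  have := h 0 K le_rfl zero_le_one K0 K1 e2
  rw [S_zero] at this
  rw [hc, N]
  linarith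

/-- the non-exponential part of `N` on piece `n` -/
noncomputable def nu (n : ℕ) (b c y : ℝ) : ℝ :=
  if n = 2 then (c - 4 * y) * (sm b - b * smd b) else if n = 3 then (c - 4 * y) * (sp b - b * spd b)
  else y * (sp b - b * spd b) + (c - 5 * y)

theorem N_eq {n : ℕ} {c y : ℝ} (hn : n ≠ 1) (h : Piece n c (4 * y)) :
    N b c (4 * y) = 4 * y * (1 + b) * Real.exp (-b) + nu n b c y := by
  obtain ⟨a0, -, a2, a3, a4⟩ := h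
  rw [N, nu]
  split_ifs with e2 e3
  · rw [Phi_P2 (a2 e2).1 (a2 e2).2, Pi_P2 (a2 e2).1 (a2 e2).2]; ring
  · rw [Phi_P3 (a3 e3).1 (a3 e3).2, Pi_P3 (a3 e3).1 (a3 e3).2]; ring
  · rw [Phi_P4 a0 (a4 hn e2 e3), Pi_P4 a0 (a4 hn e2 e3)]; ring

theorem HC_of (X : ExpB) (h : Rep f) (b0 : 0 ≤ b) (b1 : b ≤ 1) (a0 : 0 ≤ a)
    (hE : f 3 = 4 * f 2) (h0 : f 0 = f 3 + f 4 + f 5 + f 6)
    (H : ∀ K, 0 ≤ K → K ≤ 1 → cK (f 1) K ≤ f 0 → ∃ n, n ≠ 1 ∧ Piece n (cK (f 1) K) (4 * f 2) ∧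
      0 ≤ FC f a b K (nu n b (cK (f 1) K) (f 2))) : HC b a (QR f b) := by
  intro K K0 K1 e
  rw [QR_u, QR_r] at e
  obtain ⟨n, hn, hp, hF⟩ := H K K0 K1 e
  rw [QR_u, QR_r, QR_t, N_eq hn hp, h.phi]
  have h4 := mul_le_mul_of_nonneg_left (X.elo b b0 b1)
    (mul_nonneg (mul_nonneg b0 h.aE) (mul_nonneg a0 K0))
  have e0 : f 0 - f 3 - f 4 - f 5 - f 6 = 0 := by linarith
  simp only [QR, FC] at hF ⊢
  rw [e0]
  rw [hE] at h4 ⊢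
  linarith

end Crest.Agent.R310.EdgeT
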