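import Crest.Agent.R310.H17Exp
import Crest.Agent.Lib.PolyBB.Basic

/-! # Row 310: polynomial bounds for `exp` (edge pipeline of helper47) -/

set_option autoImplicit false
set_option maxRecDepth 100000

open Set Crest.Agent.Lib.PolyBB

namespace Crest.Agent.R310.EdgeX

noncomputable section

def Elo (b : ℝ) : ℝ := (999971 - 999417 * b + 495419 * b ^ 2 - 153531 * b ^ 3 + 25433 * b ^ 4) / 1000000

def E1lo (b : ℝ) : ℝ := (999899 - 498446 * b + 158830 * b ^ 2 - 28249 * b ^ 3) / 1000000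

def Hb (b z : ℝ) : ℝ := (500003 - 165489 * (2 * b + z) + 38598 * (3 * b ^ 2 + 2 * b * z + z ^ 2) -
  5118 * (4 * b ^ 3 + 3 * b ^ 2 * z + 2 * b * z ^ 2 + z ^ 3)) / 1000000

def T5 (b : ℝ) : ℝ := 1 - b / 2 + b ^ 2 / 6 - b ^ 3 / 24 + b ^ 4 / 120 - b ^ 5 / 720

def T6 (b : ℝ) : ℝ := T5 b + b ^ 6 / 5040

def X5 (d : ℝ) : ℝ := 1 + d + d ^ 2 / 2 + d ^ 3 / 6 + d ^ 4 / 24 + d ^ 5 / 120

end

noncomputable def e1 : E := .sub (.add (.mul (.var 0) (.add (.mul (.var 0) (.add (.mul (.var 0) (.add (.mul (.var 0) (.add (.mul (.var 0) (.add (.mul (.var 0) (.add (.mul (.var 0) (.add (.mul (.var 0) (.add (.mul (.cst (-10000000)) (.var 0)) (.cst 90000000))) (.cst (-720000000)))) (.cst 5040000000))) (.cst (-30240000000)))) (.cst 151200000000))) (.cst (-604800000000)))) (.cst 1814400000000))) (.cst (-3628800000000)))) (.cst 3628800000000)) (.mul (.cst 3628800) (.add (.mul (.var 0) (.add (.mul (.var 0) (.add (.mul (.var 0) (.add (.mul (.cst 25433) (.var 0))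 (.cst (-153531)))) (.cst 495419))) (.cst (-999417)))) (.cst 999971)))
noncomputable def e2 : E := .sub (.add (.cst 3628800000000) (.mul (.var 0) (.add (.mul (.var 0) (.add (.mul (.var 0) (.add (.mul (.var 0) (.add (.mul (.var 0) (.add (.mul (.var 0) (.add (.mul (.var 0) (.add (.mul (.var 0) (.add (.mul (.cst (-1000000)) (.var 0)) (.cst 10000000))) (.cst (-90000000)))) (.cst 720000000))) (.cst (-5040000000)))) (.cst 30240000000))) (.cst (-151200000000)))) (.cst 604800000000))) (.cst (-1814400000000))))) (.mul (.cst 3628800) (.add (.mul (.var 0) (.add (.mul (.var 0) (.add (.mul (.cst (-28249)) (.var 0)) (.cst 158830))) (.cst (-498446)))) (.cst 999899)))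
noncomputable def e3 : E := .sub (.mul (.cst 3628800) (.add (.mul (.var 0) (.add (.mul (.var 0) (.add (.mul (.cst (-102360)) (.var 0)) (.cst 463176))) (.cst (-992934)))) (.cst 1000006))) (.add (.cst 3628800000000) (.mul (.var 0) (.add (.cst (-3628800000000)) (.mul (.var 0) (.add (.cst 1814400000000) (.mul (.var 0) (.add (.cst (-604800000000)) (.mul (.var 0) (.add (.cst 151200000000) (.mul (.var 0) (.add (.cst (-30240000000)) (.mul (.var 0) (.add (.cst 5040000000) (.mul (.var 0) (.add (.cst (-720000000)) (.mul (.var 0) (.add (.cst 90000000) (.mul (.var 0) (.add (.cst (-10000000)) (.mul (.cst 1000000) (.var 0)))))))))))))))))))))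

theorem cert : run (fun _ => [e1, e2, e3]) (dec 4 (nat_lit 0x600000700002c100000000600000800005820000000000000100000700002c100000100000400018810000010000020002e41))
    [⟨1, 0, 1, 1⟩] [] = true := by
  decide +kernel

theorem polys {b : ℝ} (h0 : 0 ≤ b) (h1 : b ≤ 1) :
    0 ≤ e1.eval (pt [b]) (fun _ => 0) ∧ 0 ≤ e2.eval (pt [b]) (fun _ => 0) ∧
      0 ≤ e3.eval (pt [b]) (fun _ => 0) := by
  obtain ⟨k, ps, h⟩ := run_sound cert (x := pt [b]) (by simp [h0, h1])
  exact ⟨h e1 (by simp), h e2 (by simp), h e3 (by simp)⟩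

variable {b z d : ℝ}

theorem T9_le (h0 : 0 ≤ b) (h1 : b ≤ 1) :
    H17.T7 b + b ^ 8 / 40320 - b ^ 9 / 362880 ≤ Real.exp (-b) := by
  have h := Real.exp_bound (x := -b) (by rwa [abs_neg, abs_of_nonneg h0]) (n := 11) (by norm_num)
  rw [abs_neg, abs_of_nonneg h0] at h
  have h2 := (abs_le.1 h).1
  simp only [Finset.sum_range_succ, Finset.sum_range_zero, Nat.factorial] at h2
  push_cast at h2
  have h3 : b ^ 11 ≤ b ^ 10 := pow_le_pow_of_le_one h0 h1 (by norm_num)
  have h4 : 0 ≤ b ^ 10 := by positivity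
  unfold H17.T7
  linarith

theorem le_T10 (h0 : 0 ≤ b) (h1 : b ≤ 1) :
    Real.exp (-b) ≤ H17.T7 b + b ^ 8 / 40320 - b ^ 9 / 362880 + b ^ 10 / 3628800 := by
  have h := Real.exp_bound (x := -b) (by rwa [abs_neg, abs_of_nonneg h0]) (n := 12) (by norm_num)
  rw [abs_neg, abs_of_nonneg h0] at h
  have h2 := (abs_le.1 h).2
  simp only [Finset.sum_range_succ, Finset.sum_range_zero, Nat.factorial] at h2
  push_cast at h2
  have h3 : b ^ 12 ≤ b ^ 11 := pow_le_pow_of_le_one h0 h1 (by norm_num)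
  have h4 : 0 ≤ b ^ 11 := by positivity
  unfold H17.T7
  linarith

theorem Elo_le (h0 : 0 ≤ b) (h1 : b ≤ 1) : Elo b ≤ Real.exp (-b) := by
  have h := (polys h0 h1).1
  simp only [e1, E.eval_var, E.eval_cst, E.eval_add, E.eval_sub, E.eval_mul, pt_zero] at h
  push_cast at h
  have := T9_le h0 h1
  unfold H17.T7 at this
  unfold Elo
  linarith

theorem E1lo_le (h0 : 0 ≤ b) (h1 : b ≤ 1) : b * E1lo b ≤ 1 - Real.exp (-b) := by
  have h := (polys h0 h1).2.1
  simp only [e2, E.eval_var, E.eval_cst, E.eval_add, E.eval_sub, E.eval_mul, pt_zero] at h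
  push_cast at h
  have := le_T10 h0 h1
  have h2 := mul_nonneg h0 h
  unfold H17.T7 at this
  unfold E1lo
  linarith

theorem le_p3 (h0 : 0 ≤ b) (h1 : b ≤ 1) :
    Real.exp (-b) ≤ (1000006 - 992934 * b + 463176 * b ^ 2 - 102360 * b ^ 3) / 1000000 := by
  have h := (polys h0 h1).2.2
  simp only [e3, E.eval_var, E.eval_cst, E.eval_add, E.eval_sub, E.eval_mul, pt_zero] at h
  push_cast at h
  have := le_T10 h0 h1
  unfold H17.T7 at this
  linarith

theorem Hb_le (hb : b ∈ Icc (0 : ℝ) 1) (hz : z ∈ Icc (0 : ℝ) 1) :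
    Real.exp (-z) - Real.exp (-b) - (b - z) * Real.exp (-b) ≤ (b - z) ^ 2 * Hb b z := by
  have := Des.tan_of
    (fun x => (Des.hasDerivAt_poly 0 0 (500003 / 1000000) (-165489 / 1000000) (38598 / 1000000)
      (-5118 / 1000000) x).sub (Des.hasDerivAt_E x))
    (fun x => ((Des.hasDerivAt_poly 0 (2 * (500003 / 1000000)) (3 * (-165489 / 1000000))
      (4 * (38598 / 1000000)) (5 * (-5118 / 1000000)) 0 x).sub
        (Des.hasDerivAt_E x).neg).congr_of_eventuallyEq
      (Filter.Eventually.of_forall fun x => by simp only [Pi.sub_apply, Pi.neg_apply]; ring))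
    (fun x hx => by linarith [le_p3 hx.1 hx.2]) hb hz
  simp only [Pi.sub_apply] at this
  unfold Hb
  linarith

theorem band (h0 : 0 ≤ b) (h1 : b ≤ 1) :
    ∃ θ, 0 ≤ θ ∧ θ ≤ 1 ∧ Real.exp (-b) = 1 - b * (T5 b + θ * b ^ 6 / 5040) := by
  have h3 : b ^ 8 ≤ b ^ 7 := pow_le_pow_of_le_one h0 h1 (by norm_num)
  have h4 : 0 ≤ b ^ 7 := by positivity
  obtain ⟨-, e, e0, e1, h⟩ := H17.band (lo := H17.T7 b) (wd := b ^ 7 / 5040) h0 h1 le_rfl
    (by linarith)
  refine ⟨1 - e, by linarith, by linarith, ?_⟩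
  rw [h, H17.T7, T5]
  ring

theorem T6_le (h0 : 0 ≤ b) (h1 : b ≤ 1) : 1 - b * T6 b ≤ Real.exp (-b) := by
  have := H17.T7_le h0 h1
  unfold H17.T7 at this
  unfold T6 T5
  linarith

theorem le_T5 (h0 : 0 ≤ b) (h1 : b ≤ 1) : Real.exp (-b) ≤ 1 - b * T5 b := by
  have := H17.le_T8 h0 h1
  have h3 : b ^ 8 ≤ b ^ 7 := pow_le_pow_of_le_one h0 h1 (by norm_num)
  have h4 : 0 ≤ b ^ 7 := by positivity
  unfold H17.T7 at this
  unfold T5
  linarith

theorem X5_le (h0 : 0 ≤ d) : X5 d ≤ Real.exp d := by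
  have h := Real.sum_le_exp_of_nonneg h0 6
  simp only [Finset.sum_range_succ, Finset.sum_range_zero, Nat.factorial] at h
  push_cast at h
  unfold X5
  linarith

end Crest.Agent.R310.EdgeX
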