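import Crest.Agent.R310.AlgDesign

/-! # Row 310: rational approximation of `exp (-b)` and a constructor for `Design.Alg` (helper68) -/

set_option autoImplicit false

open Crest.Agent.Lib.PolyTime

namespace Crest.Agent.R310

/-- Taylor approximation of `exp (-b)`. -/
def expQ (n : ℕ) (b : ℚ) : ℚ := ∑ m ∈ Finset.range (n + 1), (-b) ^ m / (m.factorial : ℚ)

@[fun_prop] theorem poly_expQ {α : Type} [PEnc α] {n : α → ℕ} {b : α → ℚ} (hn : Poly n)
    (hb : PB n) (hb' : Poly b) : Poly fun a => expQ (n a) (b a) := by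
  unfold expQ
  exact Poly.sum_range (f := fun a m => (-(b a)) ^ m / (m.factorial : ℚ)) (by fun_prop) (by fun_prop)
    (by fun_prop)

theorem expQ_approx {n : ℕ} (hn : 0 < n) {b : ℚ} (h0 : 0 ≤ b) (h1 : b ≤ 1) :
    |(expQ n b : ℝ) - Real.exp (-(b : ℝ))| ≤ 2 / n := by
  have h0' : (0 : ℝ) ≤ b := by exact_mod_cast h0
  have h1' : (b : ℝ) ≤ 1 := by exact_mod_cast h1
  have hb : |(-(b : ℝ))| ≤ 1 := by rw [abs_neg, abs_of_nonneg h0']; exact h1'
  have h := Real.exp_bound hb (n := n + 1) (Nat.succ_pos n)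
  have e : (expQ n b : ℝ) = ∑ m ∈ Finset.range (n + 1), (-(b : ℝ)) ^ m / (m.factorial : ℝ) := by
    simp [expQ]
  rw [abs_sub_comm, e]
  refine h.trans ?_
  have h2 : |(-(b : ℝ))| ^ (n + 1) ≤ 1 := pow_le_one₀ (abs_nonneg _) hb
  have h3 : (n : ℝ) ≤ ((n + 1).factorial : ℝ) := by
    exact_mod_cast (Nat.le_succ n).trans (Nat.self_le_factorial _)
  have hn' : (0 : ℝ) < n := by exact_mod_cast hn
  have h4 : ((n + 1).succ : ℝ) / (((n + 1).factorial : ℝ) * ((n + 1 : ℕ) : ℝ)) ≤ 2 / n := by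
    rw [div_le_div_iff₀ (by positivity) hn']
    push_cast
    nlinarith
  calc _ ≤ 1 * (2 / (n : ℝ)) := mul_le_mul h2 h4 (by positivity) zero_le_one
    _ = _ := one_mul _

/-- If `V = A + B * exp (-b)` with rational polynomial-time `A`, `B` and `|B| ≤ K (D + d)` then `V`
has the approximation required by `Design.Alg`. -/
theorem Vq_err_of_split {V : ℝ → ℝ → ℝ → ℝ} {A B : ℚ → ℚ → ℚ → ℚ} {K : ℕ}
    (hV : ∀ D d b : ℚ, 0 ≤ D → 0 ≤ d → 0 ≤ b → b ≤ 1 →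
      V D d b = A D d b + B D d b * Real.exp (-(b : ℝ)))
    (hB : ∀ D d b : ℚ, 0 ≤ D → 0 ≤ d → 0 ≤ b → b ≤ 1 → |B D d b| ≤ K * (D + d))
    (n : ℕ) (D d b : ℚ) (hn : 0 < n) (hD : 0 ≤ D) (hd : 0 ≤ d) (h0 : 0 ≤ b) (h1 : b ≤ 1) :
    |((A D d b + B D d b * expQ n b : ℚ) : ℝ) - V D d b| ≤ ((2 * K : ℕ) : ℝ) * (D + d) / n := by
  have e : ((A D d b + B D d b * expQ n b : ℚ) : ℝ) - V D d b =
      (B D d b : ℝ) * ((expQ n b : ℝ) - Real.exp (-(b : ℝ))) := by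
    rw [hV D d b hD hd h0 h1]; push_cast; ring
  have hB' : |(B D d b : ℝ)| ≤ K * ((D : ℝ) + d) := by exact_mod_cast hB D d b hD hd h0 h1
  rw [e, abs_mul]
  refine (mul_le_mul hB' (expQ_approx hn h0 h1) (abs_nonneg _) ((abs_nonneg _).trans hB')).trans_eq ?_
  push_cast; ring

end Crest.Agent.R310
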