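import Mathlib

/-! Row 310: the explicit greedy fractional assignment. -/

set_option autoImplicit false

open Finset

namespace Crest.Agent.R310

variable {N : ℕ}

/-- fill the points in the order of `(d i, i)` up to total mass one -/
def fill (y d : Fin N → ℚ) (k : Fin N) : ℚ :=
  min 1 (∑ i, if d i < d k ∨ (d i = d k ∧ i ≤ k) then y i else 0) -
    min 1 (∑ i, if d i < d k ∨ (d i = d k ∧ i < k) then y i else 0)

theorem fill_split (y d : Fin N → ℚ) (k : Fin N) :
    (∑ i, if d i < d k ∨ (d i = d k ∧ i ≤ k) then y i else 0) =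
      (∑ i, if d i < d k ∨ (d i = d k ∧ i < k) then y i else 0) + y k := by
  have h : y k = ∑ i, if i = k then y i else 0 := by simp
  rw [h, ← sum_add_distrib]
  refine sum_congr rfl fun i _ => ?_
  rcases eq_or_ne i k with rfl | h
  · simp
  · simp [h, le_iff_lt_or_eq]

theorem fill_tele (y d : Fin N → ℚ) (s : Finset (Fin N)) :
    ∑ k ∈ s, (min 1 (∑ i ∈ s, if toLex (d i, i) ≤ toLex (d k, k) then y i else 0) -
      min 1 (∑ i ∈ s, if toLex (d i, i) < toLex (d k, k) then y i else 0)) =
      min 1 (∑ i ∈ s, y i) := by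
  induction s using Finset.induction_on_max_value (fun i => toLex (d i, i)) with
  | empty => simp
  | insert a s ha hm ih =>
    have hlt : ∀ k ∈ s, toLex (d k, k) < toLex (d a, a) := fun k hk =>
      lt_of_le_of_ne (hm k hk) fun e => ha (by
        have : k = a := congrArg (fun z => (ofLex z).2) e
        exact this ▸ hk)
    rw [sum_insert ha, sum_insert ha, sum_insert ha, sum_insert ha, if_pos le_rfl,
      if_neg (lt_irrefl _), zero_add, sum_congr rfl fun i hi => if_pos (hlt i hi).le,
      sum_congr rfl fun i hi => if_pos (hlt i hi), ← ih]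
    have : ∀ k ∈ s, (min 1 (∑ i ∈ insert a s, if toLex (d i, i) ≤ toLex (d k, k) then y i else 0) -
      min 1 (∑ i ∈ insert a s, if toLex (d i, i) < toLex (d k, k) then y i else 0)) =
      (min 1 (∑ i ∈ s, if toLex (d i, i) ≤ toLex (d k, k) then y i else 0) -
      min 1 (∑ i ∈ s, if toLex (d i, i) < toLex (d k, k) then y i else 0)) := fun k hk => by
      rw [sum_insert ha, sum_insert ha, if_neg (hlt k hk).not_ge, if_neg (hlt k hk).not_gt,
        zero_add, zero_add]
    rw [sum_congr rfl this, ih]
    ring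

variable {y : Fin N → ℚ} (hy : ∀ i, 0 ≤ y i) (d : Fin N → ℚ)
include hy

theorem fill_nonneg (k : Fin N) : 0 ≤ fill y d k := by
  rw [fill, fill_split, sub_nonneg]
  exact min_le_min_left _ (le_add_of_nonneg_right (hy k))

theorem fill_le (k : Fin N) : fill y d k ≤ y k := by
  rw [fill, fill_split]
  have := hy k
  simp only [min_def]
  split_ifs <;> linarith

omit hy in
theorem sum_fill' (h1 : 1 ≤ ∑ i, y i) : ∑ k, fill y d k = 1 := by
  have := fill_tele y d univ
  rw [min_eq_left h1] at this
  rw [← this]
  refine sum_congr rfl fun k _ => ?_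
  simp only [fill, Prod.Lex.toLex_le_toLex, Prod.Lex.toLex_lt_toLex]

set_option linter.unusedSectionVars false in
theorem sum_fill (h1 : 1 ≤ ∑ i, y i) : ∑ k, fill y d k = 1 := sum_fill' d h1

theorem fill_opt (h1 : 1 ≤ ∑ i, y i) {x : Fin N → ℚ} (hx0 : ∀ i, 0 ≤ x i) (hxy : ∀ i, x i ≤ y i)
    (hx1 : ∑ i, x i = 1) : ∑ k, fill y d k * d k ≤ ∑ k, x k * d k := by
  have hs := sum_fill' d h1
  have hne : (univ.filter fun k => 0 < fill y d k).Nonempty := by
    by_contra h
    rw [not_nonempty_iff_eq_empty, filter_eq_empty_iff] at h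
    have : ∑ k, fill y d k ≤ 0 := sum_nonpos fun k hk => not_lt.1 (h hk)
    linarith
  obtain ⟨o, ho, hmax⟩ := exists_max_image _ d hne
  have ho : 0 < fill y d o := (mem_filter.1 ho).2
  have hQ : (∑ i, if d i < d o ∨ (d i = d o ∧ i < o) then y i else 0) < 1 := by
    by_contra h
    rw [fill, min_eq_left (not_lt.1 h)] at ho
    linarith [min_le_left 1 (∑ i, if d i < d o ∨ (d i = d o ∧ i ≤ o) then y i else 0)]
  have key : ∀ k, (fill y d k - x k) * (d k - d o) ≤ 0 := fun k => by
    rcases lt_trichotomy (d k) (d o) with h | h | h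
    · have h2 : (∑ i, if d i < d k ∨ (d i = d k ∧ i ≤ k) then y i else 0) ≤
          ∑ i, if d i < d o ∨ (d i = d o ∧ i < o) then y i else 0 := sum_le_sum fun i _ => by
        have := hy i
        split_ifs with h3 h4
        · exact le_rfl
        · exact absurd (Or.inl (by rcases h3 with h3 | h3 <;> linarith [h3])) h4
        · exact this
        · exact le_rfl
      have h3 : fill y d k = y k := by
        have h4 := fill_split y d k
        have := hy k
        rw [fill, min_eq_right (by linarith), min_eq_right (by linarith)]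
        linarith
      exact mul_nonpos_of_nonneg_of_nonpos (by linarith [hxy k]) (by linarith)
    · simp [h]
    · have h3 : fill y d k ≤ 0 := not_lt.1 fun h3 =>
        (hmax k (mem_filter.2 ⟨mem_univ _, h3⟩)).not_gt h
      exact mul_nonpos_of_nonpos_of_nonneg (by linarith [hx0 k]) (by linarith)
  have h2 : ∑ k, (fill y d k - x k) * (d k - d o) ≤ 0 := sum_nonpos fun k _ => key k
  have h3 : ∑ k, (fill y d k - x k) * (d k - d o) =
      ∑ k, fill y d k * d k - ∑ k, x k * d k - (∑ k, fill y d k - ∑ k, x k) * d o := by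
    rw [← sum_sub_distrib, ← sum_sub_distrib, sum_mul, ← sum_sub_distrib]
    exact sum_congr rfl fun k _ => by ring
  rw [h3, hs, hx1] at h2
  linarith

end Crest.Agent.R310
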