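import Crest.Agent.R310.Iface

/-! Row 310: the combinatorial core of the reduction from pseudo-approximation to approximation. -/

set_option autoImplicit false

open Crest.LogicCS.KMedian Finset

namespace Crest.Agent.R310.LS

variable (I : Instance)

/-- Real valued distance. -/
def dR (x y : Fin I.N) : ℝ := I.dist x y

theorem cost_le {S : Finset (Fin I.N)} (hS : S.Nonempty) (b : Fin I.N → Fin I.N)
    (hb : ∀ j ∈ I.clients, b j ∈ S) : (I.cost S : ℝ) ≤ ∑ j ∈ I.clients, dR I j (b j) := by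
  have : I.cost S ≤ ∑ j ∈ I.clients, I.dist j (b j) := by
    rw [Instance.cost, dif_pos hS]
    exact sum_le_sum fun j hj => inf'_le _ (hb j hj)
  simp only [dR]
  exact_mod_cast this

theorem exists_near {S : Finset (Fin I.N)} (hS : S.Nonempty) : ∃ a : Fin I.N → Fin I.N,
    (∀ j, a j ∈ S) ∧ (∀ j, ∀ i ∈ S, dR I j (a j) ≤ dR I j i) ∧
      (I.cost S : ℝ) = ∑ j ∈ I.clients, dR I j (a j) := by
  choose a ha ha' using fun j => exists_mem_eq_inf' hS (I.dist j)
  refine ⟨a, ha, fun j i hi => ?_, ?_⟩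
  · simp only [dR]
    exact_mod_cast (ha' j).symm.trans_le (inf'_le _ hi)
  · rw [Instance.cost, dif_pos hS]
    simp only [dR, ha']
    push_cast
    rfl

variable {I}

theorem dR_self (h : I.Valid) (x : Fin I.N) : dR I x x = 0 := by simp [dR, h.1]

theorem dR_comm (h : I.Valid) (x y : Fin I.N) : dR I x y = dR I y x := by rw [dR, dR, h.2.2.1]

theorem dR_tri (h : I.Valid) (x y z : Fin I.N) : dR I x z ≤ dR I x y + dR I y z := by
  simp only [dR]
  exact_mod_cast h.2.2.2.1 x y z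

theorem dR_nonneg (h : I.Valid) (x y : Fin I.N) : 0 ≤ dR I x y := by
  have := dR_tri h x y x
  rw [dR_self h, dR_comm h y x] at this
  linarith

theorem cost_nonneg (h : I.Valid) {S : Finset (Fin I.N)} (hS : S.Nonempty) :
    (0 : ℝ) ≤ I.cost S := by
  obtain ⟨a, -, -, e⟩ := exists_near I hS
  rw [e]
  exact sum_nonneg fun j _ => dR_nonneg h _ _

/-- Greedy removal of facilities. -/
theorem exists_greedy (hk : 1 ≤ I.k) {T : Finset (Fin I.N)} (hT : T.Nonempty) (B : ℝ) :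
    ∃ T' ⊆ T, T'.Nonempty ∧ (I.k ≤ T'.card ∨ T' = T) ∧
      (I.cost T' : ℝ) ≤ I.cost T + ((T.card : ℝ) - T'.card) * B ∧
      (T'.card ≤ I.k ∨ ∀ i ∈ T', I.cost T' + B < I.cost (T'.erase i)) := by
  classical
  obtain ⟨T', h1, h2⟩ := exists_min_image (T.powerset.filter fun T' => T'.Nonempty ∧
    (I.k ≤ T'.card ∨ T' = T) ∧ (I.cost T' : ℝ) ≤ I.cost T + ((T.card : ℝ) - T'.card) * B) card
    ⟨T, by simp [hT]⟩
  simp only [mem_filter, mem_powerset] at h1 h2
  refine ⟨T', h1.1, h1.2.1, h1.2.2.1, h1.2.2.2, ?_⟩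
  by_contra hc
  push Not at hc
  obtain ⟨hc, i, hi, hi'⟩ := hc
  have e := card_erase_add_one hi
  have e' : ((T'.erase i).card : ℝ) + 1 = T'.card := by exact_mod_cast e
  have := h2 (T'.erase i) ⟨(erase_subset _ _).trans h1.1, card_pos.1 (by omega), Or.inl (by omega),
    by have := h1.2.2.2; rw [← e'] at this; linarith⟩
  omega

/-- The structure found in a pseudo-solution. -/
def Str (I : Instance) (M : ℕ) (T : Finset (Fin I.N)) (K : ℝ) : Prop :=
  ∃ (V D : Finset (Fin I.N)) (φ : Fin I.N → Fin I.N), V ⊆ T ∧ (T \ V).card ≤ M ∧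
    D ⊆ I.facilities ∧ D.card ≤ M ∧ D.card + V.card ≤ I.k ∧ (∀ i ∈ V, φ i ∈ I.facilities) ∧
    (D.Nonempty ∨ V.Nonempty) ∧
    ∀ a : Fin I.N → Fin I.N, (V.Nonempty → ∀ j, a j ∈ V ∧ ∀ i ∈ V, dR I j (a j) ≤ dR I j i) →
      ∃ b : Fin I.N → Fin I.N, (∀ j, b j ∈ D ∨ (V.Nonempty ∧ b j = φ (a j))) ∧
        ∑ j ∈ I.clients, dR I j (b j) ≤ K

theorem few_far (h : I.Valid) {T O : Finset (Fin I.N)} (hT : T.Nonempty) (hO : O.Nonempty)
    {B δ : ℝ} (hδ : 0 < δ) (l : Fin I.N → Fin I.N) (hl : ∀ i ∈ T, l i ∈ T.erase i)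
    (hB : ∀ i ∈ T, I.cost T + B < I.cost (T.erase i)) {W : Finset (Fin I.N)} (hW : W ⊆ T)
    (hW' : ∀ i ∈ W, ∀ o ∈ O, δ * dR I i (l i) ≤ dR I i o) (hne : W.Nonempty) :
    W.card * (δ * B) < I.cost O + I.cost T := by
  classical
  obtain ⟨a, ha, -, ea⟩ := exists_near I hT
  obtain ⟨o, ho, -, eo⟩ := exists_near I hO
  have key : ∀ i ∈ W, δ * B < ∑ j ∈ I.clients,
      if a j = i then dR I j (o j) + dR I j (a j) else 0 := fun i hi => by
    have h1 := cost_le I ⟨_, hl i (hW hi)⟩ (fun j => if a j = i then l i else a j) fun j _ => by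
      split_ifs with e
      · exact hl i (hW hi)
      · exact mem_erase.2 ⟨e, ha j⟩
    have h2 : ∑ j ∈ I.clients, dR I j (if a j = i then l i else a j) ≤
        ∑ j ∈ I.clients, (dR I j (a j) + if a j = i then dR I i (l i) else 0) :=
      sum_le_sum fun j _ => by
        split_ifs with e
        · rw [e]; exact dR_tri h _ _ _
        · simp
    rw [sum_add_distrib, ← ea] at h2
    have h3 : B < ∑ j ∈ I.clients, if a j = i then dR I i (l i) else 0 := by
      linarith [hB i (hW hi)]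
    refine (mul_lt_mul_of_pos_left h3 hδ).trans_le ?_
    rw [mul_sum]
    refine sum_le_sum fun j _ => ?_
    split_ifs with e
    · have := dR_tri h i j (o j)
      rw [dR_comm h i j] at this
      rw [e]
      linarith [hW' i hi _ (ho j)]
    · simp
  have := sum_lt_sum_of_nonempty hne key
  rw [sum_const, nsmul_eq_mul, sum_comm] at this
  refine this.trans_le ?_
  rw [ea, eo, ← sum_add_distrib]
  refine sum_le_sum fun j _ => ?_
  rw [sum_ite_eq]
  split_ifs
  · exact le_rfl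
  · exact add_nonneg (dR_nonneg h _ _) (dR_nonneg h _ _)

theorem str_stuck (h : I.Valid) {T T' O : Finset (Fin I.N)} (hT : T' ⊆ T) (hk : I.k < T'.card)
    (hO : O.Nonempty) (hOF : O ⊆ I.facilities) (hOk : O.card ≤ I.k) {B δ κ : ℝ} (hδ : 0 < δ)
    (hδ' : δ ≤ 1 / 2) (hκ1 : 1 ≤ κ) (hκ : 1 + 2 * δ ≤ κ * (1 - 2 * δ))
    (hB : ∀ i ∈ T', I.cost T' + B < I.cost (T'.erase i)) (hB0 : 0 ≤ B) {m c : ℕ}
    (hm : (I.cost O + I.cost T' : ℝ) ≤ m * (δ * B)) (hc : T.card ≤ I.k + c) :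
    Str I (c + m) T (κ * I.cost O) := by
  classical
  have hk1 := h.2.2.2.2.1
  have hne : ∀ i, (T'.erase i).Nonempty := fun i =>
    card_pos.1 (by have := pred_card_le_card_erase (s := T') (a := i); omega)
  choose l hl hl' using fun i => exists_min_image (T'.erase i) (dR I i) (hne i)
  set V := T'.filter fun i => ∃ o ∈ O, dR I i o < δ * dR I i (l i) with hV
  have hVT : V ⊆ T' := filter_subset _ _
  have hφ : ∀ i, ∃ o, i ∈ V → o ∈ O ∧ dR I i o < δ * dR I i (l i) := fun i => by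
    by_cases hi : i ∈ V
    · obtain ⟨o, ho⟩ := (mem_filter.1 hi).2
      exact ⟨o, fun _ => ho⟩
    · exact ⟨i, fun hi' => absurd hi' hi⟩
  choose φ hφ using hφ
  have hfar : (T' \ V).card ≤ m := by
    rcases (T' \ V).eq_empty_or_nonempty with e | e
    · simp [e]
    have := few_far h (card_pos.1 (by omega)) hO hδ l (fun i _ => hl i) hB sdiff_subset
      (fun i hi o ho => by
        by_contra hc
        exact (mem_sdiff.1 hi).2 (mem_filter.2 ⟨(mem_sdiff.1 hi).1, o, ho, not_le.1 hc⟩)) e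
    exact_mod_cast (lt_of_mul_lt_mul_right (this.trans_le hm) (mul_nonneg hδ.le hB0)).le
  have hL : ∀ i ∈ V, ∀ i' ∈ V, i ≠ i' → dR I i (l i) ≤ dR I i i' := fun i _ i' hi' e =>
    hl' i i' (mem_erase.2 ⟨e.symm, hVT hi'⟩)
  have hinj : Set.InjOn φ V := fun i hi i' hi' e => by
    by_contra hn
    have h1 := (hφ i hi).2
    have h2 := (hφ i' hi').2
    have h3 := hL i hi i' hi' hn
    have h4 := hL i' hi' i hi (Ne.symm hn)
    have h5 := dR_tri h i (φ i) i'
    rw [← e, dR_comm h i'] at h2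
    rw [dR_comm h i' i] at h4
    nlinarith [dR_nonneg h i i', mul_le_mul_of_nonneg_left h3 hδ.le,
      mul_le_mul_of_nonneg_left h4 hδ.le]
  have himg : V.image φ ⊆ O := image_subset_iff.2 fun i hi => (hφ i hi).1
  have c1 : (O \ V.image φ).card + V.card = O.card := by
    rw [← card_image_of_injOn hinj, card_sdiff_add_card_eq_card himg]
  have c2 := card_sdiff_add_card_eq_card hVT
  have c3 := card_sdiff_add_card_eq_card (hVT.trans hT)
  refine ⟨V, O \ V.image φ, φ, hVT.trans hT, by omega, sdiff_subset.trans hOF, by omega, by omega,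
    fun i hi => hOF (hφ i hi).1, ?_, fun a ha => ?_⟩
  · have := card_pos.2 hO
    rw [← card_pos, ← card_pos]
    omega
  obtain ⟨o, ho, -, eo⟩ := exists_near I hO
  refine ⟨fun j => if o j ∈ V.image φ then φ (a j) else o j, fun j => ?_, ?_⟩
  · beta_reduce
    split_ifs with e
    · exact Or.inr ⟨image_nonempty.1 ⟨_, e⟩, rfl⟩
    · exact Or.inl (mem_sdiff.2 ⟨ho j, e⟩)
  rw [eo, mul_sum]
  refine sum_le_sum fun j _ => ?_
  have h0 := dR_nonneg h j (o j)
  beta_reduce
  split_ifs with e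
  swap
  · nlinarith
  obtain ⟨i', hi', e⟩ := mem_image.1 e
  obtain ⟨hi, hi2⟩ := ha ⟨_, hi'⟩ j
  by_cases e' : a j = i'
  · rw [e', e]; nlinarith
  have h1 := (hφ _ hi).2
  have h2 := (hφ _ hi').2
  have h3 := hL _ hi _ hi' e'
  have h4 := hL _ hi' _ hi (Ne.symm e')
  have h5 := dR_tri h (a j) j i'
  have h6 := dR_tri h j (a j) (φ (a j))
  have h7 := dR_tri h j (o j) i'
  have h8 := hi2 _ hi'
  rw [e, dR_comm h i' (o j)] at h2
  rw [dR_comm h i' (a j)] at h4
  rw [dR_comm h (a j) j] at h5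
  have h9 := mul_le_mul_of_nonneg_left (h3.trans (h5.trans (by linarith : _ ≤ 2 * dR I j i'))) hδ.le
  have h10 := mul_le_mul_of_nonneg_left (h4.trans (h5.trans (by linarith : _ ≤ 2 * dR I j i'))) hδ.le
  have h11 : (1 - 2 * δ) * dR I j i' ≤ dR I j (o j) := by linarith
  have h12 := mul_le_mul_of_nonneg_left h11 (by linarith : 0 ≤ κ)
  have h13 := mul_le_mul_of_nonneg_right hκ (dR_nonneg h j i')
  linarith

theorem exists_str {α ε : ℝ} (hα : 1 ≤ α) (hε : 0 < ε) (c : ℕ) : ∃ M : ℕ, ∀ I : Instance, I.Valid →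
    ∀ T O : Finset (Fin I.N), T ⊆ I.facilities → T.Nonempty → T.card ≤ I.k + c →
      O ⊆ I.facilities → O.Nonempty → O.card ≤ I.k → (I.cost T : ℝ) ≤ α * I.cost O →
        Str I M T ((α + ε) * I.cost O) := by
  classical
  set δ := ε / (2 * (2 + ε)) with hδ
  have hδ0 : 0 < δ := by positivity
  have hδ1 : δ * (2 * (2 + ε)) = ε := div_mul_cancel₀ _ (by positivity)
  obtain ⟨m, hm⟩ := exists_nat_ge ((1 + α + ε) / (δ * (ε / (c + 1))))
  rw [div_le_iff₀ (by positivity)] at hm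
  refine ⟨c + m, fun I h T O hTF hT hc hOF hO hOk hTO => ?_⟩
  have h0 := cost_nonneg h hO
  obtain ⟨T', h1, h2, h3, h4, h5⟩ := exists_greedy h.2.2.2.2.1 hT (ε / (c + 1) * I.cost O)
  have c1 := card_sdiff_add_card_eq_card h1
  have c2 : T.card ≤ T'.card + c := by
    rcases h3 with e | e
    · omega
    · rw [e]; omega
  have c3 : (T.card : ℝ) - T'.card ≤ c + 1 := by
    have : (T.card : ℝ) ≤ T'.card + c := by exact_mod_cast c2
    linarith
  have h6 : (I.cost T' : ℝ) ≤ (α + ε) * I.cost O := by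
    have := mul_le_mul_of_nonneg_right c3 (by positivity : 0 ≤ ε / (c + 1) * (I.cost O : ℝ))
    have e : ((c : ℝ) + 1) * (ε / (c + 1) * I.cost O) = ε * I.cost O := by field_simp
    linarith
  by_cases hk : T'.card ≤ I.k
  · refine ⟨T', ∅, id, h1, by omega, empty_subset _, by simp, by simpa using hk,
      fun i hi => hTF (h1 hi), Or.inr h2, fun a ha => ⟨a, fun j => Or.inr ⟨h2, rfl⟩, ?_⟩⟩
    obtain ⟨a', ha', -, e⟩ := exists_near I h2
    refine le_trans ?_ h6
    rw [e]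
    exact sum_le_sum fun j _ => (ha h2 j).2 _ (ha' j)
  · refine str_stuck h h1 (not_le.1 hk) hO hOF hOk hδ0 (by nlinarith) (by linarith) ?_
      (h5.resolve_left hk) (by positivity) ?_ hc
    · have : 0 ≤ 1 - 2 * δ := by nlinarith
      nlinarith [mul_le_mul_of_nonneg_right hα this]
    · have := mul_le_mul_of_nonneg_right hm h0
      nlinarith

end Crest.Agent.R310.LS
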