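import Crest.Agent.R310.IO
import Crest.Agent.R310.LSMath
import Crest.Agent.Lib.PolyTime.More

/-! Row 310: the Li–Svensson reduction (pseudo-approximation to approximation). -/

set_option autoImplicit false

open Crest.LogicCS.KMedian Crest.Agent.Lib.PolyTime

namespace Crest.Agent.R310

namespace LS

/-- A minimiser of `f` on `x :: l`. -/
def amin {β : Type} (f : β → ℚ) (x : β) (l : List β) : β :=
  l.foldl (fun s y => if f y < f s then y else s) x

theorem amin_spec {β : Type} (f : β → ℚ) (x : β) (l : List β) :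
    amin f x l ∈ x :: l ∧ ∀ y ∈ x :: l, f (amin f x l) ≤ f y := by
  induction l generalizing x with
  | nil => simp [amin]
  | cons z l ih =>
    obtain ⟨h1, h2⟩ := ih (if f z < f x then z else x)
    change amin f (if f z < f x then z else x) l ∈ _ ∧
      ∀ y ∈ x :: z :: l, f (amin f (if f z < f x then z else x) l) ≤ f y
    have h3 := h2 _ List.mem_cons_self
    constructor
    · rcases List.mem_cons.1 h1 with e | e
      · rw [e]; split_ifs <;> simp
      · simp [e]
    · intro y hy
      simp only [List.mem_cons] at hy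
      rcases hy with rfl | rfl | hy
      · refine h3.trans ?_
        split_ifs with e
        exacts [e.le, le_rfl]
      · refine h3.trans ?_
        split_ifs with e
        exacts [le_rfl, not_lt.1 e]
      · exact h2 y (List.mem_cons_of_mem _ hy)

theorem amin_head {β : Type} (f : β → ℚ) (x : β) {l : List β} (hl : l ≠ []) :
    amin f (l.headD x) l ∈ l ∧ ∀ y ∈ l, f (amin f (l.headD x) l) ≤ f y := by
  obtain ⟨h1, h2⟩ := amin_spec f (l.headD x) l
  refine ⟨?_, fun y hy => h2 y (List.mem_cons_of_mem _ hy)⟩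
  rcases List.mem_cons.1 h1 with e | e
  · rw [e]
    obtain ⟨z, l, rfl⟩ := List.exists_cons_of_ne_nil hl
    simp
  · exact e

@[fun_prop] theorem poly_amin {α β : Type} [PEnc α] [PEnc β] {f : α → β → ℚ} {x : α → β}
    {l : α → List β} (hf : Poly fun p : α × β => f p.1 p.2) (hx : Poly x) (hl : Poly l) :
    Poly fun a => amin (f a) (x a) (l a) :=
  Poly.foldl_select (h := fun a s y => if f a y < f a s then y else s) hl hx (by fun_prop)
    fun a s y => by split_ifs <;> simp

/-- All lists of length at most `M` with entries in `l`. -/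
def tup (l : List ℕ) : ℕ → List (List ℕ)
  | 0 => [[]]
  | M + 1 => [] :: l.flatMap fun x => (tup l M).map fun u => x :: u

theorem mem_tup {l : List ℕ} {M : ℕ} {u : List ℕ} :
    u ∈ tup l M ↔ u.length ≤ M ∧ ∀ x ∈ u, x ∈ l := by
  induction M generalizing u with
  | zero => cases u <;> simp [tup]
  | succ M ih =>
    cases u with
    | nil => simp [tup]
    | cons x u => simp [tup, ih, and_left_comm]

@[fun_prop] theorem poly_tup (M : ℕ) {α : Type} [PEnc α] {l : α → List ℕ} (hl : Poly l) :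
    Poly fun a => tup (l a) M := by
  induction M with
  | zero => unfold tup; fun_prop
  | succ M ih =>
    have h : Poly fun p : List ℕ × List (List ℕ) =>
        [] :: p.1.flatMap fun x => p.2.map fun u => x :: u := by fun_prop
    exact h.comp (hl.pair ih)

@[fun_prop] theorem poly_d {α : Type} [PEnc α] {r : α → Raw} {i j : α → ℕ} (hr : Poly r)
    (hi : Poly i) (hj : Poly j) : Poly fun a => (r a).d (i a) (j a) := by
  unfold Raw.d; fun_prop

@[fun_prop] theorem poly_cl {α : Type} [PEnc α] {r : α → Raw} (hr : Poly r) :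
    Poly fun a => (r a).cl := by
  unfold Raw.cl; fun_prop

@[fun_prop] theorem poly_fa {α : Type} [PEnc α] {r : α → Raw} (hr : Poly r) :
    Poly fun a => (r a).fa := by
  unfold Raw.fa; fun_prop

/-- Distance from `j` to `x :: S`. -/
def dm (r : Raw) (j x : ℕ) (S : List ℕ) : ℚ := r.d j (amin (r.d j) x S)

def near (r : Raw) (j : ℕ) (V : List ℕ) : ℕ := amin (r.d j) (V.headD 0) V

def cell (r : Raw) (V D : List ℕ) (i f : ℕ) : ℚ :=
  (r.cl.map fun j => if near r j V = i then dm r j f D else 0).sum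

def best (r : Raw) (V D : List ℕ) (i : ℕ) : ℕ := amin (cell r V D i) i r.fa

def rest (r : Raw) (t : List Bool) (R : List ℕ) : List ℕ :=
  r.fa.filter fun i => t.getD i false && !decide (i ∈ R)

def cand (r : Raw) (V D : List ℕ) : List ℕ := D ++ V.map (best r V D)

def lcost (r : Raw) (S : List ℕ) : ℚ := (r.cl.map fun j => r.d j (near r j S)).sum

def cands (M : ℕ) (r : Raw) (t : List Bool) : List (List ℕ) :=
  ((tup r.fa M).flatMap fun R => (tup r.fa M).map fun D => cand r (rest r t R) D).filter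
    fun S => !decide (S = []) && decide (S.length ≤ r.k)

def alg (M : ℕ) (r : Raw) (t : List Bool) : List Bool :=
  (List.range r.2.2.1.length).map fun i =>
    decide (i ∈ amin (lcost r) [r.fa.headD 0] (cands M r t))

@[fun_prop] theorem poly_dm {α : Type} [PEnc α] {r : α → Raw} {j x : α → ℕ} {S : α → List ℕ}
    (hr : Poly r) (hj : Poly j) (hx : Poly x) (hS : Poly S) :
    Poly fun a => dm (r a) (j a) (x a) (S a) := by
  unfold dm; fun_prop

@[fun_prop] theorem poly_near {α : Type} [PEnc α] {r : α → Raw} {j : α → ℕ} {S : α → List ℕ}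
    (hr : Poly r) (hj : Poly j) (hS : Poly S) : Poly fun a => near (r a) (j a) (S a) := by
  unfold near; fun_prop

@[fun_prop] theorem poly_cell {α : Type} [PEnc α] {r : α → Raw} {i f : α → ℕ} {V D : α → List ℕ}
    (hr : Poly r) (hi : Poly i) (hf : Poly f) (hV : Poly V) (hD : Poly D) :
    Poly fun a => cell (r a) (V a) (D a) (i a) (f a) := by
  unfold cell
  exact Poly.listSum (by fun_prop)

@[fun_prop] theorem poly_best {α : Type} [PEnc α] {r : α → Raw} {i : α → ℕ} {V D : α → List ℕ}
    (hr : Poly r) (hi : Poly i) (hV : Poly V) (hD : Poly D) :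
    Poly fun a => best (r a) (V a) (D a) (i a) := by
  unfold best; fun_prop

@[fun_prop] theorem poly_rest {α : Type} [PEnc α] {r : α → Raw} {t : α → List Bool}
    {R : α → List ℕ} (hr : Poly r) (ht : Poly t) (hR : Poly R) :
    Poly fun a => rest (r a) (t a) (R a) := by
  unfold rest; fun_prop

@[fun_prop] theorem poly_cand {α : Type} [PEnc α] {r : α → Raw} {V D : α → List ℕ}
    (hr : Poly r) (hV : Poly V) (hD : Poly D) : Poly fun a => cand (r a) (V a) (D a) := by
  unfold cand; fun_prop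

@[fun_prop] theorem poly_lcost {α : Type} [PEnc α] {r : α → Raw} {S : α → List ℕ}
    (hr : Poly r) (hS : Poly S) : Poly fun a => lcost (r a) (S a) := by
  unfold lcost
  exact Poly.listSum (by fun_prop)

@[fun_prop] theorem poly_cands (M : ℕ) {α : Type} [PEnc α] {r : α → Raw} {t : α → List Bool}
    (hr : Poly r) (ht : Poly t) : Poly fun a => cands M (r a) (t a) := by
  unfold cands Raw.k; fun_prop

theorem poly_alg (M : ℕ) {α : Type} [PEnc α] {r : α → Raw} {t : α → List Bool}
    (hr : Poly r) (ht : Poly t) : Poly fun a => alg M (r a) (t a) := by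
  unfold alg; fun_prop

variable (I : Instance)

theorem d_toRaw (x y : Fin I.N) : (toRaw I).d x y = I.dist x y := by
  simp [Raw.d, toRaw]

theorem mem_fa {i : ℕ} : i ∈ (toRaw I).fa ↔ ∃ x ∈ I.facilities, (x : ℕ) = i := by
  simp only [Raw.fa, toRaw, List.mem_filter, List.length_map, List.length_finRange, List.mem_range]
  constructor
  · rintro ⟨h1, h2⟩
    exact ⟨⟨i, h1⟩, by simpa [h1] using h2, rfl⟩
  · rintro ⟨x, hx, rfl⟩
    exact ⟨x.2, by simpa using hx⟩

theorem nodup_fa : (toRaw I).fa.Nodup := List.nodup_range.filter _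

theorem sum_cl (g : ℕ → ℚ) : ((toRaw I).cl.map g).sum = ∑ j ∈ I.clients, g j := by
  have hn : (toRaw I).cl.Nodup := List.nodup_range.filter _
  rw [← List.sum_toFinset _ hn]
  refine Eq.trans ?_ (Finset.sum_map _ Fin.valEmbedding g)
  congr 1
  ext i
  simp only [Raw.cl, toRaw, List.mem_toFinset, List.mem_filter, List.length_map,
    List.length_finRange, List.mem_range, Finset.mem_map, Fin.valEmbedding_apply]
  constructor
  · rintro ⟨h1, h2⟩
    exact ⟨⟨i, h1⟩, by simpa [h1] using h2, rfl⟩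
  · rintro ⟨x, hx, rfl⟩
    exact ⟨x.2, by simpa using hx⟩

/-- The set of points listed in `S`. -/
def fs (S : List ℕ) : Finset (Fin I.N) := Finset.univ.filter fun x => (x : ℕ) ∈ S

theorem fs_good {S : List ℕ} (h1 : S ≠ []) (h2 : ∀ i ∈ S, i ∈ (toRaw I).fa) :
    fs I S ⊆ I.facilities ∧ (fs I S).Nonempty ∧ (fs I S).card ≤ S.length ∧
      (I.cost (fs I S) : ℝ) ≤ lcost (toRaw I) S := by
  have hne : (fs I S).Nonempty := by
    obtain ⟨i, hi⟩ := List.exists_mem_of_ne_nil _ h1
    obtain ⟨x, -, rfl⟩ := (mem_fa I).1 (h2 i hi)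
    exact ⟨x, by simpa [fs] using hi⟩
  refine ⟨fun x hx => ?_, hne, ?_, ?_⟩
  · obtain ⟨y, hy, e⟩ := (mem_fa I).1 (h2 x (by simpa [fs] using hx))
    exact Fin.ext e ▸ hy
  · refine le_trans ?_ (List.toFinset_card_le S)
    exact Finset.card_le_card_of_injOn Fin.val (fun x hx => by simpa [fs] using hx)
      fun _ _ _ _ e => Fin.ext e
  · choose b hb hb' using fun j : Fin I.N =>
      (mem_fa I).1 (h2 _ (amin_head ((toRaw I).d j) 0 h1).1)
    refine (cost_le I hne b fun j _ => ?_).trans_eq ?_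
    · simp only [fs, Finset.mem_filter, Finset.mem_univ, true_and, hb']
      exact (amin_head _ 0 h1).1
    · simp only [lcost, sum_cl, near, ← hb', d_toRaw, dR]
      push_cast
      rfl

theorem cand_sub {r : Raw} {V D : List ℕ} (hV : ∀ i ∈ V, i ∈ r.fa) (hD : ∀ i ∈ D, i ∈ r.fa) :
    ∀ i ∈ cand r V D, i ∈ r.fa := fun i hi => by
  rcases List.mem_append.1 hi with h | h
  · exact hD i h
  · obtain ⟨x, hx, rfl⟩ := List.mem_map.1 h
    rcases List.mem_cons.1 (amin_spec (cell r V D x) x r.fa).1 with e | e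
    · rw [best, e]; exact hV x hx
    · exact e

theorem cands_good {M : ℕ} {r : Raw} {t : List Bool} {S : List ℕ} (h : S ∈ cands M r t) :
    S ≠ [] ∧ S.length ≤ r.k ∧ ∀ i ∈ S, i ∈ r.fa := by
  simp only [cands, List.mem_filter, List.mem_flatMap, List.mem_map, Bool.and_eq_true,
    Bool.not_eq_true', decide_eq_false_iff_not, decide_eq_true_eq] at h
  obtain ⟨⟨R, -, D, hD, rfl⟩, h1, h2⟩ := h
  exact ⟨h1, h2, cand_sub (fun i hi => (List.mem_filter.1 hi).1) (mem_tup.1 hD).2⟩

theorem lcost_cand {V D : List ℕ} (hV : V ≠ []) (ψ : ℕ → ℕ) (hψ : ∀ i ∈ V, ψ i ∈ (toRaw I).fa) :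
    lcost (toRaw I) (cand (toRaw I) V D) ≤
      ∑ j ∈ I.clients, dm (toRaw I) j (ψ (near (toRaw I) j V)) D := by
  set r := toRaw I
  have hn : ∀ j, near r j V ∈ V := fun j => (amin_head _ 0 hV).1
  have key : ∀ χ : ℕ → ℕ, ∑ j ∈ I.clients, dm r j (χ (near r j V)) D =
      ∑ i ∈ V.toFinset, cell r V D i (χ i) := fun χ => by
    simp only [cell, r, sum_cl]
    rw [Finset.sum_comm]
    refine Finset.sum_congr rfl fun j _ => ?_
    rw [Finset.sum_ite_eq, if_pos (List.mem_toFinset.2 (hn j))]
  have hne : cand r V D ≠ [] := by simp [cand, hV]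
  calc lcost r (cand r V D) ≤ ∑ j ∈ I.clients, dm r j (best r V D (near r j V)) D := by
        rw [lcost, sum_cl]
        refine Finset.sum_le_sum fun j _ => (amin_head _ 0 hne).2 _ ?_
        rcases List.mem_cons.1 (amin_spec (r.d j) (best r V D (near r j V)) D).1 with e | e
        · rw [e]
          exact List.mem_append_right _ (List.mem_map_of_mem (hn j))
        · exact List.mem_append_left _ e
    _ ≤ _ := by
        rw [key, key]
        exact Finset.sum_le_sum fun i hi =>
          (amin_spec _ _ _).2 _ (List.mem_cons_of_mem _ (hψ i (List.mem_toFinset.1 hi)))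

theorem exists_cand {M : ℕ} {t : List Bool} (hT : decodeSet I.N t ⊆ I.facilities) {K : ℝ}
    (h : Str I M (decodeSet I.N t) K) : ∃ S ∈ cands M (toRaw I) t, (lcost (toRaw I) S : ℝ) ≤ K := by
  classical
  obtain ⟨V, D, φ, h1, h2, h3, h4, h5, h6, h7, h8⟩ := h
  set r := toRaw I with hr
  set R := (decodeSet I.N t \ V).toList.map Fin.val with hR
  set Dl := D.toList.map Fin.val with hDl
  have mD : ∀ x : Fin I.N, x ∈ D → (x : ℕ) ∈ Dl := fun x hx =>
    List.mem_map_of_mem (Finset.mem_toList.2 hx)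
  have mV : ∀ i, i ∈ rest r t R ↔ ∃ x ∈ V, (x : ℕ) = i := fun i => by
    simp only [rest, List.mem_filter, hr, mem_fa, Bool.and_eq_true, Bool.not_eq_true',
      decide_eq_false_iff_not, hR, List.mem_map, Finset.mem_toList, Finset.mem_sdiff]
    constructor
    · rintro ⟨⟨x, -, rfl⟩, e1, e2⟩
      refine ⟨x, ?_, rfl⟩
      by_contra e3
      exact e2 ⟨x, ⟨by simpa [decodeSet] using e1, e3⟩, rfl⟩
    · rintro ⟨x, hx, rfl⟩
      refine ⟨⟨x, hT (h1 hx), rfl⟩, by simpa [decodeSet] using h1 hx, ?_⟩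
      rintro ⟨y, hy, e⟩
      exact hy.2 (Fin.ext e ▸ hx)
  have hlen : (rest r t R).length = V.card := by
    have hn : (rest r t R).Nodup := (nodup_fa I).filter _
    rw [← List.toFinset_card_of_nodup hn, ← Finset.card_map Fin.valEmbedding]
    congr 1
    ext i
    simp [mV]
  have hl : (cand r (rest r t R) Dl).length = D.card + V.card := by simp [cand, hDl, hlen]
  have hne : cand r (rest r t R) Dl ≠ [] := by
    rw [← List.length_pos_iff, hl]
    rw [← Finset.card_pos, ← Finset.card_pos] at h7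
    omega
  refine ⟨cand r (rest r t R) Dl, ?_, ?_⟩
  · simp only [cands, List.mem_filter, List.mem_flatMap, List.mem_map, Bool.and_eq_true,
      Bool.not_eq_true', decide_eq_false_iff_not, decide_eq_true_eq]
    refine ⟨⟨R, mem_tup.2 ⟨by simpa [hR] using h2, fun i hi => ?_⟩, Dl,
      mem_tup.2 ⟨by simpa [hDl] using h4, fun i hi => ?_⟩, rfl⟩, hne, hl ▸ h5⟩
    · obtain ⟨x, hx, rfl⟩ := List.mem_map.1 hi
      exact (mem_fa I).2 ⟨x, hT (Finset.mem_sdiff.1 (Finset.mem_toList.1 hx)).1, rfl⟩
    · obtain ⟨x, hx, rfl⟩ := List.mem_map.1 hi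
      exact (mem_fa I).2 ⟨x, h3 (Finset.mem_toList.1 hx), rfl⟩
  rcases V.eq_empty_or_nonempty with hV | hV
  · obtain ⟨b, hb, hb'⟩ := h8 id fun e => absurd hV e.ne_empty
    refine le_trans ?_ hb'
    simp only [dR, ← d_toRaw]
    rw [lcost, sum_cl]
    have : ∑ j ∈ I.clients, r.d j (near r j (cand r (rest r t R) Dl)) ≤
        ∑ j ∈ I.clients, r.d j (b j) := Finset.sum_le_sum fun j _ =>
      (amin_head _ 0 hne).2 _ (List.mem_append_left _
        (mD _ ((hb j).resolve_right fun e => absurd hV e.1.ne_empty)))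
    exact_mod_cast this
  · have hV' : rest r t R ≠ [] := by
      rw [← List.length_pos_iff, hlen]
      exact Finset.card_pos.2 hV
    choose a ha ha' using fun j : Fin I.N => (mV _).1 (amin_head (r.d j) 0 hV').1
    obtain ⟨b, hb, hb'⟩ := h8 a fun _ j => ⟨ha j, fun i hi => by
      have := (amin_head (r.d j) 0 hV').2 i ((mV _).2 ⟨i, hi, rfl⟩)
      rw [← ha', hr, d_toRaw, d_toRaw] at this
      simp only [dR]
      exact_mod_cast this⟩
    refine le_trans ?_ hb'
    simp only [dR, ← d_toRaw]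
    have := lcost_cand I (D := Dl) hV' (fun i => if h : i < I.N then φ ⟨i, h⟩ else 0)
      fun i hi => by
        obtain ⟨x, hx, rfl⟩ := (mV i).1 hi
        rw [dif_pos x.2]
        exact (mem_fa I).2 ⟨_, h6 x hx, rfl⟩
    replace this := this.trans (Finset.sum_le_sum (g := fun j : Fin I.N => r.d j (b j)) fun j _ => by
      rw [near, ← ha', dif_pos (a j).2]
      refine (amin_spec _ _ _).2 _ ?_
      rcases hb j with e | e
      · exact List.mem_cons_of_mem _ (mD _ e)
      · rw [e.2]; exact List.mem_cons_self)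
    exact_mod_cast this

theorem decode_alg (M : ℕ) (t : List Bool) : decodeSet I.N (alg M (toRaw I) t) =
    fs I (amin (lcost (toRaw I)) [(toRaw I).fa.headD 0] (cands M (toRaw I) t)) := by
  ext x
  have : (toRaw I).2.2.1.length = I.N := by simp [toRaw]
  simp [decodeSet, alg, fs, this]

end LS

theorem liSvensson {α ε : ℝ} (hα : 1 < α) (hε : 0 < ε) {c : ℕ} {g : List Bool → List Bool}
    (hg : Poly g) (h : Pseudo α c g) : ∃ f : List Bool → List Bool, Poly f ∧ Pseudo (α + ε) 0 f := by
  obtain ⟨p, hp, hp'⟩ := exists_parse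
  obtain ⟨M, hM⟩ := LS.exists_str hα.le hε c
  refine ⟨fun w => LS.alg M (p w) (g w), LS.poly_alg M hp hg, fun I hI => ?_⟩
  obtain ⟨h1, h2, h3, h4⟩ := h I hI
  rw [Instance.opened, hp', LS.decode_alg]
  obtain ⟨s1, s2⟩ := LS.amin_spec (LS.lcost (toRaw I)) [(toRaw I).fa.headD 0]
    (LS.cands M (toRaw I) (g I.encode))
  generalize LS.amin (LS.lcost (toRaw I)) [(toRaw I).fa.headD 0]
    (LS.cands M (toRaw I) (g I.encode)) = S at s1 s2
  have hS : S ≠ [] ∧ S.length ≤ I.k ∧ ∀ i ∈ S, i ∈ (toRaw I).fa := by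
    rcases List.mem_cons.1 s1 with rfl | s1
    · refine ⟨by simp, hI.2.2.2.2.1, fun i hi => ?_⟩
      obtain ⟨x, hx⟩ := h2
      obtain ⟨z, l, e⟩ := List.exists_cons_of_ne_nil
        (List.ne_nil_of_mem ((LS.mem_fa I).2 ⟨x, h1 hx, rfl⟩))
      rw [e] at hi ⊢
      simp only [List.headD_cons, List.mem_singleton] at hi
      simp [hi]
    · exact LS.cands_good s1
  obtain ⟨g1, g2, g3, g4⟩ := LS.fs_good I hS.1 hS.2.2
  refine ⟨g1, g2, g3.trans hS.2.1, fun O o1 o2 o3 => ?_⟩
  obtain ⟨S', t1, t2⟩ := LS.exists_cand I h1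
    (hM I hI _ O h1 h2 h3 o1 o2 o3 ((h4 O o1 o2 o3).trans_eq (add_zero _)))
  have : (LS.lcost (toRaw I) S : ℝ) ≤ LS.lcost (toRaw I) S' := by
    exact_mod_cast s2 S' (List.mem_cons_of_mem _ t1)
  linarith

end Crest.Agent.R310
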