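import Crest.Agent.R310.IO

/-! Row 310: rounding of the metric (the mathematics of `normalize`). -/

set_option autoImplicit false

open Crest.LogicCS.KMedian

namespace Crest.Agent.R310

/-- the rounded and truncated distance -/
def nrmRd (M : ℕ) (t x : ℚ) : ℚ := ((min M ⌈x * t⌉₊ : ℕ) : ℚ)

/-- the rounded instance -/
def nrmScale (q C : ℕ) (I : Instance) (B : ℚ) : Instance :=
  ⟨I.N, fun x y => nrmRd (C * I.N ^ 2) (q * I.N / B) (I.dist x y), I.clients, I.facilities, I.k⟩

theorem nrm_N_pos {I : Instance} (hI : I.Valid) : 0 < I.N := by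
  obtain ⟨x, -⟩ := Finset.card_pos.1 (lt_of_lt_of_le Nat.one_pos (hI.2.2.2.2.1.trans hI.2.2.2.2.2))
  exact Nat.zero_lt_of_lt x.2

theorem nrm_dist_nonneg {I : Instance} (hI : I.Valid) (x y : Fin I.N) : 0 ≤ I.dist x y := by
  by_cases h : x = y
  · rw [h, hI.1]
  · exact (hI.2.1 x y h).le

theorem nrmScale_valid {q C : ℕ} (hq : 0 < q) (hC : 0 < C) {I : Instance} (hI : I.Valid) {B : ℚ}
    (hB : 0 < B) : (nrmScale q C I B).Valid := by
  have hN := nrm_N_pos hI
  have ht : (0 : ℚ) < q * I.N / B := by positivity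
  refine ⟨fun x => ?_, fun x y h => ?_, fun x y => ?_, fun x y z => ?_, hI.2.2.2.2.1, hI.2.2.2.2.2⟩
  · simp [nrmScale, nrmRd, hI.1]
  · have := hI.2.1 x y h
    simp only [nrmScale, nrmRd, Nat.cast_pos, lt_min_iff, Nat.ceil_pos]
    exact ⟨by positivity, by positivity⟩
  · simp only [nrmScale]
    rw [hI.2.2.1 x y]
  · have h1 : ⌈I.dist x z * (q * I.N / B)⌉₊ ≤
        ⌈I.dist x y * (q * I.N / B)⌉₊ + ⌈I.dist y z * (q * I.N / B)⌉₊ := by
      refine le_trans (Nat.ceil_mono ?_) (Nat.ceil_add_le _ _)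
      rw [← add_mul]
      exact mul_le_mul_of_nonneg_right (hI.2.2.2.1 x y z) ht.le
    simp only [nrmScale, nrmRd]
    rw [← Nat.cast_add, Nat.cast_le]
    omega

theorem nrmScale_int (q C : ℕ) (I : Instance) (B : ℚ) : IntInst C (nrmScale q C I B) :=
  fun _ _ => ⟨_, rfl, min_le_left _ _⟩

theorem nrm_cost_eq (I : Instance) {S : Finset (Fin I.N)} (h : S.Nonempty) :
    I.cost S = ∑ j ∈ I.clients, S.inf' h (I.dist j) := dif_pos h

theorem nrm_inf_nonneg {I : Instance} (hI : I.Valid) {S : Finset (Fin I.N)} (h : S.Nonempty)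
    (j : Fin I.N) : 0 ≤ S.inf' h (I.dist j) :=
  (Finset.le_inf'_iff _ _).2 fun s _ => nrm_dist_nonneg hI j s

theorem nrm_inf_le_cost {I : Instance} (hI : I.Valid) {S : Finset (Fin I.N)} (h : S.Nonempty)
    {j : Fin I.N} (hj : j ∈ I.clients) : S.inf' h (I.dist j) ≤ I.cost S := by
  rw [nrm_cost_eq I h]
  exact Finset.single_le_sum (f := fun j => S.inf' h (I.dist j))
    (fun j _ => nrm_inf_nonneg hI h j) hj

theorem nrm_cost_nonneg {I : Instance} (hI : I.Valid) {S : Finset (Fin I.N)} (h : S.Nonempty) :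
    0 ≤ I.cost S := by
  rw [nrm_cost_eq I h]
  exact Finset.sum_nonneg fun j _ => nrm_inf_nonneg hI h j

/-- rounding up costs at most one per client -/
theorem nrm_cost_up {q C : ℕ} {I : Instance} (hI : I.Valid) {B : ℚ} (hB : 0 < B)
    {S : Finset (Fin I.N)} (h : S.Nonempty) :
    (nrmScale q C I B).cost S ≤ I.cost S * (q * I.N / B) + I.N := by
  have ht : (0 : ℚ) ≤ q * I.N / B := by positivity
  rw [nrm_cost_eq (nrmScale q C I B) h, nrm_cost_eq I h, Finset.sum_mul]
  have h1 : ∀ j ∈ I.clients, S.inf' h ((nrmScale q C I B).dist j) ≤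
      S.inf' h (I.dist j) * (q * I.N / B) + 1 := by
    intro j _
    obtain ⟨s, hs, e⟩ := Finset.exists_mem_eq_inf' h (I.dist j)
    refine (Finset.inf'_le _ hs).trans ?_
    rw [e]
    refine le_trans ?_ (Nat.ceil_lt_add_one (mul_nonneg (nrm_dist_nonneg hI j s) ht)).le
    exact Nat.cast_le.2 (min_le_right _ _)
  refine (Finset.sum_le_sum h1).trans ?_
  rw [Finset.sum_add_distrib, Finset.sum_const, nsmul_eq_mul, mul_one]
  have : (I.clients.card : ℚ) ≤ I.N := by
    exact_mod_cast (Finset.card_le_univ _).trans_eq (Fintype.card_fin _)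
  linarith

theorem nrm_cost_zero {q C : ℕ} {I : Instance} (hI : I.Valid) (B : ℚ)
    {S : Finset (Fin I.N)} (h : S.Nonempty) (h0 : I.cost S = 0) :
    (nrmScale q C I B).cost S ≤ 0 := by
  rw [nrm_cost_eq (nrmScale q C I B) h]
  refine Finset.sum_nonpos fun j hj => ?_
  obtain ⟨s, hs, e⟩ := Finset.exists_mem_eq_inf' h (I.dist j)
  refine (Finset.inf'_le _ hs).trans ?_
  have h1 : I.dist j s = 0 :=
    le_antisymm (e ▸ h0 ▸ nrm_inf_le_cost hI h hj) (nrm_dist_nonneg hI j s)
  simp [nrmScale, nrmRd, h1]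

/-- a cheap solution is not truncated -/
theorem nrm_cost_down {q C : ℕ} (hq : 0 < q) (hC : 0 < C) {I : Instance} (hI : I.Valid) {B : ℚ}
    (hB : 0 < B) {T : Finset (Fin I.N)} (h : T.Nonempty)
    (hT : (nrmScale q C I B).cost T < (C * I.N ^ 2 : ℕ)) :
    I.cost T * (q * I.N / B) ≤ (nrmScale q C I B).cost T := by
  have ht : (0 : ℚ) ≤ q * I.N / B := by positivity
  have hV := nrmScale_valid hq hC hI hB
  rw [nrm_cost_eq I h, Finset.sum_mul]
  refine le_trans (Finset.sum_le_sum fun j hj => ?_) (nrm_cost_eq (nrmScale q C I B) h).ge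
  obtain ⟨s, hs, e⟩ := Finset.exists_mem_eq_inf' h ((nrmScale q C I B).dist j)
  have h1 : (nrmScale q C I B).dist j s < (C * I.N ^ 2 : ℕ) :=
    e.ge.trans_lt ((nrm_inf_le_cost hV h hj).trans_lt hT)
  refine le_trans ?_ e.ge
  have h2 : min (C * I.N ^ 2) ⌈I.dist j s * (q * I.N / B)⌉₊ < C * I.N ^ 2 := Nat.cast_lt.1 h1
  have h3 : (nrmScale q C I B).dist j s = ⌈I.dist j s * (q * I.N / B)⌉₊ := by
    change ((min (C * I.N ^ 2) ⌈I.dist j s * (q * I.N / B)⌉₊ : ℕ) : ℚ) = _
    rw [min_eq_right (by omega)]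
  rw [h3]
  exact (mul_le_mul_of_nonneg_right (Finset.inf'_le _ hs) ht).trans (Nat.le_ceil _)

/-- the scale read off a table entry -/
def nrmB (x : ℚ) : ℚ := if 0 < x then x else 1

theorem nrmB_pos (x : ℚ) : 0 < nrmB x := by
  unfold nrmB
  split_ifs with h
  · exact h
  · exact one_pos

theorem nrm_main {α ε : ℝ} (hα : 1 ≤ α) {q C c : ℕ} (hq : 2 ≤ q) (hqε : α + 1 ≤ ε * q)
    (hC : α * (q + 1) + 1 < C) {I : Instance} (hI : I.Valid) (T : ℚ → Finset (Fin I.N))
    (hT : ∀ B, 0 < B → Good α 1 c (nrmScale q C I B) (T B)) {S : Finset (Fin I.N)}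
    (h1 : S ⊆ I.facilities) (h2 : S.Nonempty) (h3 : S.card ≤ I.k) :
    ∃ x y, (I.cost (T (nrmB (I.dist x y))) : ℝ) ≤ (α + ε) * (I.cost S : ℝ) := by
  have hN := nrm_N_pos hI
  have hN1 : (1 : ℝ) ≤ I.N := by exact_mod_cast hN
  have hq0 : 0 < q := by omega
  have hq2 : (2 : ℝ) ≤ q := by exact_mod_cast hq
  have hC1 : (1 : ℝ) < C := by nlinarith
  have hC0 : 0 < C := by exact_mod_cast (lt_trans one_pos hC1 : (0 : ℝ) < C)
  rcases (nrm_cost_nonneg hI h2).eq_or_lt with h0 | h0
  · -- the optimum is zero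
    by_cases hp : ∃ p : Fin I.N × Fin I.N, 0 < I.dist p.1 p.2
    · obtain ⟨p, hp1, hp2⟩ := Finset.exists_min_image
        (Finset.univ.filter fun p : Fin I.N × Fin I.N => 0 < I.dist p.1 p.2)
        (fun p => I.dist p.1 p.2) (by obtain ⟨p, hp⟩ := hp; exact ⟨p, by simpa using hp⟩)
      have hB : 0 < I.dist p.1 p.2 := by simpa using hp1
      refine ⟨p.1, p.2, ?_⟩
      rw [nrmB, if_pos hB, ← h0]
      set B := I.dist p.1 p.2
      obtain ⟨-, g2, -, g4⟩ := hT B hB
      have g5 := g4 S h1 h2 h3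
      have g6 : ((nrmScale q C I B).cost S : ℝ) ≤ 0 := by
        exact_mod_cast nrm_cost_zero hI B h2 h0.symm
      have g7 : ((nrmScale q C I B).cost (T B) : ℝ) ≤ 1 := by nlinarith
      have g8 : (nrmScale q C I B).cost (T B) < (C * I.N ^ 2 : ℕ) := by
        have a2 : (1 : ℝ) ≤ I.N ^ 2 := by nlinarith
        have : ((nrmScale q C I B).cost (T B) : ℝ) < C * I.N ^ 2 := by nlinarith
        exact_mod_cast this
      have g9 := nrm_cost_down hq0 hC0 hI hB g2 g8
      have g10 : I.cost (T B) < B := by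
        have a1 : (nrmScale q C I B).cost (T B) ≤ 1 := by exact_mod_cast g7
        have a2 : (2 : ℚ) ≤ q * I.N := by
          have : 2 ≤ q * I.N := le_trans hq (Nat.le_mul_of_pos_right _ hN)
          exact_mod_cast this
        have a3 := g9.trans a1
        rw [← mul_div_assoc, div_le_one hB] at a3
        nlinarith [nrm_cost_nonneg hI g2]
      have g11 : I.cost (T B) ≤ 0 := by
        rw [nrm_cost_eq I g2]
        refine Finset.sum_nonpos fun j hj => ?_
        obtain ⟨s, hs, e⟩ := Finset.exists_mem_eq_inf' g2 (I.dist j)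
        have a1 : I.dist j s < B := e.ge.trans_lt ((nrm_inf_le_cost hI g2 hj).trans_lt g10)
        refine e.le.trans ?_
        by_contra a2
        exact absurd (hp2 (j, s) (by simpa using not_le.1 a2)) (not_le.2 a1)
      simpa using (by exact_mod_cast g11 : (I.cost (T B) : ℝ) ≤ 0)
    · obtain ⟨x, -⟩ := h2
      refine ⟨x, x, ?_⟩
      obtain ⟨-, g2, -, -⟩ := hT _ (nrmB_pos (I.dist x x))
      have g11 : I.cost (T (nrmB (I.dist x x))) ≤ 0 := by
        rw [nrm_cost_eq I g2]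
        refine Finset.sum_nonpos fun j hj => ?_
        obtain ⟨s, hs, e⟩ := Finset.exists_mem_eq_inf' g2 (I.dist j)
        exact e.le.trans (not_lt.1 fun a => hp ⟨(j, s), a⟩)
      rw [← h0]
      simpa using (by exact_mod_cast g11 : (I.cost (T (nrmB (I.dist x x))) : ℝ) ≤ 0)
  · have hcl : I.clients.Nonempty := by
      rw [Finset.nonempty_iff_ne_empty]
      intro e
      rw [nrm_cost_eq I h2, e, Finset.sum_empty] at h0
      exact lt_irrefl _ h0
    obtain ⟨j, hj, hmax⟩ := Finset.exists_max_image I.clients (fun j => S.inf' h2 (I.dist j)) hcl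
    obtain ⟨s, hs, e⟩ := Finset.exists_mem_eq_inf' h2 (I.dist j)
    have b1 : I.dist j s ≤ I.cost S := e ▸ nrm_inf_le_cost hI h2 hj
    have b2 : I.cost S ≤ I.N * I.dist j s := by
      rw [nrm_cost_eq I h2]
      refine (Finset.sum_le_card_nsmul _ _ _ fun i hi => (hmax i hi).trans_eq e).trans ?_
      rw [nsmul_eq_mul]
      refine mul_le_mul_of_nonneg_right ?_ (nrm_dist_nonneg hI j s)
      exact_mod_cast (Finset.card_le_univ _).trans_eq (Fintype.card_fin _)
    have hB : 0 < I.dist j s := by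
      by_contra a
      have a1 := le_antisymm (not_lt.1 a) (nrm_dist_nonneg hI j s)
      rw [a1, mul_zero] at b2
      exact absurd h0 (not_lt.2 b2)
    refine ⟨j, s, ?_⟩
    rw [nrmB, if_pos hB]
    set B := I.dist j s
    obtain ⟨-, g2, -, g4⟩ := hT B hB
    have g5 := g4 S h1 h2 h3
    have hBR : (0 : ℝ) < B := by exact_mod_cast hB
    have b1' : (B : ℝ) ≤ I.cost S := by exact_mod_cast b1
    have b2' : (I.cost S : ℝ) ≤ I.N * B := by exact_mod_cast b2
    have g6 : ((nrmScale q C I B).cost S : ℝ) ≤ I.cost S * (q * I.N / B) + I.N := by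
      exact_mod_cast nrm_cost_up (q := q) (C := C) hI hB h2
    have g6' : (I.cost S : ℝ) * (q * I.N / B) ≤ q * I.N ^ 2 := by
      calc (I.cost S : ℝ) * (q * I.N / B) ≤ I.N * B * (q * I.N / B) := by gcongr
        _ = q * I.N ^ 2 := by field_simp
    have g7 : ((nrmScale q C I B).cost (T B) : ℝ) ≤ α * (I.cost S * (q * I.N / B) + I.N) + 1 := by
      refine g5.trans ?_
      gcongr
    have g8 : (nrmScale q C I B).cost (T B) < (C * I.N ^ 2 : ℕ) := by
      have a1 : (I.N : ℝ) ≤ I.N ^ 2 := by nlinarith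
      have a2 : (1 : ℝ) ≤ I.N ^ 2 := by nlinarith
      have : ((nrmScale q C I B).cost (T B) : ℝ) < C * I.N ^ 2 :=
        calc _ ≤ _ := g7
          _ ≤ α * (q * I.N ^ 2 + I.N ^ 2) + I.N ^ 2 := by gcongr
          _ = (α * (q + 1) + 1) * I.N ^ 2 := by ring
          _ < _ := by gcongr
      exact_mod_cast this
    have g9 : (I.cost (T B) : ℝ) * (q * I.N / B) ≤ (nrmScale q C I B).cost (T B) := by
      exact_mod_cast nrm_cost_down hq0 hC0 hI hB g2 g8
    have ht : (0 : ℝ) < q * I.N / B := by positivity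
    refine le_of_mul_le_mul_right ((g9.trans g7).trans ?_) ht
    have a1 : (q * I.N : ℝ) ≤ I.cost S * (q * I.N / B) := by
      calc (q * I.N : ℝ) = B * (q * I.N / B) := by field_simp
        _ ≤ _ := by gcongr
    have hε : 0 ≤ ε := by
      by_contra a
      nlinarith [not_le.1 a]
    have a2 : α * I.N + 1 ≤ ε * (I.cost S * (q * I.N / B)) :=
      calc α * I.N + 1 ≤ (α + 1) * I.N := by nlinarith
        _ ≤ ε * q * I.N := by gcongr
        _ = ε * (q * I.N) := by ring
        _ ≤ _ := by gcongr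
    nlinarith

end Crest.Agent.R310
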