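import Crest.Agent.R310.IO
import Crest.Agent.R310.NormA
import Crest.Agent.Lib.PolyTime.More

/-! Row 310: reduction to bounded integer metrics. -/

set_option autoImplicit false

open Crest.LogicCS.KMedian Crest.Agent.Lib.PolyTime

namespace Crest.Agent.R310

/-- the rounded instance on lists -/
def nrmRaw (q C : ℕ) (r : Raw) (B : ℚ) : Raw :=
  (r.1, r.2.1, r.2.2.1, r.2.2.2.1,
    r.2.2.2.2.map fun row => row.map fun x => nrmRd (C * r.1 ^ 2) (q * r.1 / B) x)

theorem nrmRaw_toRaw (q C : ℕ) (I : Instance) (B : ℚ) :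
    nrmRaw q C (toRaw I) B = toRaw (nrmScale q C I B) := by
  simp only [nrmRaw, toRaw, nrmScale, List.map_map, Function.comp_def]
  rfl

theorem poly_nrmRaw (q C : ℕ) : Poly fun p : Raw × ℚ => nrmRaw q C p.1 p.2 := by
  unfold nrmRaw nrmRd
  fun_prop

/-- the cost of a mask -/
def nrmCost (r : Raw) (w : List Bool) : ℚ :=
  (r.cl.map fun j =>
    ((((List.range r.n).filter fun i => w.getD i false).map fun i => r.d j i).min?).getD 0).sum

theorem poly_nrmCost : Poly fun p : Raw × List Bool => nrmCost p.1 p.2 := by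
  unfold nrmCost
  refine Lib.PolyTime.Poly.listSum (Lib.PolyTime.Poly.map ?_ (Lib.PolyTime.Poly.getD
    (Lib.PolyTime.Poly.min? ?_ ?_) (Lib.PolyTime.Poly.const _)))
  · fun_prop
  · fun_prop
  · fun_prop

theorem nrmCost_toRaw (I : Instance) (w : List Bool) (h : (decodeSet I.N w).Nonempty) :
    nrmCost (toRaw I) w = I.cost (decodeSet I.N w) := by
  rw [nrmCost, sum_cl, nrm_cost_eq I h]
  refine Finset.sum_congr rfl fun j _ => ?_
  have : (((List.range (toRaw I).n).filter fun i => w.getD i false).map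
      fun i => (toRaw I).d j i).min? = some ((decodeSet I.N w).inf' h (I.dist j)) := by
    rw [List.min?_eq_some_iff]
    constructor
    · obtain ⟨s, hs, e⟩ := Finset.exists_mem_eq_inf' h (I.dist j)
      rw [e]
      refine List.mem_map.2 ⟨s, List.mem_filter.2 ⟨by simp, ?_⟩, toRaw_d I j s⟩
      exact (Finset.mem_filter.1 hs).2
    · intro b hb
      obtain ⟨i, hi, rfl⟩ := List.mem_map.1 hb
      obtain ⟨h1, h2⟩ := List.mem_filter.1 hi
      have h3 : i < I.N := by simpa using h1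
      rw [toRaw_d' I j.2 h3]
      exact Finset.inf'_le (I.dist j) (b := ⟨i, h3⟩) (Finset.mem_filter.2 ⟨Finset.mem_univ _, h2⟩)
  rw [this, Option.getD_some]

/-- the best element of a list -/
def nrmBest {β : Type} (f : β → ℚ) (l : List β) (d : β) : β :=
  l.foldl (fun s x => if f x < f s then x else s) d

theorem nrmBest_spec {β : Type} (f : β → ℚ) (l : List β) (d : β) :
    (nrmBest f l d = d ∨ nrmBest f l d ∈ l) ∧ f (nrmBest f l d) ≤ f d ∧
      ∀ x ∈ l, f (nrmBest f l d) ≤ f x := by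
  induction l generalizing d with
  | nil => simp [nrmBest]
  | cons y l ih =>
    have e : nrmBest f (y :: l) d = nrmBest f l (if f y < f d then y else d) := rfl
    obtain ⟨h1, h2, h3⟩ := ih (if f y < f d then y else d)
    rw [e]
    split_ifs at h1 h2 h3 ⊢ with h
    · refine ⟨Or.inr ?_, h2.trans h.le, fun x hx => ?_⟩
      · rcases h1 with h1 | h1
        · rw [h1]; exact List.mem_cons_self
        · exact List.mem_cons_of_mem _ h1
      · rcases List.mem_cons.1 hx with rfl | hx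
        · exact h2
        · exact h3 x hx
    · refine ⟨h1.imp id (List.mem_cons_of_mem _), h2, fun x hx => ?_⟩
      rcases List.mem_cons.1 hx with rfl | hx
      · exact h2.trans (not_lt.1 h)
      · exact h3 x hx

/-- the algorithm on lists -/
def nrmAlg (G : Raw → ℚ → List Bool) (r : Raw) : List Bool :=
  nrmBest (nrmCost r) (r.2.2.2.2.flatten.map fun x => G r (nrmB x)) (G r 1)

theorem poly_nrmAlg {G : Raw → ℚ → List Bool} (hG : Poly fun p : Raw × ℚ => G p.1 p.2) :
    Poly (nrmAlg G) := by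
  unfold nrmAlg nrmBest
  have hc := poly_nrmCost
  refine Lib.PolyTime.Poly.foldl_select (Lib.PolyTime.Poly.map (by fun_prop) ?_) ?_ ?_ fun a s x => ?_
  · refine hG.comp (g := fun p : Raw × ℚ => (p.1, nrmB p.2)) ?_
    unfold nrmB
    fun_prop
  · exact hG.comp (g := fun r : Raw => (r, 1)) (by fun_prop)
  · refine Lib.PolyTime.Poly.ite (Lib.PolyTime.Poly.decide_ratLt ?_ ?_) (by fun_prop) (by fun_prop)
    · exact hc.comp (g := fun p : Raw × List Bool × List Bool => (p.1, p.2.2)) (by fun_prop)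
    · exact hc.comp (g := fun p : Raw × List Bool × List Bool => (p.1, p.2.1)) (by fun_prop)
  · split_ifs
    · exact Or.inr rfl
    · exact Or.inl rfl

theorem normalize {α ε : ℝ} (hα : 1 ≤ α) (hε : 0 < ε)
    (h : ∀ C : ℕ, ∃ (c : ℕ) (g : List Bool → List Bool), Poly g ∧ CorePseudo α C c g) :
    ∃ (c : ℕ) (g : List Bool → List Bool), Poly g ∧ Pseudo (α + ε) c g := by
  obtain ⟨p, hp, hp'⟩ := exists_parse
  obtain ⟨e, he, he'⟩ := exists_encode
  set q : ℕ := ⌈(α + 1) / ε⌉₊ + 2 with hq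
  set C : ℕ := ⌈α * (q + 1)⌉₊ + 2 with hC
  have hq2 : 2 ≤ q := by omega
  have hqε : α + 1 ≤ ε * q := by
    have h1 : (α + 1) / ε ≤ q := by
      rw [hq]; push_cast
      linarith [Nat.le_ceil ((α + 1) / ε)]
    rwa [div_le_iff₀ hε, mul_comm] at h1
  have hCα : α * (q + 1) + 1 < C := by
    rw [hC]; push_cast
    linarith [Nat.le_ceil (α * (q + 1))]
  obtain ⟨c, g, hg, hg'⟩ := h C
  refine ⟨c, fun w => nrmAlg (fun r B => g (e (nrmRaw q C r B))) (p w),
    (poly_nrmAlg (hg.comp (he.comp (poly_nrmRaw q C)))).comp hp, fun I hI => ?_⟩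
  let W : ℚ → List Bool := fun B => g (nrmScale q C I B).encode
  have hW : ∀ B, 0 < B → Good α 1 c (nrmScale q C I B) (decodeSet I.N (W B)) := fun B hB =>
    hg' _ (nrmScale_valid (by omega) (by omega) hI hB) (nrmScale_int q C I B)
  have e1 : I.opened (fun w => nrmAlg (fun r B => g (e (nrmRaw q C r B))) (p w)) =
      decodeSet I.N (nrmBest (nrmCost (toRaw I))
        ((toRaw I).2.2.2.2.flatten.map fun x => W (nrmB x)) (W 1)) := by
    simp only [Instance.opened, hp', nrmAlg, nrmRaw_toRaw, he', W]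
  rw [e1]
  obtain ⟨h1, -, h3⟩ := nrmBest_spec (nrmCost (toRaw I))
    ((toRaw I).2.2.2.2.flatten.map fun x => W (nrmB x)) (W 1)
  obtain ⟨B, hB, eB⟩ : ∃ B, 0 < B ∧ nrmBest (nrmCost (toRaw I))
      ((toRaw I).2.2.2.2.flatten.map fun x => W (nrmB x)) (W 1) = W B := by
    rcases h1 with h1 | h1
    · exact ⟨1, one_pos, h1⟩
    · obtain ⟨x, -, hx⟩ := List.mem_map.1 h1
      exact ⟨_, nrmB_pos x, hx.symm⟩
  rw [eB] at h3 ⊢
  obtain ⟨g1, g2, g3, -⟩ := hW B hB
  refine ⟨g1, g2, g3, fun S s1 s2 s3 => ?_⟩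
  obtain ⟨x, y, hxy⟩ := nrm_main hα hq2 hqε hCα hI (fun B => decodeSet I.N (W B)) hW s1 s2 s3
  have h4 := h3 (W (nrmB (I.dist x y))) (List.mem_map.2 ⟨I.dist x y, List.mem_flatten.2
    ⟨_, List.mem_map.2 ⟨x, List.mem_finRange x, rfl⟩,
      List.mem_map.2 ⟨y, List.mem_finRange y, rfl⟩⟩, rfl⟩)
  rw [nrmCost_toRaw I _ g2, nrmCost_toRaw I _ (hW _ (nrmB_pos _)).2.1] at h4
  rw [add_zero]
  exact le_trans (by exact_mod_cast h4) hxy

end Crest.Agent.R310
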