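import Crest.Agent.R310.Core
import Crest.Agent.R310.Norm
import Crest.Agent.R310.LS
import Crest.Agent.R310.Des
import Crest.Agent.R310.DesQ
import Crest.Agent.Lib.PolyTime.Bridge

/-! Row 310: the approximation algorithm from a design. -/

set_option autoImplicit false

open Crest.LogicCS.KMedian Crest.Agent.Lib.PolyTime

namespace Crest.Agent.R310

theorem result_of_design (s : Design) (A : s.Alg) (ε : ℝ) (hε : 0 < ε) :
    ∃ f : List Bool → List Bool, Crest.Complexity.PolyTime f ∧
      ∀ I : Instance, I.Valid →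
        I.opened f ⊆ I.facilities ∧ (I.opened f).Nonempty ∧ (I.opened f).card ≤ I.k ∧
        ∀ S : Finset (Fin I.N), S ⊆ I.facilities → S.Nonempty → S.card ≤ I.k →
          (I.cost (I.opened f) : ℝ) ≤ (s.θ + ε) * (I.cost S : ℝ) := by
  have hθ := s.one_le_θ
  have h3 : 0 < ε / 3 := by positivity
  obtain ⟨c, g, hg, h⟩ := normalize (α := s.θ + ε / 3) (by linarith) h3 (core s A h3)
  obtain ⟨f, hf, h'⟩ := liSvensson (by linarith) h3 hg h
  refine ⟨f, hf.polyTime, fun I hI => ?_⟩
  obtain ⟨h1, h2, h4, h5⟩ := h' I hI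
  refine ⟨h1, h2, h4, fun S a b d => ?_⟩
  have := h5 S a b d
  rwa [add_zero, show s.θ + ε / 3 + ε / 3 + ε / 3 = s.θ + ε by ring] at this

/-- The statement of S0482 from the two inequalities (O) and (P). -/
theorem result_of_hyp (hO : Des.HypO) (hP : Des.HypP) (ε : ℝ) (hε : 0 < ε) :
    ∃ f : List Bool → List Bool, Crest.Complexity.PolyTime f ∧
      ∀ I : Instance, I.Valid →
        I.opened f ⊆ I.facilities ∧ (I.opened f).Nonempty ∧ (I.opened f).card ≤ I.k ∧
        ∀ S : Finset (Fin I.N), S ⊆ I.facilities → S.Nonempty → S.card ≤ I.k →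
          (I.cost (I.opened f) : ℝ) ≤ (1 + 2 / Real.exp 1 + ε) * (I.cost S : ℝ) :=
  result_of_design (Des.design hO hP) (Des.algOf _ (fun _ _ => rfl) fun _ _ _ => rfl) ε hε

end Crest.Agent.R310
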