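import Crest.Agent.R310.GenDefs

/-! # Row 310, module GEN: start value, end value, generator inequality -/

set_option autoImplicit false

open Set Finset

noncomputable section

namespace Crest.Agent.R310

namespace Design

variable (s : Design) {D D' d b b' : ℝ}

theorem V_lip (hD : 0 ≤ D) (hd : 0 ≤ d) (hb : b ∈ Icc (0 : ℝ) 1) (hb' : b' ∈ Icc (0 : ℝ) 1)
    (h : b' ≤ b) : s.V D d b' ≤ s.V D d b + s.C * D * (b - b') := by
  have h1 := s.tan D d b' hb' b hb hD hd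
  have h2 := mul_le_mul_of_nonneg_right (s.sl_le D d b' hb' hD hd) (sub_nonneg.2 h)
  linarith

theorem V_anti (hD : 0 ≤ D) (hd : 0 ≤ d) (hb : b ∈ Icc (0 : ℝ) 1) (hb' : b' ∈ Icc (0 : ℝ) 1)
    (h : b' ≤ b) : s.V D d b ≤ s.V D d b' := by
  have h1 := s.tan D d b hb b' hb' hD hd
  have h2 := mul_nonneg (s.sl_nonneg D d b hb hD hd) (sub_nonneg.2 h)
  linarith

theorem V_le (hD : 0 ≤ D) (hd : 0 ≤ d) (hb : b ∈ Icc (0 : ℝ) 1) : s.V D d b ≤ D :=
  (s.V_anti hD hd hb ⟨le_rfl, zero_le_one⟩ hb.1).trans (s.zero D d hD hd).le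

theorem V_nonneg (hD : 0 ≤ D) (hd : 0 ≤ d) (hb : b ∈ Icc (0 : ℝ) 1) : 0 ≤ s.V D d b :=
  (le_min hD hd).trans (s.low D d b hb hD hd)

theorem mem_mul {a : ℝ} (hb : b ∈ Icc (0 : ℝ) 1) (ha : a ∈ Icc (0 : ℝ) 1) :
    b * (1 - a) ∈ Icc (0 : ℝ) 1 :=
  ⟨mul_nonneg hb.1 (sub_nonneg.2 ha.2), mul_le_one₀ hb.2 (sub_nonneg.2 ha.2) (sub_le_self _ ha.1)⟩

theorem mem_mul' {a k : ℝ} (ha : a ∈ Icc (0 : ℝ) 1) (hk : k ∈ Icc (0 : ℝ) 1) :
    a * k ∈ Icc (0 : ℝ) 1 := ⟨mul_nonneg ha.1 hk.1, mul_le_one₀ ha.2 hk.1 hk.2⟩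

/-- a capped kill -/
theorem V_cap (hD' : 0 ≤ D') (h : D' ≤ D) (hd : 0 ≤ d) (hb : b ∈ Icc (0 : ℝ) 1) {a k : ℝ}
    (ha : a ∈ Icc (0 : ℝ) 1) (hk : k ∈ Icc (0 : ℝ) 1) :
    s.V D' d (b * (1 - a * k)) - s.V D d b ≤ a * (s.V D' d (b * (1 - k)) - s.V D d b) := by
  have he := mem_mul hb (mem_mul' ha hk)
  have h1 := mul_le_mul_of_nonneg_left (s.tan D' d _ he _ (mem_mul hb hk) hD' hd) ha.1
  have h2 := mul_le_mul_of_nonneg_left (s.tan D' d _ he _ hb hD' hd) (sub_nonneg.2 ha.2)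
  have h3 := mul_le_mul_of_nonneg_left (s.mono D' D d b hb hD' h hd) (sub_nonneg.2 ha.2)
  nlinarith

end Design

namespace Design

variable (s : Design) {ι : Type} {F : Finset ι} {x y d b b' : ι → ℝ} {D : ℝ}

theorem W_nonneg (h : Cl F x d D b) : 0 ≤ s.W F x d D b :=
  sum_nonneg fun k hk => mul_nonneg (h.x_nonneg k hk)
    (s.V_nonneg h.D_nonneg (h.d_nonneg k hk) (h.b_mem k hk))

theorem W_le (h : Cl F x d D b) : s.W F x d D b ≤ D := by
  calc s.W F x d D b ≤ ∑ k ∈ F, x k * D := sum_le_sum fun k hk => mul_le_mul_of_nonneg_left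
        (s.V_le h.D_nonneg (h.d_nonneg k hk) (h.b_mem k hk)) (h.x_nonneg k hk)
    _ = D := by rw [← sum_mul, h.sum_x, one_mul]

theorem W_congr (h : ∀ k ∈ F, b k = b' k) : s.W F x d D b = s.W F x d D b' :=
  sum_congr rfl fun k hk => by rw [h k hk]

/-- the value at the start -/
theorem W_start (h : Cl F x d D b) (h1 : ∀ k ∈ F, b k = 1) :
    s.W F x d D b ≤ s.θ * ∑ k ∈ F, x k * d k := by
  rw [mul_sum]
  refine sum_le_sum fun k hk => ?_
  rw [h1 k hk, mul_left_comm]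
  exact mul_le_mul_of_nonneg_left (s.one _ _ h.D_nonneg (h.d_nonneg k hk)) (h.x_nonneg k hk)

/-- loss of budget -/
theorem W_lip (h : Cl F x d D b) (hb : ∀ k ∈ F, 0 ≤ b' k ∧ b' k ≤ b k) :
    s.W F x d D b' ≤ s.W F x d D b + s.C * D * ∑ k ∈ F, x k * (b k - b' k) := by
  rw [W, W, mul_sum, ← sum_add_distrib]
  refine sum_le_sum fun k hk => ?_
  have := mul_le_mul_of_nonneg_left (s.V_lip h.D_nonneg (h.d_nonneg k hk) (h.b_mem k hk)
    ⟨(hb k hk).1, (hb k hk).2.trans (h.b_mem k hk).2⟩ (hb k hk).2) (h.x_nonneg k hk)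
  linarith

/-- loss of budget, uniform version -/
theorem W_round (h : Cl F x d D b) {e : ℝ} (hb : ∀ k ∈ F, 0 ≤ b' k ∧ b' k ≤ b k ∧ b k - b' k ≤ e) :
    s.W F x d D b' ≤ s.W F x d D b + s.C * D * e := by
  refine (s.W_lip h fun k hk => ⟨(hb k hk).1, (hb k hk).2.1⟩).trans (add_le_add le_rfl ?_)
  refine mul_le_mul_of_nonneg_left ?_ (mul_nonneg s.C_nonneg h.D_nonneg)
  calc ∑ k ∈ F, x k * (b k - b' k) ≤ ∑ k ∈ F, x k * e :=
        sum_le_sum fun k hk => mul_le_mul_of_nonneg_left (hb k hk).2.2 (h.x_nonneg k hk)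
    _ = e := by rw [← sum_mul, h.sum_x, one_mul]

/-- the value at the end -/
theorem le_W (h : Cl F x d D b) : D ≤ s.W F x d D b + s.C * D * ∑ k ∈ F, x k * b k := by
  have h1 := s.W_lip h (b' := fun _ => 0) fun k hk => ⟨le_rfl, (h.b_mem k hk).1⟩
  have h2 : s.W F x d D (fun _ => 0) = D := by
    rw [W, sum_congr rfl fun k hk => by rw [s.zero _ _ h.D_nonneg (h.d_nonneg k hk)], ← sum_mul,
      h.sum_x, one_mul]
  simpa only [h2, sub_zero] using h1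

theorem sum_pair_nonpos (hx : ∀ k ∈ F, 0 ≤ x k) {E : ι → ι → ℝ}
    (hE : ∀ k ∈ F, ∀ i ∈ F, E k i + E i k ≤ 0) : ∑ k ∈ F, x k * ∑ i ∈ F, x i * E k i ≤ 0 := by
  have e : ∑ k ∈ F, x k * ∑ i ∈ F, x i * E k i = ∑ k ∈ F, x k * ∑ i ∈ F, x i * E i k := by
    simp only [mul_sum]
    rw [sum_comm]
    exact sum_congr rfl fun k _ => sum_congr rfl fun i _ => by ring
  have : ∑ k ∈ F, x k * ∑ i ∈ F, x i * E k i + ∑ k ∈ F, x k * ∑ i ∈ F, x i * E i k ≤ 0 := by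
    rw [← sum_add_distrib]
    refine sum_nonpos fun k hk => ?_
    rw [← mul_add, ← sum_add_distrib]
    refine mul_nonpos_of_nonneg_of_nonpos (hx k hk) (sum_nonpos fun i hi => ?_)
    rw [← mul_add]
    exact mul_nonpos_of_nonneg_of_nonpos (hx i hi) (hE k hk i hi)
  linarith

/-- **The generator inequality.**  The facility `i` opens at rate `y i * b i / a i`; it then loses
its budget and every `k ≠ i` loses the fraction `a i * κ (c k) (ρ i k)`.  The budgets also decay at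
the relative rates `r k` (time step `h`). -/
theorem gen [DecidableEq ι] (hcl : Cl F x d D b) (hxy : ∀ k ∈ F, x k ≤ y k) {ρ : ι → ι → ℝ}
    {c r a : ι → ℝ} {γ h M : ℝ} (hρ0 : ∀ i ∈ F, ∀ k ∈ F, 0 ≤ ρ i k) (hρ1 : ∀ i ∈ F, ρ i i = 0)
    (hρ2 : ∀ i ∈ F, ∀ k ∈ F, d i ≤ d k + ρ i k) (hρ3 : ∀ i ∈ F, ∀ k ∈ F, ρ i k ≤ d i + d k)
    (hc0 : ∀ k ∈ F, 0 ≤ c k) (hc1 : ∀ k ∈ F, c k ≤ D + d k) (hc2 : ∀ k ∈ F, 0 < b k → 0 < c k)
    (ha : ∀ i ∈ F, 0 < a i ∧ a i ≤ 1) (hr : ∀ k ∈ F, 0 ≤ r k ∧ r k ≤ 1) (hh0 : 0 < h) (hh1 : h ≤ 1)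
    (hγ : 0 ≤ γ) (hDM : D ≤ M) (hdM : ∀ k ∈ F, d k ≤ M)
    (hI : ∀ k ∈ F, (|∑ i ∈ F, y i * b i * s.κ (c k) (ρ i k) - 1| ≤ γ ∧ r k ≤ γ) ∨
      (D - d k ≤ c k ∧ ∑ i ∈ F, y i * b i * s.κ (c k) (ρ i k) + r k = 1)) :
    ∑ i ∈ F, y i * b i / a i *
        (s.W F x d (min D (d i)) (opn b i (a i) fun k => s.κ (c k) (ρ i k)) - s.W F x d D b) +
      (s.W F x d D (fun k => b k * (1 - h * r k)) - s.W F x d D b) / h ≤
      s.C * M * (2 * γ + h) := by
  have hD := hcl.D_nonneg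
  have hCD : s.C * D ≤ s.C * M := mul_le_mul_of_nonneg_left hDM s.C_nonneg
  set A : ι → ι → ℝ := fun k i =>
    s.V (min D (d i)) (d k) (b k * (1 - s.κ (c k) (ρ i k))) - s.V D (d k) (b k) with hA
  set L : ι → ℝ := fun k => s.Λ D (d k) (b k) (c k) with hL
  have hm : ∀ i ∈ F, 0 ≤ y i * b i := fun i hi =>
    mul_nonneg ((hcl.x_nonneg i hi).trans (hxy i hi)) (hcl.b_mem i hi).1
  -- the openings
  have h1 : ∀ i ∈ F, y i * b i / a i *
      (s.W F x d (min D (d i)) (opn b i (a i) fun k => s.κ (c k) (ρ i k)) - s.W F x d D b) ≤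
      ∑ k ∈ F, x k * (y i * b i * A k i) := by
    intro i hi
    rcases (hcl.b_mem i hi).1.eq_or_lt with hb | hb
    · simp [← hb]
    have hDi : 0 ≤ min D (d i) := le_min hD (hcl.d_nonneg i hi)
    have : s.W F x d (min D (d i)) (opn b i (a i) fun k => s.κ (c k) (ρ i k)) - s.W F x d D b ≤
        a i * ∑ k ∈ F, x k * A k i := by
      rw [W, W, ← sum_sub_distrib, mul_sum]
      refine sum_le_sum fun k hk => ?_
      rw [← mul_sub, mul_left_comm]
      refine mul_le_mul_of_nonneg_left ?_ (hcl.x_nonneg k hk)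
      by_cases hki : k = i
      · subst hki
        have e := s.low D (d k) (b k) (hcl.b_mem k hk) hD (hcl.d_nonneg k hk)
        simp only [hA, opn, if_true, hρ1 k hk, s.κ_zero _ (hc2 k hk hb), sub_self, mul_zero,
          s.zero _ _ hDi (hcl.d_nonneg k hk)]
        nlinarith [(ha k hk).2]
      · simp only [hA, opn, if_neg hki]
        exact s.V_cap hDi (min_le_left _ _) (hcl.d_nonneg k hk) (hcl.b_mem k hk)
          ⟨(ha i hi).1.le, (ha i hi).2⟩ (s.κ_mem _ _)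
    refine (mul_le_mul_of_nonneg_left this (div_nonneg (hm i hi) (ha i hi).1.le)).trans_eq ?_
    rw [← mul_assoc, div_mul_cancel₀ _ (ha i hi).1.ne', mul_sum]
    exact sum_congr rfl fun k _ => by ring
  -- the decay
  have h2 : (s.W F x d D (fun k => b k * (1 - h * r k)) - s.W F x d D b) / h ≤
      ∑ k ∈ F, x k * (r k * (b k * s.sl D (d k) (b k)) + s.C * M * h) := by
    rw [div_le_iff₀ hh0, W, W, ← sum_sub_distrib, sum_mul]
    refine sum_le_sum fun k hk => ?_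
    rw [← mul_sub, mul_assoc]
    refine mul_le_mul_of_nonneg_left ?_ (hcl.x_nonneg k hk)
    have hb := hcl.b_mem k hk
    have hhr := mem_mul' ⟨hh0.le, hh1⟩ (hr k hk)
    have e := s.sec D (d k) _ hb _ (mem_mul hb hhr) hD (hcl.d_nonneg k hk)
      (mul_le_of_le_one_right hb.1 (sub_le_self _ hhr.1))
    have e1 : b k - b k * (1 - h * r k) = h * (b k * r k) := by ring
    have e2 := mem_mul' hb (hr k hk)
    have e3 : s.C * d k * (h * (b k * r k)) ^ 2 ≤ s.C * M * h ^ 2 := by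
      refine mul_le_mul (mul_le_mul_of_nonneg_left (hdM k hk) s.C_nonneg) ?_ (sq_nonneg _)
        (mul_nonneg s.C_nonneg (hD.trans hDM))
      exact pow_le_pow_left₀ (mul_nonneg hh0.le e2.1) (mul_le_of_le_one_right hh0.le e2.2) 2
    rw [e1] at e
    nlinarith
  -- one facility
  have h3 : ∀ k ∈ F, ∑ i ∈ F, y i * b i * A k i + (r k * (b k * s.sl D (d k) (b k)) + s.C * M * h) ≤
      ∑ i ∈ F, x i * (L k * (1 - b i * s.κ (c k) (ρ i k)) + b i * A k i) +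
        s.C * M * (2 * γ + h) := by
    intro k hk
    have hb := hcl.b_mem k hk
    have hd := hcl.d_nonneg k hk
    have e1 : ∑ i ∈ F, y i * b i * A k i ≤ ∑ i ∈ F, (L k * (y i * b i * s.κ (c k) (ρ i k)) +
        (x i * (L k * (1 - b i * s.κ (c k) (ρ i k)) + b i * A k i) - x i * L k)) := by
      refine sum_le_sum fun i hi => ?_
      have q1 := s.Λ_ge D (d k) (c k) (ρ i k) _ hb hD hd (hc0 k hk) (hc1 k hk) (hρ0 i hi k hk)
      have q2 := s.mono _ _ (d k) _ (mem_mul hb (s.κ_mem (c k) (ρ i k)))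
        (le_min hD (hcl.d_nonneg i hi)) (min_le_min_left D (hρ2 i hi k hk)) hd
      have q3 : 0 ≤ L k * s.κ (c k) (ρ i k) - A k i := by simp only [hA, hL]; linarith
      have q4 := mul_nonneg (mul_nonneg (sub_nonneg.2 (hxy i hi)) (hcl.b_mem i hi).1) q3
      nlinarith
    rw [sum_add_distrib, ← mul_sum, sum_sub_distrib, ← sum_mul, hcl.sum_x, one_mul] at e1
    have e2 : L k * ∑ i ∈ F, y i * b i * s.κ (c k) (ρ i k) + r k * (b k * s.sl D (d k) (b k)) ≤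
        L k + s.C * M * (2 * γ) := by
      have q0 := mul_nonneg hb.1 (s.sl_nonneg D _ _ hb hD hd)
      have qM := mul_nonneg (mul_nonneg s.C_nonneg (hD.trans hDM)) hγ
      rcases hI k hk with ⟨q1, q2⟩ | ⟨q1, q2⟩
      · have q3 : L k * (∑ i ∈ F, y i * b i * s.κ (c k) (ρ i k) - 1) ≤ s.C * M * γ := by
          refine (le_abs_self _).trans ?_
          rw [abs_mul]
          exact mul_le_mul ((s.Λ_abs D _ _ _ hb hD hd (hc0 k hk) (hc1 k hk)).trans hCD) q1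
            (abs_nonneg _) (mul_nonneg s.C_nonneg (hD.trans hDM))
        have q4 : b k * s.sl D (d k) (b k) ≤ s.C * M :=
          (mul_le_of_le_one_left (s.sl_nonneg D _ _ hb hD hd) hb.2).trans
            ((s.sl_le D _ _ hb hD hd).trans hCD)
        have q5 := mul_le_mul q2 q4 q0 hγ
        nlinarith
      · have q3 := mul_le_mul_of_nonneg_left
          (s.Λ_sl D _ _ _ hb hD hd (hc0 k hk) (hc1 k hk) q1) (hr k hk).1
        have q4 : L k = L k * (∑ i ∈ F, y i * b i * s.κ (c k) (ρ i k) + r k) := by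
          rw [q2, mul_one]
        simp only [hL] at q4 ⊢
        nlinarith
    linarith
  have h4 := sum_pair_nonpos hcl.x_nonneg
    (E := fun k i => L k * (1 - b i * s.κ (c k) (ρ i k)) + b i * A k i) fun k hk i hi =>
      s.pair D (d k) (d i) (c k) (c i) (ρ i k) (ρ k i) _ (hcl.b_mem k hk) _ (hcl.b_mem i hi) hD
        (hcl.d_nonneg k hk) (hcl.d_nonneg i hi) (hc0 k hk) (hc1 k hk) (hc0 i hi) (hc1 i hi)
        (hρ0 i hi k hk) ((hρ3 i hi k hk).trans_eq (add_comm _ _)) (hρ0 k hk i hi) (hρ3 k hk i hi)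
  have h5 := sum_le_sum fun k hk => mul_le_mul_of_nonneg_left (h3 k hk) (hcl.x_nonneg k hk)
  have h6 := sum_le_sum h1
  rw [sum_comm] at h6
  simp only [mul_add, sum_add_distrib, ← sum_mul, hcl.sum_x, one_mul, ← mul_sum] at h2 h4 h5 h6 ⊢
  linarith

end Design

end Crest.Agent.R310
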