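import Mathlib

/-!
# Row 310, module GEN (helper8): the potential of one client, for an abstract design

`F` is the finite set of facilities, `d k` the distance from the client to `k`, `D` its distance to
the open set, `b k ∈ [0,1]` the remaining fraction of the mass `y k` of `k`, `x k ≤ y k` the
fractional assignment of the client.
-/

set_option autoImplicit false

open Set Finset

noncomputable section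

namespace Crest.Agent.R310

/-- A design: value `V D d b`, its slope `sl = -∂V/∂b`, kill profile `κ c ρ`, multiplier
`Λ D d b c`, and the pair inequality. -/
structure Design where
  V : ℝ → ℝ → ℝ → ℝ
  sl : ℝ → ℝ → ℝ → ℝ
  κ : ℝ → ℝ → ℝ
  Λ : ℝ → ℝ → ℝ → ℝ → ℝ
  C : ℝ
  θ : ℝ
  C_nonneg : 0 ≤ C
  zero : ∀ D d, 0 ≤ D → 0 ≤ d → V D d 0 = D
  one : ∀ D d, 0 ≤ D → 0 ≤ d → V D d 1 ≤ θ * d
  low : ∀ D d, ∀ b ∈ Icc (0 : ℝ) 1, 0 ≤ D → 0 ≤ d → min D d ≤ V D d b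
  mono : ∀ D D' d, ∀ b ∈ Icc (0 : ℝ) 1, 0 ≤ D → D ≤ D' → 0 ≤ d → V D d b ≤ V D' d b
  tan : ∀ D d, ∀ b ∈ Icc (0 : ℝ) 1, ∀ b' ∈ Icc (0 : ℝ) 1, 0 ≤ D → 0 ≤ d →
    V D d b + sl D d b * (b - b') ≤ V D d b'
  sec : ∀ D d, ∀ b ∈ Icc (0 : ℝ) 1, ∀ b' ∈ Icc (0 : ℝ) 1, 0 ≤ D → 0 ≤ d → b' ≤ b →
    V D d b' ≤ V D d b + sl D d b * (b - b') + C * d * (b - b') ^ 2
  sl_nonneg : ∀ D d, ∀ b ∈ Icc (0 : ℝ) 1, 0 ≤ D → 0 ≤ d → 0 ≤ sl D d b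
  sl_le : ∀ D d, ∀ b ∈ Icc (0 : ℝ) 1, 0 ≤ D → 0 ≤ d → sl D d b ≤ C * D
  κ_mem : ∀ c ρ, κ c ρ ∈ Icc (0 : ℝ) 1
  κ_zero : ∀ c, 0 < c → κ c 0 = 1
  Λ_ge : ∀ D d c ρ, ∀ b ∈ Icc (0 : ℝ) 1, 0 ≤ D → 0 ≤ d → 0 ≤ c → c ≤ D + d → 0 ≤ ρ →
    V (min D (d + ρ)) d (b * (1 - κ c ρ)) - V D d b ≤ Λ D d b c * κ c ρ
  Λ_sl : ∀ D d c, ∀ b ∈ Icc (0 : ℝ) 1, 0 ≤ D → 0 ≤ d → 0 ≤ c → c ≤ D + d → D - d ≤ c →
    b * sl D d b ≤ Λ D d b c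
  Λ_abs : ∀ D d c, ∀ b ∈ Icc (0 : ℝ) 1, 0 ≤ D → 0 ≤ d → 0 ≤ c → c ≤ D + d → |Λ D d b c| ≤ C * D
  pair : ∀ D d d' c c' ρ ρ', ∀ b ∈ Icc (0 : ℝ) 1, ∀ b' ∈ Icc (0 : ℝ) 1, 0 ≤ D → 0 ≤ d → 0 ≤ d' →
    0 ≤ c → c ≤ D + d → 0 ≤ c' → c' ≤ D + d' → 0 ≤ ρ → ρ ≤ d + d' → 0 ≤ ρ' → ρ' ≤ d + d' →
    (Λ D d b c * (1 - b' * κ c ρ) + b' * (V (min D d') d (b * (1 - κ c ρ)) - V D d b)) +
    (Λ D d' b' c' * (1 - b * κ c' ρ') + b * (V (min D d) d' (b' * (1 - κ c' ρ')) - V D d' b')) ≤ 0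

variable {ι : Type}

/-- the potential of a client -/
def Design.W (s : Design) (F : Finset ι) (x d : ι → ℝ) (D : ℝ) (b : ι → ℝ) : ℝ :=
  ∑ k ∈ F, x k * s.V D (d k) (b k)

/-- the budgets after the opening of `i`, which kills the fraction `a * K k` of `k ≠ i` -/
def opn [DecidableEq ι] (b : ι → ℝ) (i : ι) (a : ℝ) (K : ι → ℝ) : ι → ℝ :=
  fun k => if k = i then 0 else b k * (1 - a * K k)

/-- standing assumptions on the data of a client -/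
structure Cl (F : Finset ι) (x d : ι → ℝ) (D : ℝ) (b : ι → ℝ) : Prop where
  x_nonneg : ∀ k ∈ F, 0 ≤ x k
  sum_x : ∑ k ∈ F, x k = 1
  d_nonneg : ∀ k ∈ F, 0 ≤ d k
  D_nonneg : 0 ≤ D
  b_mem : ∀ k ∈ F, b k ∈ Icc (0 : ℝ) 1

end Crest.Agent.R310
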