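import Crest.Agent.R310.H16Defs

/-! Generated (helper16): certificates of the cells. -/

set_option autoImplicit false
set_option maxRecDepth 100000
set_option Elab.async false

open Crest.Agent.Lib.PolyBB

namespace Crest.Agent.R310.H16

def c20 : Cell := ⟨⟨13, 7, 27, 16⟩, 0, 180, 0, 30, false, 3, 2, 2, 0, 4, 2, 3, 0, 0⟩

theorem ok20 : c20.ok [.leaf 0 [],
  .leaf 0 [],
  .leaf 0 [],
  .leaf 0 [],
  .leaf 0 [],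
  .leaf 0 [],
  .leaf 0 [],
  .leaf 0 [],
  .leaf 0 [],
  .leaf 0 [],
  .leaf 0 [],
  .leaf 0 [],
  .leaf 0 [],
  .leaf 0 [],
  .leaf 0 [],
  .leaf 0 [],
  .leaf 0 [],
  .leaf 0 [],
  .leaf 0 [],
  .leaf 0 [],
  .leaf 0 [],
  .leaf 0 [],
  .leaf 0 [],
  .leaf 0 [],
  .leaf 0 [],
  .leaf 0 [],
  .leaf 0 [],
  .leaf 0 [],
  .leaf 0 [],
  .leaf 0 [],
  .leaf 0 [],
  .leaf 0 [],
  .leaf 0 [],
  .leaf 0 [],
  .leaf 0 [],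
  .leaf 0 [],
  .leaf 0 [],
  .leaf 0 [],
  .leaf 0 [],
  .leaf 0 [],
  .leaf 0 [],
  .leaf 0 [],
  .split 2 2 1 (.leaf 0 []) (.leaf 0 []),
  .split 2 2 1 (.split 3 2 1 (.leaf 0 []) (.split 2 4 1 (.split 3 4 3 (.leaf 0 []) (.leaf 0 [])) (.leaf 0 []))) (.leaf 0 []),
  .split 2 2 1 (.leaf 0 []) (.leaf 0 []),
  .split 2 2 1 (.split 3 2 1 (.leaf 0 []) (.split 2 4 1 (.split 3 4 3 (.leaf 0 []) (.leaf 0 [])) (.leaf 0 []))) (.leaf 0 []),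
  .split 2 2 1 (.leaf 0 []) (.leaf 0 []),
  .split 2 2 1 (.split 3 2 1 (.leaf 0 []) (.split 2 4 1 (.split 3 4 3 (.leaf 0 []) (.leaf 0 [])) (.leaf 0 []))) (.leaf 0 []),
  .leaf 0 [],
  .leaf 0 [],
  .leaf 0 [],
  .leaf 0 [],
  .leaf 0 [],
  .leaf 0 [],
  .split 2 2 1 (.leaf 0 []) (.leaf 0 []),
  .split 2 2 1 (.split 2 4 1 (.split 3 2 1 (.leaf 0 []) (.split 3 4 3 (.leaf 0 []) (.leaf 0 []))) (.leaf 0 [])) (.leaf 0 []),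
  .split 2 2 1 (.leaf 0 []) (.leaf 0 []),
  .split 2 2 1 (.split 2 4 1 (.split 3 2 1 (.leaf 0 []) (.split 3 4 3 (.leaf 0 []) (.leaf 0 []))) (.leaf 0 [])) (.leaf 0 []),
  .split 2 2 1 (.leaf 0 []) (.leaf 0 []),
  .split 2 2 1 (.split 2 4 1 (.split 3 2 1 (.leaf 0 []) (.split 3 4 3 (.leaf 0 []) (.leaf 0 []))) (.leaf 0 [])) (.leaf 0 []),
  .leaf 0 [],
  .leaf 0 [],
  .leaf 0 [],
  .leaf 0 [],
  .leaf 0 [],
  .leaf 0 [],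
  .split 2 2 1 (.leaf 0 []) (.leaf 0 []),
  .split 2 2 1 (.split 2 4 1 (.split 3 2 1 (.leaf 0 []) (.split 3 4 3 (.leaf 0 []) (.leaf 0 []))) (.leaf 0 [])) (.leaf 0 []),
  .split 2 2 1 (.leaf 0 []) (.leaf 0 []),
  .split 2 2 1 (.split 2 4 1 (.split 3 2 1 (.leaf 0 []) (.split 3 4 3 (.leaf 0 []) (.leaf 0 []))) (.leaf 0 [])) (.leaf 0 []),
  .split 2 2 1 (.leaf 0 []) (.leaf 0 []),
  .split 2 2 1 (.split 2 4 1 (.split 3 2 1 (.leaf 0 []) (.split 3 4 3 (.leaf 0 []) (.leaf 0 []))) (.leaf 0 [])) (.leaf 0 [])] = true := by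
  decide +kernel

def c36 : Cell := ⟨⟨5, 3, 3, 2⟩, 120, (-60), (-60), 120, false, 2, 1, 0, 0, 4, 2, 4, 0, 1⟩

theorem ok36 : c36.ok [.leaf 0 [],
  .leaf 0 [],
  .leaf 0 [],
  .leaf 0 [],
  .leaf 0 [],
  .leaf 0 [],
  .leaf 0 [],
  .leaf 0 [],
  .leaf 0 [],
  .leaf 0 [],
  .leaf 0 [],
  .leaf 0 [],
  .split 3 2 1 (.leaf 0 []) (.leaf 0 []),
  .leaf 0 [],
  .split 3 2 1 (.leaf 0 []) (.leaf 0 []),
  .leaf 0 [],
  .leaf 0 [],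
  .leaf 0 [],
  .leaf 0 [],
  .leaf 0 [],
  .split 3 2 1 (.leaf 0 []) (.leaf 0 []),
  .leaf 0 [],
  .split 3 2 1 (.leaf 0 []) (.leaf 0 [])] = true := by
  decide +kernel

def c51 : Cell := ⟨⟨6, 5, 9, 8⟩, 0, 120, 160, (-180), false, 2, 1, 0, 0, 4, 2, 4, 0, 2⟩

theorem ok51 : c51.ok [] = true := by
  decide +kernel

def c35 : Cell := ⟨⟨11, 7, 3, 2⟩, 0, 120, 120, (-180), false, 2, 1, 0, 0, 4, 1, 0, 0, 1⟩

theorem ok35 : c35.ok [] = true := by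
  decide +kernel

def c8 : Cell := ⟨⟨15, 8, 5, 3⟩, 0, 120, 36, (-60), false, 2, 0, 0, 0, 2, 1, 0, 0, 0⟩

theorem ok8 : c8.ok [] = true := by
  decide +kernel

def c45 : Cell := ⟨⟨10, 7, 5, 4⟩, 0, 90, 120, (-150), false, 1, 0, 0, 0, 4, 1, 0, 0, 2⟩

theorem ok45 : c45.ok [] = true := by
  decide +kernel

def c27 : Cell := ⟨⟨5, 3, 25, 16⟩, 0, 90, 96, (-150), false, 1, 0, 0, 0, 2, 0, 0, 0, 1⟩

theorem ok27 : c27.ok [] = true := by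
  decide +kernel

end Crest.Agent.R310.H16
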