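import Crest.Agent.R310.H16Defs

/-! Generated (helper16): certificates of the cells. -/

set_option autoImplicit false
set_option maxRecDepth 100000
set_option Elab.async false

open Crest.Agent.Lib.PolyBB

namespace Crest.Agent.R310.H16

def c19 : Cell := ⟨⟨2, 1, 13, 7⟩, 210, (-210), (-210), 420, false, 3, 2, 2, 0, 4, 2, 3, 0, 0⟩

theorem ok19 : c19.ok [.leaf 0 [],
  .leaf 0 [],
  .leaf 0 [],
  .leaf 0 [],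
  .leaf 0 [],
  .leaf 0 [],
  .leaf 0 [],
  .leaf 0 [],
  .leaf 0 [],
  .leaf 0 [],
  .leaf 0 [],
  .leaf 0 [],
  .leaf 0 [],
  .leaf 0 [],
  .leaf 0 [],
  .leaf 0 [],
  .leaf 0 [],
  .leaf 0 [],
  .leaf 0 [],
  .leaf 0 [],
  .leaf 0 [],
  .leaf 0 [],
  .leaf 0 [],
  .leaf 0 [],
  .leaf 0 [],
  .leaf 0 [],
  .leaf 0 [],
  .leaf 0 [],
  .leaf 0 [],
  .leaf 0 [],
  .leaf 0 [],
  .leaf 0 [],
  .leaf 0 [],
  .leaf 0 [],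
  .leaf 0 [],
  .leaf 0 [],
  .leaf 0 [],
  .leaf 0 [],
  .leaf 0 [],
  .leaf 0 [],
  .leaf 0 [],
  .leaf 0 [],
  .split 2 2 1 (.leaf 0 []) (.leaf 0 []),
  .split 2 2 1 (.split 3 2 1 (.leaf 0 []) (.split 2 4 1 (.split 3 4 3 (.leaf 0 []) (.leaf 0 [])) (.leaf 0 []))) (.leaf 0 []),
  .split 2 2 1 (.leaf 0 []) (.leaf 0 []),
  .split 2 2 1 (.split 3 2 1 (.leaf 0 []) (.split 2 4 1 (.split 3 4 3 (.leaf 0 []) (.leaf 0 [])) (.leaf 0 []))) (.leaf 0 []),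
  .split 2 2 1 (.leaf 0 []) (.leaf 0 []),
  .split 2 2 1 (.split 3 2 1 (.leaf 0 []) (.split 2 4 1 (.split 3 4 3 (.leaf 0 []) (.leaf 0 [])) (.leaf 0 []))) (.leaf 0 []),
  .leaf 0 [],
  .leaf 0 [],
  .leaf 0 [],
  .leaf 0 [],
  .leaf 0 [],
  .leaf 0 [],
  .split 2 2 1 (.leaf 0 []) (.leaf 0 []),
  .split 2 2 1 (.split 2 4 1 (.split 3 2 1 (.leaf 0 []) (.split 3 4 3 (.leaf 0 []) (.leaf 0 []))) (.leaf 0 [])) (.leaf 0 []),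
  .split 2 2 1 (.leaf 0 []) (.leaf 0 []),
  .split 2 2 1 (.split 2 4 1 (.split 3 2 1 (.leaf 0 []) (.split 3 4 3 (.leaf 0 []) (.leaf 0 []))) (.leaf 0 [])) (.leaf 0 []),
  .split 2 2 1 (.leaf 0 []) (.leaf 0 []),
  .split 2 2 1 (.split 2 4 1 (.split 3 2 1 (.leaf 0 []) (.split 3 4 3 (.leaf 0 []) (.leaf 0 []))) (.leaf 0 [])) (.leaf 0 []),
  .leaf 0 [],
  .leaf 0 [],
  .leaf 0 [],
  .leaf 0 [],
  .leaf 0 [],
  .leaf 0 [],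
  .split 2 2 1 (.leaf 0 []) (.leaf 0 []),
  .split 2 2 1 (.split 2 4 1 (.split 3 2 1 (.leaf 0 []) (.split 3 4 3 (.leaf 0 []) (.leaf 0 []))) (.leaf 0 [])) (.leaf 0 []),
  .split 2 2 1 (.leaf 0 []) (.leaf 0 []),
  .split 2 2 1 (.split 2 4 1 (.split 3 2 1 (.leaf 0 []) (.split 3 4 3 (.leaf 0 []) (.leaf 0 []))) (.leaf 0 [])) (.leaf 0 []),
  .split 2 2 1 (.leaf 0 []) (.leaf 0 []),
  .split 2 2 1 (.split 2 4 1 (.split 3 2 1 (.leaf 0 []) (.split 3 4 3 (.leaf 0 []) (.leaf 0 []))) (.leaf 0 [])) (.leaf 0 [])] = true := by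
  decide +kernel

def c15 : Cell := ⟨⟨13, 7, 9, 5⟩, 60, 60, 150, (-270), false, 2, 2, 2, 0, 3, 2, 3, 0, 0⟩

theorem ok15 : c15.ok [.leaf 0 [],
  .leaf 0 [],
  .leaf 0 [],
  .leaf 0 [],
  .leaf 0 [],
  .leaf 0 [],
  .leaf 0 [],
  .leaf 0 [],
  .leaf 0 [],
  .leaf 0 [],
  .leaf 0 [],
  .leaf 0 [],
  .leaf 0 [],
  .leaf 0 [],
  .leaf 0 [],
  .leaf 0 [],
  .leaf 0 [],
  .leaf 0 [],
  .leaf 0 [],
  .leaf 0 [],
  .leaf 0 [],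
  .leaf 0 [],
  .leaf 0 [],
  .split 2 2 1 (.split 3 2 1 (.leaf 0 []) (.leaf 0 [])) (.leaf 0 []),
  .leaf 0 [],
  .leaf 0 [],
  .leaf 0 [],
  .leaf 0 [],
  .leaf 0 [],
  .leaf 0 [],
  .split 2 2 1 (.leaf 0 []) (.leaf 0 []),
  .split 2 2 1 (.split 3 2 1 (.leaf 0 []) (.split 2 4 1 (.split 3 4 3 (.leaf 0 []) (.leaf 0 [])) (.leaf 0 []))) (.leaf 0 [])] = true := by
  decide +kernel

def c54 : Cell := ⟨⟨3, 2, 6, 5⟩, 60, 60, 100, (-120), false, 2, 2, 2, 0, 4, 2, 4, 0, 2⟩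

theorem ok54 : c54.ok [] = true := by
  decide +kernel

def c61 : Cell := ⟨⟨3, 2, 6, 5⟩, 0, 210, 1, 0, true, 4, 3, 2, 3, 4, 3, 4, 4, 2⟩

theorem ok61 : c61.ok [] = true := by
  decide +kernel

def c42 : Cell := ⟨⟨3, 2, 10, 7⟩, 0, 90, 210, (-300), false, 1, 0, 0, 0, 3, 1, 0, 0, 2⟩

theorem ok42 : c42.ok [] = true := by
  decide +kernel

def c47 : Cell := ⟨⟨5, 4, 9, 8⟩, 0, 90, 0, 30, false, 1, 0, 0, 0, 4, 2, 4, 0, 2⟩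

theorem ok47 : c47.ok [] = true := by
  decide +kernel

def c0 : Cell := ⟨⟨2, 1, 7, 4⟩, 0, 90, 120, (-210), false, 1, 0, 0, 0, 1, 0, 0, 0, 0⟩

theorem ok0 : c0.ok [] = true := by
  decide +kernel

end Crest.Agent.R310.H16
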