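import Crest.Agent.R310.H16Defs

/-! Generated (helper16): certificates of the cells. -/

set_option autoImplicit false
set_option maxRecDepth 100000
set_option Elab.async false

open Crest.Agent.Lib.PolyBB

namespace Crest.Agent.R310.H16

def c23 : Cell := ⟨⟨2, 1, 27, 16⟩, 0, 210, 160, (-270), false, 4, 2, 2, 0, 4, 2, 3, 0, 0⟩

theorem ok23 : c23.ok [.leaf 0 [],
  .leaf 0 [],
  .leaf 0 [],
  .leaf 0 [],
  .leaf 0 [],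
  .leaf 0 [],
  .leaf 0 [],
  .leaf 0 [],
  .leaf 0 [],
  .leaf 0 [],
  .leaf 0 [],
  .leaf 0 [],
  .leaf 0 [],
  .leaf 0 [],
  .leaf 0 [],
  .leaf 0 [],
  .leaf 0 [],
  .leaf 0 [],
  .leaf 0 [],
  .leaf 0 [],
  .leaf 0 [],
  .leaf 0 [],
  .leaf 0 [],
  .leaf 0 [],
  .leaf 0 [],
  .leaf 0 [],
  .leaf 0 [],
  .leaf 0 [],
  .leaf 0 [],
  .leaf 0 [],
  .leaf 0 [],
  .leaf 0 [],
  .leaf 0 [],
  .leaf 0 [],
  .leaf 0 [],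
  .leaf 0 [],
  .leaf 0 [],
  .leaf 0 [],
  .leaf 0 [],
  .leaf 0 [],
  .leaf 0 [],
  .leaf 0 [],
  .leaf 0 [],
  .leaf 0 [],
  .leaf 0 [],
  .leaf 0 [],
  .leaf 0 [],
  .leaf 0 [],
  .leaf 0 [],
  .leaf 0 [],
  .leaf 0 [],
  .leaf 0 [],
  .leaf 0 [],
  .leaf 0 [],
  .leaf 0 [],
  .leaf 0 [],
  .leaf 0 [],
  .leaf 0 [],
  .leaf 0 [],
  .leaf 0 [],
  .leaf 0 [],
  .leaf 0 [],
  .leaf 0 [],
  .leaf 0 [],
  .leaf 0 [],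
  .leaf 0 [],
  .split 2 2 1 (.leaf 0 []) (.leaf 0 []),
  .split 2 2 1 (.leaf 0 []) (.leaf 0 []),
  .split 2 2 1 (.leaf 0 []) (.leaf 0 []),
  .split 2 2 1 (.leaf 0 []) (.leaf 0 []),
  .split 2 2 1 (.leaf 0 []) (.leaf 0 []),
  .split 2 2 1 (.leaf 0 []) (.leaf 0 []),
  .leaf 0 [],
  .leaf 0 [],
  .leaf 0 [],
  .leaf 0 [],
  .leaf 0 [],
  .leaf 0 [],
  .split 2 2 1 (.leaf 0 []) (.leaf 0 []),
  .split 2 2 1 (.leaf 0 []) (.leaf 0 []),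
  .split 2 2 1 (.leaf 1 []) (.leaf 0 []),
  .split 2 2 1 (.leaf 1 []) (.leaf 0 []),
  .split 2 2 1 (.leaf 1 []) (.leaf 0 []),
  .split 2 2 1 (.leaf 1 []) (.leaf 0 []),
  .leaf 0 [],
  .leaf 0 [],
  .leaf 0 [],
  .leaf 0 [],
  .leaf 0 [],
  .leaf 0 [],
  .split 2 2 1 (.leaf 0 []) (.leaf 0 []),
  .split 2 2 1 (.leaf 0 []) (.leaf 0 []),
  .split 2 2 1 (.leaf 1 []) (.leaf 0 []),
  .split 2 2 1 (.leaf 1 []) (.leaf 0 []),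
  .split 2 2 1 (.leaf 1 []) (.leaf 0 []),
  .split 2 2 1 (.leaf 1 []) (.leaf 0 [])] = true := by
  decide +kernel

def c17 : Cell := ⟨⟨9, 5, 5, 3⟩, 60, 60, (-60), 120, false, 2, 2, 2, 0, 4, 2, 3, 0, 0⟩

theorem ok17 : c17.ok [.leaf 0 [],
  .leaf 0 [],
  .leaf 0 [],
  .leaf 0 [],
  .leaf 0 [],
  .leaf 0 [],
  .leaf 0 [],
  .leaf 0 [],
  .leaf 0 [],
  .leaf 0 [],
  .leaf 0 [],
  .leaf 0 [],
  .leaf 0 [],
  .leaf 0 [],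
  .leaf 0 [],
  .leaf 0 [],
  .leaf 0 [],
  .leaf 0 [],
  .leaf 0 [],
  .leaf 0 [],
  .split 3 2 1 (.leaf 0 []) (.leaf 0 []),
  .leaf 0 [],
  .leaf 0 [],
  .leaf 0 [],
  .leaf 0 [],
  .leaf 0 [],
  .leaf 0 [],
  .leaf 0 [],
  .leaf 0 [],
  .leaf 0 [],
  .leaf 0 [],
  .split 2 2 1 (.leaf 0 []) (.leaf 0 []),
  .leaf 0 [],
  .split 2 2 1 (.leaf 0 []) (.leaf 0 []),
  .leaf 0 [],
  .split 2 2 1 (.leaf 0 []) (.leaf 0 []),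
  .leaf 0 [],
  .leaf 0 [],
  .leaf 0 [],
  .leaf 0 [],
  .leaf 0 [],
  .leaf 0 [],
  .leaf 0 [],
  .split 2 2 1 (.leaf 0 []) (.leaf 0 []),
  .leaf 0 [],
  .split 2 2 1 (.leaf 0 []) (.leaf 0 []),
  .leaf 0 [],
  .split 2 2 1 (.leaf 0 []) (.leaf 0 [])] = true := by
  decide +kernel

def c40 : Cell := ⟨⟨5, 3, 3, 2⟩, 0, 210, 100, (-150), false, 4, 2, 2, 0, 4, 3, 4, 4, 1⟩

theorem ok40 : c40.ok [] = true := by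
  decide +kernel

def c41 : Cell := ⟨⟨5, 3, 3, 2⟩, 100, 60, 1, 0, true, 4, 3, 2, 4, 4, 3, 4, 4, 1⟩

theorem ok41 : c41.ok [] = true := by
  decide +kernel

def c31 : Cell := ⟨⟨11, 7, 3, 2⟩, 180, (-180), 30, (-30), false, 1, 0, 0, 0, 3, 1, 0, 0, 1⟩

theorem ok31 : c31.ok [] = true := by
  decide +kernel

def c29 : Cell := ⟨⟨25, 16, 3, 2⟩, 0, 90, 180, (-270), false, 1, 0, 0, 0, 2, 1, 0, 0, 1⟩

theorem ok29 : c29.ok [] = true := by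
  decide +kernel

def c57 : Cell := ⟨⟨6, 5, 1, 1⟩, 100, 60, (-100), 120, false, 2, 3, 2, 2, 4, 3, 4, 4, 2⟩

theorem ok57 : c57.ok [] = true := by
  decide +kernel

def c43 : Cell := ⟨⟨3, 2, 10, 7⟩, 210, (-210), (-90), 150, false, 1, 0, 0, 0, 4, 1, 0, 0, 2⟩

theorem ok43 : c43.ok [] = true := by
  decide +kernel

end Crest.Agent.R310.H16
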