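import Crest.Agent.R310.H16Defs

/-! Generated (helper16): certificates of the cells. -/

set_option autoImplicit false
set_option maxRecDepth 100000
set_option Elab.async false

open Crest.Agent.Lib.PolyBB

namespace Crest.Agent.R310.H16

def c18 : Cell := ⟨⟨2, 1, 13, 7⟩, 0, 180, 210, (-390), false, 3, 2, 2, 0, 3, 2, 3, 0, 0⟩

theorem ok18 : c18.ok [.leaf 0 [],
  .leaf 0 [],
  .leaf 0 [],
  .leaf 0 [],
  .leaf 0 [],
  .leaf 0 [],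
  .leaf 0 [],
  .leaf 0 [],
  .leaf 0 [],
  .leaf 0 [],
  .leaf 0 [],
  .leaf 0 [],
  .leaf 0 [],
  .leaf 0 [],
  .leaf 0 [],
  .leaf 0 [],
  .leaf 0 [],
  .leaf 0 [],
  .leaf 0 [],
  .split 3 2 1 (.leaf 0 []) (.leaf 0 []),
  .leaf 1 [],
  .leaf 1 [],
  .leaf 1 [],
  .leaf 1 [],
  .leaf 0 [],
  .leaf 0 [],
  .leaf 0 [],
  .split 3 2 1 (.leaf 0 []) (.leaf 0 []),
  .leaf 1 [],
  .leaf 1 [],
  .split 2 2 1 (.leaf 1 []) (.leaf 1 []),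
  .split 2 2 1 (.split 3 2 1 (.leaf 0 []) (.split 2 4 1 (.split 3 4 3 (.leaf 0 []) (.leaf 1 [])) (.leaf 1 []))) (.leaf 1 []),
  .leaf 0 [],
  .leaf 0 [],
  .leaf 0 [],
  .leaf 0 [],
  .leaf 1 [],
  .leaf 1 [],
  .split 2 2 1 (.leaf 1 []) (.leaf 1 []),
  .split 2 2 1 (.split 2 4 1 (.split 3 2 1 (.leaf 0 []) (.split 3 4 3 (.leaf 0 []) (.leaf 1 []))) (.split 3 2 1 (.leaf 0 []) (.leaf 1 []))) (.leaf 1 []),
  .leaf 0 [],
  .leaf 0 [],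
  .leaf 0 [],
  .leaf 0 [],
  .leaf 1 [],
  .leaf 1 [],
  .split 2 2 1 (.leaf 1 []) (.leaf 1 []),
  .split 2 2 1 (.split 2 4 1 (.split 3 2 1 (.leaf 0 []) (.split 3 4 3 (.leaf 0 []) (.leaf 1 []))) (.split 3 2 1 (.leaf 0 []) (.leaf 1 []))) (.leaf 1 [])] = true := by
  decide +kernel

def c26 : Cell := ⟨⟨2, 1, 5, 3⟩, 100, 60, 1, 0, true, 4, 3, 2, 4, 4, 3, 3, 4, 0⟩

theorem ok26 : c26.ok [] = true := by
  decide +kernel

def c33 : Cell := ⟨⟨5, 3, 11, 7⟩, 0, 120, 210, (-330), false, 2, 1, 0, 0, 3, 1, 0, 0, 1⟩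

theorem ok33 : c33.ok [.leaf 0 [],
  .leaf 0 [],
  .leaf 0 [],
  .leaf 0 [],
  .leaf 0 [],
  .leaf 0 [],
  .leaf 0 [],
  .leaf 0 [],
  .split 3 2 1 (.leaf 0 []) (.leaf 0 [])] = true := by
  decide +kernel

def c58 : Cell := ⟨⟨3, 2, 6, 5⟩, 0, 180, 100, (-120), false, 3, 2, 2, 0, 4, 3, 4, 4, 2⟩

theorem ok58 : c58.ok [] = true := by
  decide +kernel

def c55 : Cell := ⟨⟨3, 2, 6, 5⟩, 160, (-60), (-160), 240, false, 2, 2, 2, 0, 4, 3, 4, 4, 2⟩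

theorem ok55 : c55.ok [] = true := by
  decide +kernel

def c28 : Cell := ⟨⟨5, 3, 25, 16⟩, 96, (-60), 84, (-120), false, 1, 0, 0, 0, 2, 1, 0, 0, 1⟩

theorem ok28 : c28.ok [] = true := by
  decide +kernel

def c62 : Cell := ⟨⟨6, 5, 1, 1⟩, 0, 210, 1, 0, true, 4, 3, 2, 2, 4, 3, 4, 4, 2⟩

theorem ok62 : c62.ok [] = true := by
  decide +kernel

def c1 : Cell := ⟨⟨2, 1, 15, 8⟩, 120, (-120), (-120), 240, false, 1, 0, 0, 0, 2, 0, 0, 0, 0⟩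

theorem ok1 : c1.ok [] = true := by
  decide +kernel

end Crest.Agent.R310.H16
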