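import Crest.Agent.R310.H16Defs

/-! Generated (helper16): certificates of the cells. -/

set_option autoImplicit false
set_option maxRecDepth 100000
set_option Elab.async false

open Crest.Agent.Lib.PolyBB

namespace Crest.Agent.R310.H16

def c11 : Cell := ⟨⟨2, 1, 9, 5⟩, 120, (-60), (-60), 120, false, 2, 1, 0, 0, 3, 2, 3, 0, 0⟩

theorem ok11 : c11.ok [.leaf 0 [],
  .leaf 0 [],
  .leaf 0 [],
  .leaf 0 [],
  .leaf 0 [],
  .leaf 0 [],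
  .leaf 0 [],
  .leaf 0 [],
  .leaf 0 [],
  .leaf 0 [],
  .leaf 0 [],
  .split 3 2 1 (.leaf 0 []) (.leaf 0 []),
  .split 3 2 1 (.leaf 0 []) (.split 2 2 1 (.leaf 1 []) (.leaf 1 [])),
  .split 2 2 1 (.leaf 1 []) (.leaf 1 []),
  .split 3 2 1 (.leaf 0 []) (.split 2 2 1 (.leaf 1 []) (.leaf 1 [])),
  .split 3 2 1 (.leaf 0 []) (.split 2 2 1 (.split 3 4 3 (.leaf 0 []) (.leaf 1 [])) (.leaf 1 [])),
  .leaf 0 [],
  .leaf 0 [],
  .leaf 0 [],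
  .leaf 0 [],
  .split 3 2 1 (.leaf 0 []) (.leaf 0 []),
  .leaf 0 [],
  .split 3 2 1 (.leaf 0 []) (.leaf 0 [])] = true := by
  decide +kernel

def c22 : Cell := ⟨⟨27, 16, 5, 3⟩, 160, (-60), (-160), 270, false, 3, 2, 2, 0, 4, 3, 3, 4, 0⟩

theorem ok22 : c22.ok [] = true := by
  decide +kernel

def c10 : Cell := ⟨⟨2, 1, 5, 3⟩, 180, (-180), (-60), 120, false, 2, 1, 0, 0, 3, 1, 0, 0, 0⟩

theorem ok10 : c10.ok [.leaf 0 [],
  .leaf 0 [],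
  .leaf 0 [],
  .leaf 0 [],
  .leaf 0 [],
  .leaf 0 [],
  .leaf 0 [],
  .leaf 0 [],
  .split 3 2 1 (.leaf 0 []) (.split 2 2 1 (.leaf 1 []) (.leaf 1 [])),
  .split 2 2 1 (.leaf 1 []) (.leaf 1 []),
  .leaf 0 [],
  .split 3 2 1 (.leaf 0 []) (.leaf 0 []),
  .leaf 0 [],
  .leaf 0 [],
  .split 3 2 1 (.leaf 0 []) (.leaf 0 [])] = true := by
  decide +kernel

def c34 : Cell := ⟨⟨5, 3, 11, 7⟩, 210, (-210), (-90), 150, false, 2, 1, 0, 0, 4, 1, 0, 0, 1⟩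

theorem ok34 : c34.ok [.leaf 0 [],
  .leaf 0 [],
  .leaf 0 [],
  .leaf 0 [],
  .leaf 0 [],
  .leaf 0 [],
  .leaf 0 [],
  .leaf 0 [],
  .split 3 2 1 (.leaf 0 []) (.leaf 0 []),
  .leaf 0 [],
  .leaf 0 [],
  .leaf 0 [],
  .leaf 0 [],
  .leaf 0 [],
  .split 3 2 1 (.leaf 0 []) (.leaf 0 [])] = true := by
  decide +kernel

def c59 : Cell := ⟨⟨3, 2, 6, 5⟩, 100, 60, (-100), 150, false, 3, 3, 2, 3, 4, 3, 4, 4, 2⟩

theorem ok59 : c59.ok [] = true := by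
  decide +kernel

def c5 : Cell := ⟨⟨7, 4, 5, 3⟩, 96, (-60), (-96), 180, false, 1, 0, 0, 0, 2, 1, 0, 0, 0⟩

theorem ok5 : c5.ok [] = true := by
  decide +kernel

def c48 : Cell := ⟨⟨9, 8, 1, 1⟩, 0, 90, 160, (-150), false, 1, 0, 0, 0, 4, 2, 4, 0, 2⟩

theorem ok48 : c48.ok [] = true := by
  decide +kernel

def c49 : Cell := ⟨⟨9, 8, 1, 1⟩, 160, (-60), (-160), 180, false, 1, 0, 0, 0, 4, 3, 4, 4, 2⟩

theorem ok49 : c49.ok [] = true := by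
  decide +kernel

end Crest.Agent.R310.H16
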