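import Crest.Agent.R310.H16Defs

/-! Generated (helper16): certificates of the cells. -/

set_option autoImplicit false
set_option maxRecDepth 100000
set_option Elab.async false

open Crest.Agent.Lib.PolyBB

namespace Crest.Agent.R310.H16

def c21 : Cell := ⟨⟨27, 16, 5, 3⟩, 0, 180, 160, (-240), false, 3, 2, 2, 0, 4, 2, 3, 0, 0⟩

theorem ok21 : c21.ok [] = true := by
  decide +kernel

def c14 : Cell := ⟨⟨2, 1, 13, 7⟩, 60, 60, (-60), 120, false, 2, 2, 2, 0, 3, 2, 3, 0, 0⟩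

theorem ok14 : c14.ok [.leaf 0 [],
  .leaf 0 [],
  .leaf 0 [],
  .leaf 0 [],
  .leaf 0 [],
  .leaf 0 [],
  .leaf 0 [],
  .leaf 0 [],
  .leaf 0 [],
  .leaf 0 [],
  .leaf 0 [],
  .leaf 0 [],
  .leaf 0 [],
  .leaf 0 [],
  .leaf 0 [],
  .leaf 0 [],
  .leaf 0 [],
  .leaf 0 [],
  .leaf 0 [],
  .split 3 2 1 (.leaf 0 []) (.leaf 0 []),
  .leaf 1 [],
  .leaf 1 [],
  .split 2 2 1 (.leaf 1 []) (.leaf 1 []),
  .split 3 2 1 (.leaf 0 []) (.split 2 2 1 (.split 3 4 3 (.leaf 0 []) (.leaf 1 [])) (.leaf 1 [])),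
  .leaf 0 [],
  .leaf 0 [],
  .leaf 0 [],
  .split 3 2 1 (.leaf 0 []) (.leaf 0 []),
  .leaf 1 [],
  .leaf 1 [],
  .split 2 2 1 (.leaf 1 []) (.leaf 1 []),
  .split 2 2 1 (.split 3 2 1 (.leaf 0 []) (.split 2 4 1 (.split 3 4 3 (.leaf 0 []) (.leaf 1 [])) (.split 3 4 3 (.leaf 0 []) (.leaf 1 [])))) (.split 3 2 1 (.leaf 0 []) (.leaf 1 []))] = true := by
  decide +kernel

def c9 : Cell := ⟨⟨2, 1, 5, 3⟩, 36, 60, 144, (-240), false, 2, 1, 0, 0, 2, 1, 0, 0, 0⟩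

theorem ok9 : c9.ok [.leaf 0 [],
  .leaf 0 [],
  .leaf 0 [],
  .leaf 0 [],
  .leaf 0 [],
  .leaf 0 [],
  .leaf 0 [],
  .leaf 0 [],
  .leaf 1 [],
  .leaf 1 [],
  .leaf 0 [],
  .split 3 2 1 (.leaf 0 []) (.leaf 0 []),
  .leaf 0 [],
  .leaf 0 [],
  .split 3 2 1 (.leaf 0 []) (.leaf 0 [])] = true := by
  decide +kernel

def c37 : Cell := ⟨⟨5, 3, 3, 2⟩, 60, 60, (-60), 120, false, 2, 2, 2, 0, 4, 2, 4, 0, 1⟩

theorem ok37 : c37.ok [.leaf 0 [],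
  .leaf 0 [],
  .leaf 0 [],
  .leaf 0 [],
  .leaf 0 [],
  .leaf 0 [],
  .leaf 0 [],
  .leaf 0 [],
  .leaf 0 [],
  .leaf 0 [],
  .leaf 0 [],
  .leaf 0 [],
  .split 3 2 1 (.leaf 0 []) (.leaf 0 [])] = true := by
  decide +kernel

def c56 : Cell := ⟨⟨6, 5, 1, 1⟩, 60, 60, 40, 0, false, 2, 2, 2, 0, 4, 3, 4, 4, 2⟩

theorem ok56 : c56.ok [.leaf 0 [],
  .leaf 0 [],
  .leaf 0 [],
  .leaf 0 [],
  .leaf 0 [],
  .leaf 0 [],
  .leaf 0 [],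
  .leaf 0 [],
  .leaf 0 [],
  .leaf 0 [],
  .leaf 0 [],
  .leaf 0 [],
  .leaf 0 [],
  .leaf 0 [],
  .leaf 0 [],
  .leaf 0 [],
  .leaf 0 [],
  .leaf 0 [],
  .leaf 0 [],
  .split 1 2 1 (.split 3 2 1 (.split 3 4 1 (.split 1 4 1 (.leaf 0 []) (.split 3 7 1 (.split 3 12 1 (.split 1 5 2 (.leaf 0 []) (.leaf 0 [])) (.leaf 0 [])) (.leaf 0 []))) (.leaf 0 [])) (.leaf 0 [])) (.leaf 0 [])] = true := by
  decide +kernel

def c7 : Cell := ⟨⟨2, 1, 15, 8⟩, 96, (-60), (-60), 120, false, 2, 0, 0, 0, 2, 1, 0, 0, 0⟩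

theorem ok7 : c7.ok [] = true := by
  decide +kernel

def c46 : Cell := ⟨⟨10, 7, 5, 4⟩, 120, (-60), (-120), 180, false, 1, 0, 0, 0, 4, 2, 4, 0, 2⟩

theorem ok46 : c46.ok [] = true := by
  decide +kernel

def c32 : Cell := ⟨⟨11, 7, 3, 2⟩, 210, (-210), (-210), 330, false, 1, 0, 0, 0, 4, 1, 0, 0, 1⟩

theorem ok32 : c32.ok [] = true := by
  decide +kernel

end Crest.Agent.R310.H16
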