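import Crest.Agent.R310.H16Defs

/-! Generated (helper16): certificates of the cells. -/

set_option autoImplicit false
set_option maxRecDepth 100000
set_option Elab.async false

open Crest.Agent.Lib.PolyBB

namespace Crest.Agent.R310.H16

def c13 : Cell := ⟨⟨9, 5, 5, 3⟩, 210, (-210), (-150), 270, false, 2, 1, 0, 0, 4, 2, 3, 0, 0⟩

theorem ok13 : c13.ok [.leaf 0 [],
  .leaf 0 [],
  .leaf 0 [],
  .leaf 0 [],
  .leaf 0 [],
  .leaf 0 [],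
  .leaf 0 [],
  .leaf 0 [],
  .leaf 0 [],
  .leaf 0 [],
  .leaf 0 [],
  .leaf 0 [],
  .leaf 0 [],
  .leaf 0 [],
  .leaf 0 [],
  .leaf 0 [],
  .leaf 0 [],
  .leaf 0 [],
  .leaf 0 [],
  .split 2 2 1 (.leaf 0 []) (.leaf 0 []),
  .split 3 2 1 (.leaf 0 []) (.leaf 1 []),
  .split 2 2 1 (.leaf 1 []) (.leaf 0 []),
  .split 3 2 1 (.leaf 0 []) (.leaf 1 []),
  .split 2 2 1 (.leaf 1 []) (.leaf 0 []),
  .leaf 0 [],
  .leaf 0 [],
  .leaf 0 [],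
  .leaf 0 [],
  .leaf 0 [],
  .leaf 0 [],
  .leaf 0 [],
  .leaf 0 [],
  .split 3 2 1 (.leaf 0 []) (.leaf 0 []),
  .leaf 0 [],
  .split 3 2 1 (.leaf 0 []) (.leaf 0 [])] = true := by
  decide +kernel

def c25 : Cell := ⟨⟨27, 16, 5, 3⟩, 0, 210, 100, (-150), false, 4, 2, 2, 0, 4, 3, 3, 4, 0⟩

theorem ok25 : c25.ok [] = true := by
  decide +kernel

def c12 : Cell := ⟨⟨9, 5, 5, 3⟩, 120, (-60), 90, (-150), false, 2, 1, 0, 0, 3, 2, 3, 0, 0⟩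

theorem ok12 : c12.ok [.leaf 0 [],
  .leaf 0 [],
  .leaf 0 [],
  .leaf 0 [],
  .leaf 0 [],
  .leaf 0 [],
  .leaf 0 [],
  .leaf 0 [],
  .leaf 0 [],
  .leaf 0 [],
  .leaf 0 [],
  .leaf 0 [],
  .split 3 2 1 (.leaf 0 []) (.leaf 0 []),
  .leaf 0 [],
  .split 3 2 1 (.leaf 0 []) (.leaf 0 []),
  .split 2 2 1 (.leaf 0 []) (.leaf 0 [])] = true := by
  decide +kernel

def c39 : Cell := ⟨⟨5, 3, 3, 2⟩, 160, (-60), (-160), 270, false, 3, 2, 2, 0, 4, 3, 4, 4, 1⟩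

theorem ok39 : c39.ok [] = true := by
  decide +kernel

def c52 : Cell := ⟨⟨6, 5, 9, 8⟩, 160, (-60), (-100), 120, false, 2, 1, 0, 0, 4, 3, 4, 4, 2⟩

theorem ok52 : c52.ok [] = true := by
  decide +kernel

def c30 : Cell := ⟨⟨5, 3, 11, 7⟩, 180, (-180), (-180), 300, false, 1, 0, 0, 0, 3, 1, 0, 0, 1⟩

theorem ok30 : c30.ok [] = true := by
  decide +kernel

def c44 : Cell := ⟨⟨3, 2, 10, 7⟩, 120, (-60), (-120), 180, false, 1, 0, 0, 0, 4, 2, 4, 0, 2⟩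

theorem ok44 : c44.ok [] = true := by
  decide +kernel

def c2 : Cell := ⟨⟨15, 8, 7, 4⟩, 120, (-120), (-24), 60, false, 1, 0, 0, 0, 2, 0, 0, 0, 0⟩

theorem ok2 : c2.ok [] = true := by
  decide +kernel

end Crest.Agent.R310.H16
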