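import Crest.Agent.R310.H16Defs

/-! Generated (helper16): certificates of the cells. -/

set_option autoImplicit false
set_option maxRecDepth 100000
set_option Elab.async false

open Crest.Agent.Lib.PolyBB

namespace Crest.Agent.R310.H16

def c16 : Cell := ⟨⟨13, 7, 9, 5⟩, 210, (-210), (-210), 390, false, 2, 2, 2, 0, 4, 2, 3, 0, 0⟩

theorem ok16 : c16.ok [.leaf 0 [],
  .leaf 0 [],
  .leaf 0 [],
  .leaf 0 [],
  .leaf 0 [],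
  .leaf 0 [],
  .leaf 0 [],
  .leaf 0 [],
  .leaf 0 [],
  .leaf 0 [],
  .leaf 0 [],
  .leaf 0 [],
  .leaf 0 [],
  .leaf 0 [],
  .leaf 0 [],
  .leaf 0 [],
  .leaf 0 [],
  .leaf 0 [],
  .leaf 0 [],
  .leaf 0 [],
  .leaf 0 [],
  .leaf 0 [],
  .leaf 0 [],
  .leaf 0 [],
  .leaf 0 [],
  .leaf 0 [],
  .leaf 0 [],
  .leaf 0 [],
  .leaf 0 [],
  .leaf 0 [],
  .leaf 0 [],
  .split 2 2 1 (.leaf 0 []) (.leaf 0 []),
  .leaf 0 [],
  .split 2 2 1 (.leaf 0 []) (.leaf 0 []),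
  .leaf 0 [],
  .split 2 2 1 (.leaf 0 []) (.leaf 0 []),
  .leaf 0 [],
  .leaf 0 [],
  .leaf 0 [],
  .leaf 0 [],
  .leaf 0 [],
  .leaf 0 [],
  .split 2 2 1 (.leaf 0 []) (.leaf 0 []),
  .split 2 2 1 (.split 3 2 1 (.leaf 0 []) (.split 2 4 1 (.split 3 4 3 (.leaf 0 []) (.leaf 0 [])) (.leaf 0 []))) (.leaf 0 []),
  .split 2 2 1 (.leaf 0 []) (.leaf 0 []),
  .split 2 2 1 (.split 3 2 1 (.leaf 0 []) (.split 2 4 1 (.split 3 4 3 (.leaf 0 []) (.leaf 0 [])) (.leaf 0 []))) (.leaf 0 []),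
  .split 2 2 1 (.leaf 0 []) (.leaf 0 []),
  .split 2 2 1 (.split 3 2 1 (.leaf 0 []) (.split 2 4 1 (.split 3 4 3 (.leaf 0 []) (.leaf 0 [])) (.leaf 0 []))) (.leaf 0 [])] = true := by
  decide +kernel

def c24 : Cell := ⟨⟨2, 1, 27, 16⟩, 160, (-60), (-60), 120, false, 4, 2, 2, 0, 4, 3, 3, 4, 0⟩

theorem ok24 : c24.ok [] = true := by
  decide +kernel

def c38 : Cell := ⟨⟨5, 3, 3, 2⟩, 0, 180, 160, (-240), false, 3, 2, 2, 0, 4, 2, 4, 0, 1⟩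

theorem ok38 : c38.ok [] = true := by
  decide +kernel

def c50 : Cell := ⟨⟨3, 2, 6, 5⟩, 0, 120, 60, (-60), false, 2, 1, 0, 0, 4, 2, 4, 0, 2⟩

theorem ok50 : c50.ok [] = true := by
  decide +kernel

def c53 : Cell := ⟨⟨9, 8, 1, 1⟩, 0, 120, 60, (-60), false, 2, 1, 0, 0, 4, 3, 4, 4, 2⟩

theorem ok53 : c53.ok [] = true := by
  decide +kernel

def c3 : Cell := ⟨⟨15, 8, 7, 4⟩, 96, (-60), (-96), 180, false, 1, 0, 0, 0, 2, 1, 0, 0, 0⟩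

theorem ok3 : c3.ok [] = true := by
  decide +kernel

def c60 : Cell := ⟨⟨6, 5, 1, 1⟩, 0, 180, 0, 30, false, 3, 3, 2, 2, 4, 3, 4, 4, 2⟩

theorem ok60 : c60.ok [] = true := by
  decide +kernel

def c4 : Cell := ⟨⟨7, 4, 5, 3⟩, 0, 90, 96, (-150), false, 1, 0, 0, 0, 2, 0, 0, 0, 0⟩

theorem ok4 : c4.ok [] = true := by
  decide +kernel

def c6 : Cell := ⟨⟨2, 1, 15, 8⟩, 0, 120, 96, (-180), false, 2, 0, 0, 0, 2, 0, 0, 0, 0⟩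

theorem ok6 : c6.ok [] = true := by
  decide +kernel

theorem aux_ok : run (fun _ => aux (.var 0) (.var 1)) (.split 1 2 1 (.split 0 2 1 (.leaf 0 []) (.leaf 0 [])) (.split 0 2 1 (.leaf 0 []) (.split 0 4 3 (.leaf 0 []) (.leaf 0 []))))
  [⟨1, 0, 1, 1⟩, ⟨1, 0, 1, 1⟩] [] = true := by
  decide +kernel

end Crest.Agent.R310.H16
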