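import Crest.Agent.R310.H16Side
import Crest.Agent.R310.H16C0
import Crest.Agent.R310.H16C1
import Crest.Agent.R310.H16C2
import Crest.Agent.R310.H16C3
import Crest.Agent.R310.H16C4
import Crest.Agent.R310.H16C5
import Crest.Agent.R310.H16C6

/-! # Row 310, certificate H16: soundness of the cells, the cover, the inequality (P) -/

set_option autoImplicit false

open Set Crest.Agent.Lib.PolyBB

namespace Crest.Agent.R310.H16

open Des

section Eval

variable (y : ℕ → ℝ) (p : ℕ → ℤ)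

theorem ev_add (a b : E) : (a + b).eval y p = a.eval y p + b.eval y p := rfl
theorem ev_sub (a b : E) : (a - b).eval y p = a.eval y p - b.eval y p := rfl
theorem ev_mul (a b : E) : (a * b).eval y p = a.eval y p * b.eval y p := rfl
theorem ev_ic (z : ℤ) : (ic z : E).eval y p = ic z := rfl
theorem ev_ZZ : (ZZ : E).eval y p = ZZ := rfl

theorem ev_NS (n : ℕ) (b : E) : (NS n b).eval y p = NS n (b.eval y p) := by
  rcases n with _ | _ | _ | _ | _ <;> rfl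

theorem ev_phi (m : ℕ) (b e u q : E) : (phi m b e u q).eval y p =
    phi m (b.eval y p) (e.eval y p) (u.eval y p) (q.eval y p) := by
  rcases m with _ | _ | _ | _ | _ <;> rfl

theorem ev_pib (m : ℕ) (b e u q : E) : (pib m b e u q).eval y p =
    pib m (b.eval y p) (e.eval y p) (u.eval y p) (q.eval y p) := by
  rcases m with _ | _ | _ | _ | _ <;> rfl

theorem ev_nn (m : ℕ) (b e u q : E) : (nn m b e u q).eval y p =
    nn m (b.eval y p) (e.eval y p) (u.eval y p) (q.eval y p) := by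
  rcases m with _ | _ | _ | _ | _ <;> rfl

theorem ev_h1 (m : ℕ) (b e u q : E) : (h1 m b e u q).eval y p =
    h1 m (b.eval y p) (e.eval y p) (u.eval y p) (q.eval y p) := by
  rcases m with _ | _ | _ | _ | _ <;> rfl

theorem ev_h2 (m : ℕ) (b u q : E) : (h2 m b u q).eval y p =
    h2 m (b.eval y p) (u.eval y p) (q.eval y p) := by
  rcases m with _ | _ | _ | _ | _ <;> rfl

theorem ev_Gf (m : ℕ) (b e u q : E) : (Gf m b e u q).eval y p =
    Gf m (b.eval y p) (e.eval y p) (u.eval y p) (q.eval y p) := by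
  rcases m with _ | _ | _ <;> rfl

theorem ev_bp (m : ℕ) (u q : E) : (bp m u q).eval y p = bp m (u.eval y p) (q.eval y p) := by
  rcases m with _ | _ | _ | _ | _ <;> rfl

theorem ev_num (c : Cd) (m : ℕ) (b e a u q ds G g : E) : (num c m b e a u q ds G g).eval y p =
    num c m (b.eval y p) (e.eval y p) (a.eval y p) (u.eval y p) (q.eval y p) (ds.eval y p)
      (G.eval y p) (g.eval y p) := by
  cases c <;> simp only [num, Fc, ov, ev_add, ev_sub, ev_mul, ev_ic, ev_ZZ, ev_NS, ev_phi, ev_pib,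
    ev_nn, ev_h1, ev_h2, ev_bp]

theorem ev_den (c : Cd) (u q : E) : (den c u q).eval y p = den c (u.eval y p) (q.eval y p) := by
  cases c <;> simp only [den, ev_mul, ev_ic, ev_bp]

theorem ev_pr (cf cn : Cd) (m m' gt : ℕ) (x D b e b' e' : E) :
    (pr cf cn m m' gt x D b e b' e').eval y p = pr cf cn m m' gt (x.eval y p) (D.eval y p)
      (b.eval y p) (e.eval y p) (b'.eval y p) (e'.eval y p) := by
  simp only [pr, ev_add, ev_sub, ev_mul, ev_ic, ev_ZZ, ev_num, ev_den, ev_Gf]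

theorem ev_em (k : ℕ) (M β θ₁ θ₂ θ₃ : E) : (em k M β θ₁ θ₂ θ₃).eval y p =
    em k (M.eval y p) (β.eval y p) (θ₁.eval y p) (θ₂.eval y p) (θ₃.eval y p) := by
  rcases k with _ | _ <;> rfl

theorem ev_prc (ch : Bool) (k : ℕ) (cf cn : Cd) (m m' gt : ℕ) (x D M β θ₁ θ₂ θ₃ : E) :
    (prc ch k cf cn m m' gt x D M β θ₁ θ₂ θ₃).eval y p = prc ch k cf cn m m' gt (x.eval y p)
      (D.eval y p) (M.eval y p) (β.eval y p) (θ₁.eval y p) (θ₂.eval y p) (θ₃.eval y p) := by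
  cases ch <;> simp only [prc, ev_pr, ev_em] <;> rfl

theorem ev_pc (m : ℕ) (u q : E) :
    (pc m u q).map (E.eval y p) = pc m (u.eval y p) (q.eval y p) := by
  rcases m with _ | _ | _ | _ | _ <;> rfl

theorem ev_sc (m md ms me : ℕ) (u q : E) :
    (sc m md ms me u q).map (E.eval y p) = sc m md ms me (u.eval y p) (q.eval y p) := by
  rcases md with _ | _ | _ | _ <;>
    simp only [sc, List.map_cons, List.map_append, ev_pc, ev_sub, ev_ic]

theorem ev_gc (m : ℕ) (u q : E) :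
    (gc m u q).map (E.eval y p) = gc m (u.eval y p) (q.eval y p) := by
  rcases m with _ | _ | _ <;> rfl

end Eval

theorem runs_sound {c : Cell} {y : ℕ → ℝ} (hy : c.box.mem y) :
    ∀ (js : List (Bool × Cd × Cd)) (ts : List T), runs c js ts = true → ∀ j ∈ js, ∃ k p,
      ∀ e ∈ c.es j.1 j.2.1 j.2.2 k, 0 ≤ E.eval y p e
  | [], _, _ => by simp
  | j :: js, [], h => by
    obtain ⟨h1, h2⟩ := band_eq_true.1 h
    obtain ⟨k, ps, h3⟩ := run_sound h1 hy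
    exact List.forall_mem_cons.2 ⟨⟨k, _, h3⟩, runs_sound hy js [] h2⟩
  | j :: js, t :: ts, h => by
    obtain ⟨h1, h2⟩ := band_eq_true.1 h
    obtain ⟨k, ps, h3⟩ := run_sound h1 hy
    exact List.forall_mem_cons.2 ⟨⟨k, _, h3⟩, runs_sound hy js ts h2⟩

theorem exists_top {L : List Cd} (h : Cd.I ∈ L) {f g : Cd → ℝ} (hg : ∀ z ∈ L, 0 < g z) :
    ∃ z ∈ L, ∀ w ∈ L, f w ≤ f z / g z * g w := by
  obtain ⟨z, hz, H⟩ := Set.exists_max_image {z | z ∈ L} (fun z => f z / g z) L.finite_toSet ⟨_, h⟩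
  exact ⟨z, hz, fun w hw => (div_le_iff₀ (hg w hw)).1 (H w hw)⟩

theorem pAt_of {m md ms me m' md' ms' me' gt : ℕ} {x D b b' e e' : ℝ}
    (k : sok m md ms me = true) (k' : sok m' md' ms' me' = true) (x1 : 1 / 2 ≤ x) (x2 : x ≤ 1)
    (hD : 90 * x ≤ D) (hb : b ∈ Icc (0 : ℝ) 1) (hb' : b' ∈ Icc (0 : ℝ) 1)
    (he : e = 6000000 * Real.exp (-b)) (he' : e' = 6000000 * Real.exp (-b'))
    (c1 : ∀ z ∈ sc m md ms me (D - ic 60 * x) (ic 30 * x), 0 ≤ z)
    (c2 : ∀ z ∈ sc m' md' ms' me' (D - (ic 60 - ic 60 * x)) (ic 30 - ic 30 * x), 0 ≤ z)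
    (c3 : ∀ z ∈ gc gt (ic 120 * x - ic 60) (ic 30 - ic 30 * x), 0 ≤ z)
    (H : ∀ cf ∈ cds m md ms me, ∀ cn ∈ cds m' md' ms' me', 0 ≤ pr cf cn m m' gt x D b e b' e') :
    PAt D (60 * x) (60 - 60 * x) b b' := by
  simp only [pr, ic_eq, ZZ_eq] at c1 c2 c3 H
  push_cast at c1 c2 c3 H
  have q1 : 0 ≤ 30 * x := by linarith
  have q2 : 0 ≤ 30 - 30 * x := by linarith
  obtain ⟨i1, d1, s1⟩ := side_sound (ds := 60 - 120 * x) (G := 6000000 * (60 - 120 * x)) (g := 0)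
    k c1 q1 hb hb' he (sub_self _).symm
  obtain ⟨i2, d2, s2⟩ := side_sound (ds := 120 * x - 60)
    (G := Gf gt b' e' (120 * x - 60) (30 - 30 * x)) k' c2 q2 hb' hb he' rfl
  obtain ⟨z1, hz1, t1⟩ := exists_top i1 d1
  obtain ⟨z2, hz2, t2⟩ := exists_top i2 d2
  obtain ⟨f1, g1⟩ := s1 _ t1
  obtain ⟨f2, g2⟩ := s2 _ t2
  have h0 := div_nonpos_of_nonpos_of_nonneg (sub_nonneg.1 (H z1 hz1 z2 hz2))
    (mul_pos (d1 _ hz1) (d2 _ hz2)).le
  rw [mul_comm (num z2 ..), ← div_add_div _ _ (d1 _ hz1).ne' (d2 _ hz2).ne'] at h0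
  have hG := Gf_ge hb'.1 hb'.2 q2 c3 he'
  clear t1 t2
  generalize num z1 m b e b' _ _ _ _ _ / den z1 (D - 60 * x) (30 * x) = T1 at *
  generalize num z2 m' b' e' b _ _ _ _ _ / den z2 (D - (60 - 60 * x)) (30 - 30 * x) = T2 at *
  rw [show 4 * (30 * x) = 2 * (60 * x) by ring] at f1 g1
  rw [show 4 * (30 - 30 * x) = 2 * (60 - 60 * x) by ring] at f2 g2 hG
  have A : ∀ v, Cand D (60 * x) b (60 - 60 * x) b' v → 6000000 * v ≤ T1 := by
    rintro v (rfl | ⟨K, c, k0, k1, hc, rfl⟩)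
    · rw [Full, min_eq_right (by linarith)]
      linarith
    · rw [Ep_far (by linarith) (by linarith) (by linarith)]
      linarith [g1 K c k0 k1 (by linarith)]
  have B : ∀ v, Cand D (60 - 60 * x) b' (60 * x) b v → 6000000 * v ≤ T2 := by
    rintro v (rfl | ⟨K, c, k0, k1, hc, rfl⟩)
    · rw [Full, min_eq_right (by linarith)]
      linarith
    · have j := Ep_near_le (D := D) (d := 60 - 60 * x) (d' := 60 * x) (c := c) (by linarith)
        (by linarith) hb' hb.1 ⟨k0, k1⟩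
      rw [show 60 * x - (60 - 60 * x) = 120 * x - 60 by ring] at j
      linarith [g2 K c k0 k1 (by linarith),
        mul_le_mul_of_nonneg_left hG (mul_nonneg hb.1 (sub_nonneg.2 k1))]
  intro v v' hv hv'
  linarith [A v hv, B v' hv']

theorem exists_ratio {b M : ℝ} (h0 : 0 ≤ b) (h : b ≤ M) : ∃ β, 0 ≤ β ∧ β ≤ 1 ∧ M * β = b := by
  obtain ⟨β, b0, b1, e⟩ := exists_band h0 h
  exact ⟨β, b0, b1, by linarith⟩

theorem Cell.sound (c : Cell) {ts : List T} (h : c.ok ts = true) {x s b b' : ℝ} (hx : c.I.mem x)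
    (x1 : 1 / 2 ≤ x) (x2 : x ≤ 1) (s0 : 0 ≤ s) (s1 : c.top = false → s ≤ 1)
    (hD : 90 * x ≤ c.a + c.b * x + s * (c.a' + c.b' * x)) (hb : b ∈ Icc (0 : ℝ) 1)
    (hb' : b' ∈ Icc (0 : ℝ) 1) :
    PAt (c.a + c.b * x + s * (c.a' + c.b' * x)) (60 * x) (60 - 60 * x) b b' := by
  obtain ⟨h1, h⟩ := band_eq_true.1 h
  obtain ⟨h2, h3⟩ := band_eq_true.1 h
  rw [Bool.and_eq_true] at h1
  have key : ∀ M β : ℝ, 0 ≤ M → M ≤ 1 → 0 ≤ β → β ≤ 1 → ∃ θ₁ θ₂ θ₃ : ℝ,
      c.box.mem (pt [x, s, M, β, θ₁, θ₂, θ₃]) ∧ ic 600 * EB M θ₁ = 6000000 * Real.exp (-M) ∧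
      ∀ k, em k M β θ₁ θ₂ θ₃ = 6000000 * Real.exp (-(M * β)) := by
    intro M β m0 m1 b0 b1
    obtain ⟨θ₁, a0, a1, e1⟩ := exists_EB m0 m1
    obtain ⟨θ₂, a2, a3, e2⟩ := exists_EB (mul_nonneg m0 b0) (mul_le_one₀ m1 b0 b1)
    obtain ⟨θ₃, a4, a5, e3⟩ := exists_EZ (mem_mul ⟨m0, m1⟩ ⟨b0, b1⟩).1 (mem_mul ⟨m0, m1⟩ ⟨b0, b1⟩).2
    refine ⟨θ₁, θ₂, θ₃, ?_, by rw [e1, ic_eq]; push_cast; ring, fun k => ?_⟩
    · simp only [Cell.box, Box.mem_cons_pt]
      refine ⟨hx, ?_, by simp [m0, m1, b0, b1, a0, a1, a2, a3, a4, a5]⟩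
      cases ht : c.top
      · simp [s0, s1 ht]
      · simp [s0]
    · rcases k with _ | k
      · rw [em, e2, ic_eq]; push_cast; ring
      · simp only [em, ic_eq, Int.cast_one, e1, e3]
        rw [show -(M * β) = -M + M * (1 - β) by ring, Real.exp_add]
        ring
  obtain ⟨θ₁, θ₂, θ₃, hy, -⟩ := key 0 0 le_rfl zero_le_one le_rfl zero_le_one
  have hc := List.forall_mem_map.2 (chkAll_sound h2 hy)
  simp only [Cell.conds, List.map_append, ev_sc, ev_gc, List.forall_mem_append] at hc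
  have mj : ∀ ch, ∀ cf ∈ cds c.m c.md c.ms c.me, ∀ cn ∈ cds c.m' c.md' c.ms' c.me',
      (ch, cf, cn) ∈ c.jobs := fun ch cf hf cn hn =>
    List.mem_flatMap.2 ⟨cf, hf, List.mem_flatMap.2 ⟨cn, hn, by cases ch <;> simp⟩⟩
  refine pAt_of h1.1 h1.2 x1 x2 hD hb hb' rfl rfl hc.1 hc.2.1 hc.2.2 fun cf hf cn hn => ?_
  rcases le_total b' b with k | k
  · obtain ⟨β, b0, b1, rfl⟩ := exists_ratio hb'.1 k
    obtain ⟨θ₁, θ₂, θ₃, hy, e1, e2⟩ := key b β hb.1 hb.2 b0 b1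
    obtain ⟨j, p, hj⟩ := runs_sound hy _ _ h3 _ (mj true cf hf cn hn)
    have := hj _ (List.mem_singleton_self _)
    rw [ev_prc] at this
    rw [← e1, ← e2 j]
    exact this
  · obtain ⟨β, b0, b1, rfl⟩ := exists_ratio hb.1 k
    obtain ⟨θ₁, θ₂, θ₃, hy, e1, e2⟩ := key b' β hb'.1 hb'.2 b0 b1
    obtain ⟨j, p, hj⟩ := runs_sound hy _ _ h3 _ (mj false cf hf cn hn)
    have := hj _ (List.mem_singleton_self _)
    rw [ev_prc] at this
    rw [← e1, ← e2 j]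
    exact this

/-- (P) on the region `x ∈ I`, `a + b x ≤ D ≤ a₂ + b₂ x` (no upper bound when `top`) -/
def Good (I : Iv) (a b a₂ b₂ : ℤ) (top : Bool) : Prop :=
  ∀ x D β β' : ℝ, I.mem x → 1 / 2 ≤ x → x ≤ 1 → 90 * x ≤ D → a + b * x ≤ D →
    (top = false → D ≤ a₂ + b₂ * x) → β ∈ Icc (0 : ℝ) 1 → β' ∈ Icc (0 : ℝ) 1 →
    PAt D (60 * x) (60 - 60 * x) β β'

theorem Good.V {ua ub : ℕ} {va vb a b a₂ b₂ : ℤ} {top : Bool} (u : ℕ) (v : ℤ)
    (l : Good ⟨ua, va, u, v⟩ a b a₂ b₂ top) (r : Good ⟨u, v, ub, vb⟩ a b a₂ b₂ top) :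
    Good ⟨ua, va, ub, vb⟩ a b a₂ b₂ top := fun x D β β' hx =>
  (le_total (x * u) v).elim (fun h => l x D β β' ⟨hx.1, h⟩) fun h => r x D β β' ⟨h, hx.2⟩

theorem Good.H {I : Iv} {a b a₂ b₂ : ℤ} {top : Bool} (a₁ b₁ : ℤ) (l : Good I a b a₁ b₁ false)
    (r : Good I a₁ b₁ a₂ b₂ top) : Good I a b a₂ b₂ top := fun x D β β' hx x1 x2 hD h1 h2 =>
  (le_total D (a₁ + b₁ * x)).elim (fun h => l x D β β' hx x1 x2 hD h1 fun _ => h)
    fun h => r x D β β' hx x1 x2 hD h h2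

theorem Good.leaf {I : Iv} {a b a₂ b₂ : ℤ} {top : Bool} (c : Cell) {ts : List T}
    (h : c.ok ts = true) (e : (c.I, c.a, c.b, c.top, c.a', c.b') =
      (I, a, b, top, cond top 1 (a₂ - a), cond top 0 (b₂ - b))) : Good I a b a₂ b₂ top := by
  simp only [Prod.mk.injEq] at e
  obtain ⟨rfl, rfl, rfl, rfl, e1, e2⟩ := e
  intro x D β β' hx x1 x2 hD h1 h2 hb hb'
  cases ht : c.top
  · obtain ⟨s, s0, s1, e⟩ := exists_band h1 (h2 ht)
    have e' : c.a + c.b * x + s * (c.a' + c.b' * x) = D := by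
      rw [e1, e2, ht, ← e]; simp only [cond]; push_cast; ring
    exact e' ▸ c.sound h hx x1 x2 s0 (fun _ => s1) (e' ▸ hD) hb hb'
  · have e' : c.a + c.b * x + (D - (c.a + c.b * x)) * (c.a' + c.b' * x) = D := by
      rw [e1, e2, ht]; simp
    have := c.sound h hx x1 x2 (sub_nonneg.2 h1) (by simp [ht]) (hD.trans_eq e'.symm) hb hb'
    rwa [e'] at this

theorem good : Good ⟨2, 1, 1, 1⟩ 0 90 0 0 true :=
  (Good.V 5 3
    (Good.H 0 120
    (Good.V 7 4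
    (Good.H 120 (-120)
    (Good.leaf c0 ok0 rfl)
    (Good.V 15 8
    (Good.leaf c1 ok1 rfl)
    (Good.H 96 (-60)
    (Good.leaf c2 ok2 rfl)
    (Good.leaf c3 ok3 rfl))))
    (Good.H 96 (-60)
    (Good.leaf c4 ok4 rfl)
    (Good.leaf c5 ok5 rfl)))
    (Good.H 0 180
    (Good.H 36 60
    (Good.V 15 8
    (Good.H 96 (-60)
    (Good.leaf c6 ok6 rfl)
    (Good.leaf c7 ok7 rfl))
    (Good.leaf c8 ok8 rfl))
    (Good.H 60 60
    (Good.H 180 (-180)
    (Good.leaf c9 ok9 rfl)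
    (Good.H 120 (-60)
    (Good.leaf c10 ok10 rfl)
    (Good.V 9 5
    (Good.leaf c11 ok11 rfl)
    (Good.H 210 (-210)
    (Good.leaf c12 ok12 rfl)
    (Good.leaf c13 ok13 rfl)))))
    (Good.V 13 7
    (Good.leaf c14 ok14 rfl)
    (Good.V 9 5
    (Good.H 210 (-210)
    (Good.leaf c15 ok15 rfl)
    (Good.leaf c16 ok16 rfl))
    (Good.leaf c17 ok17 rfl)))))
    (Good.H 0 210
    (Good.V 13 7
    (Good.H 210 (-210)
    (Good.leaf c18 ok18 rfl)
    (Good.leaf c19 ok19 rfl))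
    (Good.V 27 16
    (Good.leaf c20 ok20 rfl)
    (Good.H 160 (-60)
    (Good.leaf c21 ok21 rfl)
    (Good.leaf c22 ok22 rfl))))
    (Good.H 100 60
    (Good.V 27 16
    (Good.H 160 (-60)
    (Good.leaf c23 ok23 rfl)
    (Good.leaf c24 ok24 rfl))
    (Good.leaf c25 ok25 rfl))
    (Good.leaf c26 ok26 rfl)))))
    (Good.V 3 2
    (Good.H 0 120
    (Good.H 180 (-180)
    (Good.V 25 16
    (Good.H 96 (-60)
    (Good.leaf c27 ok27 rfl)
    (Good.leaf c28 ok28 rfl))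
    (Good.leaf c29 ok29 rfl))
    (Good.V 11 7
    (Good.leaf c30 ok30 rfl)
    (Good.H 210 (-210)
    (Good.leaf c31 ok31 rfl)
    (Good.leaf c32 ok32 rfl))))
    (Good.H 0 180
    (Good.H 60 60
    (Good.H 120 (-60)
    (Good.V 11 7
    (Good.H 210 (-210)
    (Good.leaf c33 ok33 rfl)
    (Good.leaf c34 ok34 rfl))
    (Good.leaf c35 ok35 rfl))
    (Good.leaf c36 ok36 rfl))
    (Good.leaf c37 ok37 rfl))
    (Good.H 0 210
    (Good.H 160 (-60)
    (Good.leaf c38 ok38 rfl)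
    (Good.leaf c39 ok39 rfl))
    (Good.H 100 60
    (Good.leaf c40 ok40 rfl)
    (Good.leaf c41 ok41 rfl)))))
    (Good.H 0 120
    (Good.V 10 7
    (Good.H 210 (-210)
    (Good.leaf c42 ok42 rfl)
    (Good.H 120 (-60)
    (Good.leaf c43 ok43 rfl)
    (Good.leaf c44 ok44 rfl)))
    (Good.V 5 4
    (Good.H 120 (-60)
    (Good.leaf c45 ok45 rfl)
    (Good.leaf c46 ok46 rfl))
    (Good.V 9 8
    (Good.leaf c47 ok47 rfl)
    (Good.H 160 (-60)
    (Good.leaf c48 ok48 rfl)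
    (Good.leaf c49 ok49 rfl)))))
    (Good.H 0 180
    (Good.H 60 60
    (Good.V 6 5
    (Good.leaf c50 ok50 rfl)
    (Good.V 9 8
    (Good.H 160 (-60)
    (Good.leaf c51 ok51 rfl)
    (Good.leaf c52 ok52 rfl))
    (Good.leaf c53 ok53 rfl)))
    (Good.V 6 5
    (Good.H 160 (-60)
    (Good.leaf c54 ok54 rfl)
    (Good.leaf c55 ok55 rfl))
    (Good.H 100 60
    (Good.leaf c56 ok56 rfl)
    (Good.leaf c57 ok57 rfl))))
    (Good.H 0 210
    (Good.V 6 5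
    (Good.H 100 60
    (Good.leaf c58 ok58 rfl)
    (Good.leaf c59 ok59 rfl))
    (Good.leaf c60 ok60 rfl))
    (Good.V 6 5
    (Good.leaf c61 ok61 rfl)
    (Good.leaf c62 ok62 rfl)))))))

theorem hypP : HypP := hypP_of fun D d d' b b' h0 h1 h2 h3 b0 b1 b0' b1' => by
  have hρ : 0 < d + d' := by linarith
  have x1 : 1 / 2 ≤ d / (d + d') := by rw [le_div_iff₀ hρ]; linarith
  have x2 : d / (d + d') ≤ 1 := by rw [div_le_one hρ]; linarith
  have hD : 90 * (d / (d + d')) ≤ 60 / (d + d') * D := by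
    rw [← mul_div_assoc, div_mul_eq_mul_div]
    exact div_le_div_of_nonneg_right (by linarith) hρ.le
  refine PAt.of_smul (by positivity : 0 < 60 / (d + d')) ?_
  have := good (d / (d + d')) (60 / (d + d') * D) b b' (by simp; constructor <;> linarith) x1 x2 hD
    (by simpa using hD) (by simp) ⟨b0, b1⟩ ⟨b0', b1'⟩
  convert this using 1
  · ring
  · field_simp; ring

end Crest.Agent.R310.H16
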