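import Crest.Agent.Lib.PolyBB.Core

/-!
# Row 310, certificate of (P) by candidate lists (helper16): polynomial expressions

Units: `ρ = d + d' = 60`, `q = t / 4`, functions of `b` are multiplied by `Z = 6000000`,
`e = Z exp (-b)`.  All expressions are written once, for `E` and for `ℝ`.
-/

set_option autoImplicit false

open Crest.Agent.Lib.PolyBB

namespace Crest.Agent.R310.H16

instance : Add E := ⟨E.add⟩
instance : Sub E := ⟨E.sub⟩
instance : Mul E := ⟨E.mul⟩
instance : IntCast E := ⟨E.cst⟩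

/-- candidates; break points: `0 ↦ 60`, `1 ↦ 4 q`, `2 ↦ 5 q`, `3 ↦ u`, else `100` -/
inductive Cd
  | I | X | B0 | BL | BH
  | CL (x y n : Nat)
  | CR (x y n : Nat)

section Gen

variable {α : Type} [Add α] [Sub α] [Mul α] [IntCast α]

def ic (z : Int) : α := IntCast.intCast z

def ZZ : α := ic 6000000

def SM (b : α) : α :=
  ic 6000000 + b * (ic (-9384000) + b * (ic 5712000 + b * (ic (-3000000) + b * ic 672000)))

def SMD (b : α) : α := ic (-9384000) + b * (ic 11424000 + b * (ic (-9000000) + b * ic 2688000))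

def SP (b : α) : α := ic 6000000 + b * (ic (-5604000) + b * (ic (-6786000) + b * (ic 13494000 +
  b * (ic (-10164000) + b * ic 3060000))))

def SPD (b : α) : α := ic (-5604000) + b * (ic (-13572000) + b * (ic 40482000 +
  b * (ic (-40656000) + b * ic 15300000)))

def et2 (b : α) : α := ic 180000 + b * (ic 1560000 + b * ic (-930000))

def et4 (b : α) : α := ic 1458000 + b * (ic 6000000 + b * (ic (-10440000) + b * ic 5160000))

def kp (b : α) : α := ic 1000000 + b * (ic (-666000) + b * ic 167000)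

/-- slope of `N` -/
def NS (n : Nat) (b : α) : α :=
  match n with
  | 2 => ic 6000000 + b * b * (ic (-5712000) + b * (ic 6000000 + b * ic (-2016000)))
  | 3 => ic 6000000 + b * b * (ic 6786000 + b * (ic (-26988000) + b * (ic 30492000 +
      b * ic (-12240000))))
  | _ => ZZ

/-- band for `10000 exp (-b)` -/
def EB (b θ : α) : α :=
  ic 10000 + b * (ic (-10000) + b * (ic 4996 + ic 5 * θ + b * (ic (-1630) + b * ic 312)))

/-- band for `600 exp z` -/
def EZ (z θ : α) : α := ic 600 + z * (ic 600 + z * (ic 300 + z * (ic 100 + z * (ic 25 + ic 6 * θ))))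

def phi (m : Nat) (b e u q : α) : α :=
  match m with
  | 1 => ZZ * q + (u - q) * (ic 4 * e - ic 2 * SM b - ZZ)
  | 2 => ic 4 * q * e + (u - ic 4 * q) * SM b
  | 3 => ic 4 * q * e + (u - ic 4 * q) * SP b
  | _ => q * (ic 4 * e + SP b) + (u - ic 5 * q) * (ZZ - ZZ * b)

def pib (m : Nat) (b e u q : α) : α :=
  match m with
  | 2 => ic 4 * q * (b * e) - (u - ic 4 * q) * (b * SMD b)
  | 3 => ic 4 * q * (b * e) - (u - ic 4 * q) * (b * SPD b)
  | _ => q * (b * (ic 4 * e - SPD b)) + (u - ic 5 * q) * (ZZ * b)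

def nn (n : Nat) (b e c q : α) : α :=
  match n with
  | 2 => ic 4 * q * ((ic 1 + b) * e) + (c - ic 4 * q) * NS 2 b
  | 3 => ic 4 * q * ((ic 1 + b) * e) + (c - ic 4 * q) * NS 3 b
  | _ => q * (ic 4 * ((ic 1 + b) * e) + NS 3 b) + (c - ic 5 * q) * ZZ

def h1 (m : Nat) (b e u q : α) : α :=
  match m with
  | 2 => ic 2 * (ic 4 * q - u) * (b * b * et2 b) + (u - ic 2 * q) * (b * b * e)
  | 3 => ic 2 * (ic 5 * q - u) * (b * b * e) + ic 4 * (u - ic 4 * q) * (b * b * et4 b)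
  | _ => ic 4 * q * (b * b * et4 b)

def h2 (m : Nat) (b u q : α) : α :=
  match m with
  | 2 => ic 2 * (u - ic 2 * q) * (b * b * b * kp b)
  | 3 => ic 4 * (ic 5 * q - u) * (b * b * b * kp b)
  | _ => ic 0

/-- upper bound of `Z Φ (ds)` -/
def Gf (gt : Nat) (b e ds q : α) : α :=
  match gt with
  | 0 => ZZ * ds
  | 1 => phi 1 b e ds q
  | _ => q * (ic 4 * e - ic 2 * SM b) + (ds - ic 2 * q) * (ZZ - ZZ * b)

def bp (x : Nat) (u q : α) : α :=
  match x with
  | 0 => ic 60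
  | 1 => ic 4 * q
  | 2 => ic 5 * q
  | 3 => u
  | _ => ic 100

/-- `2 c E(c)` -/
def Fc (n : Nat) (b e a q P G g c : α) : α :=
  (nn n b e c q - P) * (ic 2 * c - a * (ic 5 * (c - ic 60))) + ic 5 * (c - ic 60) * (a * g) +
    ic 2 * c * (a * (G - P))

def ov (n : Nat) (b a l x y : α) : α := (y - x) * (y - x) * (NS n b * (l * l) * (a * a * (ic 4 - a)))

def num (c : Cd) (m : Nat) (b e a u q ds G g : α) : α :=
  match c with
  | .I => ZZ * u - phi m b e u q - a * (ZZ * (u - ds))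
  | .X => ZZ * u - phi m b e u q + a * (G - phi m b e u q)
  | .B0 => ic 576 * (pib m b e u q + a * (G - phi m b e u q)) +
      (ic 60 - u) * (ic 24 * h1 m b e u q + (ic 60 - u) * h2 m b u q)
  | .BL => ic 48 * u * (pib m b e u q + h1 m b e u q + h2 m b u q + a * (G - phi m b e u q)) -
      (ic 5 * u - ic 180) * (a * (ic 24 * (pib m b e u q - g) + (ic 60 - u) * h1 m b e u q))
  | .BH => ic 40 * (pib m b e u q * (ic 1 - a) + a * (G - phi m b e u q) + a * g) +
      (ic 100 - u) * (h1 m b e u q + h2 m b u q)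
  | .CL x y n => Fc n b e a q (phi m b e u q) G g (bp x u q) +
      ov n b a (ic 1 - b) (bp x u q) (bp y u q)
  | .CR x y n => Fc n b e a q (phi m b e u q) G g (bp y u q) + ov n b a b (bp x u q) (bp y u q)

def den (c : Cd) (u q : α) : α :=
  match c with
  | .I => ic 1
  | .X => ic 1
  | .B0 => ic 576
  | .BL => ic 48 * u
  | .BH => ic 40
  | .CL x _ _ => ic 2 * bp x u q
  | .CR _ y _ => ic 2 * bp y u q

/-- `u` lies in the piece `m` -/
def pc (m : Nat) (u q : α) : List α :=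
  match m with
  | 1 => [u - q, ic 2 * q - u]
  | 2 => [u - ic 2 * q, ic 4 * q - u]
  | 3 => [u - ic 4 * q, ic 5 * q - u]
  | _ => [u - ic 5 * q]

/-- side conditions of a side; mode `0`: crude, `1`: `36 ≤ u ≤ 60`, `2`: `60 ≤ u ≤ 100`, else
`100 ≤ u` -/
def sc (m md ms me : Nat) (u q : α) : List α :=
  match md with
  | 0 => pc m u q
  | 1 => (u - ic 36) :: (ic 60 - u) :: pc m u q
  | 2 => (u - ic 60) :: (ic 100 - u) :: (pc m u q ++ pc ms (ic 60) q)
  | _ => (u - ic 100) :: (pc m u q ++ (pc ms (ic 60) q ++ pc me (ic 100) q))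

def gc (gt : Nat) (ds q : α) : List α :=
  match gt with
  | 0 => []
  | 1 => pc 1 ds q
  | _ => [ds - ic 2 * q]

/-- the inequality of a pair of candidates -/
def pr (cf cn : Cd) (m m' gt : Nat) (x D b e b' e' : α) : α :=
  ic 0 - (num cf m b e b' (D - ic 60 * x) (ic 30 * x) (ic 60 - ic 120 * x)
      (ZZ * (ic 60 - ic 120 * x)) (ic 0) * den cn (D - (ic 60 - ic 60 * x)) (ic 30 - ic 30 * x) +
    num cn m' b' e' b (D - (ic 60 - ic 60 * x)) (ic 30 - ic 30 * x) (ic 120 * x - ic 60)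
      (Gf gt b' e' (ic 120 * x - ic 60) (ic 30 - ic 30 * x))
      (ZZ * (ic 120 * x - ic 60) - Gf gt b' e' (ic 120 * x - ic 60) (ic 30 - ic 30 * x)) *
      den cf (D - ic 60 * x) (ic 30 * x))

/-- `Z exp (-M β)` in two ways -/
def em (k : Nat) (M β θ₁ θ₂ θ₃ : α) : α :=
  match k with
  | 0 => ic 600 * EB (M * β) θ₂
  | _ => EB M θ₁ * EZ (M * (ic 1 - β)) θ₃

def prc (ch : Bool) (k : Nat) (cf cn : Cd) (m m' gt : Nat) (x D M β θ₁ θ₂ θ₃ : α) : α :=
  match ch with
  | true => pr cf cn m m' gt x D M (ic 600 * EB M θ₁) (M * β) (em k M β θ₁ θ₂ θ₃)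
  | false => pr cf cn m m' gt x D (M * β) (em k M β θ₁ θ₂ θ₃) M (ic 600 * EB M θ₁)

/-- auxiliary inequalities in `b`, `w` -/
def aux (b w : α) : List α :=
  [NS 2 b, NS 3 b, et2 b, et4 b, kp b,
   ic 3000 - (ic 2 * (ic 1000 + b * (ic (-564) + b * (ic 388 + b * ic (-112)))) +
     (ic 1000 + b * (ic 66 + b * (ic (-1065) + b * (ic 1184 + b * ic (-510)))))),
   ic 3 * kp b - ic 5 * (EB b (ic 1) * (ic 60 + ic 19 * b)),
   ic 3 * et2 b - (ic 5 * (EB b (ic 1) * (ic 180 + b * w * (ic 60 + ic 19 * (b * w)))) -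
     ic 9000 * (ic 952 - ic 500 * (ic 3 * b - b * w) +
       ic 112 * (ic 6 * (b * b) - ic 4 * (b * (b * w)) + b * w * (b * w)))),
   ic 6 * et4 b - (ic 10 * (EB b (ic 1) * (ic 180 + b * w * (ic 60 + ic 19 * (b * w)))) +
     ic 9000 * (ic (-1131) + ic 2249 * (ic 3 * b - b * w) -
       ic 1694 * (ic 6 * (b * b) - ic 4 * (b * (b * w)) + b * w * (b * w)) +
       ic 510 * (ic 10 * (b * b * b) - ic 10 * (b * b * (b * w)) + ic 5 * (b * (b * w * (b * w))) -
         b * w * (b * w) * (b * w))))]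

end Gen

/-- the segments from `60` (piece `ms`) to the break point `ce` (piece `me`) -/
def segs (ms me ce : Nat) : List Cd :=
  match ms, me with
  | 2, 2 => [.CL 0 ce 2, .CR 0 ce 2]
  | 2, 3 => [.CL 0 1 2, .CR 0 1 2, .CL 1 ce 3, .CR 1 ce 3]
  | 2, _ => [.CL 0 1 2, .CR 0 1 2, .CL 1 2 3, .CR 1 2 3, .CL 2 ce 4, .CR 2 ce 4]
  | 3, 3 => [.CL 0 ce 3, .CR 0 ce 3]
  | 3, _ => [.CL 0 2 3, .CR 0 2 3, .CL 2 ce 4, .CR 2 ce 4]
  | _, _ => [.CL 0 ce 4, .CR 0 ce 4]

def cds (m md ms me : Nat) : List Cd :=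
  match md with
  | 0 => [.I, .X]
  | 1 => [.I, .B0, .BL]
  | 2 => .I :: .BH :: segs ms m 3
  | _ => .I :: segs ms me 4

/-- admissible data of a side -/
def sok (m md ms me : Nat) : Bool :=
  match md with
  | 0 => Nat.ble 1 m && Nat.ble m 4
  | 1 => Nat.ble 2 m && Nat.ble m 4
  | 2 => Nat.ble 2 ms && Nat.ble ms m && Nat.ble m 4
  | _ => Nat.ble 2 ms && Nat.ble ms me && Nat.ble me 4 && Nat.ble 1 m && Nat.ble m 4

/-- a cell: `x ∈ I`, `D = a + b x + s (a' + b' x)`, `s ∈ [0, 1]` or `s ≥ 0` -/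
structure Cell where
  I : Iv
  a : Int
  b : Int
  a' : Int
  b' : Int
  top : Bool
  m : Nat
  md : Nat
  ms : Nat
  me : Nat
  m' : Nat
  md' : Nat
  ms' : Nat
  me' : Nat
  gt : Nat

def Cell.D (c : Cell) : E := ic c.a + ic c.b * .var 0 + .var 1 * (ic c.a' + ic c.b' * .var 0)

def Cell.box (c : Cell) : Box :=
  [c.I, cond c.top ⟨1, 0, 0, 1⟩ ⟨1, 0, 1, 1⟩, ⟨1, 0, 1, 1⟩, ⟨1, 0, 1, 1⟩, ⟨1, 0, 1, 1⟩, ⟨1, 0, 1, 1⟩,
    ⟨1, 0, 1, 1⟩]

def Cell.conds (c : Cell) : List E :=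
  sc c.m c.md c.ms c.me (c.D - ic 60 * .var 0) (ic 30 * .var 0) ++
    (sc c.m' c.md' c.ms' c.me' (c.D - (ic 60 - ic 60 * .var 0)) (ic 30 - ic 30 * .var 0) ++
      gc c.gt (ic 120 * .var 0 - ic 60) (ic 30 - ic 30 * .var 0))

def Cell.es (c : Cell) (ch : Bool) (cf cn : Cd) (k : Nat) : List E :=
  [prc ch k cf cn c.m c.m' c.gt (.var 0) c.D (.var 2) (.var 3) (.var 4) (.var 5) (.var 6)]

def Cell.jobs (c : Cell) : List (Bool × Cd × Cd) :=
  (cds c.m c.md c.ms c.me).flatMap fun cf => (cds c.m' c.md' c.ms' c.me').flatMap fun cn =>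
    [(true, cf, cn), (false, cf, cn)]

noncomputable def runs (c : Cell) : List (Bool × Cd × Cd) → List T → Bool
  | [], _ => true
  | j :: js, [] => band (run (c.es j.1 j.2.1 j.2.2) (.leaf 0 []) c.box []) (runs c js [])
  | j :: js, t :: ts => band (run (c.es j.1 j.2.1 j.2.2) t c.box []) (runs c js ts)

noncomputable def Cell.ok (c : Cell) (ts : List T) : Bool :=
  band (sok c.m c.md c.ms c.me && sok c.m' c.md' c.ms' c.me')
    (band (chkAll c.conds c.box []) (runs c c.jobs ts))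

end Crest.Agent.R310.H16
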