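import Crest.Agent.R310.DesN
import Crest.Agent.R310.H16C7
import Crest.Agent.Lib.PolyBB.Basic

/-! # Row 310, certificate H16: bands for `exp`, auxiliary inequalities -/

set_option autoImplicit false

open Set Crest.Agent.Lib.PolyBB

namespace Crest.Agent.R310.H16

theorem ic_eq (z : ℤ) : (ic z : ℝ) = (z : ℝ) := rfl

theorem exp_taylor {x : ℝ} (h : |x| ≤ 1) :
    |Real.exp x - (1 + x + x ^ 2 / 2 + x ^ 3 / 6 + x ^ 4 / 24 + x ^ 5 / 120 + x ^ 6 / 720 +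
      x ^ 7 / 5040)| ≤ |x| ^ 8 / 35840 := by
  have := Real.exp_bound h (n := 8) (by norm_num)
  simp only [Finset.sum_range_succ, Finset.range_zero, Finset.sum_empty, Nat.factorial] at this
  norm_num at this
  convert this using 2 <;> ring

theorem EB_le {b : ℝ} (h0 : 0 ≤ b) (h1 : b ≤ 1) :
    EB b 0 ≤ 10000 * Real.exp (-b) ∧ 10000 * Real.exp (-b) ≤ EB b 1 := by
  have h := exp_taylor (x := -b) (by rw [abs_neg, abs_of_nonneg h0]; exact h1)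
  rw [abs_neg b, abs_of_nonneg h0, abs_le] at h
  simp only [EB, ic_eq]
  push_cast
  have k1 : 0 ≤ 4 - 110 / 3 * b + 314 / 3 * b ^ 2 - 250 / 3 * b ^ 3 + 125 / 9 * b ^ 4 -
      125 / 63 * b ^ 5 - 125 / 448 * b ^ 6 := by
    nlinarith [mul_nonneg h0 (sub_nonneg.2 h1), sq_nonneg (b - 1 / 4), sq_nonneg (b * (b - 1 / 4)),
      mul_nonneg (mul_nonneg h0 h0) (mul_nonneg h0 (sub_nonneg.2 h1)),
      mul_nonneg (sub_nonneg.2 h1) (sq_nonneg (b - 1 / 4)),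
      mul_nonneg (pow_nonneg h0 4) (sub_nonneg.2 h1), mul_nonneg (pow_nonneg h0 5) (sub_nonneg.2 h1)]
  have k2 : 0 ≤ 1 + 110 / 3 * b - 314 / 3 * b ^ 2 + 250 / 3 * b ^ 3 - 125 / 9 * b ^ 4 +
      125 / 63 * b ^ 5 - 125 / 448 * b ^ 6 := by
    nlinarith [mul_nonneg h0 (sub_nonneg.2 h1), sq_nonneg (b - 3 / 4), sq_nonneg (b * (b - 3 / 4)),
      mul_nonneg h0 (sq_nonneg (b - 3 / 4)), mul_nonneg (mul_nonneg h0 (sub_nonneg.2 h1)) (sq_nonneg (b - 3 / 4)),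
      mul_nonneg (pow_nonneg h0 3) (sub_nonneg.2 h1),
      mul_nonneg (pow_nonneg h0 4) (sub_nonneg.2 h1), mul_nonneg (pow_nonneg h0 5) (sub_nonneg.2 h1)]
  constructor
  · nlinarith [mul_nonneg (sq_nonneg b) k1, h.1]
  · nlinarith [mul_nonneg (sq_nonneg b) k2, h.2]

theorem exists_band {lo hi v : ℝ} (h1 : lo ≤ v) (h2 : v ≤ hi) :
    ∃ θ : ℝ, 0 ≤ θ ∧ θ ≤ 1 ∧ lo + θ * (hi - lo) = v := by
  rcases (h1.trans h2).eq_or_lt with h | h
  · exact ⟨0, le_rfl, zero_le_one, by linarith⟩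
  · have h' := sub_pos.2 h
    exact ⟨(v - lo) / (hi - lo), div_nonneg (sub_nonneg.2 h1) h'.le,
      (div_le_one h').2 (by linarith), by rw [div_mul_cancel₀ _ h'.ne']; ring⟩

theorem exists_EB {b : ℝ} (h0 : 0 ≤ b) (h1 : b ≤ 1) :
    ∃ θ : ℝ, 0 ≤ θ ∧ θ ≤ 1 ∧ EB b θ = 10000 * Real.exp (-b) := by
  obtain ⟨θ, a0, a1, e⟩ := exists_band (EB_le h0 h1).1 (EB_le h0 h1).2
  refine ⟨θ, a0, a1, e ▸ ?_⟩
  simp only [EB, ic_eq]
  push_cast
  ring

theorem exp_le5 {z : ℝ} (h0 : 0 ≤ z) (h1 : z ≤ 1) :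
    Real.exp z ≤ 1 + z + z ^ 2 / 2 + z ^ 3 / 6 + z ^ 4 / 24 + z ^ 5 / 100 := by
  have := Real.exp_bound' h0 h1 (n := 5) (by norm_num)
  simp only [Finset.sum_range_succ, Finset.range_zero, Finset.sum_empty, Nat.factorial] at this
  norm_num at this
  linarith

theorem exists_EZ {z : ℝ} (h0 : 0 ≤ z) (h1 : z ≤ 1) :
    ∃ θ : ℝ, 0 ≤ θ ∧ θ ≤ 1 ∧ EZ z θ = 600 * Real.exp z := by
  have lo : EZ z 0 ≤ 600 * Real.exp z := by
    have := Real.sum_le_exp_of_nonneg h0 5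
    simp only [Finset.sum_range_succ, Finset.range_zero, Finset.sum_empty, Nat.factorial] at this
    norm_num at this
    simp only [EZ, ic_eq]
    push_cast
    nlinarith
  have hi : 600 * Real.exp z ≤ EZ z 1 := by
    have := exp_le5 h0 h1
    simp only [EZ, ic_eq]
    push_cast
    nlinarith [mul_nonneg (pow_nonneg h0 4) (sub_nonneg.2 h1)]
  obtain ⟨θ, a0, a1, e⟩ := exists_band lo hi
  refine ⟨θ, a0, a1, e ▸ ?_⟩
  simp only [EZ, ic_eq]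
  push_cast
  ring

theorem aux_nonneg {b w : ℝ} (h0 : 0 ≤ b) (h1 : b ≤ 1) (w0 : 0 ≤ w) (w1 : w ≤ 1) :
    ∀ z ∈ aux b w, 0 ≤ z := by
  obtain ⟨k, ps, h⟩ := run_sound aux_ok (x := pt [b, w]) (by simp [h0, h1, w0, w1])
  have e : aux b w = (aux (E.var 0) (E.var 1)).map
      (E.eval (pt [b, w]) fun j => (([] : List ℤ) ++ ps).getD j 0) := rfl
  intro z hz
  rw [e] at hz
  obtain ⟨y, hy, rfl⟩ := List.mem_map.1 hz
  exact h y hy

end Crest.Agent.R310.H16
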