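import Crest.Agent.R310.H16Exp

/-! # Row 310, certificate H16: the real values of the expressions -/

set_option autoImplicit false

open Set

namespace Crest.Agent.R310.H16

open Des

variable {b e u q c w : ℝ} {m n : ℕ}

theorem ZZ_eq : (ZZ : ℝ) = 6000000 := by simp [ZZ, ic_eq]

theorem SM_eq (b : ℝ) : SM b = 6000000 * sm b := by simp only [SM, sm, ic_eq]; push_cast; ring

theorem SP_eq (b : ℝ) : SP b = 6000000 * sp b := by simp only [SP, sp, ic_eq]; push_cast; ring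

theorem SMD_eq (b : ℝ) : SMD b = 6000000 * smd b := by simp only [SMD, smd, ic_eq]; push_cast; ring

theorem SPD_eq (b : ℝ) : SPD b = 6000000 * spd b := by simp only [SPD, spd, ic_eq]; push_cast; ring

theorem NS2_eq (b : ℝ) : NS 2 b = SM b - b * SMD b := by
  simp only [NS, SM, SMD, ic_eq]; push_cast; ring

theorem NS3_eq (b : ℝ) : NS 3 b = SP b - b * SPD b := by
  simp only [NS, SP, SPD, ic_eq]; push_cast; ring

/-- `u` lies in the piece `m` -/
def InP (m : ℕ) (u q : ℝ) : Prop := ∀ z ∈ pc m u q, 0 ≤ z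

theorem inP1 : InP 1 u q ↔ q ≤ u ∧ u ≤ 2 * q := by simp [InP, pc, ic_eq]
theorem inP2 : InP 2 u q ↔ 2 * q ≤ u ∧ u ≤ 4 * q := by simp [InP, pc, ic_eq]
theorem inP3 : InP 3 u q ↔ 4 * q ≤ u ∧ u ≤ 5 * q := by simp [InP, pc, ic_eq]
theorem inP4 : InP 4 u q ↔ 5 * q ≤ u := by simp [InP, pc, ic_eq]

theorem phi_eq (m1 : 1 ≤ m) (m4 : m ≤ 4) (hq : 0 ≤ q) (h : InP m u q)
    (he : e = 6000000 * Real.exp (-b)) : phi m b e u q = 6000000 * Phi b u (4 * q) := by
  subst he
  interval_cases m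
  · obtain ⟨h1, h2⟩ := inP1.1 h
    rw [Phi_P1 (by linarith) (by linarith)]
    simp only [phi, ZZ_eq, SM_eq, ic_eq]; push_cast; ring
  · obtain ⟨h1, h2⟩ := inP2.1 h
    rw [Phi_P2 (by linarith) (by linarith)]
    simp only [phi, SM_eq, ic_eq]; push_cast; ring
  · obtain ⟨h1, h2⟩ := inP3.1 h
    rw [Phi_P3 (by linarith) (by linarith)]
    simp only [phi, SP_eq, ic_eq]; push_cast; ring
  · have h1 := inP4.1 h
    rw [Phi_P4 (by linarith) (by linarith)]
    simp only [phi, ZZ_eq, SP_eq, ic_eq]; push_cast; ring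

theorem pib_eq (m1 : 2 ≤ m) (m4 : m ≤ 4) (hq : 0 ≤ q) (h : InP m u q)
    (he : e = 6000000 * Real.exp (-b)) : pib m b e u q = 6000000 * (b * Pi b u (4 * q)) := by
  subst he
  interval_cases m
  · obtain ⟨h1, h2⟩ := inP2.1 h
    rw [Pi_P2 (by linarith) (by linarith)]
    simp only [pib, SMD_eq, ic_eq]; push_cast; ring
  · obtain ⟨h1, h2⟩ := inP3.1 h
    rw [Pi_P3 (by linarith) (by linarith)]
    simp only [pib, SPD_eq, ic_eq]; push_cast; ring
  · have h1 := inP4.1 h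
    rw [Pi_P4 (by linarith) (by linarith)]
    simp only [pib, ZZ_eq, SPD_eq, ic_eq]; push_cast; ring

theorem nn_add (m1 : 2 ≤ m) (m4 : m ≤ 4) (b e u q : ℝ) :
    nn m b e u q = pib m b e u q + phi m b e u q := by
  interval_cases m <;>
  · simp only [nn, pib, phi, NS2_eq, NS3_eq, ic_eq]; push_cast; ring

theorem nn_eq (m1 : 2 ≤ n) (m4 : n ≤ 4) (hq : 0 ≤ q) (h : InP n c q)
    (he : e = 6000000 * Real.exp (-b)) : nn n b e c q = 6000000 * N b c (4 * q) := by
  rw [nn_add m1 m4, pib_eq m1 m4 hq h he, phi_eq (by omega) m4 hq h he, N]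
  ring

theorem nn_lin (m1 : 2 ≤ n) (m4 : n ≤ 4) (b e c x q : ℝ) :
    nn n b e c q = nn n b e x q + (c - x) * NS n b := by
  interval_cases n
  · simp only [nn]; ring
  · simp only [nn]; ring
  · simp only [nn, NS]; ring

section Aux

variable (h0 : 0 ≤ b) (h1' : b ≤ 1)
include h0 h1'

theorem NS_nonneg (n : ℕ) : 0 ≤ NS n b := by
  have h := aux_nonneg h0 h1' le_rfl zero_le_one
  rcases n with _ | _ | _ | _ | n
  · simp [NS, ZZ_eq]
  · simp [NS, ZZ_eq]
  · exact h _ (by simp [aux])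
  · exact h _ (by simp [aux])
  · simp [NS, ZZ_eq]

theorem et2_nonneg : 0 ≤ et2 b := aux_nonneg h0 h1' le_rfl zero_le_one _ (by simp [aux])
theorem et4_nonneg : 0 ≤ et4 b := aux_nonneg h0 h1' le_rfl zero_le_one _ (by simp [aux])
theorem kp_nonneg : 0 ≤ kp b := aux_nonneg h0 h1' le_rfl zero_le_one _ (by simp [aux])

theorem sm_sp : 2 * sm b + sp b ≤ 3 * (1 - b) := by
  have h := aux_nonneg h0 h1' le_rfl zero_le_one
  simp only [aux, List.forall_mem_cons] at h
  have k := mul_nonneg (sub_nonneg.2 h1') h.2.2.2.2.2.1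
  simp only [ic_eq] at k
  push_cast at k
  simp only [sm, sp]
  linarith

theorem h1_nonneg (m1 : 2 ≤ m) (m4 : m ≤ 4) (hq : 0 ≤ q) (h : InP m u q) (he : 0 ≤ e) :
    0 ≤ h1 m b e u q := by
  have k2 := et2_nonneg h0 h1'
  have k4 := et4_nonneg h0 h1'
  interval_cases m
  · obtain ⟨a1, a2⟩ := inP2.1 h
    have := sub_nonneg.2 a1
    have := sub_nonneg.2 a2
    simp only [h1, ic_eq]; push_cast; positivity
  · obtain ⟨a1, a2⟩ := inP3.1 h
    have := sub_nonneg.2 a1
    have := sub_nonneg.2 a2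
    simp only [h1, ic_eq]; push_cast; positivity
  · simp only [h1, ic_eq]; push_cast; positivity

theorem h2_nonneg (m1 : 2 ≤ m) (m4 : m ≤ 4) (h : InP m u q) : 0 ≤ h2 m b u q := by
  have k := kp_nonneg h0 h1'
  interval_cases m
  · obtain ⟨a1, a2⟩ := inP2.1 h
    have := sub_nonneg.2 a1
    simp only [h2, ic_eq]; push_cast; positivity
  · obtain ⟨a1, a2⟩ := inP3.1 h
    have := sub_nonneg.2 a2
    simp only [h2, ic_eq]; push_cast; positivity
  · simp [h2, ic_eq]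

/-- the three node inequalities -/
theorem nodes (w0 : 0 ≤ w) (w1 : w ≤ 1) :
    6000000 * Real.exp (-(b * (1 - w))) ≤ 6000000 * Real.exp (-b) * (1 + b * w + (b * w) ^ 2 / 2) +
      (b * w) ^ 3 * kp b ∧
    6000000 * (Real.exp (-(b * (1 - w))) - sm (b * (1 - w)) / 2) ≤
      6000000 * (Real.exp (-b) - sm b / 2 + b * w * (Real.exp (-b) + smd b / 2)) +
      (b * w) ^ 2 * et2 b ∧
    6000000 * (Real.exp (-(b * (1 - w))) + sp (b * (1 - w)) / 4) ≤
      6000000 * (Real.exp (-b) + sp b / 4 + b * w * (Real.exp (-b) - spd b / 4)) +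
      (b * w) ^ 2 * et4 b := by
  have h := aux_nonneg h0 h1' w0 w1
  simp only [aux, List.forall_mem_cons] at h
  obtain ⟨-, -, -, -, -, -, a1, a2, a3, -⟩ := h
  have hx0 : 0 ≤ b * w := mul_nonneg h0 w0
  have hxb : b * w ≤ b := by nlinarith
  have e1 : Real.exp (-(b * (1 - w))) = Real.exp (-b) * Real.exp (b * w) := by
    rw [← Real.exp_add]; congr 1; ring
  have e2 : b * (1 - w) = b - b * w := by ring
  have hE := (EB_le h0 h1').2
  have hE0 := (Real.exp_pos (-b)).le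
  rw [e1, e2]
  simp only [ic_eq] at a1 a2 a3
  push_cast at a1 a2 a3
  generalize b * w = x at *
  generalize EB b 1 = Eh at *
  generalize Real.exp (-b) = E at *
  have hx : Real.exp x ≤ 1 + x + x ^ 2 / 2 + x ^ 3 / 6 + 19 * x ^ 4 / 360 := by
    have := exp_le5 hx0 (hxb.trans h1')
    nlinarith [mul_nonneg (pow_nonneg hx0 4) (sub_nonneg.2 (hxb.trans h1')), pow_nonneg hx0 4]
  have k := mul_le_mul_of_nonneg_left hx hE0
  have k2 : 10000 * E * (x ^ 2 * (180 + x * (60 + 19 * x))) ≤ Eh * (x ^ 2 * (180 + x * (60 + 19 * x))) :=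
    mul_le_mul_of_nonneg_right hE (by positivity)
  refine ⟨?_, ?_, ?_⟩
  · have k3 : 10000 * E * (x ^ 3 * (60 + 19 * b)) ≤ Eh * (x ^ 3 * (60 + 19 * b)) :=
      mul_le_mul_of_nonneg_right hE (by positivity)
    have k4 := mul_nonneg (pow_nonneg hx0 3) a1
    have k5 := mul_nonneg (mul_nonneg hE0 (pow_nonneg hx0 3)) (sub_nonneg.2 hxb)
    nlinarith
  · have k4 := mul_nonneg (pow_nonneg hx0 2) a2
    simp only [sm, smd]
    nlinarith
  · have k4 := mul_nonneg (pow_nonneg hx0 2) a3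
    simp only [sp, spd]
    nlinarith

theorem S_hat (m1 : 2 ≤ m) (m4 : m ≤ 4) (hq : 0 ≤ q) (h : InP m u q)
    (he : e = 6000000 * Real.exp (-b)) (w0 : 0 ≤ w) (w1 : w ≤ 1) :
    6000000 * S b u (4 * q) w ≤ pib m b e u q + w * h1 m b e u q + w ^ 2 * h2 m b u q := by
  rcases w0.eq_or_lt with rfl | hw
  · rw [S_zero, pib_eq m1 m4 hq h he]; simp
  refine le_of_mul_le_mul_left ?_ hw
  rw [mul_left_comm, mul_S, mul_sub, ← phi_eq (by omega) m4 hq h he,
    ← phi_eq (by omega) m4 hq h rfl]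
  obtain ⟨a1, a2, a3⟩ := nodes h0 h1' w0 w1
  subst he
  interval_cases m
  · obtain ⟨c1, c2⟩ := inP2.1 h
    have k1 := mul_le_mul_of_nonneg_left a1 (sub_nonneg.2 c1)
    have k2 := mul_le_mul_of_nonneg_left a2 (sub_nonneg.2 c2)
    simp only [phi, pib, h1, h2, SM_eq, SMD_eq, ic_eq]; push_cast
    linarith
  · obtain ⟨c1, c2⟩ := inP3.1 h
    have k1 := mul_le_mul_of_nonneg_left a1 (sub_nonneg.2 c2)
    have k2 := mul_le_mul_of_nonneg_left a3 (sub_nonneg.2 c1)
    simp only [phi, pib, h1, h2, SP_eq, SPD_eq, ic_eq]; push_cast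
    linarith
  · have k2 := mul_le_mul_of_nonneg_left a3 hq
    simp only [phi, pib, h1, h2, SP_eq, SPD_eq, ZZ_eq, ic_eq]; push_cast
    linarith

theorem Gf_ge {gt : ℕ} {ds : ℝ} (hq : 0 ≤ q) (h : ∀ z ∈ gc gt ds q, 0 ≤ z)
    (he : e = 6000000 * Real.exp (-b)) : 6000000 * Phi b ds (4 * q) ≤ Gf gt b e ds q := by
  rcases gt with _ | _ | gt
  · have := Phi_le ds (t := 4 * q) (by linarith) ⟨h0, h1'⟩
    simp only [Gf, ZZ_eq]
    linarith
  · exact (phi_eq le_rfl (by norm_num) hq h he).ge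
  · have k : 2 * q ≤ ds := by simpa [gc, ic_eq] using h
    have s1 := (sm_mem h0 h1').2
    have s2 := sm_sp h0 h1'
    subst he
    simp only [Gf, ZZ_eq, SM_eq, ic_eq]; push_cast
    rcases le_total ds (4 * q) with k1 | k1
    · rw [Phi_P2 (by linarith) k1]
      nlinarith [mul_le_mul_of_nonneg_left s1 (sub_nonneg.2 k)]
    rcases le_total ds (5 * q) with k2 | k2
    · rw [Phi_P3 k1 (by linarith)]
      nlinarith [mul_le_mul_of_nonneg_left s1 (sub_nonneg.2 k2),
        mul_le_mul_of_nonneg_left s2 (sub_nonneg.2 k1)]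
    · rw [Phi_P4 (by linarith) (by linarith)]
      nlinarith [mul_le_mul_of_nonneg_left s2 hq]

end Aux

end Crest.Agent.R310.H16
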