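import Crest.Agent.R310.H16Real

/-! # Row 310, certificate H16: one side is bounded by its candidates -/

set_option autoImplicit false

open Set

namespace Crest.Agent.R310.H16

open Des

variable {b e a u q ds G g T c K : ℝ} {m md ms me n : ℕ}

theorem sideZ (hq : 0 ≤ q) (hb : b ∈ Icc (0 : ℝ) 1) (ha : a ≤ 1) (hu : 0 < u)
    (hg : g = 6000000 * ds - G)
    (hI : 6000000 * u - 6000000 * Phi b u (4 * q) - a * (6000000 * (u - ds)) ≤ T)
    (hB : ∀ w K, 0 ≤ w → w ≤ 1 → 0 ≤ K → K < 1 → K = max 0 (Kl u 60 w) →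
      6000000 * S b u (4 * q) w * (1 - a * K) + a * K * g +
        a * (G - 6000000 * Phi b u (4 * q)) ≤ T)
    (hC : ∀ K c, 60 ≤ c → c ≤ 100 → c ≤ u → 2 * c * K = 5 * (c - 60) →
      (6000000 * N b c (4 * q) - 6000000 * Phi b u (4 * q)) * (1 - a * K) + a * K * g +
        a * (G - 6000000 * Phi b u (4 * q)) ≤ T)
    (h0 : 0 ≤ K) (h1 : K ≤ 1) (hc : c * (1 - 2 / 5 * K) = 60) :
    6000000 * (Lam b u (4 * q) c * (1 - a * K)) + a * K * g +
      a * (G - 6000000 * Phi b u (4 * q)) ≤ T := by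
  subst hg
  have := side (H := T / 6000000 - a * (ds - Phi b u (4 * q))) (g := ds - G / 6000000)
    (by linarith : 0 ≤ 4 * q) hb ha hu (by norm_num : (0 : ℝ) < 60) (by linarith)
    (fun w w0 w1 hw => by
      have := hB w _ w0 w1 (le_max_left _ _) (max_lt one_pos hw) rfl
      linarith)
    (fun K k0 k1 hK => by
      have h5 : 0 < 5 - 2 * K := by linarith
      have := hC K (cK 60 K) (by rw [cK, le_div_iff₀ h5]; linarith)
        (by rw [cK, div_le_iff₀ h5]; linarith) hK.le (by rw [cK]; field_simp; ring)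
      linarith) h0 h1 hc
  linarith

theorem ov_nonneg (hb : b ∈ Icc (0 : ℝ) 1) (ha : a ∈ Icc (0 : ℝ) 1) (l x y : ℝ) :
    0 ≤ ov n b a l x y := by
  have := NS_nonneg hb.1 hb.2 n
  have h4 : 0 ≤ 4 - a := by linarith [ha.2]
  simp only [ov, ic_eq]; push_cast
  exact mul_nonneg (mul_self_nonneg _) (mul_nonneg (mul_nonneg this (mul_self_nonneg _))
    (mul_nonneg (mul_self_nonneg _) h4))

theorem seg_le {P x y : ℝ} (hb : b ∈ Icc (0 : ℝ) 1) (ha : a ∈ Icc (0 : ℝ) 1) (n2 : 2 ≤ n)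
    (n4 : n ≤ 4) (hx : x ≤ c) (hy : c ≤ y)
    (hL : Fc n b e a q P G g x + ov n b a (1 - b) x y ≤ T * (2 * x))
    (hR : Fc n b e a q P G g y + ov n b a b x y ≤ T * (2 * y)) :
    Fc n b e a q P G g c ≤ T * (2 * c) := by
  obtain ⟨θ, t0, t1, rfl⟩ := exists_band hx hy
  have hs := NS_nonneg hb.1 hb.2 n
  simp only [Fc, ov, ic_eq] at *
  push_cast at *
  rw [nn_lin n2 n4 b e y x] at hR
  rw [nn_lin n2 n4 b e _ x]
  generalize nn n b e x q = n0 at *
  generalize NS n b = s at *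
  have k1 := mul_le_mul_of_nonneg_left hL (sub_nonneg.2 t1)
  have k2 := mul_le_mul_of_nonneg_left hR t0
  have a2 : 0 ≤ 2 - a := by linarith [ha.2]
  have a4 : 0 ≤ 4 - a := by linarith [ha.2]
  have k3 : 0 ≤ (y - x) ^ 2 * s * (θ * (1 - θ)) * ((1 - a) ^ 2 * (2 - a)) := by
    have := sub_nonneg.2 t1
    positivity
  have k4 : 0 ≤ (y - x) ^ 2 * s * (1 - b - θ) ^ 2 * (a ^ 2 * (4 - a)) := by positivity
  linarith

theorem seg_mem {ce : ℕ} (s2 : 2 ≤ ms) (se : ms ≤ me) (e4 : me ≤ 4) (hs : InP ms 60 q)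
    (he : InP me (bp ce u q) q) (h0 : 60 ≤ c) (h1 : c ≤ bp ce u q) :
    ∃ x y n, Cd.CL x y n ∈ segs ms me ce ∧ Cd.CR x y n ∈ segs ms me ce ∧ 2 ≤ n ∧ n ≤ 4 ∧
      InP n c q ∧ bp x u q ≤ c ∧ c ≤ bp y u q := by
  have b0 : bp 0 u q = 60 := by simp [bp, ic_eq]
  have b1 : bp 1 u q = 4 * q := by simp [bp, ic_eq]
  have b2 : bp 2 u q = 5 * q := by simp [bp, ic_eq]
  have s4 := se.trans e4
  interval_cases ms <;> interval_cases me
  · exact ⟨0, ce, 2, by simp [segs], by simp [segs], le_rfl, by norm_num,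
      inP2.2 ⟨(inP2.1 hs).1.trans h0, h1.trans (inP2.1 he).2⟩, b0 ▸ h0, h1⟩
  · rcases le_total c (4 * q) with k | k
    · exact ⟨0, 1, 2, by simp [segs], by simp [segs], le_rfl, by norm_num,
        inP2.2 ⟨(inP2.1 hs).1.trans h0, k⟩, b0 ▸ h0, b1 ▸ k⟩
    · exact ⟨1, ce, 3, by simp [segs], by simp [segs], by norm_num, by norm_num,
        inP3.2 ⟨k, h1.trans (inP3.1 he).2⟩, b1 ▸ k, h1⟩
  · rcases le_total c (4 * q) with k | k
    · exact ⟨0, 1, 2, by simp [segs], by simp [segs], le_rfl, by norm_num,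
        inP2.2 ⟨(inP2.1 hs).1.trans h0, k⟩, b0 ▸ h0, b1 ▸ k⟩
    rcases le_total c (5 * q) with k' | k'
    · exact ⟨1, 2, 3, by simp [segs], by simp [segs], by norm_num, by norm_num,
        inP3.2 ⟨k, k'⟩, b1 ▸ k, b2 ▸ k'⟩
    · exact ⟨2, ce, 4, by simp [segs], by simp [segs], by norm_num, le_rfl, inP4.2 k', b2 ▸ k', h1⟩
  · exact ⟨0, ce, 3, by simp [segs], by simp [segs], by norm_num, by norm_num,
      inP3.2 ⟨(inP3.1 hs).1.trans h0, h1.trans (inP3.1 he).2⟩, b0 ▸ h0, h1⟩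
  · rcases le_total c (5 * q) with k' | k'
    · exact ⟨0, 2, 3, by simp [segs], by simp [segs], by norm_num, by norm_num,
        inP3.2 ⟨(inP3.1 hs).1.trans h0, k'⟩, b0 ▸ h0, b2 ▸ k'⟩
    · exact ⟨2, ce, 4, by simp [segs], by simp [segs], by norm_num, le_rfl, inP4.2 k', b2 ▸ k', h1⟩
  · exact ⟨0, ce, 4, by simp [segs], by simp [segs], by norm_num, le_rfl,
      inP4.2 ((inP4.1 hs).trans h0), b0 ▸ h0, h1⟩

theorem segs_den {ce : ℕ} (s2 : 2 ≤ ms) (se : ms ≤ me) (e4 : me ≤ 4) (hs : InP ms 60 q)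
    (h : 0 < bp ce u q) : ∀ z ∈ segs ms me ce, 0 < den z u q := by
  have b0 : bp 0 u q = 60 := by simp [bp, ic_eq]
  have b1 : bp 1 u q = 4 * q := by simp [bp, ic_eq]
  have b2 : bp 2 u q = 5 * q := by simp [bp, ic_eq]
  have s4 := se.trans e4
  have hq : ms < 4 → 0 < q := fun k => by
    interval_cases ms
    · linarith [(inP2.1 hs).2]
    · linarith [(inP3.1 hs).2]
  interval_cases ms <;> interval_cases me <;>
    simp [segs, den, b0, b1, b2, ic_eq, h, hq]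

theorem seg_last (s2 : 2 ≤ ms) (se : ms ≤ me) (e4 : me ≤ 4) : ∃ x, Cd.CR x 3 me ∈ segs ms me 3 := by
  have s4 := se.trans e4
  interval_cases ms <;> interval_cases me
  exacts [⟨0, by simp [segs]⟩, ⟨1, by simp [segs]⟩, ⟨2, by simp [segs]⟩, ⟨0, by simp [segs]⟩,
    ⟨2, by simp [segs]⟩, ⟨0, by simp [segs]⟩]

/-- the candidates of the segments bound the term `C` -/
theorem segs_le {ce : ℕ} (hq : 0 ≤ q) (hb : b ∈ Icc (0 : ℝ) 1) (ha : a ∈ Icc (0 : ℝ) 1)
    (he' : e = 6000000 * Real.exp (-b)) (s2 : 2 ≤ ms) (se : ms ≤ me) (e4 : me ≤ 4)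
    (hs : InP ms 60 q) (he : InP me (bp ce u q) q)
    (H : ∀ z ∈ segs ms me ce, num z m b e a u q ds G g ≤ T * den z u q) (h0 : 60 ≤ c)
    (h1 : c ≤ bp ce u q) (hK : 2 * c * K = 5 * (c - 60)) :
    (6000000 * N b c (4 * q) - phi m b e u q) * (1 - a * K) + a * K * g +
      a * (G - phi m b e u q) ≤ T := by
  obtain ⟨x, y, n, hL, hR, n2, n4, hn, hx, hy⟩ := seg_mem s2 se e4 hs he h0 h1
  have := seg_le hb ha n2 n4 hx hy (by simpa [num, den, ic_eq] using H _ hL)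
    (by simpa [num, den, ic_eq] using H _ hR)
  simp only [Fc, ic_eq] at this
  push_cast at this
  rw [nn_eq n2 n4 hq hn he', ← hK] at this
  refine le_of_mul_le_mul_right ?_ (by linarith : 0 < 2 * c)
  linarith

theorem lemB1 {p h₁ h₂ s A w K : ℝ} (ha : a ∈ Icc (0 : ℝ) 1) (u0 : 36 ≤ u)
    (p1 : 0 ≤ h₁) (p2 : 0 ≤ h₂) (w0 : 0 ≤ w) (w1 : w ≤ 1) (k1 : K < 1)
    (hK : K = max 0 (Kl u 60 w)) (hs : s ≤ p + w * h₁ + w ^ 2 * h₂)
    (hB0 : 576 * (p + A) + (60 - u) * (24 * h₁ + (60 - u) * h₂) ≤ T * 576)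
    (hBL : 48 * u * (p + h₁ + h₂ + A) - (5 * u - 180) * (a * (24 * (p - g) + (60 - u) * h₁)) ≤
      T * (48 * u)) : s * (1 - a * K) + a * K * g + A ≤ T := by
  have hu : 0 < u := by linarith
  obtain ⟨v, hv⟩ : ∃ v, 60 - u = 24 * v := ⟨(60 - u) / 24, by ring⟩
  have eK : Kl u 60 w = 60 * (w - v) / u := by
    rw [Kl]; field_simp; linarith
  rw [hv] at hB0 hBL
  rcases le_total w v with h | h
  · rw [hK, eK, max_eq_left (div_nonpos_of_nonpos_of_nonneg (by linarith) hu.le)]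
    nlinarith [mul_le_mul_of_nonneg_right h p1,
      mul_le_mul_of_nonneg_right (pow_le_pow_left₀ w0 h 2) p2]
  · obtain ⟨θ, t0, t1, rfl⟩ := exists_band h w1
    obtain ⟨L, hL⟩ : ∃ L, 5 * u - 180 = 2 * u * L := ⟨(5 * u - 180) / (2 * u), by field_simp⟩
    have e2 : K = θ * L := by
      rw [hK, eK, max_eq_right (div_nonneg (by linarith) hu.le), div_eq_iff hu.ne']
      linear_combination θ / 2 * hL + 5 / 2 * θ * hv
    have k0 : 0 ≤ K := hK ▸ le_max_left _ _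
    have hBL' : p + h₁ + h₂ + A - L * (a * (p - g + v * h₁)) ≤ T := by
      rw [hL] at hBL
      refine le_of_mul_le_mul_right ?_ (by linarith : 0 < 48 * u)
      linarith
    have aK : 0 ≤ a * K := mul_nonneg ha.1 k0
    have j1 := mul_le_mul_of_nonneg_right hs
      (sub_nonneg.2 (mul_le_one₀ ha.2 k0 k1.le))
    have j2 := mul_le_mul_of_nonneg_left hB0 (sub_nonneg.2 t1)
    have j3 := mul_le_mul_of_nonneg_left hBL' t0
    have j4 := mul_nonneg aK (mul_nonneg (sub_nonneg.2 h) p1)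
    have j5 := mul_nonneg aK (mul_nonneg (sq_nonneg (v + θ * (1 - v))) p2)
    have j6 := mul_nonneg (mul_nonneg (mul_nonneg t0 (sub_nonneg.2 t1)) (sq_nonneg (1 - v))) p2
    subst e2
    linarith

theorem lemB2 {p h₁ h₂ s A w K : ℝ} (ha : a ∈ Icc (0 : ℝ) 1) (u0 : 60 ≤ u)
    (p1 : 0 ≤ h₁) (p2 : 0 ≤ h₂) (w0 : 0 ≤ w) (w1 : w ≤ 1) (k1 : K < 1)
    (hK : K = max 0 (Kl u 60 w)) (hs : s ≤ p + w * h₁ + w ^ 2 * h₂)
    (hC : p * (2 * u - a * (5 * (u - 60))) + 5 * (u - 60) * (a * g) + 2 * u * A ≤ T * (2 * u))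
    (hBH : 40 * (p * (1 - a) + A + a * g) + (100 - u) * (h₁ + h₂) ≤ T * 40) :
    s * (1 - a * K) + a * K * g + A ≤ T := by
  have hu : 0 < u := by linarith
  obtain ⟨v, hv⟩ : ∃ v, 100 - u = 40 * v := ⟨(100 - u) / 40, by ring⟩
  obtain ⟨L, hL⟩ : ∃ L, 5 * (u - 60) = 2 * u * L := ⟨5 * (u - 60) / (2 * u), by field_simp⟩
  have eK : Kl u 60 w = (5 * (u - 60) + 120 * w) / (2 * u) := by
    rw [Kl]; field_simp; ring
  have k0 : 0 ≤ K := hK ▸ le_max_left _ _
  rw [eK, max_eq_right (div_nonneg (by linarith) (by linarith)), eq_div_iff (by positivity)] at hK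
  have h : w ≤ v := by nlinarith
  obtain ⟨θ, t0, t1, rfl⟩ := exists_band w0 h
  have e2 : K = L + θ * (1 - L) := by
    refine mul_right_cancel₀ (by positivity : 2 * u ≠ 0) ?_
    linear_combination hK + (1 - θ) * hL - 3 * θ * hv
  have hC' : p * (1 - a * L) + L * (a * g) + A ≤ T := by
    rw [hL] at hC
    refine le_of_mul_le_mul_right ?_ (by linarith : 0 < 2 * u)
    linarith
  rw [hv] at hBH
  have aK : 0 ≤ a * K := mul_nonneg ha.1 k0
  have hs' : s ≤ p + (0 + θ * (v - 0)) * (h₁ + h₂) := by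
    nlinarith [mul_nonneg (mul_nonneg w0 (sub_nonneg.2 w1)) p2]
  have j1 := mul_le_mul_of_nonneg_right hs' (sub_nonneg.2 (mul_le_one₀ ha.2 k0 k1.le))
  have j2 := mul_le_mul_of_nonneg_left hC' (sub_nonneg.2 t1)
  have j3 := mul_le_mul_of_nonneg_left hBH t0
  have j4 := mul_nonneg aK (mul_nonneg w0 (add_nonneg p1 p2))
  subst e2
  linarith

theorem side_sound (hk : sok m md ms me = true) (hc : ∀ z ∈ sc m md ms me u q, 0 ≤ z)
    (hq : 0 ≤ q) (hb : b ∈ Icc (0 : ℝ) 1) (ha : a ∈ Icc (0 : ℝ) 1)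
    (he : e = 6000000 * Real.exp (-b)) (hg : g = 6000000 * ds - G) :
    Cd.I ∈ cds m md ms me ∧ (∀ z ∈ cds m md ms me, 0 < den z u q) ∧
    ∀ T, (∀ z ∈ cds m md ms me, num z m b e a u q ds G g ≤ T * den z u q) →
      6000000 * u - 6000000 * Phi b u (4 * q) - a * (6000000 * (u - ds)) ≤ T ∧
      ∀ K c, 0 ≤ K → K ≤ 1 → c * (1 - 2 / 5 * K) = 60 →
        6000000 * (Lam b u (4 * q) c * (1 - a * K)) + a * K * g +
          a * (G - 6000000 * Phi b u (4 * q)) ≤ T := by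
  have e0 : 0 ≤ e := by rw [he]; positivity
  rcases md with _ | _ | _ | md
  · simp only [sok, Bool.and_eq_true, Nat.ble_eq] at hk
    have hP := phi_eq hk.1 hk.2 hq hc he
    refine ⟨by simp [cds], by simp [cds, den, ic_eq], fun T H => ?_⟩
    simp only [cds, List.forall_mem_cons, num, den, hP, ZZ_eq, ic_eq] at H
    push_cast at H
    refine ⟨by linarith [H.1], fun K c k0 k1 _ => ?_⟩
    have j1 := mul_le_mul_of_nonneg_right (Lam_le (u := u) (c := c) (by linarith : 0 ≤ 4 * q) hb)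
      (sub_nonneg.2 (mul_le_one₀ ha.2 k0 k1))
    have j2 := mul_le_mul_of_nonneg_left H.1 k0
    have j3 := mul_le_mul_of_nonneg_left H.2.1 (sub_nonneg.2 k1)
    subst hg
    linarith
  · simp only [sok, Bool.and_eq_true, Nat.ble_eq] at hk
    simp only [sc, List.forall_mem_cons, ic_eq] at hc
    push_cast at hc
    obtain ⟨c1, c2, hm⟩ := hc
    have hP := phi_eq (by omega) hk.2 hq hm he
    have hu : 0 < u := by linarith
    refine ⟨by simp [cds], by simp [cds, den, ic_eq, hu], fun T H => ?_⟩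
    simp only [cds, List.forall_mem_cons, num, den, hP, ZZ_eq, ic_eq] at H
    push_cast at H
    have hI := H.1.trans_eq (mul_one T)
    refine ⟨hI, fun K c => sideZ hq hb ha.2 hu hg hI (fun w K w0 w1 _ k1 hK => ?_)
      fun K c k0 _ k1 hK => ?_⟩
    · exact lemB1 ha (by linarith) (h1_nonneg hb.1 hb.2 hk.1 hk.2 hq hm e0)
        (h2_nonneg hb.1 hb.2 hk.1 hk.2 hm) w0 w1 k1 hK (S_hat hb.1 hb.2 hk.1 hk.2 hq hm he w0 w1)
        H.2.1 H.2.2.1
    · obtain rfl : c = u := le_antisymm k1 (by linarith)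
      obtain rfl : c = 60 := le_antisymm (by linarith) k0
      obtain rfl : K = 0 := by linarith
      have := H.2.1
      rw [← nn_eq hk.1 hk.2 hq hm he, nn_add hk.1 hk.2, hP]
      linarith
  · simp only [sok, Bool.and_eq_true, Nat.ble_eq] at hk
    obtain ⟨⟨s2, sm⟩, m4⟩ := hk
    simp only [sc, List.forall_mem_cons, List.forall_mem_append, ic_eq] at hc
    push_cast at hc
    obtain ⟨c1, c2, hm, hs⟩ := hc
    have m2 := s2.trans sm
    have hP := phi_eq (by omega) m4 hq hm he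
    have hu : 0 < u := by linarith
    refine ⟨by simp [cds], ?_, fun T H => ?_⟩
    · simp only [cds, List.forall_mem_cons]
      exact ⟨by simp [den, ic_eq], by simp [den, ic_eq], segs_den s2 sm m4 hs hu⟩
    simp only [cds, List.forall_mem_cons] at H
    obtain ⟨hI, hH, H⟩ := H
    obtain ⟨x, hx⟩ := seg_last s2 sm m4
    have hR := H _ hx
    simp only [num, den, Fc, show bp 3 u q = u from rfl, nn_add m2 m4, add_sub_cancel_right, hP,
      ZZ_eq, ic_eq] at hI hH hR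
    push_cast at hI hH hR
    rw [mul_one] at hI
    refine ⟨hI, fun K c => sideZ hq hb ha.2 hu hg hI (fun w K w0 w1 _ k1 hK => ?_)
      fun K c k0 _ k1 hK => ?_⟩
    · exact lemB2 ha (by linarith) (h1_nonneg hb.1 hb.2 m2 m4 hq hm e0)
        (h2_nonneg hb.1 hb.2 m2 m4 hm) w0 w1 k1 hK (S_hat hb.1 hb.2 m2 m4 hq hm he w0 w1)
        (by linarith [ov_nonneg (n := m) hb ha b (bp x u q) u]) hH
    · exact hP ▸ segs_le (ce := 3) hq hb ha he s2 sm m4 hs hm H k0 k1 hK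
  · simp only [sok, Bool.and_eq_true, Nat.ble_eq] at hk
    obtain ⟨⟨⟨⟨s2, se⟩, e4⟩, m1⟩, m4⟩ := hk
    simp only [sc, List.forall_mem_cons, List.forall_mem_append, ic_eq] at hc
    push_cast at hc
    obtain ⟨c1, hm, hs, hE⟩ := hc
    have hP := phi_eq m1 m4 hq hm he
    have hu : 0 < u := by linarith
    have b4 : bp 4 u q = 100 := by simp [bp, ic_eq]
    refine ⟨by simp [cds], ?_, fun T H => ?_⟩
    · simp only [cds, List.forall_mem_cons]
      exact ⟨by simp [den, ic_eq], segs_den s2 se e4 hs (by rw [b4]; norm_num)⟩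
    simp only [cds, List.forall_mem_cons] at H
    obtain ⟨hI, H⟩ := H
    simp only [num, den, hP, ZZ_eq, ic_eq] at hI
    push_cast at hI
    rw [mul_one] at hI
    refine ⟨hI, fun K c => sideZ hq hb ha.2 hu hg hI (fun w K w0 _ _ k1 hK => ?_)
      fun K c k0 k1 _ hK => ?_⟩
    · refine absurd k1 (not_lt.2 (hK ▸ le_max_of_le_right ?_))
      rw [Kl, le_sub_comm, div_le_iff₀ (by linarith)]
      linarith
    · exact hP ▸ segs_le (ce := 4) hq hb ha he s2 se e4 hs (b4 ▸ hE) H k0 (b4 ▸ k1) hK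

end Crest.Agent.R310.H16
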