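import Crest.Agent.R310.H17Cells

/-! # Row 310: certificates (generated by tools/h17/wr.py) -/

set_option autoImplicit false
set_option maxRecDepth 100000
set_option Elab.async false

open Crest.Agent.Lib.PolyBB

namespace Crest.Agent.R310.H17

def p0_0 : List Int := [299953, 601911, 296727, 207, 899239, 1811975, 883206, 1231, 900514, 1787541, 928526, -3254, 300105, 598160, 300872, 204, 342973, 738155, 449132, 53018, 1028958, 1982641, 867478, -96031, 1028838, 1770712, 422105, -384499, 342736, 516651, -3240, -171219, 338288, 676334, 337825, -231, 1042915, 2117063, 1100957, 1641, 1178826, 2453885, 1362168, -2993, 441605, 883337, 441858, 189, 342978, 737041, 449341, 53018, 1026585, 2010758, 860396, -96025, 1029631, 1764549, 418355, -384484, 342740, 516620, -3217, -171219]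

noncomputable def t0_0_0_0 : T := (.leaf 0 [])
noncomputable def t0_0_0_2 : T := (.leaf 2 [])
noncomputable def t0_0_0_3 : T := (.leaf 2 [])
noncomputable def t0_0_0_4 : T := (.leaf 2 [])
noncomputable def t0_0_0_5 : T := (.leaf 0 [0])

theorem far0_0 : (c0.far false p0_0).ok c0.box t0_0_0_0 t0_0_0_2 t0_0_0_3 t0_0_0_4 t0_0_0_5 = true := by
  decide +kernel

noncomputable def t0_0_1_0 : T := (.leaf 0 [])
noncomputable def t0_0_1_2 : T := (.leaf 2 [])
noncomputable def t0_0_1_3 : T := (.leaf 2 [])
noncomputable def t0_0_1_4 : T := (.leaf 2 [])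
noncomputable def t0_0_1_5 : T := (.leaf 0 [0])

theorem near0_0 : (c0.near false p0_0).ok c0.box t0_0_1_0 t0_0_1_2 t0_0_1_3 t0_0_1_4 t0_0_1_5 = true := by
  decide +kernel

def p0_1 : List Int := [-299923, -599247, -300694, -209, -901687, -1782628, -904296, 3141, -898320, -1829711, -887020, -1260, -300070, -598334, -300877, -200, -289955, -529160, -183481, 53019, -894474, -1875165, -1091451, -96040, -1009193, -2409963, -1770904, -384486, -378526, -925879, -722779, -171220, -338520, -674613, -339975, -123, -1041670, -2118865, -1094036, 1182, -1177752, -2492674, -1341643, 347, -441594, -880559, -442435, 1, -289954, -529186, -183580, 53019, -895045, -1856232, -1093949, -96041, -1009281, -2427511, -1768640, -384482, -378522, -925904, -722657, -171223]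

noncomputable def t0_1_0_0 : T := (.leaf 0 [])
noncomputable def t0_1_0_2 : T := (.leaf 2 [])
noncomputable def t0_1_0_3 : T := (.leaf 2 [])
noncomputable def t0_1_0_4 : T := (.leaf 2 [])
noncomputable def t0_1_0_5 : T := (.leaf 0 [0])

theorem far0_1 : (c0.far true p0_1).ok c0.box t0_1_0_0 t0_1_0_2 t0_1_0_3 t0_1_0_4 t0_1_0_5 = true := by
  decide +kernel

noncomputable def t0_1_1_0 : T := (.leaf 0 [])
noncomputable def t0_1_1_2 : T := (.leaf 2 [])
noncomputable def t0_1_1_3 : T := (.leaf 2 [])
noncomputable def t0_1_1_4 : T := (.leaf 2 [])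
noncomputable def t0_1_1_5 : T := (.leaf 0 [0])

theorem near0_1 : (c0.near true p0_1).ok c0.box t0_1_1_0 t0_1_1_2 t0_1_1_3 t0_1_1_4 t0_1_1_5 = true := by
  decide +kernel

def p6_0 : List Int := [0, 0, 0, 0, 423722, 381852, 0, 0, 1862519, -1406738, 0, 0, 353453, 24535, 0, 0, 0, -11585, -66487, -15870, 763982, -426084, 73969, 103596, 709735, 2220134, 44341, 301368, 336691, 784136, -37511, 8795, 13982, 17508, -13745, -3353, 685762, -2391486, 1844371, 6145, 171203, 7286535, -4522396, -154594, 380713, 342145, 118229, 0, 0, -25484, -2458, -23651, 472233, 2450180, -1003677, 169067, 609449, 2305147, -281318, 414971, 618560, -589086, 222713, 6771]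

noncomputable def t6_0_0_0 : T := (dec 3 (nat_lit 0x100000400002c30000010000020001883))
noncomputable def t6_0_0_2 : T := (dec 4 (nat_lit 0x80000200001618000008000010000c4180000000100000200002c5))
noncomputable def t6_0_0_3 : T := (dec 4 (nat_lit 0x2000004000058a00000000000800002000016180000000100000200002c50000010000020002e43))
noncomputable def t6_0_0_4 : T := (.leaf 2 [])
noncomputable def t6_0_0_5 : T := (dec 4 (nat_lit 0x20004000800100000000040000080001e160004000800100000000040000100001e0e000400000000100000200007850000010000020003c83))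

theorem far6_0 : (c6.far false p6_0).ok c6.box t6_0_0_0 t6_0_0_2 t6_0_0_3 t6_0_0_4 t6_0_0_5 = true := by
  decide +kernel

noncomputable def t6_0_1_0 : T := (dec 2 (nat_lit 0x100000200002c3))
noncomputable def t6_0_1_2 : T := (.leaf 2 [])
noncomputable def t6_0_1_3 : T := (dec 5 (nat_lit 0x100000200002c500000000000001800002000016280000000100000200002c50000010000040002e430000010000020004403))
noncomputable def t6_0_1_4 : T := (.leaf 2 [])
noncomputable def t6_0_1_5 : T := (dec 5 (nat_lit 0x200040008001000200040008001000000000c0000100001e16000400000000100000200007850000010000040003c830000010000020005703))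

theorem near6_0 : (c6.near false p6_0).ok c6.box t6_0_1_0 t6_0_1_2 t6_0_1_3 t6_0_1_4 t6_0_1_5 = true := by
  decide +kernel

def p6_1 : List Int := [0, 0, 0, 0, -430993, -206424, 0, 0, -721499, -568404, 0, 0, -331219, 126672, 0, 0, -23711, 20638, -120385, -17501, -132756, -831569, 970074, 99400, -754357, 2236122, -76568, 332113, -524141, 138976, 279253, 6793, -14166, -127427, 39176, 9145, -625749, 3276726, -2026477, -16924, -513548, -6961009, 5894167, -181514, -332401, -778154, 102785, 0, -12942, -110949, -42629, -20469, -241307, 263288, 321437, 126575, -1549821, 2780036, 433109, 283031, -291865, -32861, 221343, 8766]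

noncomputable def t6_1_0_0 : T := (dec 6 (nat_lit 0x100000200002c500000100000c00018830000010000070002e43000001000004000440300000100000200059c3))
noncomputable def t6_1_0_2 : T := (dec 5 (nat_lit 0x2000004000058a00000000000800003800016180000000100000200002c50000010000040002e4300000100000200059c3))
noncomputable def t6_1_0_3 : T := (dec 5 (nat_lit 0x2000004000058a00000000000800003800016180000000100000200002c50000010000040002e4300000100000200059c3))
noncomputable def t6_1_0_4 : T := (.leaf 2 [])
noncomputable def t6_1_0_5 : T := (dec 5 (nat_lit 0x800100020004000800100000000040000080001e1600040008001000000000400001c0001e0e000400000000100000200007850000010000040003c830000010000020007183))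

theorem far6_1 : (c6.far true p6_1).ok c6.box t6_1_0_0 t6_1_0_2 t6_1_0_3 t6_1_0_4 t6_1_0_5 = true := by
  decide +kernel

noncomputable def t6_1_1_0 : T := (dec 3 (nat_lit 0x100000400002c30000010000020001883))
noncomputable def t6_1_1_2 : T := (.leaf 2 [])
noncomputable def t6_1_1_3 : T := (dec 9 (nat_lit 0x40000080000b1400000000000006000008000058a00000200002c000310e0000000040000080000b140000000000000001800001c0000b14000004000094000621c000004000058000b91c0000000000000c00000e000058a00000200002c000310e00000200000e0005c860000000000080000380001618000018000020000c4280000000100000200002c5000001000004000c6830000010000020011d83))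
noncomputable def t6_1_1_4 : T := (.leaf 2 [])
noncomputable def t6_1_1_5 : T := (dec 9 (nat_lit 0x80010002000400000000100000200007858001000200040008001000000000c0000100001e14000004000058000881e00040000000010000020000785800100020004000800100020004000000006000007000078500000100002500022070000010000160003c878001000200040008001000000001800001c0001e14000004000058000881c00000400001c000f20e00040008001000000000400001c0001e0c00000c000010000881600040000000010000020000785000001000004000f6030000010000020016003))

theorem near6_1 : (c6.near true p6_1).ok c6.box t6_1_1_0 t6_1_1_2 t6_1_1_3 t6_1_1_4 t6_1_1_5 = true := by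
  decide +kernel

def p12_0 : List Int := [0, -2694, -2638, -2583, 71814, 139424, -68763, 19266, 179534, -177533, 224024, 40056, 58188, 25578, 10445, 917, 0, -2250, -2367, -2252, 78679, 449403, -191279, 58183, 203687, -270828, 690652, 102347, 62516, 147162, 13124, 2415, 2314, 5459, 8271, -240, 55132, 131952, -187505, 37172, 140668, 205660, 169026, 8598, 66803, 69494, 4455, 1037, 2602, 5377, 10699, 365, 62373, 52474, 82448, 34594, 150505, 630592, 441178, 75425, 74468, 154384, 11030, 2396]

noncomputable def t12_0_0_0 : T := (.leaf 0 [])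
noncomputable def t12_0_0_2 : T := (dec 2 (nat_lit 0x100000200002c3))
noncomputable def t12_0_0_3 : T := (dec 2 (nat_lit 0x100000200002c3))
noncomputable def t12_0_0_4 : T := (.leaf 2 [])
noncomputable def t12_0_0_5 : T := (dec 2 (nat_lit 0x8001000200040000000010000020000783))

theorem far12_0 : (c12.far false p12_0).ok c12.box t12_0_0_0 t12_0_0_2 t12_0_0_3 t12_0_0_4 t12_0_0_5 = true := by
  decide +kernel

noncomputable def t12_0_1_0 : T := (.leaf 0 [])
noncomputable def t12_0_1_2 : T := (.leaf 2 [])
noncomputable def t12_0_1_3 : T := (dec 3 (nat_lit 0x100000400002c30000010000020001883))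
noncomputable def t12_0_1_4 : T := (dec 3 (nat_lit 0x100000400002c30000010000020001883))
noncomputable def t12_0_1_5 : T := (dec 3 (nat_lit 0x2000400080010002000400000000100000400007830000010000020002203))

theorem near12_0 : (c12.near false p12_0).ok c12.box t12_0_1_0 t12_0_1_2 t12_0_1_3 t12_0_1_4 t12_0_1_5 = true := by
  decide +kernel

def p12_1 : List Int := [-1878, -8089, -9161, -2353, -50418, 123231, 4784, 18540, -126044, 102787, 118246, 38676, -59457, 40893, 24652, 1044, -2354, -2087, -6269, -2370, -18548, -133777, 182963, 53711, -106036, -141268, 491556, 81218, -51613, 21749, 67015, 2342, -1868, -12424, 6514, 333, -61943, 252902, -128074, 28647, -45698, -991379, 708433, 8079, -59692, -24974, 41448, 885, -1619, -10481, 9098, 538, -52342, 300875, -419829, 23534, -40964, -925376, 384337, 98340, -51651, -60510, 92631, 2334]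

noncomputable def t12_1_0_0 : T := (dec 2 (nat_lit 0x100000200002c5))
noncomputable def t12_1_0_2 : T := (dec 6 (nat_lit 0x400001c0000b0c000000018000020000162800000800002000172180000000100000200002c500000100000200059c3))
noncomputable def t12_1_0_3 : T := (dec 6 (nat_lit 0x400001c0000b0c000000018000020000162800000800002000172180000000100000200002c500000100000200059c3))
noncomputable def t12_1_0_4 : T := (.leaf 2 [])
noncomputable def t12_1_0_5 : T := (dec 6 (nat_lit 0x80010002000400080010002000400000000100000700007838001000000000c0000100001e14000004000010000f20e000400000000100000200007850000010000020007183))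

theorem far12_1 : (c12.far true p12_1).ok c12.box t12_1_0_0 t12_1_0_2 t12_1_0_3 t12_1_0_4 t12_1_0_5 = true := by
  decide +kernel

noncomputable def t12_1_1_0 : T := (dec 3 (nat_lit 0x100000400002c30000010000020001883))
noncomputable def t12_1_1_2 : T := (.leaf 2 [])
noncomputable def t12_1_1_3 : T := (dec 6 (nat_lit 0x8000010000162800000000006000008000058a0000000000180000200001628000008000038000c4180000000100000200002c500000100000400059c30000010000020008543))
noncomputable def t12_1_1_4 : T := (dec 6 (nat_lit 0x8000010000162800000000006000008000058a0000000000180000200001628000008000038000c4180000000100000200002c500000100000400059c30000010000020008543))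
noncomputable def t12_1_1_5 : T := (dec 6 (nat_lit 0x800100020004000800100000000040000080001e1600040008001000000000c0000100001e1600040008001000000000c0000100001e1400000400001c000880e000400000000100000200007850000010000040007183000001000002000a683))

theorem near12_1 : (c12.near true p12_1).ok c12.box t12_1_1_0 t12_1_1_2 t12_1_1_3 t12_1_1_4 t12_1_1_5 = true := by
  decide +kernel

def p18_0 : List Int := [103423, 271390, 331296, 99576, 276911, 1142845, 100359, 123487, 396038, 490967, 714255, -3572, 129954, 218209, 49555, -21727, 102149, 273960, 315723, 98826, 321342, 635591, 702994, 80315, 289593, 1023088, -45840, -18814, 116966, 160426, 46691, -45906, 103360, 273633, 320873, 99642, 326347, 679714, 601502, 115803, 319842, 848484, 272892, 10558, 134142, 184205, 81715, -23925, 109641, 286459, 332351, 102352, 340703, 841150, 721684, 145968, 345552, 724599, 473780, 75905, 141353, 211394, 85034, -9801]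

noncomputable def t18_0_0_0 : T := (.leaf 0 [])
noncomputable def t18_0_0_2 : T := (.leaf 2 [])
noncomputable def t18_0_0_3 : T := (.leaf 2 [])
noncomputable def t18_0_0_4 : T := (.leaf 2 [])
noncomputable def t18_0_0_5 : T := (.leaf 0 [64])

theorem far18_0 : (c18.far false p18_0).ok c18.box t18_0_0_0 t18_0_0_2 t18_0_0_3 t18_0_0_4 t18_0_0_5 = true := by
  decide +kernel

noncomputable def t18_0_1_0 : T := (.leaf 0 [])
noncomputable def t18_0_1_2 : T := (.leaf 2 [])
noncomputable def t18_0_1_3 : T := (.leaf 2 [])
noncomputable def t18_0_1_4 : T := (.leaf 2 [])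
noncomputable def t18_0_1_5 : T := (dec 2 (nat_lit 0x10003800cc030000000010000020000705))

theorem near18_0 : (c18.near false p18_0).ok c18.box t18_0_1_0 t18_0_1_2 t18_0_1_3 t18_0_1_4 t18_0_1_5 = true := by
  decide +kernel

def p18_1 : List Int := [0, 107935, 187473, 99984, -123622, 52816, 42323, 92260, -182730, -516779, 203226, 12164, -90763, -88959, -108179, -24530, 0, 97336, 197414, 97680, -112114, 9762, 159500, 118682, -187945, -293863, -219563, -60754, -82624, -154725, -146255, -42392, 0, 96840, 206092, 104218, -114894, -87446, 372721, 65428, -217012, -41287, -309556, 47386, -89564, -100625, -97725, -24564, -3702, 94748, 189800, 107350, -61073, 181850, 449797, 138275, -173988, 54154, 66915, 75390, -82570, -20284, -20329, -11614]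

noncomputable def t18_1_0_0 : T := (.leaf 0 [])
noncomputable def t18_1_0_2 : T := (.leaf 2 [])
noncomputable def t18_1_0_3 : T := (.leaf 2 [])
noncomputable def t18_1_0_4 : T := (.leaf 2 [])
noncomputable def t18_1_0_5 : T := (.leaf 0 [64])

theorem far18_1 : (c18.far true p18_1).ok c18.box t18_1_0_0 t18_1_0_2 t18_1_0_3 t18_1_0_4 t18_1_0_5 = true := by
  decide +kernel

noncomputable def t18_1_1_0 : T := (.leaf 0 [])
noncomputable def t18_1_1_2 : T := (.leaf 2 [])
noncomputable def t18_1_1_3 : T := (.leaf 2 [])
noncomputable def t18_1_1_4 : T := (.leaf 2 [])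
noncomputable def t18_1_1_5 : T := (.leaf 0 [78])

theorem near18_1 : (c18.near true p18_1).ok c18.box t18_1_1_0 t18_1_1_2 t18_1_1_3 t18_1_1_4 t18_1_1_5 = true := by
  decide +kernel

def p24_0 : List Int := [11323, 23816, 35547, 2436, 244526, 624824, -350329, 117479, 419333, 2778618, 2760356, 289961, 288979, 685422, 3075, 10708, 14329, 37943, 30571, 8521, 224743, 505078, 161614, 5809, 563658, 1512299, 3669623, 583448, 266988, 1389216, 197855, 39659, 10592, 31784, 31282, 1959, 273165, 327321, -143602, 140199, 388860, 2197612, 3383155, 173780, 289079, 879841, -19866, 10501, 12648, 39203, 30382, 8548, 232059, 362378, 223289, 9094, 566083, 2002507, 3345169, 586502, 266366, 1413912, 74107, 39038]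

noncomputable def t24_0_0_0 : T := (.leaf 0 [])
noncomputable def t24_0_0_2 : T := (.leaf 0 [])
noncomputable def t24_0_0_3 : T := (.leaf 0 [])
noncomputable def t24_0_0_4 : T := (.leaf 0 [])
noncomputable def t24_0_0_5 : T := (.leaf 0 [128])

theorem far24_0 : (c24.far false p24_0).ok c24.box t24_0_0_0 t24_0_0_2 t24_0_0_3 t24_0_0_4 t24_0_0_5 = true := by
  decide +kernel

noncomputable def t24_0_1_0 : T := (.leaf 0 [])
noncomputable def t24_0_1_2 : T := (.leaf 2 [])
noncomputable def t24_0_1_3 : T := (.leaf 2 [])
noncomputable def t24_0_1_4 : T := (.leaf 0 [])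
noncomputable def t24_0_1_5 : T := (.leaf 2 [])

theorem near24_0 : (c24.near false p24_0).ok c24.box t24_0_1_0 t24_0_1_2 t24_0_1_3 t24_0_1_4 t24_0_1_5 = true := by
  decide +kernel

def p24_1 : List Int := [-6361, -36138, 18881, 6441, -210445, 957313, -987012, -72733, -163981, -3465726, 607434, 520385, -206016, -250040, 366765, 9369, -6003, -10971, -11023, 9873, -162847, -364010, 1257449, -91517, -172588, -1356651, -3659796, 925816, -169916, -531013, 758890, 32820, -7456, -36253, 37169, 603, -194687, 852038, -1474801, 62152, -200920, -4117875, 1190109, 166556, -206422, -364966, 361152, 10524, -5302, -26791, 18988, 10079, -173733, 669156, -459833, -85423, -142435, -2900455, -916624, 918750, -170290, -442549, 658878, 33585]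

noncomputable def t24_1_0_0 : T := (dec 3 (nat_lit 0x100000200002c50000010000020001883))
noncomputable def t24_1_0_2 : T := (.leaf 0 [])
noncomputable def t24_1_0_3 : T := (.leaf 0 [])
noncomputable def t24_1_0_4 : T := (.leaf 0 [])
noncomputable def t24_1_0_5 : T := (.leaf 0 [128])

theorem far24_1 : (c24.far true p24_1).ok c24.box t24_1_0_0 t24_1_0_2 t24_1_0_3 t24_1_0_4 t24_1_0_5 = true := by
  decide +kernel

noncomputable def t24_1_1_0 : T := (dec 3 (nat_lit 0x100000400002c30000010000020001883))
noncomputable def t24_1_1_2 : T := (.leaf 2 [])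
noncomputable def t24_1_1_3 : T := (.leaf 2 [])
noncomputable def t24_1_1_4 : T := (.leaf 0 [])
noncomputable def t24_1_1_5 : T := (.leaf 2 [])

theorem near24_1 : (c24.near true p24_1).ok c24.box t24_1_1_0 t24_1_1_2 t24_1_1_3 t24_1_1_4 t24_1_1_5 = true := by
  decide +kernel

def p30_0 : List Int := [443473, 938316, 1584025, 393580, 1359386, 6027344, -624320, 711569, 1137979, 2662149, 2599750, 8347, 514605, 691780, 240825, -113677, 402964, 1149984, 1462979, 398847, 1188679, 2611747, 3806428, 424661, 1333434, 4012192, -50685, 201390, 436886, 426053, 351874, -179364, 433022, 1648941, 1173331, 424892, 1268299, 747453, 4923946, 695205, 1900478, 3698965, 1425369, 424298, 564048, 943527, 372662, -36417, 478546, 1011652, 1708619, 426455, 1091176, 5322196, 355491, 917533, 1647030, 2620887, 3228709, 519247, 584111, 910775, 481060, -16742]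

noncomputable def t30_0_0_0 : T := (.leaf 0 [])
noncomputable def t30_0_0_2 : T := (.leaf 2 [])
noncomputable def t30_0_0_3 : T := (.leaf 2 [])
noncomputable def t30_0_0_4 : T := (.leaf 2 [])
noncomputable def t30_0_0_5 : T := (.leaf 0 [64])

theorem far30_0 : (c30.far false p30_0).ok c30.box t30_0_0_0 t30_0_0_2 t30_0_0_3 t30_0_0_4 t30_0_0_5 = true := by
  decide +kernel

noncomputable def t30_0_1_0 : T := (.leaf 0 [])
noncomputable def t30_0_1_2 : T := (.leaf 2 [])
noncomputable def t30_0_1_3 : T := (.leaf 2 [])
noncomputable def t30_0_1_4 : T := (.leaf 2 [])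
noncomputable def t30_0_1_5 : T := (.leaf 0 [80])

theorem near30_0 : (c30.near false p30_0).ok c30.box t30_0_1_0 t30_0_1_2 t30_0_1_3 t30_0_1_4 t30_0_1_5 = true := by
  decide +kernel

def p30_1 : List Int := [-13757, 418384, 752276, 426821, -202492, -110141, 2176820, 451668, -648333, 51036, -609099, 131119, -303819, -253939, -371162, -115809, -11358, 368595, 747158, 422430, -224079, 366874, 1388241, 470896, -522752, -1021122, -934493, 119821, -265730, -534229, -303657, -176978, -13594, 460770, 736092, 452962, -233654, 672888, 2328230, 727601, -638131, 935192, 588412, 412551, -303792, 210168, -99144, -37742, -11463, 405977, 850437, 430717, -217090, 1090065, 1428537, 1033556, -555203, 842470, 1295807, 361932, -273464, 167165, -53537, -9506]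

noncomputable def t30_1_0_0 : T := (.leaf 0 [])
noncomputable def t30_1_0_2 : T := (.leaf 2 [])
noncomputable def t30_1_0_3 : T := (.leaf 2 [])
noncomputable def t30_1_0_4 : T := (.leaf 2 [])
noncomputable def t30_1_0_5 : T := (.leaf 0 [64])

theorem far30_1 : (c30.far true p30_1).ok c30.box t30_1_0_0 t30_1_0_2 t30_1_0_3 t30_1_0_4 t30_1_0_5 = true := by
  decide +kernel

noncomputable def t30_1_1_0 : T := (.leaf 0 [])
noncomputable def t30_1_1_2 : T := (.leaf 2 [])
noncomputable def t30_1_1_3 : T := (.leaf 2 [])
noncomputable def t30_1_1_4 : T := (.leaf 2 [])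
noncomputable def t30_1_1_5 : T := (.leaf 0 [79])

theorem near30_1 : (c30.near true p30_1).ok c30.box t30_1_1_0 t30_1_1_2 t30_1_1_3 t30_1_1_4 t30_1_1_5 = true := by
  decide +kernel

def p36_0 : List Int := [28521, 29431, 67186, 16785, 362027, 2682335, 505581, -12581, 1304012, 2436987, 5245618, 1361849, 633722, 1808238, 750742, 80563, 32098, 37599, 88352, 22812, 395877, 3607683, 356399, 116422, 1533110, 167027, 6114500, 1585258, 712851, 2131396, 1221100, 310220, 0, 0, 0, 0, 0, 0, 0, 0, 0, 0, 0, 0, 0, 0, 0, 0, 0, 0, 0, 0, 0, 0, 0, 0, 0, 0, 0, 0, 0, 0, 0, 0]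

noncomputable def t36_0_0_0 : T := (.leaf 0 [])
noncomputable def t36_0_0_2 : T := (.leaf 0 [])
noncomputable def t36_0_0_3 : T := (.leaf 0 [])
noncomputable def t36_0_0_4 : T := (.leaf 2 [])
noncomputable def t36_0_0_5 : T := (.leaf 2 [])

theorem far36_0 : (c36.far false p36_0).ok c36.box t36_0_0_0 t36_0_0_2 t36_0_0_3 t36_0_0_4 t36_0_0_5 = true := by
  decide +kernel

noncomputable def t36_0_1_0 : T := (dec 3 (nat_lit 0x100000400002c30000010000020001883))
noncomputable def t36_0_1_2 : T := (.leaf 2 [])
noncomputable def t36_0_1_3 : T := (.leaf 2 [])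
noncomputable def t36_0_1_4 : T := (.leaf 0 [])
noncomputable def t36_0_1_5 : T := (.leaf 2 [])

theorem near36_0 : (c36.near false p36_0).ok c36.box t36_0_1_0 t36_0_1_2 t36_0_1_3 t36_0_1_4 t36_0_1_5 = true := by
  decide +kernel

def p36_1 : List Int := [-11195, -49779, 39496, 18728, -336630, 1160656, -1215824, -74180, -313720, -5012894, -2333975, 1684967, -337904, -1018772, 1422598, 68262, -8444, -13371, 18351, 13928, -140975, -125470, 1011955, 540626, -414975, -1353062, -4512156, 893556, -186453, -1477650, 1758382, 328818, 0, 0, 0, 0, 0, 0, 0, 0, 0, 0, 0, 0, 0, 0, 0, 0, 0, 0, 0, 0, 0, 0, 0, 0, 0, 0, 0, 0, 0, 0, 0, 0]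

noncomputable def t36_1_0_0 : T := (dec 2 (nat_lit 0x100000200002c5))
noncomputable def t36_1_0_2 : T := (.leaf 0 [])
noncomputable def t36_1_0_3 : T := (.leaf 0 [])
noncomputable def t36_1_0_4 : T := (.leaf 2 [])
noncomputable def t36_1_0_5 : T := (.leaf 2 [])

theorem far36_1 : (c36.far true p36_1).ok c36.box t36_1_0_0 t36_1_0_2 t36_1_0_3 t36_1_0_4 t36_1_0_5 = true := by
  decide +kernel

noncomputable def t36_1_1_0 : T := (dec 2 (nat_lit 0x100000200002c3))
noncomputable def t36_1_1_2 : T := (.leaf 2 [])
noncomputable def t36_1_1_3 : T := (.leaf 2 [])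
noncomputable def t36_1_1_4 : T := (.leaf 0 [])
noncomputable def t36_1_1_5 : T := (.leaf 2 [])

theorem near36_1 : (c36.near true p36_1).ok c36.box t36_1_1_0 t36_1_1_2 t36_1_1_3 t36_1_1_4 t36_1_1_5 = true := by
  decide +kernel

def p42_0 : List Int := [0, -8059, -26762, -8859, 973077, 1047514, 4743152, 535524, 1811648, 2922547, 1837430, 1734609, 592708, 2383901, 1299301, 314261, 0, -7221, -24056, -7842, 837273, 4317184, 1756723, 590116, 2059957, -1618412, 6032906, 1829455, 617197, 3251845, 1155446, 389867, 11838, 38447, -2442, 5650, 877716, 200494, 3388068, 335960, 1000251, 9021412, 1759558, 1725016, 697552, 2516016, 1204391, 315337, 7884, 38397, -15331, 1790, 966518, -277179, 5165453, 531058, 1146491, 12630461, -2168766, 1730823, 714159, 1573300, 1722309, 387369]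

noncomputable def t42_0_0_0 : T := (.leaf 0 [])
noncomputable def t42_0_0_2 : T := (.leaf 0 [])
noncomputable def t42_0_0_3 : T := (.leaf 0 [])
noncomputable def t42_0_0_4 : T := (.leaf 2 [])
noncomputable def t42_0_0_5 : T := (.leaf 0 [128])

theorem far42_0 : (c42.far false p42_0).ok c42.box t42_0_0_0 t42_0_0_2 t42_0_0_3 t42_0_0_4 t42_0_0_5 = true := by
  decide +kernel

noncomputable def t42_0_1_0 : T := (dec 2 (nat_lit 0x100000200002c3))
noncomputable def t42_0_1_2 : T := (.leaf 2 [])
noncomputable def t42_0_1_3 : T := (.leaf 2 [])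
noncomputable def t42_0_1_4 : T := (.leaf 0 [])
noncomputable def t42_0_1_5 : T := (.leaf 2 [])

theorem near42_0 : (c42.near false p42_0).ok c42.box t42_0_1_0 t42_0_1_2 t42_0_1_3 t42_0_1_4 t42_0_1_5 = true := by
  decide +kernel

def p42_1 : List Int := [-10108, -41112, -24582, -8671, -166206, -139678, 176317, 501512, -404759, -1180891, -2066652, 1873065, -193935, -994412, 2056943, 299346, -8000, -22508, -23193, -7697, -148922, -264097, 198440, 569078, -359584, -1212281, -2300010, 1929234, -172391, -965654, 2050334, 388181, -8543, -37333, 10425, 6140, -227620, 331487, 397693, 286341, -394141, -1552473, -4131635, 1852078, -193957, -1255211, 1953671, 310553, -7724, -31943, -4287, 2172, -201890, 165728, 900074, 415458, -350458, -1753353, -3483648, 1926804, -172399, -1118288, 1955004, 394268]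

noncomputable def t42_1_0_0 : T := (.leaf 0 [])
noncomputable def t42_1_0_2 : T := (dec 3 (nat_lit 0x800001000016280000000100000200002cb))
noncomputable def t42_1_0_3 : T := (.leaf 0 [])
noncomputable def t42_1_0_4 : T := (.leaf 2 [])
noncomputable def t42_1_0_5 : T := (.leaf 0 [128])

theorem far42_1 : (c42.far true p42_1).ok c42.box t42_1_0_0 t42_1_0_2 t42_1_0_3 t42_1_0_4 t42_1_0_5 = true := by
  decide +kernel

noncomputable def t42_1_1_0 : T := (.leaf 0 [])
noncomputable def t42_1_1_2 : T := (.leaf 2 [])
noncomputable def t42_1_1_3 : T := (.leaf 2 [])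
noncomputable def t42_1_1_4 : T := (.leaf 0 [])
noncomputable def t42_1_1_5 : T := (.leaf 2 [])

theorem near42_1 : (c42.near true p42_1).ok c42.box t42_1_1_0 t42_1_1_2 t42_1_1_3 t42_1_1_4 t42_1_1_5 = true := by
  decide +kernel

def p48_0 : List Int := [407291, 651819, 1319345, 413278, 1500058, 4568270, 2076088, 1168718, 2028906, -1463648, 9919560, 2630287, 755085, 2113927, 1720283, 379030, 397451, 1691947, 1426814, 499761, 1860141, 3082873, 4867531, 1181808, 2339325, 2217387, 4527690, 3080858, 644826, 3215320, 1296307, 518523, 0, -6869, -18508, -7723, 1044031, 703418, 5160877, 551464, 1752575, 3163898, 4108680, 1774352, 769989, 1213726, 1885453, 393428, 0, -7036, -10627, -5791, 881169, 4483878, 1711563, 720220, 2189040, -2698117, 11243405, 1460890, 732417, 2445475, 1912001, 537242]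

noncomputable def t48_0_0_0 : T := (.leaf 0 [])
noncomputable def t48_0_0_2 : T := (.leaf 0 [])
noncomputable def t48_0_0_3 : T := (.leaf 2 [])
noncomputable def t48_0_0_4 : T := (.leaf 2 [])
noncomputable def t48_0_0_5 : T := (.leaf 0 [128])

theorem far48_0 : (c48.far false p48_0).ok c48.box t48_0_0_0 t48_0_0_2 t48_0_0_3 t48_0_0_4 t48_0_0_5 = true := by
  decide +kernel

noncomputable def t48_0_1_0 : T := (dec 2 (nat_lit 0x100000200002c5))
noncomputable def t48_0_1_2 : T := (.leaf 2 [])
noncomputable def t48_0_1_3 : T := (.leaf 2 [])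
noncomputable def t48_0_1_4 : T := (dec 2 (nat_lit 0x100000200002cb))
noncomputable def t48_0_1_5 : T := (.leaf 0 [128])

theorem near48_0 : (c48.near false p48_0).ok c48.box t48_0_1_0 t48_0_1_2 t48_0_1_3 t48_0_1_4 t48_0_1_5 = true := by
  decide +kernel

def p48_1 : List Int := [-7690, 257440, 848200, 412215, -217037, 2342398, 1496654, 1146287, -248734, -405846, 7114394, 2716936, -219631, 791991, 1649362, 373934, -6065, 351646, 982725, 498153, -113601, 2543163, 2243056, 1207681, -270986, 642201, 6231650, 3054116, -130173, 684564, 2103457, 500447, -9696, -31806, -22325, -7751, -168237, 35628, 261342, 577035, -358372, -603665, -1996786, 1757331, -173567, -941500, 2007446, 393804, -5747, -14318, -29595, -5819, -139742, -870124, 1792904, 708357, -323774, 1113353, -3812853, 1575201, -130120, -833162, 1968850, 537791]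

noncomputable def t48_1_0_0 : T := (dec 3 (nat_lit 0x100000200002c50000010000020001883))
noncomputable def t48_1_0_2 : T := (dec 3 (nat_lit 0x800001000016280000000100000200002cb))
noncomputable def t48_1_0_3 : T := (.leaf 2 [])
noncomputable def t48_1_0_4 : T := (.leaf 2 [])
noncomputable def t48_1_0_5 : T := (dec 2 (nat_lit 0x8001000200040000000010000020000785))

theorem far48_1 : (c48.far true p48_1).ok c48.box t48_1_0_0 t48_1_0_2 t48_1_0_3 t48_1_0_4 t48_1_0_5 = true := by
  decide +kernel

noncomputable def t48_1_1_0 : T := (dec 2 (nat_lit 0x100000200002c3))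
noncomputable def t48_1_1_2 : T := (.leaf 2 [])
noncomputable def t48_1_1_3 : T := (.leaf 2 [])
noncomputable def t48_1_1_4 : T := (dec 2 (nat_lit 0x100000200002cb))
noncomputable def t48_1_1_5 : T := (.leaf 0 [128])

theorem near48_1 : (c48.near true p48_1).ok c48.box t48_1_1_0 t48_1_1_2 t48_1_1_3 t48_1_1_4 t48_1_1_5 = true := by
  decide +kernel

def p54_0 : List Int := [307816, 921670, 911714, 302439, 1465590, 204227, 3656882, 745441, 1262241, 14428193, 953176, 2612309, 802654, 1222814, 2305249, 524753, 553909, 940730, 1787197, 554838, 2030699, 10867262, 4099102, 1143438, 2479258, 1816014, 8811529, 3268515, 963698, 1717669, 3078836, 908407, 0, -10542, -10516, -5953, 902564, 4811308, 1368909, 731093, 1878712, 1475940, 7561885, 1814814, 803061, 1742225, 1931445, 525890, 246217, 739673, 735646, 246819, 1612901, 1284738, 8180342, 1009463, 2331431, 3951980, 7661003, 2462721, 962505, 1910683, 2752831, 909233]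

noncomputable def t54_0_0_0 : T := (.leaf 0 [])
noncomputable def t54_0_0_2 : T := (.leaf 0 [])
noncomputable def t54_0_0_3 : T := (.leaf 2 [])
noncomputable def t54_0_0_4 : T := (.leaf 2 [])
noncomputable def t54_0_0_5 : T := (.leaf 0 [128])

theorem far54_0 : (c54.far false p54_0).ok c54.box t54_0_0_0 t54_0_0_2 t54_0_0_3 t54_0_0_4 t54_0_0_5 = true := by
  decide +kernel

noncomputable def t54_0_1_0 : T := (dec 2 (nat_lit 0x100000200002c3))
noncomputable def t54_0_1_2 : T := (.leaf 2 [])
noncomputable def t54_0_1_3 : T := (.leaf 2 [])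
noncomputable def t54_0_1_4 : T := (.leaf 0 [])
noncomputable def t54_0_1_5 : T := (.leaf 2 [])

theorem near54_0 : (c54.near false p54_0).ok c54.box t54_0_1_0 t54_0_1_2 t54_0_1_3 t54_0_1_4 t54_0_1_5 = true := by
  decide +kernel

def p54_1 : List Int := [-4025, 157483, 144680, 371095, -246581, 4441664, 3715522, -936515, 57388, -752275, -4320959, 5216413, -197205, 262445, 2617274, 353142, 0, 681726, 1414432, 333898, 0, 783088, 3018171, 4077974, 0, 2819626, 5969705, 1878794, 0, 1008926, 2265749, 649551, -5311, -10775, -52420, -2356, -158539, -1110659, 3522004, 256379, -459971, -1631706, 1013413, 3027797, -137190, -216343, 1791549, 357190, 0, 135063, 938521, 147027, 0, 1501386, -6393487, 3537199, 0, 496378, 10847255, -857550, 0, 312617, 1030379, 1076411]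

noncomputable def t54_1_0_0 : T := (dec 4 (nat_lit 0x100000400002c500000100000200018850000010000020002e43))
noncomputable def t54_1_0_2 : T := (dec 13 (nat_lit 0x100000700002c900000100002200018850000010000140002e4500000100000c000440500000100000400059c90000010000070006f8500000100000200085490000010000040009b0500000000600000800005960000020000040018d0a0000000000080000100001628000008000010000c4180000000100000200002cb))
noncomputable def t54_1_0_3 : T := (.leaf 2 [])
noncomputable def t54_1_0_4 : T := (.leaf 2 [])
noncomputable def t54_1_0_5 : T := (dec 11 (nat_lit 0x800100020004000800100020004000800100020004000800100020004000800100020004000000001000007000078900000100002200022050000010000140003c8500000100000c000570500000100000400071890000010000070008c05000001000002000a689000001000004000c105000001000002000db8580010002000400000000100000200007850000010000020002203))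

theorem far54_1 : (c54.far true p54_1).ok c54.box t54_1_0_0 t54_1_0_2 t54_1_0_3 t54_1_0_4 t54_1_0_5 = true := by
  decide +kernel

noncomputable def t54_1_1_0 : T := (dec 4 (nat_lit 0x2000004000058a0000000000000100000400002c300000100000200018850000010000020002e43))
noncomputable def t54_1_1_2 : T := (.leaf 2 [])
noncomputable def t54_1_1_3 : T := (.leaf 2 [])
noncomputable def t54_1_1_4 : T := (dec 2 (nat_lit 0x100000200002c3))
noncomputable def t54_1_1_5 : T := (.leaf 2 [])

theorem near54_1 : (c54.near true p54_1).ok c54.box t54_1_1_0 t54_1_1_2 t54_1_1_3 t54_1_1_4 t54_1_1_5 = true := by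
  decide +kernel

end Crest.Agent.R310.H17
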