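import Crest.Agent.R310.H17Cells

/-! # Row 310: certificates (generated by tools/h17/wr.py) -/

set_option autoImplicit false
set_option maxRecDepth 100000
set_option Elab.async false

open Crest.Agent.Lib.PolyBB

namespace Crest.Agent.R310.H17

def p1_0 : List Int := [349801, 432368, 421167, -30913, 817509, 7084234, -3486191, 514054, 1277990, -1136225, 4116894, -463214, 421945, 1251190, 12351, 26500, 359005, 454030, 583866, 81062, 744521, 6967015, -1665550, -305942, 1310577, -2735941, 2278973, -378387, 326999, 775988, -109328, -197490, 322726, 960355, 201095, -29882, 1296203, -2728497, 5150670, -68491, 1075858, 4387596, 281820, -71475, 421907, 1180591, 315254, -23367, 404376, 1047236, 1035071, 311528, 905362, 4654546, 1239501, 122584, 1465133, 1823940, 1437721, -68091, 527011, 812589, 227433, -109456]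

noncomputable def t1_0_0_0 : T := (.leaf 0 [])
noncomputable def t1_0_0_2 : T := (.leaf 2 [])
noncomputable def t1_0_0_3 : T := (.leaf 2 [])
noncomputable def t1_0_0_4 : T := (.leaf 2 [])
noncomputable def t1_0_0_5 : T := (.leaf 0 [0])

theorem far1_0 : (c1.far false p1_0).ok c1.box t1_0_0_0 t1_0_0_2 t1_0_0_3 t1_0_0_4 t1_0_0_5 = true := by
  decide +kernel

noncomputable def t1_0_1_0 : T := (dec 2 (nat_lit 0x100000200002c3))
noncomputable def t1_0_1_2 : T := (.leaf 2 [])
noncomputable def t1_0_1_3 : T := (.leaf 2 [])
noncomputable def t1_0_1_4 : T := (.leaf 2 [])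
noncomputable def t1_0_1_5 : T := (dec 2 (nat_lit 0xc803000c8030000000010000020000705))

theorem near1_0 : (c1.near false p1_0).ok c1.box t1_0_1_0 t1_0_1_2 t1_0_1_3 t1_0_1_4 t1_0_1_5 = true := by
  decide +kernel

def p1_1 : List Int := [-321072, -972721, -295142, 28135, -1345130, 3500636, -3772242, 204938, -957907, -8208947, 3563768, -467000, -435269, -633738, -901818, 29986, -275216, -867473, 341606, 20696, -1115887, 1856766, -5817005, 154823, -916178, -4358919, -279303, -480948, -397785, -935604, -868677, -190846, -356144, -601069, -635798, 34889, -762640, -5636381, 2681309, -371439, -1260361, -1826758, -2152816, 147588, -463730, -920468, -508519, -28959, -91598, 120568, 595132, 265761, -754880, 312867, -804257, 173982, -841469, -1975685, -1024216, -81113, -359215, -708888, -540388, -111221]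

noncomputable def t1_1_0_0 : T := (dec 2 (nat_lit 0x100000200002c3))
noncomputable def t1_1_0_2 : T := (.leaf 2 [])
noncomputable def t1_1_0_3 : T := (.leaf 2 [])
noncomputable def t1_1_0_4 : T := (.leaf 2 [])
noncomputable def t1_1_0_5 : T := (.leaf 0 [0])

theorem far1_1 : (c1.far true p1_1).ok c1.box t1_1_0_0 t1_1_0_2 t1_1_0_3 t1_1_0_4 t1_1_0_5 = true := by
  decide +kernel

noncomputable def t1_1_1_0 : T := (dec 2 (nat_lit 0x100000200002c3))
noncomputable def t1_1_1_2 : T := (.leaf 2 [])
noncomputable def t1_1_1_3 : T := (.leaf 2 [])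
noncomputable def t1_1_1_4 : T := (.leaf 2 [])
noncomputable def t1_1_1_5 : T := (.leaf 0 [64])

theorem near1_1 : (c1.near true p1_1).ok c1.box t1_1_1_0 t1_1_1_2 t1_1_1_3 t1_1_1_4 t1_1_1_5 = true := by
  decide +kernel

def p7_0 : List Int := [17060, 30303, 5255, -4989, 416218, -336655, 271649, 31683, 1046044, 1235955, -2104855, 96750, 500716, 71077, -52709, 0, 0, -23335, -18174, -20802, 662707, 851735, -593359, 152838, 1318983, -1212476, 2105024, 330399, 513624, 1539, 111142, 7333, 16963, 70432, 19550, -5184, 488653, -1511987, 118420, 28113, 526534, 5244283, -2577539, 109189, 500035, 45896, -55945, 0, 18304, 71245, 39693, -2042, 517382, 137573, -921957, 255003, 574600, 2579375, 1673895, 368965, 539760, 742131, -88183, 8292]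

noncomputable def t7_0_0_0 : T := (dec 2 (nat_lit 0x100000200002c3))
noncomputable def t7_0_0_2 : T := (dec 2 (nat_lit 0x100000200002c3))
noncomputable def t7_0_0_3 : T := (dec 3 (nat_lit 0x100000400002c30000010000020001883))
noncomputable def t7_0_0_4 : T := (.leaf 2 [])
noncomputable def t7_0_0_5 : T := (dec 3 (nat_lit 0x2000400080010002000400000000100000400007830000010000020002203))

theorem far7_0 : (c7.far false p7_0).ok c7.box t7_0_0_0 t7_0_0_2 t7_0_0_3 t7_0_0_4 t7_0_0_5 = true := by
  decide +kernel

noncomputable def t7_0_1_0 : T := (.leaf 0 [])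
noncomputable def t7_0_1_2 : T := (.leaf 2 [])
noncomputable def t7_0_1_3 : T := (dec 3 (nat_lit 0x100000400002c30000010000020001883))
noncomputable def t7_0_1_4 : T := (dec 3 (nat_lit 0x100000400002c30000010000020001883))
noncomputable def t7_0_1_5 : T := (dec 3 (nat_lit 0x2000400080010002000400000000100000400007830000010000020002203))

theorem near7_0 : (c7.near false p7_0).ok c7.box t7_0_1_0 t7_0_1_2 t7_0_1_3 t7_0_1_4 t7_0_1_5 = true := by
  decide +kernel

def p7_1 : List Int := [-16635, -62222, -35435, -2941, -405664, 548828, 591499, -12199, -1075321, -2147984, 957935, -38393, -509127, 2762, 64125, 0, -15294, -64476, -66462, -20015, -385685, 1042681, -120991, 153026, -1041159, 311555, 1798524, 312911, -441183, 423736, 93967, 7993, -16597, -32411, 1610, 4972, -434493, 760348, -868744, -12309, -1038579, -1649696, 2936247, -130184, -503414, 30175, -65375, 0, -19501, -33362, -54306, 9618, -368248, -1151450, 2453017, -24548, -991505, 820773, -2610644, 204940, -470959, -275332, 342590, 7271]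

noncomputable def t7_1_0_0 : T := (.leaf 0 [])
noncomputable def t7_1_0_2 : T := (dec 6 (nat_lit 0x8000010000162800000000006000008000058a0000000000180000200001628000008000038000c4180000000100000200002c500000100000400059c30000010000020008543))
noncomputable def t7_1_0_3 : T := (dec 6 (nat_lit 0x8000010000162800000000006000008000058a0000000000180000200001628000008000038000c4180000000100000200002c500000100000400059c30000010000020008543))
noncomputable def t7_1_0_4 : T := (.leaf 2 [])
noncomputable def t7_1_0_5 : T := (dec 6 (nat_lit 0x800100020004000800100000000040000080001e1600040008001000000000c0000100001e1600040008001000000000c0000100001e1400000400001c000880e000400000000100000200007850000010000040007183000001000002000a683))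

theorem far7_1 : (c7.far true p7_1).ok c7.box t7_1_0_0 t7_1_0_2 t7_1_0_3 t7_1_0_4 t7_1_0_5 = true := by
  decide +kernel

noncomputable def t7_1_1_0 : T := (dec 2 (nat_lit 0x100000200002c3))
noncomputable def t7_1_1_2 : T := (.leaf 2 [])
noncomputable def t7_1_1_3 : T := (dec 6 (nat_lit 0x8000010000162800000000006000008000058a0000000000180000200001628000008000038000c4180000000100000200002c500000100000400059c30000010000020008543))
noncomputable def t7_1_1_4 : T := (dec 6 (nat_lit 0x8000010000162800000000006000008000058a0000000000180000200001628000008000038000c4180000000100000200002c500000100000400059c30000010000020008543))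
noncomputable def t7_1_1_5 : T := (dec 6 (nat_lit 0x800100020004000800100000000040000080001e1600040008001000000000c0000100001e1600040008001000000000c0000100001e1400000400001c000880e000400000000100000200007850000010000040007183000001000002000a683))

theorem near7_1 : (c7.near true p7_1).ok c7.box t7_1_1_0 t7_1_1_2 t7_1_1_3 t7_1_1_4 t7_1_1_5 = true := by
  decide +kernel

def p13_0 : List Int := [29221, 88176, 77027, 27428, 110965, 807009, 40645, 97521, 559138, -96552, 298397, 22799, 94372, 96354, 3299, -2941, 83673, 31883, 256161, 61962, -44287, 2743951, -366058, 173074, 717969, -1586406, 1048659, 7386, 102669, 217682, -34443, -5208, 23404, -20180, 124416, 8998, 140132, 808376, -260093, 106194, 166965, 257161, 355323, 107564, 150860, -51310, 48774, 2532, 81729, -19951, 400355, 52714, 288227, -128267, 595676, 109407, 245140, 816379, 177046, 74423, 102791, 146126, 28971, -12103]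

noncomputable def t13_0_0_0 : T := (dec 2 (nat_lit 0x100000200002c3))
noncomputable def t13_0_0_2 : T := (.leaf 2 [])
noncomputable def t13_0_0_3 : T := (.leaf 2 [])
noncomputable def t13_0_0_4 : T := (.leaf 2 [])
noncomputable def t13_0_0_5 : T := (dec 8 (nat_lit 0xca01c004b00e0027807001140380000000300000400007439e01c004500e00000000c0000100001d0c00000800003c000861c000008000034001581c000004000008001c12f40070017c03800000001000002000074b00000300000400021858c01c004800e0000000080000340001d1ee8070000000060000080000e8a0000020000040007787a0038000000010000020000745))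

theorem far13_0 : (c13.far false p13_0).ok c13.box t13_0_0_0 t13_0_0_2 t13_0_0_3 t13_0_0_4 t13_0_0_5 = true := by
  decide +kernel

noncomputable def t13_0_1_0 : T := (dec 5 (nat_lit 0x100000200002c500000100000700018830000010000040002e430000010000020004403))
noncomputable def t13_0_1_2 : T := (.leaf 2 [])
noncomputable def t13_0_1_3 : T := (dec 4 (nat_lit 0xc0000100000b1400000000800001000016180000000100000200002c5))
noncomputable def t13_0_1_4 : T := (.leaf 2 [])
noncomputable def t13_0_1_5 : T := (dec 4 (nat_lit 0xf801c006d00e00000000c0000100001d17e0070000000020000040000e872c038000000010000020000745))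

theorem near13_0 : (c13.near false p13_0).ok c13.box t13_0_1_0 t13_0_1_2 t13_0_1_3 t13_0_1_4 t13_0_1_5 = true := by
  decide +kernel

def p13_1 : List Int := [-2678, 18007, 127604, 27242, -135927, 470754, -16657, 92820, -83707, -357818, 34097, 28066, -106535, 151984, -2054, -3915, -4861, 108351, -11271, 79529, -35057, -832389, 1095194, 61334, -179266, 1594176, -542941, 83420, -107302, 32956, -12291, -11504, -3295, -24731, 75803, 9024, -128079, 624316, -184916, 104155, -119233, -235726, 611690, 107894, -82504, 77986, 69879, 2500, -4551, 104792, -8441, 79717, -94882, -135378, 504621, 80079, -65303, -169847, 322619, 72930, -108814, 250808, -67729, -9569]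

noncomputable def t13_1_0_0 : T := (dec 2 (nat_lit 0x100000200002c3))
noncomputable def t13_1_0_2 : T := (.leaf 2 [])
noncomputable def t13_1_0_3 : T := (.leaf 2 [])
noncomputable def t13_1_0_4 : T := (.leaf 2 [])
noncomputable def t13_1_0_5 : T := (dec 8 (nat_lit 0x180038008601c004700e003f00c003900c00000001800001c0001c1400000c000010000840c000008000034000ed1f700c00000000c0000100001c14000004000008001be2e08070014c038000000010000040000743e40300000000300000400007050000010000020003b83f803000fc0300000000100000200007030000010000020002105))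

theorem far13_1 : (c13.far true p13_1).ok c13.box t13_1_0_0 t13_1_0_2 t13_1_0_3 t13_1_0_4 t13_1_0_5 = true := by
  decide +kernel

noncomputable def t13_1_1_0 : T := (dec 3 (nat_lit 0x100000200002c30000010000020001885))
noncomputable def t13_1_1_2 : T := (.leaf 2 [])
noncomputable def t13_1_1_3 : T := (dec 4 (nat_lit 0x600000800005860000000040000080000b140000000000100000400002c30000010000020001883))
noncomputable def t13_1_1_4 : T := (.leaf 2 [])
noncomputable def t13_1_1_5 : T := (dec 3 (nat_lit 0xf601c006a00e0000000040000080001d17d807001a80380000000100000200007450000010000020002183))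

theorem near13_1 : (c13.near true p13_1).ok c13.box t13_1_1_0 t13_1_1_2 t13_1_1_3 t13_1_1_4 t13_1_1_5 = true := by
  decide +kernel

def p19_0 : List Int := [106753, 220250, 337222, 106641, 249222, 965502, 626090, 88786, 464254, 686924, 324401, 45946, 125573, 211557, 92090, -24502, 113069, 295599, 322942, 109784, 368452, -64782, 1344246, 80716, 284942, 1541779, 38387, 123448, 143870, 133189, 136830, -13784, 66199, 214198, 173943, 61084, 225171, 1121161, 160411, 145159, 425817, -147283, 531931, 31208, 128414, 109263, 14203, -8095, 113126, 334632, 346275, 98439, 347772, 40831, 867388, 157246, 394388, 1190454, 293318, 97792, 147582, 155615, 119379, -11290]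

noncomputable def t19_0_0_0 : T := (.leaf 0 [])
noncomputable def t19_0_0_2 : T := (.leaf 2 [])
noncomputable def t19_0_0_3 : T := (.leaf 2 [])
noncomputable def t19_0_0_4 : T := (.leaf 2 [])
noncomputable def t19_0_0_5 : T := (dec 4 (nat_lit 0xc001c000000000000020000040000b1780038000000010000020000745e8030000000010000020000703))

theorem far19_0 : (c19.far false p19_0).ok c19.box t19_0_0_0 t19_0_0_2 t19_0_0_3 t19_0_0_4 t19_0_0_5 = true := by
  decide +kernel

noncomputable def t19_0_1_0 : T := (.leaf 0 [])
noncomputable def t19_0_1_2 : T := (.leaf 2 [])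
noncomputable def t19_0_1_3 : T := (.leaf 2 [])
noncomputable def t19_0_1_4 : T := (.leaf 2 [])
noncomputable def t19_0_1_5 : T := (dec 3 (nat_lit 0x2380700154038000000010000020000743d8030000000010000020000705))

theorem near19_0 : (c19.near false p19_0).ok c19.box t19_0_1_0 t19_0_1_2 t19_0_1_3 t19_0_1_4 t19_0_1_5 = true := by
  decide +kernel

def p19_1 : List Int := [0, 111111, 190112, 96318, -113740, -281510, 417575, 83085, -211566, -202786, -167417, 35842, -92829, -146785, -62550, -23430, -3455, 99042, 231607, 98353, -50418, -91881, 579773, 143530, -204241, 601378, -506571, 114428, -80220, -52385, -2121, -13706, -4157, 68217, 99132, 62376, -71476, 155660, 271274, 136126, -195214, 240720, 81524, 40631, -92821, 72170, 7357, -9465, -3796, 93079, 178563, 109904, -50552, 38832, 598703, 124882, -192209, 244579, -61389, 96266, -77472, -33888, -15367, -10060]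

noncomputable def t19_1_0_0 : T := (.leaf 0 [])
noncomputable def t19_1_0_2 : T := (.leaf 2 [])
noncomputable def t19_1_0_3 : T := (.leaf 2 [])
noncomputable def t19_1_0_4 : T := (.leaf 2 [])
noncomputable def t19_1_0_5 : T := (dec 3 (nat_lit 0x10403800ec030000000010000020000705e8030000000010000020000703))

theorem far19_1 : (c19.far true p19_1).ok c19.box t19_1_0_0 t19_1_0_2 t19_1_0_3 t19_1_0_4 t19_1_0_5 = true := by
  decide +kernel

noncomputable def t19_1_1_0 : T := (.leaf 0 [])
noncomputable def t19_1_1_2 : T := (.leaf 2 [])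
noncomputable def t19_1_1_3 : T := (.leaf 2 [])
noncomputable def t19_1_1_4 : T := (.leaf 2 [])
noncomputable def t19_1_1_5 : T := (.leaf 0 [87])

theorem near19_1 : (c19.near true p19_1).ok c19.box t19_1_1_0 t19_1_1_2 t19_1_1_3 t19_1_1_4 t19_1_1_5 = true := by
  decide +kernel

def p25_0 : List Int := [10573, 48457, 10653, 5938, 272435, -429135, 728576, -57064, 388929, 3531030, 1772876, 552865, 289156, 884003, -49621, 10518, 11913, 38614, 33178, 8208, 293050, 309602, 153195, 12373, 490236, 1795663, 3654422, 582951, 277813, 1328378, 176887, 38946, 0, 0, 0, 0, 0, 0, 0, 0, 0, 0, 0, 0, 0, 0, 0, 0, 0, 0, 0, 0, 0, 0, 0, 0, 0, 0, 0, 0, 0, 0, 0, 0]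

noncomputable def t25_0_0_0 : T := (.leaf 0 [])
noncomputable def t25_0_0_2 : T := (.leaf 0 [])
noncomputable def t25_0_0_3 : T := (.leaf 0 [])
noncomputable def t25_0_0_4 : T := (.leaf 0 [])
noncomputable def t25_0_0_5 : T := (.leaf 2 [])

theorem far25_0 : (c25.far false p25_0).ok c25.box t25_0_0_0 t25_0_0_2 t25_0_0_3 t25_0_0_4 t25_0_0_5 = true := by
  decide +kernel

noncomputable def t25_0_1_0 : T := (.leaf 0 [])
noncomputable def t25_0_1_2 : T := (.leaf 2 [])
noncomputable def t25_0_1_3 : T := (.leaf 2 [])
noncomputable def t25_0_1_4 : T := (.leaf 0 [])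
noncomputable def t25_0_1_5 : T := (.leaf 2 [])

theorem near25_0 : (c25.near false p25_0).ok c25.box t25_0_1_0 t25_0_1_2 t25_0_1_3 t25_0_1_4 t25_0_1_5 = true := by
  decide +kernel

def p25_1 : List Int := [-6626, -20833, -13295, 7187, -205597, 208035, 438395, -122768, -173939, -2911969, -2565312, 735617, -205396, -394265, 400919, 9424, -5541, -18682, -109, 10322, -171038, 174925, 520186, -87997, -145226, -1771798, -2890170, 919162, -171159, -504632, 731957, 33515, 0, 0, 0, 0, 0, 0, 0, 0, 0, 0, 0, 0, 0, 0, 0, 0, 0, 0, 0, 0, 0, 0, 0, 0, 0, 0, 0, 0, 0, 0, 0, 0]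

noncomputable def t25_1_0_0 : T := (dec 2 (nat_lit 0x100000200002c3))
noncomputable def t25_1_0_2 : T := (.leaf 0 [])
noncomputable def t25_1_0_3 : T := (.leaf 0 [])
noncomputable def t25_1_0_4 : T := (.leaf 0 [])
noncomputable def t25_1_0_5 : T := (.leaf 2 [])

theorem far25_1 : (c25.far true p25_1).ok c25.box t25_1_0_0 t25_1_0_2 t25_1_0_3 t25_1_0_4 t25_1_0_5 = true := by
  decide +kernel

noncomputable def t25_1_1_0 : T := (.leaf 0 [])
noncomputable def t25_1_1_2 : T := (.leaf 2 [])
noncomputable def t25_1_1_3 : T := (.leaf 2 [])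
noncomputable def t25_1_1_4 : T := (.leaf 0 [])
noncomputable def t25_1_1_5 : T := (.leaf 2 [])

theorem near25_1 : (c25.near true p25_1).ok c25.box t25_1_1_0 t25_1_1_2 t25_1_1_3 t25_1_1_4 t25_1_1_5 = true := by
  decide +kernel

def p31_0 : List Int := [445704, 1568208, 1254300, 458045, 1310115, 1798187, 3068776, 735461, 1499284, 4539767, 1151557, 420077, 561642, 953052, 373259, -35548, 446873, 1804515, 975736, 482699, 1285860, 2456466, 5673239, 734620, 1857623, 1219854, 3022967, 574751, 496415, 1168473, 479331, -1076, 429156, 1724900, 964121, 459357, 1503391, 3167629, 4300028, 622018, 1638787, 2200726, 2212624, 454796, 616144, 700293, 434087, -38968, 531033, 1641280, 1154659, 515519, 1430945, 5837304, 3323966, 1579196, 1696247, 4718839, 5692908, 1445674, 631838, 1550594, 1320657, 224056]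

noncomputable def t31_0_0_0 : T := (.leaf 0 [])
noncomputable def t31_0_0_2 : T := (.leaf 2 [])
noncomputable def t31_0_0_3 : T := (.leaf 2 [])
noncomputable def t31_0_0_4 : T := (.leaf 2 [])
noncomputable def t31_0_0_5 : T := (.leaf 0 [64])

theorem far31_0 : (c31.far false p31_0).ok c31.box t31_0_0_0 t31_0_0_2 t31_0_0_3 t31_0_0_4 t31_0_0_5 = true := by
  decide +kernel

noncomputable def t31_0_1_0 : T := (.leaf 0 [])
noncomputable def t31_0_1_2 : T := (.leaf 2 [])
noncomputable def t31_0_1_3 : T := (.leaf 2 [])
noncomputable def t31_0_1_4 : T := (.leaf 0 [])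
noncomputable def t31_0_1_5 : T := (.leaf 0 [90])

theorem near31_0 : (c31.near false p31_0).ok c31.box t31_0_1_0 t31_0_1_2 t31_0_1_3 t31_0_1_4 t31_0_1_5 = true := by
  decide +kernel

def p31_1 : List Int := [-13924, 457824, 825757, 459383, -244824, 507174, 2448743, 659595, -578435, 820310, 132053, 429882, -284719, 143329, -61760, -35361, -9362, 441015, 1019556, 436793, -191377, 504526, 2252604, 881688, -437864, 1592900, 54613, 553689, -210529, -22390, 9354, -1097, -12555, 386530, 777896, 459299, -241257, 2469431, -509995, 751784, -676464, -352670, 2533943, 339301, -303415, 279560, -219549, -38933, -9528, 543733, 797009, 521502, -151598, 1317580, 4354228, 1553622, -494341, 1387793, 1908400, 1353152, -230856, 487508, 680981, 224024]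

noncomputable def t31_1_0_0 : T := (.leaf 0 [])
noncomputable def t31_1_0_2 : T := (.leaf 2 [])
noncomputable def t31_1_0_3 : T := (.leaf 2 [])
noncomputable def t31_1_0_4 : T := (.leaf 2 [])
noncomputable def t31_1_0_5 : T := (.leaf 0 [64])

theorem far31_1 : (c31.far true p31_1).ok c31.box t31_1_0_0 t31_1_0_2 t31_1_0_3 t31_1_0_4 t31_1_0_5 = true := by
  decide +kernel

noncomputable def t31_1_1_0 : T := (.leaf 0 [])
noncomputable def t31_1_1_2 : T := (.leaf 2 [])
noncomputable def t31_1_1_3 : T := (.leaf 2 [])
noncomputable def t31_1_1_4 : T := (.leaf 0 [])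
noncomputable def t31_1_1_5 : T := (.leaf 0 [90])

theorem near31_1 : (c31.near true p31_1).ok c31.box t31_1_1_0 t31_1_1_2 t31_1_1_3 t31_1_1_4 t31_1_1_5 = true := by
  decide +kernel

def p37_0 : List Int := [423193, 1196776, 1255586, 411353, 1243895, 3640979, 2568662, 517857, 1299525, 2176106, 1438997, -28043, 416913, 707214, 127737, -162002, 453123, 1327508, 1320321, 436787, 1330993, 3264969, 3477142, 855014, 1343361, 3543084, 1656488, 279493, 446769, 885320, 359468, -69790, 454968, 1418202, 1330166, 443060, 1382727, 3707689, 2908873, 856425, 1592258, 2759354, 2618148, 460153, 559257, 997843, 469330, -15669, 472645, 1412573, 1372850, 455775, 1364860, 3887114, 3302900, 968776, 1517619, 3499765, 2482226, 492188, 516939, 1047831, 498595, -11632]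

noncomputable def t37_0_0_0 : T := (.leaf 0 [])
noncomputable def t37_0_0_2 : T := (.leaf 2 [])
noncomputable def t37_0_0_3 : T := (.leaf 2 [])
noncomputable def t37_0_0_4 : T := (.leaf 2 [])
noncomputable def t37_0_0_5 : T := (.leaf 0 [0])

theorem far37_0 : (c37.far false p37_0).ok c37.box t37_0_0_0 t37_0_0_2 t37_0_0_3 t37_0_0_4 t37_0_0_5 = true := by
  decide +kernel

noncomputable def t37_0_1_0 : T := (.leaf 0 [])
noncomputable def t37_0_1_2 : T := (.leaf 2 [])
noncomputable def t37_0_1_3 : T := (.leaf 2 [])
noncomputable def t37_0_1_4 : T := (.leaf 2 [])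
noncomputable def t37_0_1_5 : T := (.leaf 0 [77])

theorem near37_0 : (c37.near false p37_0).ok c37.box t37_0_1_0 t37_0_1_2 t37_0_1_3 t37_0_1_4 t37_0_1_5 = true := by
  decide +kernel

def p37_1 : List Int := [-12138, 395130, 826069, 417731, -207166, 202749, 615186, 441367, -572045, -388893, -320880, 3300, -270736, -528759, -369219, -171212, -9604, 405620, 852660, 429571, -177888, 1305909, 914440, 1006799, -463428, -581302, 1448451, 163126, -225699, -190944, -158008, -69276, -11587, 433460, 829314, 442814, -211756, 1017850, 2165792, 878569, -563887, 416821, 1075422, 405008, -271319, 150981, -34790, -15561, -9660, 427781, 885972, 448471, -175016, 890832, 2827544, 943479, -478300, 785963, 660982, 536827, -225584, 120414, 31627, -19727]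

noncomputable def t37_1_0_0 : T := (.leaf 0 [])
noncomputable def t37_1_0_2 : T := (.leaf 2 [])
noncomputable def t37_1_0_3 : T := (.leaf 2 [])
noncomputable def t37_1_0_4 : T := (.leaf 2 [])
noncomputable def t37_1_0_5 : T := (.leaf 0 [0])

theorem far37_1 : (c37.far true p37_1).ok c37.box t37_1_0_0 t37_1_0_2 t37_1_0_3 t37_1_0_4 t37_1_0_5 = true := by
  decide +kernel

noncomputable def t37_1_1_0 : T := (.leaf 0 [])
noncomputable def t37_1_1_2 : T := (.leaf 2 [])
noncomputable def t37_1_1_3 : T := (.leaf 2 [])
noncomputable def t37_1_1_4 : T := (.leaf 2 [])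
noncomputable def t37_1_1_5 : T := (.leaf 0 [77])

theorem near37_1 : (c37.near true p37_1).ok c37.box t37_1_1_0 t37_1_1_2 t37_1_1_3 t37_1_1_4 t37_1_1_5 = true := by
  decide +kernel

def p43_0 : List Int := [14410, 23943, 29008, 5442, 806095, 1181050, 1974870, 343100, 1070738, 9996089, 159169, 1692638, 724648, 1743655, 1369093, 313629, 9698, 1136, 15504, 1694, 768179, 3260200, 2149848, 473800, 1375804, 8145752, -868063, 1778014, 621971, 2655059, 1498674, 385395, 28588, 115443, 56488, 23701, 361489, 1930240, 478559, 170321, 1911358, -1057401, 6796657, 1580628, 598900, 2853868, 1161916, 312924, 27957, 83463, 104452, 23302, 459845, 3403258, -1337531, 496062, 1416301, 782078, 10932263, 978358, 624920, 2913236, 1295919, 383544]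

noncomputable def t43_0_0_0 : T := (.leaf 0 [])
noncomputable def t43_0_0_2 : T := (.leaf 0 [])
noncomputable def t43_0_0_3 : T := (.leaf 0 [])
noncomputable def t43_0_0_4 : T := (.leaf 2 [])
noncomputable def t43_0_0_5 : T := (.leaf 2 [])

theorem far43_0 : (c43.far false p43_0).ok c43.box t43_0_0_0 t43_0_0_2 t43_0_0_3 t43_0_0_4 t43_0_0_5 = true := by
  decide +kernel

noncomputable def t43_0_1_0 : T := (dec 2 (nat_lit 0x100000200002c3))
noncomputable def t43_0_1_2 : T := (.leaf 2 [])
noncomputable def t43_0_1_3 : T := (.leaf 2 [])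
noncomputable def t43_0_1_4 : T := (.leaf 0 [])
noncomputable def t43_0_1_5 : T := (.leaf 2 [])

theorem near43_0 : (c43.near false p43_0).ok c43.box t43_0_1_0 t43_0_1_2 t43_0_1_3 t43_0_1_4 t43_0_1_5 = true := by
  decide +kernel

def p43_1 : List Int := [-11318, -17894, -23917, 6859, -164971, -188993, 1675732, 222110, -396169, -1897981, -4192011, 1973457, -189776, -1242587, 1721320, 322643, -7553, -7685, -30868, 1400, -127238, -1261070, 2189292, 456027, -367044, -1128220, -3780092, 1896574, -169101, -1192988, 2069970, 399479, -8463, 2161, -9268, 25804, -163764, -766092, 2035220, 74938, -393764, -1091853, -5148946, 1821995, -190212, -1405827, 1622196, 325579, -7612, 19308, -12276, 27598, -198025, -760819, 2388671, -1960, -410189, 1658294, -7786110, 2038276, -168629, -1275109, 1563462, 399745]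

noncomputable def t43_1_0_0 : T := (dec 2 (nat_lit 0x100000200002c5))
noncomputable def t43_1_0_2 : T := (dec 3 (nat_lit 0x800001000016280000000100000200002cb))
noncomputable def t43_1_0_3 : T := (.leaf 0 [])
noncomputable def t43_1_0_4 : T := (.leaf 2 [])
noncomputable def t43_1_0_5 : T := (.leaf 2 [])

theorem far43_1 : (c43.far true p43_1).ok c43.box t43_1_0_0 t43_1_0_2 t43_1_0_3 t43_1_0_4 t43_1_0_5 = true := by
  decide +kernel

noncomputable def t43_1_1_0 : T := (dec 2 (nat_lit 0x100000200002c3))
noncomputable def t43_1_1_2 : T := (.leaf 2 [])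
noncomputable def t43_1_1_3 : T := (.leaf 2 [])
noncomputable def t43_1_1_4 : T := (.leaf 0 [])
noncomputable def t43_1_1_5 : T := (.leaf 2 [])

theorem near43_1 : (c43.near true p43_1).ok c43.box t43_1_1_0 t43_1_1_2 t43_1_1_3 t43_1_1_4 t43_1_1_5 = true := by
  decide +kernel

def p49_0 : List Int := [0, -7399, -23841, -7781, 1029391, 1218026, 4527679, 580575, 1729810, 2311024, 4431450, 1836072, 754884, 1591596, 1761187, 388267, 0, -5397, -14563, -7258, 890874, 4462576, 1970538, 774932, 2189761, -3278975, 8390884, 1924062, 659968, 3443162, 1550528, 531867, 7888, 35469, -13870, 1702, 969298, -208880, 4932403, 459204, 1183262, 12207037, -2119461, 1810331, 653067, 1684488, 1678171, 388375, 0, -8119, -7609, -7404, 937708, 4681311, 742744, 990067, 1313155, 5807768, 7877514, 1716898, 813323, 1494610, 2120337, 510722]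

noncomputable def t49_0_0_0 : T := (.leaf 0 [])
noncomputable def t49_0_0_2 : T := (.leaf 0 [])
noncomputable def t49_0_0_3 : T := (.leaf 0 [])
noncomputable def t49_0_0_4 : T := (.leaf 2 [])
noncomputable def t49_0_0_5 : T := (.leaf 0 [128])

theorem far49_0 : (c49.far false p49_0).ok c49.box t49_0_0_0 t49_0_0_2 t49_0_0_3 t49_0_0_4 t49_0_0_5 = true := by
  decide +kernel

noncomputable def t49_0_1_0 : T := (dec 2 (nat_lit 0x100000200002c3))
noncomputable def t49_0_1_2 : T := (.leaf 2 [])
noncomputable def t49_0_1_3 : T := (.leaf 2 [])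
noncomputable def t49_0_1_4 : T := (.leaf 0 [])
noncomputable def t49_0_1_5 : T := (.leaf 2 [])

theorem near49_0 : (c49.near false p49_0).ok c49.box t49_0_1_0 t49_0_1_2 t49_0_1_3 t49_0_1_4 t49_0_1_5 = true := by
  decide +kernel

def p49_1 : List Int := [-7829, -23959, -22352, -7817, -188214, 88355, -97756, 670811, -383741, -1042202, -2652274, 1778100, -174668, -916692, 1963261, 390232, -5885, -29995, -14592, -5862, -148769, -177205, 1568486, 669734, -262701, -567985, -3288141, 2067486, -131040, -812435, 1952357, 532754, -7753, -32380, -3672, 1966, -199282, 310503, 492340, 398473, -351632, -1849203, -2799926, 1903073, -174710, -1073205, 1894452, 390966, -5839, -19752, -27175, -5846, -134600, -670771, 2005640, 732139, -273959, -205743, -3574242, 1994630, -131024, -810231, 1938304, 532834]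

noncomputable def t49_1_0_0 : T := (dec 2 (nat_lit 0x100000200002c3))
noncomputable def t49_1_0_2 : T := (dec 3 (nat_lit 0x800001000016280000000100000200002cb))
noncomputable def t49_1_0_3 : T := (.leaf 0 [])
noncomputable def t49_1_0_4 : T := (.leaf 2 [])
noncomputable def t49_1_0_5 : T := (.leaf 0 [128])

theorem far49_1 : (c49.far true p49_1).ok c49.box t49_1_0_0 t49_1_0_2 t49_1_0_3 t49_1_0_4 t49_1_0_5 = true := by
  decide +kernel

noncomputable def t49_1_1_0 : T := (.leaf 0 [])
noncomputable def t49_1_1_2 : T := (.leaf 2 [])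
noncomputable def t49_1_1_3 : T := (.leaf 2 [])
noncomputable def t49_1_1_4 : T := (.leaf 0 [])
noncomputable def t49_1_1_5 : T := (.leaf 2 [])

theorem near49_1 : (c49.near true p49_1).ok c49.box t49_1_1_0 t49_1_1_2 t49_1_1_3 t49_1_1_4 t49_1_1_5 = true := by
  decide +kernel

def p55_0 : List Int := [0, -5904, -12628, -5961, 914718, 4248852, 2051049, 740708, 1843678, 1675811, 7236464, 1900292, 799493, 1829169, 1889802, 524456, 205719, 967405, 387156, 245061, 1934186, -2650311, 10158786, 1439174, 1832243, 16086328, -2737475, 2553198, 810929, 2372760, 2504435, 890636, 0, -7406, -11277, -6082, 914939, 4068813, 2386511, 732451, 1491090, 5640008, 5808364, 1907965, 792130, 2163569, 1822356, 525162, 0, 0, 0, 0, 1305503, 2331842, 4324787, 1276925, 1823029, 4310938, 4892656, 2342398, 805083, 3947813, 1770069, 818004]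

noncomputable def t55_0_0_0 : T := (.leaf 0 [])
noncomputable def t55_0_0_2 : T := (.leaf 0 [])
noncomputable def t55_0_0_3 : T := (.leaf 2 [])
noncomputable def t55_0_0_4 : T := (.leaf 2 [])
noncomputable def t55_0_0_5 : T := (.leaf 2 [])

theorem far55_0 : (c55.far false p55_0).ok c55.box t55_0_0_0 t55_0_0_2 t55_0_0_3 t55_0_0_4 t55_0_0_5 = true := by
  decide +kernel

noncomputable def t55_0_1_0 : T := (dec 2 (nat_lit 0x100000200002c3))
noncomputable def t55_0_1_2 : T := (.leaf 2 [])
noncomputable def t55_0_1_3 : T := (.leaf 2 [])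
noncomputable def t55_0_1_4 : T := (.leaf 0 [])
noncomputable def t55_0_1_5 : T := (.leaf 2 [])

theorem near55_0 : (c55.near false p55_0).ok c55.box t55_0_1_0 t55_0_1_2 t55_0_1_3 t55_0_1_4 t55_0_1_5 = true := by
  decide +kernel

def p55_1 : List Int := [-5975, -29958, -14755, -5791, -149186, 56116, 1185758, 675947, -264416, -1071660, -2661216, 2086437, -129846, -837049, 1988910, 535381, 0, 206922, 356430, 252333, 0, 850286, 4807914, 833145, 0, 767706, -1659202, 2846466, 0, 198925, 1957490, 925487, -6319, -21265, -25834, -5788, -143032, -502979, 1965202, 679524, -265474, 316760, -4383463, 2082929, -129844, -838019, 1988555, 536389, 0, 0, 0, 0, 0, 0, 1342200, 1308176, 0, 0, 1725005, 1368693, 0, 0, 1184178, 930590]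

noncomputable def t55_1_0_0 : T := (.leaf 0 [])
noncomputable def t55_1_0_2 : T := (dec 6 (nat_lit 0x1800001c0000b2c0000040000100006214000000018000020000165800000800001000220280000000100000200002cb))
noncomputable def t55_1_0_3 : T := (.leaf 2 [])
noncomputable def t55_1_0_4 : T := (.leaf 2 [])
noncomputable def t55_1_0_5 : T := (.leaf 2 [])

theorem far55_1 : (c55.far true p55_1).ok c55.box t55_1_0_0 t55_1_0_2 t55_1_0_3 t55_1_0_4 t55_1_0_5 = true := by
  decide +kernel

noncomputable def t55_1_1_0 : T := (dec 2 (nat_lit 0x100000200002c5))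
noncomputable def t55_1_1_2 : T := (.leaf 2 [])
noncomputable def t55_1_1_3 : T := (.leaf 2 [])
noncomputable def t55_1_1_4 : T := (.leaf 0 [])
noncomputable def t55_1_1_5 : T := (.leaf 2 [])

theorem near55_1 : (c55.near true p55_1).ok c55.box t55_1_1_0 t55_1_1_2 t55_1_1_3 t55_1_1_4 t55_1_1_5 = true := by
  decide +kernel

end Crest.Agent.R310.H17
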