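import Crest.Agent.R310.H17Cells

/-! # Row 310: certificates (generated by tools/h17/wr.py) -/

set_option autoImplicit false
set_option maxRecDepth 100000
set_option Elab.async false

open Crest.Agent.Lib.PolyBB

namespace Crest.Agent.R310.H17

def p2_0 : List Int := [243740, 2077953, -439656, -188095, 1579575, -5003111, 5791211, 592820, 1425432, -1971903, 3220412, 145949, 564406, 1327158, 234781, -82578, 501749, 1828104, 703420, 293086, 1654517, -5830035, 8648342, 193133, 1809116, 25700, 4352708, -83831, 640391, 1185482, 58726, -156395, 0, 0, 0, 0, 585592, -378067, 0, 0, 521515, 1069949, 0, 0, 371729, -34467, 0, 0, 524382, -72317, 1681703, 518755, -182890, 14658893, -652789, 456464, 2126611, -3725697, 4229696, 371737, 677930, 375351, 337912, -47841]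

noncomputable def t2_0_0_0 : T := (dec 2 (nat_lit 0x100000200002c3))
noncomputable def t2_0_0_2 : T := (.leaf 2 [])
noncomputable def t2_0_0_3 : T := (.leaf 2 [])
noncomputable def t2_0_0_4 : T := (.leaf 2 [])
noncomputable def t2_0_0_5 : T := (dec 11 (nat_lit 0x26807001b8060000000020000040000e0740038009e01c005000e00270070000000060000080000e87a4038009201c004a00e0000000040001180001d1f18070000000060000080000e8a0000020000040007796000002000054000ac0e000002000032001150e00000200001e001498f0c038009401c006b00e0023007001300380000000100002a0000747c801c0000000180000200003a28000008000010001de580000080000c8002b03eb00e0000000040000100001d0c00000400003c0022a1c000004000008002930e58070000000020000040000e92000002000012003220f9c038000000010000020000745))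

theorem far2_0 : (c2.far false p2_0).ok c2.box t2_0_0_0 t2_0_0_2 t2_0_0_3 t2_0_0_4 t2_0_0_5 = true := by
  decide +kernel

noncomputable def t2_0_1_0 : T := (dec 4 (nat_lit 0x100000200002c500000100000400018830000010000020002e43))
noncomputable def t2_0_1_2 : T := (.leaf 2 [])
noncomputable def t2_0_1_3 : T := (.leaf 2 [])
noncomputable def t2_0_1_4 : T := (.leaf 2 [])
noncomputable def t2_0_1_5 : T := (dec 7 (nat_lit 0x4800e002280700000000c00000e0000e930c0380000000300000400007458401c0000000180000200003a4e6018000000008000010000384c900e00218070000000060000080000e8b08038000000030000040000749c403000000001000002000070900000100000200055c3d4030000000010000020000705))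

theorem near2_0 : (c2.near false p2_0).ok c2.box t2_0_1_0 t2_0_1_2 t2_0_1_3 t2_0_1_4 t2_0_1_5 = true := by
  decide +kernel

def p2_1 : List Int := [-238302, -992394, 1193928, -176842, -1457078, -9008762, 4342274, -298992, -383695, -3617829, -6008895, 732192, -362471, -2475500, 712305, -62160, 0, 495916, 1272044, 286741, -621050, 2541068, -5172119, 193010, -947670, -8200956, 6502910, -100238, -297233, 50132, -90523, -161537, 0, 0, 0, 0, -783584, 383144, 0, 0, -489204, 310226, 0, 0, -374108, 157960, 0, 0, 0, 278012, 1543419, 286285, -580987, 1861520, -3457838, 846114, -1305512, 5455762, -1422006, 304128, -248615, -1669579, 457243, -95652]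

noncomputable def t2_1_0_0 : T := (dec 2 (nat_lit 0x100000200002c3))
noncomputable def t2_1_0_2 : T := (.leaf 2 [])
noncomputable def t2_1_0_3 : T := (.leaf 2 [])
noncomputable def t2_1_0_4 : T := (.leaf 2 [])
noncomputable def t2_1_0_5 : T := (dec 9 (nat_lit 0x4300e003700c0000000040000080001c0e300700110038008801c007e01800000003000003800038280000080000c80010a3fe0180000000180000200003828000008000078002ac3c200e00220070011003800fc0300000000600000700007050000010000190002147fc03000000003000004000070500000100000f00055870000010000020006fc3e80300000000100000200007090000010000090010c87dc03000c40300000000100000200007090000010000020002105))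

theorem far2_1 : (c2.far true p2_1).ok c2.box t2_1_0_0 t2_1_0_2 t2_1_0_3 t2_1_0_4 t2_1_0_5 = true := by
  decide +kernel

noncomputable def t2_1_1_0 : T := (dec 2 (nat_lit 0x100000200002c3))
noncomputable def t2_1_1_2 : T := (.leaf 2 [])
noncomputable def t2_1_1_3 : T := (.leaf 2 [])
noncomputable def t2_1_1_4 : T := (.leaf 2 [])
noncomputable def t2_1_1_5 : T := (dec 11 (nat_lit 0x2700700134038009c01c0000000180000280003a1cd00e00000004c0000500001d2660070000000160000180000e92000006000008000ac07b00380000000300000400007459e01c004f00e00000000c0000100001d0c00001800001c000862670070000000060000080000e935003800d801c0000000180000200003a2c600e00000000c0000100001d24000004000008000ef0e2807001a0060000000020000040000e060000020000040004293a0038000000010000020000745))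

theorem near2_1 : (c2.near true p2_1).ok c2.box t2_1_1_0 t2_1_1_2 t2_1_1_3 t2_1_1_4 t2_1_1_5 = true := by
  decide +kernel

def p8_0 : List Int := [16635, 25870, 3666, -5042, 512562, 159248, -136490, 34692, 441186, 1803436, -2411776, 128890, 512686, 21031, -64268, 0, 21715, 25648, 46775, 14345, 488475, 2007905, 867537, 141510, 1393251, 1555915, 5743262, 945268, 550533, 2331717, -166282, 21693, 16636, 103074, -51994, 2358, 509361, -1344131, 3637557, -238773, 444630, 9286754, -1767092, 122542, 513842, 871500, -224642, 0, 19944, 69739, 72743, 7157, 587125, 1296981, -1696954, 195274, 878546, 522406, 11517978, 39010, 445857, 2846126, -239752, 21693]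

noncomputable def t8_0_0_0 : T := (dec 2 (nat_lit 0x100000200002c3))
noncomputable def t8_0_0_2 : T := (.leaf 0 [])
noncomputable def t8_0_0_3 : T := (dec 3 (nat_lit 0x100000400002c30000010000020001883))
noncomputable def t8_0_0_4 : T := (dec 3 (nat_lit 0x100000400002c30000010000020001883))
noncomputable def t8_0_0_5 : T := (dec 3 (nat_lit 0x2000400080010002000400000000100000400007830000010000020002203))

theorem far8_0 : (c8.far false p8_0).ok c8.box t8_0_0_0 t8_0_0_2 t8_0_0_3 t8_0_0_4 t8_0_0_5 = true := by
  decide +kernel

noncomputable def t8_0_1_0 : T := (dec 3 (nat_lit 0x100000200002c50000010000020001883))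
noncomputable def t8_0_1_2 : T := (.leaf 2 [])
noncomputable def t8_0_1_3 : T := (dec 3 (nat_lit 0x100000400002c30000010000020001883))
noncomputable def t8_0_1_4 : T := (dec 4 (nat_lit 0x2000008000058600000200000400031060000000000000100000400002c300000100000200018830000010000020002e4b))
noncomputable def t8_0_1_5 : T := (dec 3 (nat_lit 0x2000400080010002000400000000100000400007830000010000020002203))

theorem near8_0 : (c8.near false p8_0).ok c8.box t8_0_1_0 t8_0_1_2 t8_0_1_3 t8_0_1_4 t8_0_1_5 = true := by
  decide +kernel

def p8_1 : List Int := [-16422, -85124, -770, 2612, -493868, 1720656, -22426, -52167, -445378, -6066048, 3079435, -16677, -515429, -136918, 69048, 0, -12862, -81397, 77625, 1270, -420550, 475919, -2111637, 423654, -338915, -5348590, 2233170, 172314, -412361, -527907, 743458, 18809, -16191, -99625, 33984, 3340, -531291, 2021666, -3598114, 77765, -415986, -10107067, 2178954, -165871, -515459, -809440, 233708, 0, -13205, -82109, 78017, 1002, -417581, 2263184, -3497818, 278115, -325916, -8609412, 1666116, 512102, -412374, -781178, 819644, 18809]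

noncomputable def t8_1_0_0 : T := (dec 3 (nat_lit 0x100000200002c50000010000020001883))
noncomputable def t8_1_0_2 : T := (.leaf 0 [])
noncomputable def t8_1_0_3 : T := (dec 3 (nat_lit 0x100000400002c30000010000020001883))
noncomputable def t8_1_0_4 : T := (dec 3 (nat_lit 0x100000400002c30000010000020001883))
noncomputable def t8_1_0_5 : T := (dec 3 (nat_lit 0x2000400080010002000400000000100000400007830000010000020002203))

theorem far8_1 : (c8.far true p8_1).ok c8.box t8_1_0_0 t8_1_0_2 t8_1_0_3 t8_1_0_4 t8_1_0_5 = true := by
  decide +kernel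

noncomputable def t8_1_1_0 : T := (dec 3 (nat_lit 0x100000400002c30000010000020001883))
noncomputable def t8_1_1_2 : T := (.leaf 2 [])
noncomputable def t8_1_1_3 : T := (dec 3 (nat_lit 0x100000400002c30000010000020001883))
noncomputable def t8_1_1_4 : T := (dec 3 (nat_lit 0x100000400002c30000010000020001883))
noncomputable def t8_1_1_5 : T := (dec 3 (nat_lit 0x2000400080010002000400000000100000400007830000010000020002203))

theorem near8_1 : (c8.near true p8_1).ok c8.box t8_1_1_0 t8_1_1_2 t8_1_1_3 t8_1_1_4 t8_1_1_5 = true := by
  decide +kernel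

def p14_0 : List Int := [23436, 60546, 27082, 8929, 147496, 287793, 238907, 104483, 218521, 206562, 297015, 108138, 93763, 144588, 26737, 2529, 83691, 8730, 285871, 80626, 255018, 1389953, 430875, 68290, 431682, 257815, 90143, 85592, 163615, -45375, 83673, -12413, 14292, 54215, 93753, 8860, 162100, 680142, -269200, 104941, 160755, 276186, 392191, 108052, 136334, 23293, 48086, 2523, 41853, -30688, 223434, 21190, 249519, 50720, 335900, 181302, 426446, -564069, 904420, 186969, 156141, -34787, 82683, 5052]

noncomputable def t14_0_0_0 : T := (.leaf 0 [])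
noncomputable def t14_0_0_2 : T := (.leaf 2 [])
noncomputable def t14_0_0_3 : T := (.leaf 2 [])
noncomputable def t14_0_0_4 : T := (.leaf 2 [])
noncomputable def t14_0_0_5 : T := (dec 6 (nat_lit 0xce01c004b00e00300070000000060000080000e8b2c03800c601c0000000180000200003a280000100000680010c38000008000010002b05c700e002480700000000400001a0000e8e00000200000400043079c038000000010000020000745))

theorem far14_0 : (c14.far false p14_0).ok c14.box t14_0_0_0 t14_0_0_2 t14_0_0_3 t14_0_0_4 t14_0_0_5 = true := by
  decide +kernel

noncomputable def t14_0_1_0 : T := (dec 3 (nat_lit 0x100000200002c50000010000020001883))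
noncomputable def t14_0_1_2 : T := (.leaf 2 [])
noncomputable def t14_0_1_3 : T := (dec 4 (nat_lit 0xc0000100000b1400000000800001000016180000000100000200002c5))
noncomputable def t14_0_1_4 : T := (dec 3 (nat_lit 0x800001000016180000000100000200002c5))
noncomputable def t14_0_1_5 : T := (dec 3 (nat_lit 0x7b00e002b8070000000020000040000e8bec038000000010000020000743))

theorem near14_0 : (c14.near false p14_0).ok c14.box t14_0_1_0 t14_0_1_2 t14_0_1_3 t14_0_1_4 t14_0_1_5 = true := by
  decide +kernel

def p14_1 : List Int := [-3354, -21813, 56314, 8861, -105945, 566911, -89964, 105189, -254599, 350302, 407066, 108025, -120855, 168250, 49780, 2527, -4922, 104444, 53311, 80599, -48828, -588931, 730062, 95195, -232070, 1051063, -251189, 67176, -109626, 258408, -68817, -8652, -3353, -23067, 63022, 8893, -132281, 709745, -163790, 104579, -68982, -483954, 614724, 108100, -121619, 225130, 48077, 2526, -4890, 46005, 62254, 38779, -62122, -104615, 494888, 144278, -252920, 888262, -219334, 206954, -105719, 217316, 118384, 4544]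

noncomputable def t14_1_0_0 : T := (dec 2 (nat_lit 0x100000200002c3))
noncomputable def t14_1_0_2 : T := (.leaf 2 [])
noncomputable def t14_1_0_3 : T := (.leaf 2 [])
noncomputable def t14_1_0_4 : T := (.leaf 2 [])
noncomputable def t14_1_0_5 : T := (dec 10 (nat_lit 0xc601c005300e00230070000000060000080000e873403800d4030000000030000040000703000001000004000214bb401c005100e00000000c0000100001d0e6007001c8060000000060000080000e060000020000080004296000006000022000ab8ff80600000000c00000e0000e0a000002000004001b11700020004900e002000700000000c00000e0000e8a000002000004000431600000400001a000780ff8060000000060000080000e0b0c038008a01c005b00e0000000040000100001d0c000008000034000861ff00c00000000c0000100001c14000004000008001570e38070011c0380000000100000200007430000010000020002185))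

theorem far14_1 : (c14.far true p14_1).ok c14.box t14_1_0_0 t14_1_0_2 t14_1_0_3 t14_1_0_4 t14_1_0_5 = true := by
  decide +kernel

noncomputable def t14_1_1_0 : T := (dec 3 (nat_lit 0x100000200002c30000010000020001885))
noncomputable def t14_1_1_2 : T := (.leaf 2 [])
noncomputable def t14_1_1_3 : T := (dec 3 (nat_lit 0x40000080000b140000000000100000200002c50000010000020001883))
noncomputable def t14_1_1_4 : T := (dec 3 (nat_lit 0x40000080000b140000000000100000200002c50000010000020001883))
noncomputable def t14_1_1_5 : T := (dec 3 (nat_lit 0xf601c006c00e0000000040000080001d17d807001b00380000000100000200007450000010000020002183))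

theorem near14_1 : (c14.near true p14_1).ok c14.box t14_1_1_0 t14_1_1_2 t14_1_1_3 t14_1_1_4 t14_1_1_5 = true := by
  decide +kernel

def p20_0 : List Int := [65725, 177099, 214687, 62939, 234538, 979589, 262837, 127534, 405743, -9018, 391141, 47927, 131037, 93403, 27738, -9380, 102396, 404476, 271614, 109348, 429364, -24008, 1000434, 133725, 261964, 1230210, 332522, 90433, 147086, 172764, 105426, -9742, 64388, 220117, 149819, 65528, 332755, 271279, 642654, 113434, 270269, 663117, 174787, 52451, 138826, 57781, 35938, -9757, 87975, 343540, 243463, 84187, 391900, 203960, 614871, 195876, 289254, 776685, 563823, 61197, 147035, 137631, 78724, -8447]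

noncomputable def t20_0_0_0 : T := (.leaf 0 [])
noncomputable def t20_0_0_2 : T := (.leaf 2 [])
noncomputable def t20_0_0_3 : T := (.leaf 2 [])
noncomputable def t20_0_0_4 : T := (.leaf 2 [])
noncomputable def t20_0_0_5 : T := (dec 4 (nat_lit 0xc601c000000000000020000040000b17d0060000000020000040000e078c038000000010000020000745))

theorem far20_0 : (c20.far false p20_0).ok c20.box t20_0_0_0 t20_0_0_2 t20_0_0_3 t20_0_0_4 t20_0_0_5 = true := by
  decide +kernel

noncomputable def t20_0_1_0 : T := (.leaf 0 [])
noncomputable def t20_0_1_2 : T := (.leaf 2 [])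
noncomputable def t20_0_1_3 : T := (.leaf 2 [])
noncomputable def t20_0_1_4 : T := (.leaf 2 [])
noncomputable def t20_0_1_5 : T := (dec 3 (nat_lit 0x5700e002a8070000000020000040000e8714038000000010000020000745))

theorem near20_0 : (c20.near false p20_0).ok c20.box t20_0_1_0 t20_0_1_2 t20_0_1_3 t20_0_1_4 t20_0_1_5 = true := by
  decide +kernel

def p20_1 : List Int := [-4160, 48629, 134286, 60079, -71093, 239510, 177142, 132677, -195512, 226398, 99812, 38187, -92817, 72174, 7018, -8931, -3777, 115215, 158662, 108153, -64718, 254694, 118040, 165447, -177404, 119893, 112325, 77041, -84377, 13686, -59116, -7888, -3729, 45244, 139056, 59932, -74046, 266363, 127631, 146783, -192945, 205156, 135824, 31460, -92823, 72588, 4762, -8590, -3420, 92481, 136895, 93637, -55146, 27044, 652965, 139904, -177951, 291703, 30529, 92454, -78403, 35807, 17303, -10033]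

noncomputable def t20_1_0_0 : T := (.leaf 0 [])
noncomputable def t20_1_0_2 : T := (.leaf 2 [])
noncomputable def t20_1_0_3 : T := (.leaf 2 [])
noncomputable def t20_1_0_4 : T := (.leaf 2 [])
noncomputable def t20_1_0_5 : T := (dec 3 (nat_lit 0xfc03000ec030000000010000020000705e8030000000010000020000703))

theorem far20_1 : (c20.far true p20_1).ok c20.box t20_1_0_0 t20_1_0_2 t20_1_0_3 t20_1_0_4 t20_1_0_5 = true := by
  decide +kernel

noncomputable def t20_1_1_0 : T := (.leaf 0 [])
noncomputable def t20_1_1_2 : T := (.leaf 2 [])
noncomputable def t20_1_1_3 : T := (.leaf 2 [])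
noncomputable def t20_1_1_4 : T := (.leaf 2 [])
noncomputable def t20_1_1_5 : T := (.leaf 0 [87])

theorem near20_1 : (c20.near true p20_1).ok c20.box t20_1_1_0 t20_1_1_2 t20_1_1_3 t20_1_1_4 t20_1_1_5 = true := by
  decide +kernel

def p26_0 : List Int := [205740, 631782, 531328, 205860, 640521, 923028, 2251720, 76206, 573459, 1934567, -385849, -3036, 234558, 316459, 101714, -92421, 204347, 525812, 643226, 195332, 627746, 2097593, 424274, 194048, 528584, 1212235, 570729, -160047, 204512, 257546, 39334, -127830, 210440, 686665, 549430, 212998, 755617, 1307390, 1679602, 286247, 643937, 1718724, 821232, 152552, 287162, 412137, 177730, -19080, 212347, 589214, 624507, 211069, 605115, 2540295, 951015, 202716, 690976, 912937, 846610, 92134, 252533, 382898, 112250, -63948]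

noncomputable def t26_0_0_0 : T := (.leaf 0 [])
noncomputable def t26_0_0_2 : T := (.leaf 2 [])
noncomputable def t26_0_0_3 : T := (.leaf 2 [])
noncomputable def t26_0_0_4 : T := (.leaf 2 [])
noncomputable def t26_0_0_5 : T := (.leaf 0 [64])

theorem far26_0 : (c26.far false p26_0).ok c26.box t26_0_0_0 t26_0_0_2 t26_0_0_3 t26_0_0_4 t26_0_0_5 = true := by
  decide +kernel

noncomputable def t26_0_1_0 : T := (.leaf 0 [])
noncomputable def t26_0_1_2 : T := (.leaf 2 [])
noncomputable def t26_0_1_3 : T := (.leaf 2 [])
noncomputable def t26_0_1_4 : T := (.leaf 2 [])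
noncomputable def t26_0_1_5 : T := (dec 2 (nat_lit 0x10003800c8030000000010000020000705))

theorem near26_0 : (c26.near false p26_0).ok c26.box t26_0_1_0 t26_0_1_2 t26_0_1_3 t26_0_1_4 t26_0_1_5 = true := by
  decide +kernel

def p26_1 : List Int := [0, 210847, 400004, 195322, -222063, -407459, 130520, 225407, -378289, -127008, -636697, -139628, -165366, -311794, -291483, -84735, 0, 193569, 414679, 205958, -206300, -17664, -286106, 104976, -338812, -684285, -301051, -162684, -150902, -340384, -420467, -120996, -6969, 186147, 382224, 214726, -129582, 444531, 826380, 285309, -347145, 78309, 162106, 147570, -165234, -38380, -44344, -22472, -6388, 185814, 379395, 212756, -118710, 229814, 917585, 202862, -317525, -79738, -202750, 80535, -151586, -137391, -165254, -60459]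

noncomputable def t26_1_0_0 : T := (.leaf 0 [])
noncomputable def t26_1_0_2 : T := (.leaf 2 [])
noncomputable def t26_1_0_3 : T := (.leaf 2 [])
noncomputable def t26_1_0_4 : T := (.leaf 2 [])
noncomputable def t26_1_0_5 : T := (.leaf 0 [64])

theorem far26_1 : (c26.far true p26_1).ok c26.box t26_1_0_0 t26_1_0_2 t26_1_0_3 t26_1_0_4 t26_1_0_5 = true := by
  decide +kernel

noncomputable def t26_1_1_0 : T := (.leaf 0 [])
noncomputable def t26_1_1_2 : T := (.leaf 2 [])
noncomputable def t26_1_1_3 : T := (.leaf 2 [])
noncomputable def t26_1_1_4 : T := (.leaf 2 [])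
noncomputable def t26_1_1_5 : T := (.leaf 0 [78])

theorem near26_1 : (c26.near true p26_1).ok c26.box t26_1_1_0 t26_1_1_2 t26_1_1_3 t26_1_1_4 t26_1_1_5 = true := by
  decide +kernel

def p32_0 : List Int := [486597, 819064, 1483193, 473996, 780604, 11060261, -277089, 755814, 1916807, -1930660, 4181822, 430865, 617404, 1051253, 271709, -29845, 547495, 876880, 1766067, 537697, 1494334, 12873112, -2899202, 1594494, 1394858, -1413304, 8451610, 1428330, 714238, 1757801, 1330454, 233899, 243983, 775466, 361756, 231417, 781447, 1085319, 4086703, 774234, 1439742, 4692301, 2378693, 1630922, 636120, 618036, 902283, 78510, 347134, 1237693, 862376, 300246, 866477, 2089446, 4590193, 2083322, 2526360, 809336, 6832099, 1932395, 608708, 1665094, 1157204, 275831]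

noncomputable def t32_0_0_0 : T := (.leaf 0 [])
noncomputable def t32_0_0_2 : T := (.leaf 2 [])
noncomputable def t32_0_0_3 : T := (.leaf 2 [])
noncomputable def t32_0_0_4 : T := (.leaf 2 [])
noncomputable def t32_0_0_5 : T := (dec 2 (nat_lit 0x2e80700160038000000010000020000749))

theorem far32_0 : (c32.far false p32_0).ok c32.box t32_0_0_0 t32_0_0_2 t32_0_0_3 t32_0_0_4 t32_0_0_5 = true := by
  decide +kernel

noncomputable def t32_0_1_0 : T := (dec 2 (nat_lit 0x100000200002c3))
noncomputable def t32_0_1_2 : T := (.leaf 2 [])
noncomputable def t32_0_1_3 : T := (.leaf 2 [])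
noncomputable def t32_0_1_4 : T := (.leaf 0 [])
noncomputable def t32_0_1_5 : T := (.leaf 0 [105])

theorem near32_0 : (c32.near false p32_0).ok c32.box t32_0_1_0 t32_0_1_2 t32_0_1_3 t32_0_1_4 t32_0_1_5 = true := by
  decide +kernel

def p32_1 : List Int := [-14594, 469980, 1050241, 389883, -200122, -899000, 2663617, 1001464, -690836, 3466733, -427123, 383454, -324461, 261521, -41849, -25470, -8806, 516431, 1112607, 549042, -179951, 162684, 3753853, 1006844, -513370, 1856816, 3300890, 1589732, -243355, 281999, 991669, 201637, -11827, 120597, 476997, 237502, -267241, 2391709, 1121808, 813324, -679269, -402147, 4557340, 1497034, -324484, 687353, 915767, 69710, -8897, 266782, 503714, 364454, -218038, 2784838, 3159284, 1483135, -327282, -1228650, 5786876, 2353407, -243553, 603622, 1803851, 254616]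

noncomputable def t32_1_0_0 : T := (.leaf 0 [])
noncomputable def t32_1_0_2 : T := (.leaf 2 [])
noncomputable def t32_1_0_3 : T := (.leaf 2 [])
noncomputable def t32_1_0_4 : T := (.leaf 2 [])
noncomputable def t32_1_0_5 : T := (dec 2 (nat_lit 0x2f00700160038000000010000020000749))

theorem far32_1 : (c32.far true p32_1).ok c32.box t32_1_0_0 t32_1_0_2 t32_1_0_3 t32_1_0_4 t32_1_0_5 = true := by
  decide +kernel

noncomputable def t32_1_1_0 : T := (dec 2 (nat_lit 0x100000200002c3))
noncomputable def t32_1_1_2 : T := (.leaf 2 [])
noncomputable def t32_1_1_3 : T := (.leaf 2 [])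
noncomputable def t32_1_1_4 : T := (dec 2 (nat_lit 0x100000200002cb))
noncomputable def t32_1_1_5 : T := (dec 3 (nat_lit 0x6d00e00358070000000020000040000e87b4038000000010000020000745))

theorem near32_1 : (c32.near true p32_1).ok c32.box t32_1_1_0 t32_1_1_2 t32_1_1_3 t32_1_1_4 t32_1_1_5 = true := by
  decide +kernel

def p38_0 : List Int := [448152, 1334939, 1324350, 438299, 1383062, 3648725, 3205124, 838363, 1317208, 3171900, 1798438, 285097, 451818, 875757, 357367, -71027, 464837, 1380078, 1411936, 456154, 1393407, 3898408, 3033813, 928241, 1407513, 2882532, 2618501, 435213, 464747, 952652, 440708, -33807, 471110, 1388289, 1381953, 457581, 1401367, 4004356, 3089512, 972489, 1525040, 3094274, 2695745, 498529, 518647, 1031242, 508896, -14311, 473330, 1442926, 1397129, 464403, 1425631, 3972228, 3024754, 981564, 1454665, 3299818, 2791110, 528580, 497951, 1002841, 514895, -13252]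

noncomputable def t38_0_0_0 : T := (.leaf 0 [])
noncomputable def t38_0_0_2 : T := (.leaf 2 [])
noncomputable def t38_0_0_3 : T := (.leaf 2 [])
noncomputable def t38_0_0_4 : T := (.leaf 2 [])
noncomputable def t38_0_0_5 : T := (.leaf 0 [0])

theorem far38_0 : (c38.far false p38_0).ok c38.box t38_0_0_0 t38_0_0_2 t38_0_0_3 t38_0_0_4 t38_0_0_5 = true := by
  decide +kernel

noncomputable def t38_0_1_0 : T := (.leaf 0 [])
noncomputable def t38_0_1_2 : T := (.leaf 2 [])
noncomputable def t38_0_1_3 : T := (.leaf 2 [])
noncomputable def t38_0_1_4 : T := (.leaf 2 [])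
noncomputable def t38_0_1_5 : T := (.leaf 0 [72])

theorem near38_0 : (c38.near false p38_0).ok c38.box t38_0_1_0 t38_0_1_2 t38_0_1_3 t38_0_1_4 t38_0_1_5 = true := by
  decide +kernel

def p38_1 : List Int := [-10072, 437734, 848489, 432419, -161044, 449888, 2089299, 812016, -473953, -7213, 728185, 261318, -224449, -209670, -120231, -78560, -8948, 429674, 926473, 465949, -143179, 784778, 2074932, 886704, -421287, 334048, 1111969, 422972, -199511, -46817, -29190, -39840, -10070, 450775, 925034, 450905, -161054, 906208, 2211404, 1016437, -473952, 665659, 1088008, 467041, -224449, 87881, 9285, -18158, -8951, 440574, 903542, 460899, -143293, 1233991, 2038566, 1074636, -421267, 282467, 1672830, 416834, -199511, 103483, -37087, -6472]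

noncomputable def t38_1_0_0 : T := (.leaf 0 [])
noncomputable def t38_1_0_2 : T := (.leaf 2 [])
noncomputable def t38_1_0_3 : T := (.leaf 2 [])
noncomputable def t38_1_0_4 : T := (.leaf 2 [])
noncomputable def t38_1_0_5 : T := (.leaf 0 [0])

theorem far38_1 : (c38.far true p38_1).ok c38.box t38_1_0_0 t38_1_0_2 t38_1_0_3 t38_1_0_4 t38_1_0_5 = true := by
  decide +kernel

noncomputable def t38_1_1_0 : T := (.leaf 0 [])
noncomputable def t38_1_1_2 : T := (.leaf 2 [])
noncomputable def t38_1_1_3 : T := (.leaf 2 [])
noncomputable def t38_1_1_4 : T := (.leaf 2 [])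
noncomputable def t38_1_1_5 : T := (.leaf 0 [72])

theorem near38_1 : (c38.near true p38_1).ok c38.box t38_1_1_0 t38_1_1_2 t38_1_1_3 t38_1_1_4 t38_1_1_5 = true := by
  decide +kernel

def p44_0 : List Int := [27911, 88677, 75159, 22136, 600132, 1267765, 826247, 169314, 1209641, 3446854, 5810155, 1459415, 665025, 2433921, 1077457, 304640, 31810, 100250, 40479, 24168, 404407, 2130678, 99722, 373078, 1808911, 3881256, 6595223, 1392383, 648943, 2514747, 1255036, 362297, 0, 0, 0, 0, 0, 0, 0, 0, 0, 0, 0, 0, 0, 0, 0, 0, 0, 0, 0, 0, 0, 0, 0, 0, 0, 0, 0, 0, 0, 0, 0, 0]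

noncomputable def t44_0_0_0 : T := (.leaf 0 [])
noncomputable def t44_0_0_2 : T := (.leaf 0 [])
noncomputable def t44_0_0_3 : T := (.leaf 0 [])
noncomputable def t44_0_0_4 : T := (.leaf 2 [])
noncomputable def t44_0_0_5 : T := (.leaf 2 [])

theorem far44_0 : (c44.far false p44_0).ok c44.box t44_0_0_0 t44_0_0_2 t44_0_0_3 t44_0_0_4 t44_0_0_5 = true := by
  decide +kernel

noncomputable def t44_0_1_0 : T := (.leaf 0 [])
noncomputable def t44_0_1_2 : T := (.leaf 2 [])
noncomputable def t44_0_1_3 : T := (.leaf 2 [])
noncomputable def t44_0_1_4 : T := (.leaf 0 [])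
noncomputable def t44_0_1_5 : T := (.leaf 2 [])

theorem near44_0 : (c44.near false p44_0).ok c44.box t44_0_1_0 t44_0_1_2 t44_0_1_3 t44_0_1_4 t44_0_1_5 = true := by
  decide +kernel

def p44_1 : List Int := [-8310, 1469, -7014, 25844, -239993, -958516, 2341031, -1022, -365239, 856817, -7411334, 1908911, -191688, -1420704, 1679359, 324150, -10033, 32701, -20284, 28447, -160490, -1328209, 2718002, -8866, -542204, 2098298, -7616755, 2034589, -166751, -1283244, 1552450, 399746, 0, 0, 0, 0, 0, 0, 0, 0, 0, 0, 0, 0, 0, 0, 0, 0, 0, 0, 0, 0, 0, 0, 0, 0, 0, 0, 0, 0, 0, 0, 0, 0]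

noncomputable def t44_1_0_0 : T := (dec 2 (nat_lit 0x100000200002c5))
noncomputable def t44_1_0_2 : T := (.leaf 0 [])
noncomputable def t44_1_0_3 : T := (.leaf 0 [])
noncomputable def t44_1_0_4 : T := (.leaf 2 [])
noncomputable def t44_1_0_5 : T := (.leaf 2 [])

theorem far44_1 : (c44.far true p44_1).ok c44.box t44_1_0_0 t44_1_0_2 t44_1_0_3 t44_1_0_4 t44_1_0_5 = true := by
  decide +kernel

noncomputable def t44_1_1_0 : T := (dec 2 (nat_lit 0x100000200002c3))
noncomputable def t44_1_1_2 : T := (.leaf 2 [])
noncomputable def t44_1_1_3 : T := (.leaf 2 [])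
noncomputable def t44_1_1_4 : T := (.leaf 0 [])
noncomputable def t44_1_1_5 : T := (.leaf 2 [])

theorem near44_1 : (c44.near true p44_1).ok c44.box t44_1_1_0 t44_1_1_2 t44_1_1_3 t44_1_1_4 t44_1_1_5 = true := by
  decide +kernel

def p50_0 : List Int := [7834, 24103, 12602, 1564, 897878, 2440593, 1521440, 474394, 1683358, 1730102, 6843115, 1753596, 745134, 1701403, 1638447, 385328, 0, -5794, -12337, -5986, 1089069, 1338761, 4898609, 728526, 1831369, 4427165, 1939190, 1928571, 669068, 2418734, 1810206, 525917, 28073, 67649, 90861, 25790, 541101, 2889376, 1108388, 151460, 1641164, 569818, 6316564, 1703380, 737023, 2059456, 1413335, 384727, 35759, 108002, 46996, 30181, 691462, -235764, 3539582, 231201, 1259611, 6765445, 3022551, 1879372, 687033, 3161199, 1254240, 526030]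

noncomputable def t50_0_0_0 : T := (.leaf 0 [])
noncomputable def t50_0_0_2 : T := (.leaf 0 [])
noncomputable def t50_0_0_3 : T := (.leaf 0 [])
noncomputable def t50_0_0_4 : T := (.leaf 2 [])
noncomputable def t50_0_0_5 : T := (.leaf 2 [])

theorem far50_0 : (c50.far false p50_0).ok c50.box t50_0_0_0 t50_0_0_2 t50_0_0_3 t50_0_0_4 t50_0_0_5 = true := by
  decide +kernel

noncomputable def t50_0_1_0 : T := (dec 2 (nat_lit 0x100000200002c3))
noncomputable def t50_0_1_2 : T := (.leaf 2 [])
noncomputable def t50_0_1_3 : T := (.leaf 2 [])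
noncomputable def t50_0_1_4 : T := (.leaf 0 [])
noncomputable def t50_0_1_5 : T := (.leaf 2 [])

theorem near50_0 : (c50.near false p50_0).ok c50.box t50_0_1_0 t50_0_1_2 t50_0_1_3 t50_0_1_4 t50_0_1_5 = true := by
  decide +kernel

def p50_1 : List Int := [-10145, -398, -13392, -2569, -62021, -896726, 1426683, 810624, -654677, 969761, -5592806, 1556290, -168154, -1107228, 1723313, 400535, -5576, -22556, -26706, -5645, -155593, 547832, -339728, 910013, -255629, -1841370, -959330, 1960315, -126351, -891216, 1984873, 521449, -7459, 2017, 550, 28509, -210744, -607472, 2296130, -4064, -340152, -396624, -5921219, 2034276, -168468, -1288467, 1640138, 400877, -5672, 6330, 21687, 29965, -157613, 304239, 998766, 529034, -255073, -550674, -3809408, 1606418, -126351, -963499, 1399608, 549905]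

noncomputable def t50_1_0_0 : T := (dec 2 (nat_lit 0x100000200002c5))
noncomputable def t50_1_0_2 : T := (dec 3 (nat_lit 0x800001000016280000000100000200002cb))
noncomputable def t50_1_0_3 : T := (.leaf 0 [])
noncomputable def t50_1_0_4 : T := (.leaf 2 [])
noncomputable def t50_1_0_5 : T := (.leaf 2 [])

theorem far50_1 : (c50.far true p50_1).ok c50.box t50_1_0_0 t50_1_0_2 t50_1_0_3 t50_1_0_4 t50_1_0_5 = true := by
  decide +kernel

noncomputable def t50_1_1_0 : T := (dec 3 (nat_lit 0x100000200002c50000010000020001883))
noncomputable def t50_1_1_2 : T := (.leaf 2 [])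
noncomputable def t50_1_1_3 : T := (.leaf 2 [])
noncomputable def t50_1_1_4 : T := (.leaf 0 [])
noncomputable def t50_1_1_5 : T := (.leaf 2 [])

theorem near50_1 : (c50.near true p50_1).ok c50.box t50_1_1_0 t50_1_1_2 t50_1_1_3 t50_1_1_4 t50_1_1_5 = true := by
  decide +kernel

def p56_0 : List Int := [0, -7753, -11420, -6015, 1084674, 1813469, 4388315, 728891, 1814512, 2800954, 5116429, 1913557, 799803, 1814436, 1897178, 524706, 0, 0, 0, 0, 1092388, 5538837, 1561768, 1307534, 2530712, 4027842, 10009498, 2159297, 815687, 2339971, 2603298, 866210, 29898, 147027, 33623, 29849, 634423, 1097509, 1660049, 215209, 1739080, 2377092, 6547790, 1882556, 787232, 2576949, 1409112, 523692, 41366, 133722, 126505, 42757, 460880, 4623534, -694889, 773344, 2417755, 1314075, 10812163, 1684294, 806062, 2483373, 3574720, 801230]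

noncomputable def t56_0_0_0 : T := (.leaf 0 [])
noncomputable def t56_0_0_2 : T := (.leaf 0 [])
noncomputable def t56_0_0_3 : T := (.leaf 2 [])
noncomputable def t56_0_0_4 : T := (.leaf 2 [])
noncomputable def t56_0_0_5 : T := (.leaf 2 [])

theorem far56_0 : (c56.far false p56_0).ok c56.box t56_0_0_0 t56_0_0_2 t56_0_0_3 t56_0_0_4 t56_0_0_5 = true := by
  decide +kernel

noncomputable def t56_0_1_0 : T := (dec 3 (nat_lit 0x100000400002c30000010000020001883))
noncomputable def t56_0_1_2 : T := (.leaf 2 [])
noncomputable def t56_0_1_3 : T := (.leaf 2 [])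
noncomputable def t56_0_1_4 : T := (.leaf 0 [])
noncomputable def t56_0_1_5 : T := (.leaf 2 [])

theorem near56_0 : (c56.near false p56_0).ok c56.box t56_0_1_0 t56_0_1_2 t56_0_1_3 t56_0_1_4 t56_0_1_5 = true := by
  decide +kernel

def p56_1 : List Int := [-5585, -24260, -25290, -5667, -156047, 241381, 757492, 1071566, -254692, -1561349, -1558111, 1101904, -126031, -881754, 1890083, 544980, 0, 0, 0, 0, 0, 0, 1377498, 1372125, 0, 0, 1340747, 1202860, 0, 0, 1372027, 942119, -6721, -1456, 38972, 20252, -148711, 469262, 622670, 778979, -255932, -1328767, -2078486, 593728, -126029, -971161, 1416566, 549831, 0, 40757, 59158, 34664, 0, 101830, 1315260, 967645, 0, 99245, 616079, 1116437, 0, 33720, 869569, 946345]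

noncomputable def t56_1_0_0 : T := (dec 2 (nat_lit 0x100000200002c5))
noncomputable def t56_1_0_2 : T := (dec 3 (nat_lit 0x800001000016280000000100000200002cb))
noncomputable def t56_1_0_3 : T := (.leaf 2 [])
noncomputable def t56_1_0_4 : T := (.leaf 2 [])
noncomputable def t56_1_0_5 : T := (.leaf 2 [])

theorem far56_1 : (c56.far true p56_1).ok c56.box t56_1_0_0 t56_1_0_2 t56_1_0_3 t56_1_0_4 t56_1_0_5 = true := by
  decide +kernel

noncomputable def t56_1_1_0 : T := (.leaf 0 [])
noncomputable def t56_1_1_2 : T := (.leaf 2 [])
noncomputable def t56_1_1_3 : T := (.leaf 2 [])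
noncomputable def t56_1_1_4 : T := (.leaf 0 [])
noncomputable def t56_1_1_5 : T := (.leaf 2 [])

theorem near56_1 : (c56.near true p56_1).ok c56.box t56_1_1_0 t56_1_1_2 t56_1_1_3 t56_1_1_4 t56_1_1_5 = true := by
  decide +kernel

end Crest.Agent.R310.H17
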