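import Crest.Agent.R310.H17Cells

/-! # Row 310: certificates (generated by tools/h17/wr.py) -/

set_option autoImplicit false
set_option maxRecDepth 100000
set_option Elab.async false

open Crest.Agent.Lib.PolyBB

namespace Crest.Agent.R310.H17

def p3_0 : List Int := [0, 0, 0, 0, 773901, 440687, 0, 0, 613695, -1723450, 0, 0, 232856, 23611, 0, 0, 210249, 3315936, 520600, 214247, 2578892, -14299536, 10145527, 786465, 2234552, 5758363, -1023393, 684171, 277912, 1777221, 388083, -128263, 0, 0, 0, 0, 906193, -228096, 0, 0, -362691, 1988966, 0, 0, 528959, -215316, 0, 0, 143098, 2516496, -456237, 202658, 330555, 3661389, 1480054, 626374, 3758552, -5450362, 2053595, 280649, 275499, 911192, 103179, -65453]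

noncomputable def t3_0_0_0 : T := (dec 2 (nat_lit 0x100000200002c3))
noncomputable def t3_0_0_2 : T := (.leaf 2 [])
noncomputable def t3_0_0_3 : T := (.leaf 2 [])
noncomputable def t3_0_0_4 : T := (.leaf 2 [])
noncomputable def t3_0_0_5 : T := (dec 27 (nat_lit 0xc601c004a00e002700700000000c00000e0000e8a00000200000400043179003800ac01c0000000080000100003a580000180000200010c2c700e002b0070000000060000080000e8a00000200000400043079c038009201c005200e00000001800001c0001d16e8070000000060000080000e8a00000200000400077979c038008c01c004e00e00000001800001c0001d16c0070000000060000080000e8a0000020000040007796000006000008000ac0794038008801c005500e00000000c0000100001d14000004000008000862e68070000000020000080000e86000002000004000ac0700020006400e00228070013c038000000060000070000745000001000004000218b80010002280700110038008801c00400080010c038009e01c0000000580000600003a2c300e00290070000000160000180000e8a000002000186000430e00000200000e000ac160000020000ea000e10e00000200008c001158e0000020000540014a0f4c038000000060000070000745000001000004000d98b000001000019000f407ca01c004300e0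0238070000000160000180000e8b08038008401c0000000180000280003a1c700e00000002c0000300001d161007001080380000000300000500007439201c0000000580000600003a2c000800104038008201c004000800104038008201c004100e00200040008201c004100e00258070000000700000720000e8a000002000bc6000430e0000020000280007796000002000710000ac8f3003800000021000022000074500000100021e0008ac7000001000145000a50700000100000c000bf4b0000010000c3000d9c7000001000075000f4078201c004100e002080700100020004100e002080700104038008e01c0000001c00001c80003a28000008001c400010c3cc00e0000000840000880001d14000004000878001581c000004000030001c12c0000040005140022b1c00000400030c002941c0000040001d4002fd1c00000c000014003660e38070000000260000280000e8a00000200000e0042a173c0380000000b00000c000074500000100004600249c700000100002a0029887000001000019002e7479a01c0000000300000380003a28000008000020019b05800001800002001a821e100e00000000c0000100001d14000004000008013012e00040008801c0000000080000100003a5c000800100020004200e002100700108038008401c00400080010803800000001000007000074b0000010000c300021c79201c0000000980000a00003a280000080003a8002b23cf00e00000002c0000300001d140000040001180022b1c0000040000a8002941c000004000010002fd2c000004000008003672c000004000064003d11e880700000000c00000e0000e8b6003800ba01c0000000300000380003a280000080000200010c1e900e00000000c0000100001d14000004000008006480c00000400003c019ff1c00000400002401eeb1f6807001b40380000000100000200007430000010000020002185))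

theorem far3_0 : (c3.far false p3_0).ok c3.box t3_0_0_0 t3_0_0_2 t3_0_0_3 t3_0_0_4 t3_0_0_5 = true := by
  decide +kernel

noncomputable def t3_0_1_0 : T := (dec 4 (nat_lit 0x100000200002c500000100000400018830000010000020002e43))
noncomputable def t3_0_1_2 : T := (.leaf 2 [])
noncomputable def t3_0_1_3 : T := (.leaf 2 [])
noncomputable def t3_0_1_4 : T := (.leaf 2 [])
noncomputable def t3_0_1_5 : T := (dec 6 (nat_lit 0xbe01c004a00e00250070000000020000040000e93b0060000000060000080000e0a000002000004000771748038000000010000020000743a0030000000010000020000705))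

theorem near3_0 : (c3.near false p3_0).ok c3.box t3_0_1_0 t3_0_1_2 t3_0_1_3 t3_0_1_4 t3_0_1_5 = true := by
  decide +kernel

def p3_1 : List Int := [0, 0, 0, 0, -382428, -671288, 0, 0, -2040756, -219732, 0, 0, -565793, 251962, 0, 0, 0, 638315, -491991, 619474, -754625, 5372481, 2428270, -203093, 162403, -17764776, 6796332, 801493, -315925, 1121933, -1452981, -38115, 0, 0, 0, 0, -284033, -95899, 0, 0, -2565126, 2085588, 0, 0, -266229, -234789, 0, 0, -15140, 595167, -445445, 285014, -694295, 700189, 4277519, 625652, 578724, -7345944, 384209, 162535, -542105, 2082508, -715142, -7048]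

noncomputable def t3_1_0_0 : T := (dec 4 (nat_lit 0x100000400002c300000100000200018830000010000020002e45))
noncomputable def t3_1_0_2 : T := (.leaf 2 [])
noncomputable def t3_1_0_3 : T := (.leaf 2 [])
noncomputable def t3_1_0_4 : T := (.leaf 2 [])
noncomputable def t3_1_0_5 : T := (dec 17 (nat_lit 0x16803800f403000000001000002000070bdc0300000000300000400007058001c0000000080000100003a1dc00e002000700100038000000030000040000743000001000002000218b8001000208070000000020000040000e9700020004100e003e00c00000002c0000300001c16080700100020004100e0000000040000100001d2e000400080010002080700000000200000e0000e96000002000008000439700020004100e0000000040000100001d2c00000c000014000870e08070000000260000280000e8a00000200008c001168f000380000000b00000c000074500000100002a000da47000003000004000f48300000100000200128cb00000100001900143478001c0000000300000380003a2800000800007800c923fe018000000018000020000382c000e002100700000000200001e0000e8e00000200000400043060000020000120045f0f3806001c8060000000020000120000e0f80060012403800000001000004000074300000100000200021430000010000020005545))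

theorem far3_1 : (c3.far true p3_1).ok c3.box t3_1_0_0 t3_1_0_2 t3_1_0_3 t3_1_0_4 t3_1_0_5 = true := by
  decide +kernel

noncomputable def t3_1_1_0 : T := (dec 4 (nat_lit 0x2000004000058a0000000000000100000200002c500000100000400018830000010000020002e43))
noncomputable def t3_1_1_2 : T := (.leaf 2 [])
noncomputable def t3_1_1_3 : T := (.leaf 2 [])
noncomputable def t3_1_1_4 : T := (.leaf 2 [])
noncomputable def t3_1_1_5 : T := (dec 6 (nat_lit 0x8001000288070000000020000040000e9750038000000010000020000749a401c005100e0000000040000080001d2758070000000060000080000e8a00000600000800077878803800d601c0000000180000200003a280000080000100010c1ec00e00360070000000020000080000e8bac0380000000100000200007430000010000020003bc5))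

theorem near3_1 : (c3.near true p3_1).ok c3.box t3_1_1_0 t3_1_1_2 t3_1_1_3 t3_1_1_4 t3_1_1_5 = true := by
  decide +kernel

def p9_0 : List Int := [16915, 95570, -51043, 5742, 494853, -1766972, 2932770, 20631, 483355, 8914114, 30528, -332738, 506410, 861270, -205400, 0, 20298, 116216, -27970, 11340, 586035, -1584406, 2912850, 25051, 642757, 8715958, 2373065, 878419, 606397, 1580460, -164195, 21568, 0, 0, 0, 0, 0, 0, 0, 0, 0, 0, 0, 0, 0, 0, 0, 0, 0, 0, 0, 0, 0, 0, 0, 0, 0, 0, 0, 0, 0, 0, 0, 0]

noncomputable def t9_0_0_0 : T := (dec 2 (nat_lit 0x100000200002c3))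
noncomputable def t9_0_0_2 : T := (.leaf 0 [])
noncomputable def t9_0_0_3 : T := (.leaf 0 [])
noncomputable def t9_0_0_4 : T := (.leaf 0 [])
noncomputable def t9_0_0_5 : T := (.leaf 2 [])

theorem far9_0 : (c9.far false p9_0).ok c9.box t9_0_0_0 t9_0_0_2 t9_0_0_3 t9_0_0_4 t9_0_0_5 = true := by
  decide +kernel

noncomputable def t9_0_1_0 : T := (dec 3 (nat_lit 0x100000200002c50000010000020001883))
noncomputable def t9_0_1_2 : T := (.leaf 2 [])
noncomputable def t9_0_1_3 : T := (.leaf 0 [])
noncomputable def t9_0_1_4 : T := (.leaf 0 [])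
noncomputable def t9_0_1_5 : T := (.leaf 2 [])

theorem near9_0 : (c9.near false p9_0).ok c9.box t9_0_1_0 t9_0_1_2 t9_0_1_3 t9_0_1_4 t9_0_1_5 = true := by
  decide +kernel

def p9_1 : List Int := [-16532, -51708, -36947, -6770, -514722, -498855, 613551, 150057, -438739, -2334175, -6308638, 443070, -515803, -822536, 246156, 0, -13225, 2109, -62941, 15091, -414025, -429364, 972991, -17903, -330941, -7353203, 1302344, 96807, -411529, -792281, 811630, 18830, 0, 0, 0, 0, 0, 0, 0, 0, 0, 0, 0, 0, 0, 0, 0, 0, 0, 0, 0, 0, 0, 0, 0, 0, 0, 0, 0, 0, 0, 0, 0, 0]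

noncomputable def t9_1_0_0 : T := (dec 2 (nat_lit 0x100000200002c5))
noncomputable def t9_1_0_2 : T := (.leaf 0 [])
noncomputable def t9_1_0_3 : T := (.leaf 0 [])
noncomputable def t9_1_0_4 : T := (.leaf 0 [])
noncomputable def t9_1_0_5 : T := (.leaf 2 [])

theorem far9_1 : (c9.far true p9_1).ok c9.box t9_1_0_0 t9_1_0_2 t9_1_0_3 t9_1_0_4 t9_1_0_5 = true := by
  decide +kernel

noncomputable def t9_1_1_0 : T := (.leaf 0 [])
noncomputable def t9_1_1_2 : T := (.leaf 2 [])
noncomputable def t9_1_1_3 : T := (.leaf 0 [])
noncomputable def t9_1_1_4 : T := (.leaf 0 [])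
noncomputable def t9_1_1_5 : T := (.leaf 2 [])

theorem near9_1 : (c9.near true p9_1).ok c9.box t9_1_1_0 t9_1_1_2 t9_1_1_3 t9_1_1_4 t9_1_1_5 = true := by
  decide +kernel

def p15_0 : List Int := [14911, 102518, 22713, 9578, 135871, 24586, 230407, 102501, 504255, -691100, 390445, 109904, 98596, 128735, 28216, 2555, 28549, 54881, 188175, 21967, 170804, 1358378, -572119, 192474, 255356, 424322, 645473, 170671, 104495, 266418, 39573, 4701, 0, -5792, -2452, -5352, 201374, -34801, 101970, 71435, 352469, -226992, 535932, 99697, 96668, 206020, 12171, 2580, 0, -4304, -11011, -4864, 211795, 487900, 242422, 131737, 370166, 40197, 777643, 250592, 160127, 33538, 125782, 4609]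

noncomputable def t15_0_0_0 : T := (.leaf 0 [])
noncomputable def t15_0_0_2 : T := (dec 3 (nat_lit 0x800001000016180000000100000200002c5))
noncomputable def t15_0_0_3 : T := (.leaf 2 [])
noncomputable def t15_0_0_4 : T := (.leaf 2 [])
noncomputable def t15_0_0_5 : T := (dec 3 (nat_lit 0x20004000800100000000040000080001e0e00040000000010000020000785))

theorem far15_0 : (c15.far false p15_0).ok c15.box t15_0_0_0 t15_0_0_2 t15_0_0_3 t15_0_0_4 t15_0_0_5 = true := by
  decide +kernel

noncomputable def t15_0_1_0 : T := (dec 2 (nat_lit 0x100000200002c3))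
noncomputable def t15_0_1_2 : T := (.leaf 2 [])
noncomputable def t15_0_1_3 : T := (dec 2 (nat_lit 0x100000200002c3))
noncomputable def t15_0_1_4 : T := (dec 2 (nat_lit 0x100000200002c3))
noncomputable def t15_0_1_5 : T := (dec 2 (nat_lit 0x8001000200040000000010000020000783))

theorem near15_0 : (c15.near false p15_0).ok c15.box t15_0_1_0 t15_0_1_2 t15_0_1_3 t15_0_1_4 t15_0_1_5 = true := by
  decide +kernel

def p15_1 : List Int := [-3392, -21061, 58401, 9248, -121562, 693998, -167439, 104348, -146168, -315909, 601686, 108220, -101015, 159264, 50675, 2541, -3091, -4931, 79749, 22148, -45175, -76022, 636408, 174157, -185230, 482196, 56156, 190882, -69582, 70095, 132379, 5095, -3384, -9441, -20034, -4959, -98937, 213351, 45895, 70151, -282383, -247919, 655376, 97806, -77337, -8937, 75664, 3095, -4369, -14342, -8619, -5008, -83386, 375872, -273339, 145879, -235982, -43885, 616849, 193672, -105580, 114188, 74661, 4582]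

noncomputable def t15_1_0_0 : T := (.leaf 0 [])
noncomputable def t15_1_0_2 : T := (dec 4 (nat_lit 0x800002000016180000000100000200002c50000010000020002e43))
noncomputable def t15_1_0_3 : T := (.leaf 2 [])
noncomputable def t15_1_0_4 : T := (.leaf 2 [])
noncomputable def t15_1_0_5 : T := (dec 4 (nat_lit 0x800100020004000800100000000040000100001e0e000400000000100000200007850000010000020003c83))

theorem far15_1 : (c15.far true p15_1).ok c15.box t15_1_0_0 t15_1_0_2 t15_1_0_3 t15_1_0_4 t15_1_0_5 = true := by
  decide +kernel

noncomputable def t15_1_1_0 : T := (dec 3 (nat_lit 0x100000200002c30000010000020001885))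
noncomputable def t15_1_1_2 : T := (.leaf 2 [])
noncomputable def t15_1_1_3 : T := (dec 3 (nat_lit 0x40000080000b140000000000100000200002c50000010000020001883))
noncomputable def t15_1_1_4 : T := (dec 3 (nat_lit 0x40000080000b140000000000100000400002c30000010000020001883))
noncomputable def t15_1_1_5 : T := (dec 3 (nat_lit 0x800100020004000000001000002000078580010002000400000000100000400007830000010000020002203))

theorem near15_1 : (c15.near true p15_1).ok c15.box t15_1_1_0 t15_1_1_2 t15_1_1_3 t15_1_1_4 t15_1_1_5 = true := by
  decide +kernel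

def p21_0 : List Int := [130452, 331203, 566253, 115531, 449940, 1680571, 426772, 279844, 652340, 508425, 883166, 84659, 242789, 258780, 14921, -16390, 206536, 994054, 456442, 238895, 1021520, -1551143, 3734546, 288710, 364354, 3480150, -43637, 234639, 319721, 427996, 203355, -14536, 61690, 262580, 163826, 53477, 515746, 570709, 528683, 337823, 562303, 291691, 1428693, 360786, 259364, 317992, 114183, 9719, 122973, 183455, 503221, 96122, 358617, 3449590, -858369, 584651, 829842, 65453, 3221444, 730498, 318517, 308205, 456637, 38357]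

noncomputable def t21_0_0_0 : T := (.leaf 0 [])
noncomputable def t21_0_0_2 : T := (.leaf 2 [])
noncomputable def t21_0_0_3 : T := (.leaf 2 [])
noncomputable def t21_0_0_4 : T := (.leaf 2 [])
noncomputable def t21_0_0_5 : T := (dec 6 (nat_lit 0x3100700168038008e01c005a00e00000000c0000100001d140000040000080008624000004000008000ef2e08070000000020000040000e8780038000000010000020000745))

theorem far21_0 : (c21.far false p21_0).ok c21.box t21_0_0_0 t21_0_0_2 t21_0_0_3 t21_0_0_4 t21_0_0_5 = true := by
  decide +kernel

noncomputable def t21_0_1_0 : T := (dec 2 (nat_lit 0x100000200002c3))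
noncomputable def t21_0_1_2 : T := (.leaf 2 [])
noncomputable def t21_0_1_3 : T := (.leaf 2 [])
noncomputable def t21_0_1_4 : T := (dec 3 (nat_lit 0x800001000016180000000100000200002c5))
noncomputable def t21_0_1_5 : T := (dec 3 (nat_lit 0x20004000800100000000040000080001e0e00040000000010000020000785))

theorem near21_0 : (c21.near false p21_0).ok c21.box t21_0_1_0 t21_0_1_2 t21_0_1_3 t21_0_1_4 t21_0_1_5 = true := by
  decide +kernel

def p21_1 : List Int := [-7032, 91641, 214495, 111216, -157740, 623136, 562518, 267519, -430813, 1004846, -86703, 109041, -193155, 240819, -55123, -19299, -6526, 259939, 251263, 236050, -135921, 956858, 1143454, 439771, -311064, 483662, 387435, 214257, -163717, 306776, -108329, -11623, -6934, 30462, 87814, 58031, -161242, 311021, 1127671, 279872, -415326, 787120, 556823, 362578, -196418, 303033, 247680, 9464, -5928, 109185, 231258, 120090, -136937, 58231, 1998247, 345675, -323451, 766425, 1071423, 878744, -163699, 338919, 465580, 34048]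

noncomputable def t21_1_0_0 : T := (.leaf 0 [])
noncomputable def t21_1_0_2 : T := (.leaf 2 [])
noncomputable def t21_1_0_3 : T := (.leaf 2 [])
noncomputable def t21_1_0_4 : T := (.leaf 2 [])
noncomputable def t21_1_0_5 : T := (dec 6 (nat_lit 0x188038009a01c004100e00000000c0000100001d0f900c00000000c0000100001c14000004000008000ee2e10070000000020000040000e8710038000000010000020000745))

theorem far21_1 : (c21.far true p21_1).ok c21.box t21_1_0_0 t21_1_0_2 t21_1_0_3 t21_1_0_4 t21_1_0_5 = true := by
  decide +kernel

noncomputable def t21_1_1_0 : T := (.leaf 0 [])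
noncomputable def t21_1_1_2 : T := (.leaf 2 [])
noncomputable def t21_1_1_3 : T := (.leaf 2 [])
noncomputable def t21_1_1_4 : T := (dec 3 (nat_lit 0x800001000016280000000100000200002c3))
noncomputable def t21_1_1_5 : T := (dec 2 (nat_lit 0x8001000200040000000010000020000783))

theorem near21_1 : (c21.near true p21_1).ok c21.box t21_1_1_0 t21_1_1_2 t21_1_1_3 t21_1_1_4 t21_1_1_5 = true := by
  decide +kernel

def p27_0 : List Int := [206670, 580317, 778447, 199106, 636588, 2617665, 399374, 348323, 721125, 1531200, 984571, 147328, 269467, 456262, 163741, -17000, 221413, 656137, 671902, 197379, 655015, 89454, 2031038, 250591, 748048, 1876727, 450473, 65200, 248255, 393366, 113900, -56941, 206276, 787251, 573085, 199257, 833766, -1007723, 2923673, 276173, 552651, 3647150, -486424, 212433, 292523, 285772, 256025, -26047, 221993, 603981, 668525, 209491, 634298, 3176414, 51651, 485379, 756986, 1186741, 1693842, 145563, 306223, 415690, 193758, -18126]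

noncomputable def t27_0_0_0 : T := (.leaf 0 [])
noncomputable def t27_0_0_2 : T := (.leaf 2 [])
noncomputable def t27_0_0_3 : T := (.leaf 2 [])
noncomputable def t27_0_0_4 : T := (.leaf 2 [])
noncomputable def t27_0_0_5 : T := (.leaf 0 [64])

theorem far27_0 : (c27.far false p27_0).ok c27.box t27_0_0_0 t27_0_0_2 t27_0_0_3 t27_0_0_4 t27_0_0_5 = true := by
  decide +kernel

noncomputable def t27_0_1_0 : T := (.leaf 0 [])
noncomputable def t27_0_1_2 : T := (.leaf 2 [])
noncomputable def t27_0_1_3 : T := (.leaf 2 [])
noncomputable def t27_0_1_4 : T := (.leaf 2 [])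
noncomputable def t27_0_1_5 : T := (dec 2 (nat_lit 0x13403800f8030000000010000020000705))

theorem near27_0 : (c27.near false p27_0).ok c27.box t27_0_1_0 t27_0_1_2 t27_0_1_3 t27_0_1_4 t27_0_1_5 = true := by
  decide +kernel

def p27_1 : List Int := [-7446, 212491, 381051, 202155, -116478, 224841, 330784, 394563, -341904, 86781, 478023, 92248, -165817, -26646, -63720, -18921, -6348, 176133, 424858, 213596, -119913, 567705, 172017, 198835, -319061, -375619, 38951, 70650, -151987, -130327, -177247, -57871, -6937, 199212, 441393, 200805, -132556, 299520, 458615, 299326, -334651, 75094, 289080, 134932, -165831, -26817, -62201, -19196, -6835, 200076, 404207, 219988, -102173, 432651, 965882, 404954, -322126, 477796, 304459, 194600, -151981, 109045, -42056, -18772]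

noncomputable def t27_1_0_0 : T := (.leaf 0 [])
noncomputable def t27_1_0_2 : T := (.leaf 2 [])
noncomputable def t27_1_0_3 : T := (.leaf 2 [])
noncomputable def t27_1_0_4 : T := (.leaf 2 [])
noncomputable def t27_1_0_5 : T := (.leaf 0 [64])

theorem far27_1 : (c27.far true p27_1).ok c27.box t27_1_0_0 t27_1_0_2 t27_1_0_3 t27_1_0_4 t27_1_0_5 = true := by
  decide +kernel

noncomputable def t27_1_1_0 : T := (.leaf 0 [])
noncomputable def t27_1_1_2 : T := (.leaf 2 [])
noncomputable def t27_1_1_3 : T := (.leaf 2 [])
noncomputable def t27_1_1_4 : T := (.leaf 2 [])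
noncomputable def t27_1_1_5 : T := (.leaf 0 [79])

theorem near27_1 : (c27.near true p27_1).ok c27.box t27_1_1_0 t27_1_1_2 t27_1_1_3 t27_1_1_4 t27_1_1_5 = true := by
  decide +kernel

def p33_0 : List Int := [199048, 1026718, 418904, 196129, 1064073, -584737, 4873010, 974813, 1232820, 6477267, 603958, 1723567, 523951, 1460190, 574387, 68907, 379729, 424597, 1458643, 330388, 731565, 10739027, 80333, 1148968, 2035261, 788877, 5737016, 2910568, 739987, 758050, 2103331, 251390, 0, -14513, -21729, -11607, 719584, 2706742, 1493919, 329987, 1086813, 8290553, 2704564, 1830602, 590808, 1213070, 963228, 79064, 0, -6743, -28680, -8672, 784560, 2616350, 2155495, 517118, 2060910, -693461, 7602284, 1600750, 583667, 3172969, 828752, 320575]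

noncomputable def t33_0_0_0 : T := (.leaf 0 [])
noncomputable def t33_0_0_2 : T := (.leaf 0 [])
noncomputable def t33_0_0_3 : T := (.leaf 2 [])
noncomputable def t33_0_0_4 : T := (.leaf 2 [])
noncomputable def t33_0_0_5 : T := (.leaf 0 [128])

theorem far33_0 : (c33.far false p33_0).ok c33.box t33_0_0_0 t33_0_0_2 t33_0_0_3 t33_0_0_4 t33_0_0_5 = true := by
  decide +kernel

noncomputable def t33_0_1_0 : T := (dec 2 (nat_lit 0x100000200002c3))
noncomputable def t33_0_1_2 : T := (.leaf 2 [])
noncomputable def t33_0_1_3 : T := (.leaf 2 [])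
noncomputable def t33_0_1_4 : T := (dec 2 (nat_lit 0x100000200002cb))
noncomputable def t33_0_1_5 : T := (.leaf 0 [128])

theorem near33_0 : (c33.near false p33_0).ok c33.box t33_0_1_0 t33_0_1_2 t33_0_1_3 t33_0_1_4 t33_0_1_5 = true := by
  decide +kernel

def p33_1 : List Int := [-11099, 64141, 641895, 213732, -262649, 3299283, -115208, 1346728, -706613, -1947475, 5836241, 1274686, -339297, 781601, 949841, 67914, -8351, 171571, 1048271, 275133, -233979, 3822228, -1129298, 1493796, -415105, -869747, 6925763, 2606659, -248233, 563400, 1975997, 245485, -11183, -56443, -13003, -15464, -335914, 1596210, -2075129, 509177, -308276, -3937815, 4302593, 1570678, -340501, -174366, 1226693, 67636, -8365, -29994, -24903, -8069, -152480, -787461, 138960, 446597, -399493, -455469, -1303966, 1900328, -186568, -1109088, 2245469, 298766]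

noncomputable def t33_1_0_0 : T := (dec 3 (nat_lit 0x100000400002c30000010000020001883))
noncomputable def t33_1_0_2 : T := (dec 2 (nat_lit 0x100000200002c5))
noncomputable def t33_1_0_3 : T := (.leaf 2 [])
noncomputable def t33_1_0_4 : T := (.leaf 2 [])
noncomputable def t33_1_0_5 : T := (dec 2 (nat_lit 0x8001000200040000000010000020000785))

theorem far33_1 : (c33.far true p33_1).ok c33.box t33_1_0_0 t33_1_0_2 t33_1_0_3 t33_1_0_4 t33_1_0_5 = true := by
  decide +kernel

noncomputable def t33_1_1_0 : T := (dec 3 (nat_lit 0x100000200002c50000010000020001883))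
noncomputable def t33_1_1_2 : T := (.leaf 2 [])
noncomputable def t33_1_1_3 : T := (.leaf 2 [])
noncomputable def t33_1_1_4 : T := (dec 3 (nat_lit 0x800001000016280000000100000200002cb))
noncomputable def t33_1_1_5 : T := (dec 2 (nat_lit 0x8001000200040000000010000020000785))

theorem near33_1 : (c33.near true p33_1).ok c33.box t33_1_1_0 t33_1_1_2 t33_1_1_3 t33_1_1_4 t33_1_1_5 = true := by
  decide +kernel

def p39_0 : List Int := [442019, 1827900, 1168863, 486940, 1854301, -661738, 7283613, 695460, 1330575, 3945341, 1554478, 579882, 491847, 960340, 552250, 1231, 501182, 931225, 1912628, 437111, 1571688, 2035560, 2004634, 1419602, 1207016, 7913592, 1298390, 152547, 526592, 710728, 623016, 6056, 482015, 1965184, 1317346, 468841, 1472804, -333967, 10286421, 1367820, 1669461, 9437875, -331859, 1688706, 625444, 1766068, 1335085, 222193, 556867, 1749202, 1078392, 549834, 1117933, 8913380, 5865933, 1147325, 2045109, -200962, 6228648, 2089969, 723991, 1710043, 1603500, 305048]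

noncomputable def t39_0_0_0 : T := (.leaf 0 [])
noncomputable def t39_0_0_2 : T := (.leaf 2 [])
noncomputable def t39_0_0_3 : T := (.leaf 2 [])
noncomputable def t39_0_0_4 : T := (.leaf 2 [])
noncomputable def t39_0_0_5 : T := (.leaf 0 [64])

theorem far39_0 : (c39.far false p39_0).ok c39.box t39_0_0_0 t39_0_0_2 t39_0_0_3 t39_0_0_4 t39_0_0_5 = true := by
  decide +kernel

noncomputable def t39_0_1_0 : T := (dec 2 (nat_lit 0x100000200002c3))
noncomputable def t39_0_1_2 : T := (.leaf 2 [])
noncomputable def t39_0_1_3 : T := (.leaf 2 [])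
noncomputable def t39_0_1_4 : T := (.leaf 0 [])
noncomputable def t39_0_1_5 : T := (.leaf 0 [128])

theorem near39_0 : (c39.near false p39_0).ok c39.box t39_0_1_0 t39_0_1_2 t39_0_1_3 t39_0_1_4 t39_0_1_5 = true := by
  decide +kernel

def p39_1 : List Int := [-10487, 521736, 689986, 485973, -128289, -631962, 5215970, 860770, -583367, 3176560, -1873664, 423305, -208768, -82846, 45710, -594, -8059, 364482, 1148741, 438491, -169165, 2677017, -2037804, 1414809, -420233, -124606, 3744267, 150638, -185274, -29808, -36076, 5926, -10325, 560305, 778498, 504212, -131683, -216820, 6908336, 1295239, -580224, 2505380, 709624, 1461920, -208574, 369013, 733770, 221559, -9486, 530225, 1145459, 487775, -110697, 409406, 3215126, 1794201, -522058, 3181562, 2591744, 1800463, -185246, 300681, 1102118, 305580]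

noncomputable def t39_1_0_0 : T := (.leaf 0 [])
noncomputable def t39_1_0_2 : T := (.leaf 2 [])
noncomputable def t39_1_0_3 : T := (.leaf 2 [])
noncomputable def t39_1_0_4 : T := (.leaf 2 [])
noncomputable def t39_1_0_5 : T := (.leaf 0 [64])

theorem far39_1 : (c39.far true p39_1).ok c39.box t39_1_0_0 t39_1_0_2 t39_1_0_3 t39_1_0_4 t39_1_0_5 = true := by
  decide +kernel

noncomputable def t39_1_1_0 : T := (.leaf 0 [])
noncomputable def t39_1_1_2 : T := (.leaf 2 [])
noncomputable def t39_1_1_3 : T := (.leaf 2 [])
noncomputable def t39_1_1_4 : T := (.leaf 0 [])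
noncomputable def t39_1_1_5 : T := (.leaf 0 [128])

theorem near39_1 : (c39.near true p39_1).ok c39.box t39_1_1_0 t39_1_1_2 t39_1_1_3 t39_1_1_4 t39_1_1_5 = true := by
  decide +kernel

def p45_0 : List Int := [234263, 691334, 703043, 227938, 701069, 1892392, 1516679, 467637, 696720, 1648261, 1212383, 211876, 232374, 476262, 220034, -16897, 239051, 731823, 704987, 235221, 715592, 1920010, 1649871, 491362, 724114, 1692862, 1232312, 252336, 240957, 471692, 257257, -6126, 236647, 723918, 697962, 232215, 719256, 1844391, 1679297, 490365, 720485, 1791233, 1227827, 264669, 249196, 499869, 258711, -6634, 239034, 731631, 706030, 235047, 725140, 1904210, 1649736, 492682, 715964, 1709548, 1226036, 250521, 239018, 489349, 245281, -5931]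

noncomputable def t45_0_0_0 : T := (.leaf 0 [])
noncomputable def t45_0_0_2 : T := (.leaf 2 [])
noncomputable def t45_0_0_3 : T := (.leaf 2 [])
noncomputable def t45_0_0_4 : T := (.leaf 2 [])
noncomputable def t45_0_0_5 : T := (.leaf 0 [0])

theorem far45_0 : (c45.far false p45_0).ok c45.box t45_0_0_0 t45_0_0_2 t45_0_0_3 t45_0_0_4 t45_0_0_5 = true := by
  decide +kernel

noncomputable def t45_0_1_0 : T := (.leaf 0 [])
noncomputable def t45_0_1_2 : T := (.leaf 2 [])
noncomputable def t45_0_1_3 : T := (.leaf 2 [])
noncomputable def t45_0_1_4 : T := (.leaf 2 [])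
noncomputable def t45_0_1_5 : T := (.leaf 0 [68])

theorem near45_0 : (c45.near false p45_0).ok c45.box t45_0_1_0 t45_0_1_2 t45_0_1_3 t45_0_1_4 t45_0_1_5 = true := by
  decide +kernel

def p45_1 : List Int := [-4465, 230037, 430166, 227636, -71896, 370919, 1078119, 476145, -211115, 165505, 556249, 201796, -99542, -27200, -14671, -20272, -3901, 235388, 458033, 232387, -62877, 372308, 1283995, 494337, -203775, 425264, 576924, 233898, -86959, 17998, 16185, -7437, -4306, 216694, 472418, 229525, -73023, 573690, 1058299, 497570, -209726, 189057, 720076, 244730, -99552, 45923, -5532, -8256, -4044, 239465, 437806, 239729, -69077, 415965, 1274516, 476454, -185172, 286564, 565810, 244949, -89481, 42212, -8104, -7947]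

noncomputable def t45_1_0_0 : T := (.leaf 0 [])
noncomputable def t45_1_0_2 : T := (.leaf 2 [])
noncomputable def t45_1_0_3 : T := (.leaf 2 [])
noncomputable def t45_1_0_4 : T := (.leaf 2 [])
noncomputable def t45_1_0_5 : T := (.leaf 0 [0])

theorem far45_1 : (c45.far true p45_1).ok c45.box t45_1_0_0 t45_1_0_2 t45_1_0_3 t45_1_0_4 t45_1_0_5 = true := by
  decide +kernel

noncomputable def t45_1_1_0 : T := (.leaf 0 [])
noncomputable def t45_1_1_2 : T := (.leaf 2 [])
noncomputable def t45_1_1_3 : T := (.leaf 2 [])
noncomputable def t45_1_1_4 : T := (.leaf 2 [])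
noncomputable def t45_1_1_5 : T := (.leaf 0 [67])

theorem near45_1 : (c45.near true p45_1).ok c45.box t45_1_1_0 t45_1_1_2 t45_1_1_3 t45_1_1_4 t45_1_1_5 = true := by
  decide +kernel

def p51_0 : List Int := [32329, 88847, 81164, 24294, 475348, 1490833, 925301, 216366, 1407532, 3565667, 5791323, 1546617, 693904, 2433011, 1330793, 346657, 34633, 59593, 112880, 24294, 564296, 2662987, 1261790, 474634, 1795101, 775304, 6325981, 1552812, 697141, 2869805, 1529802, 473649, 0, 0, 0, 0, 0, 0, 0, 0, 0, 0, 0, 0, 0, 0, 0, 0, 0, 0, 0, 0, 0, 0, 0, 0, 0, 0, 0, 0, 0, 0, 0, 0]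

noncomputable def t51_0_0_0 : T := (.leaf 0 [])
noncomputable def t51_0_0_2 : T := (.leaf 0 [])
noncomputable def t51_0_0_3 : T := (.leaf 0 [])
noncomputable def t51_0_0_4 : T := (.leaf 2 [])
noncomputable def t51_0_0_5 : T := (.leaf 2 [])

theorem far51_0 : (c51.far false p51_0).ok c51.box t51_0_0_0 t51_0_0_2 t51_0_0_3 t51_0_0_4 t51_0_0_5 = true := by
  decide +kernel

noncomputable def t51_0_1_0 : T := (.leaf 0 [])
noncomputable def t51_0_1_2 : T := (.leaf 2 [])
noncomputable def t51_0_1_3 : T := (.leaf 2 [])
noncomputable def t51_0_1_4 : T := (.leaf 0 [])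
noncomputable def t51_0_1_5 : T := (.leaf 2 [])

theorem near51_0 : (c51.near false p51_0).ok c51.box t51_0_1_0 t51_0_1_2 t51_0_1_3 t51_0_1_4 t51_0_1_5 = true := by
  decide +kernel

def p51_1 : List Int := [-10200, 14644, -7691, 28033, -64409, -903157, 2367360, 17497, -658523, 983871, -6837106, 1976926, -166869, -1300368, 1588295, 402845, -5545, 2718, 34276, 20558, -159568, -639216, 2054222, 346815, -253202, -114287, -3438862, 994311, -124176, -983077, 1384225, 551400, 0, 0, 0, 0, 0, 0, 0, 0, 0, 0, 0, 0, 0, 0, 0, 0, 0, 0, 0, 0, 0, 0, 0, 0, 0, 0, 0, 0, 0, 0, 0, 0]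

noncomputable def t51_1_0_0 : T := (dec 2 (nat_lit 0x100000200002c5))
noncomputable def t51_1_0_2 : T := (dec 2 (nat_lit 0x100000200002cb))
noncomputable def t51_1_0_3 : T := (.leaf 0 [])
noncomputable def t51_1_0_4 : T := (.leaf 2 [])
noncomputable def t51_1_0_5 : T := (.leaf 2 [])

theorem far51_1 : (c51.far true p51_1).ok c51.box t51_1_0_0 t51_1_0_2 t51_1_0_3 t51_1_0_4 t51_1_0_5 = true := by
  decide +kernel

noncomputable def t51_1_1_0 : T := (.leaf 0 [])
noncomputable def t51_1_1_2 : T := (.leaf 2 [])
noncomputable def t51_1_1_3 : T := (.leaf 2 [])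
noncomputable def t51_1_1_4 : T := (.leaf 0 [])
noncomputable def t51_1_1_5 : T := (.leaf 2 [])

theorem near51_1 : (c51.near true p51_1).ok c51.box t51_1_1_0 t51_1_1_2 t51_1_1_3 t51_1_1_4 t51_1_1_5 = true := by
  decide +kernel

def p57_0 : List Int := [34200, 72636, 94957, 27703, 479294, 2910164, 490836, 429815, 1809200, 1599259, 6741175, 1502654, 711585, 2657926, 1558541, 504770, 38214, 110585, 134401, 38210, 738344, 2065839, 1910285, 741393, 1782060, 6241622, 6530466, 1760098, 854727, 3163611, 2143856, 875369, 0, 0, 0, 0, 0, 0, 0, 0, 0, 0, 0, 0, 0, 0, 0, 0, 0, 0, 0, 0, 0, 0, 0, 0, 0, 0, 0, 0, 0, 0, 0, 0]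

noncomputable def t57_0_0_0 : T := (.leaf 0 [])
noncomputable def t57_0_0_2 : T := (.leaf 0 [])
noncomputable def t57_0_0_3 : T := (.leaf 2 [])
noncomputable def t57_0_0_4 : T := (.leaf 2 [])
noncomputable def t57_0_0_5 : T := (.leaf 2 [])

theorem far57_0 : (c57.far false p57_0).ok c57.box t57_0_0_0 t57_0_0_2 t57_0_0_3 t57_0_0_4 t57_0_0_5 = true := by
  decide +kernel

noncomputable def t57_0_1_0 : T := (.leaf 0 [])
noncomputable def t57_0_1_2 : T := (.leaf 2 [])
noncomputable def t57_0_1_3 : T := (.leaf 2 [])
noncomputable def t57_0_1_4 : T := (.leaf 0 [])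
noncomputable def t57_0_1_5 : T := (.leaf 2 [])

theorem near57_0 : (c57.near false p57_0).ok c57.box t57_0_1_0 t57_0_1_2 t57_0_1_3 t57_0_1_4 t57_0_1_5 = true := by
  decide +kernel

def p57_1 : List Int := [-7658, 7950, 15660, 32358, -50316, -623947, 2353311, 105518, -493296, 755774, -5565419, 2109409, -124694, -987654, 1415988, 550569, 0, 45584, 63991, 33640, 0, 129265, 1352812, 593490, 0, 128942, 235489, 1518864, 0, 33481, 873124, 949103, 0, 0, 0, 0, 0, 0, 0, 0, 0, 0, 0, 0, 0, 0, 0, 0, 0, 0, 0, 0, 0, 0, 0, 0, 0, 0, 0, 0, 0, 0, 0, 0]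

noncomputable def t57_1_0_0 : T := (dec 2 (nat_lit 0x100000200002c5))
noncomputable def t57_1_0_2 : T := (dec 2 (nat_lit 0x100000200002cb))
noncomputable def t57_1_0_3 : T := (.leaf 2 [])
noncomputable def t57_1_0_4 : T := (.leaf 2 [])
noncomputable def t57_1_0_5 : T := (.leaf 2 [])

theorem far57_1 : (c57.far true p57_1).ok c57.box t57_1_0_0 t57_1_0_2 t57_1_0_3 t57_1_0_4 t57_1_0_5 = true := by
  decide +kernel

noncomputable def t57_1_1_0 : T := (dec 2 (nat_lit 0x100000200002c3))
noncomputable def t57_1_1_2 : T := (.leaf 2 [])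
noncomputable def t57_1_1_3 : T := (.leaf 2 [])
noncomputable def t57_1_1_4 : T := (.leaf 0 [])
noncomputable def t57_1_1_5 : T := (.leaf 2 [])

theorem near57_1 : (c57.near true p57_1).ok c57.box t57_1_1_0 t57_1_1_2 t57_1_1_3 t57_1_1_4 t57_1_1_5 = true := by
  decide +kernel

end Crest.Agent.R310.H17
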