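import Crest.Agent.R310.H17Cells

/-! # Row 310: certificates (generated by tools/h17/wr.py) -/

set_option autoImplicit false
set_option maxRecDepth 100000
set_option Elab.async false

open Crest.Agent.Lib.PolyBB

namespace Crest.Agent.R310.H17

def p4_0 : List Int := [0, 0, 0, 0, 256075, -478360, 0, 0, 479938, 2126142, 0, 0, 179975, -41785, 0, 0, 224705, 996886, -379452, 128858, -1077269, 10787636, -13766, 502687, 3500744, -10600368, 3134014, -3820, 197596, 1342748, -389776, 503, 0, 0, 0, 0, 814910, 611811, 0, 0, 1926494, -2444638, 0, 0, 518772, 260860, 0, 0, 120811, -458332, 758767, 55532, 87639, 3664515, 367905, 343756, 588213, 4645833, 47610, 355568, 200493, 478970, 121909, 14192]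

noncomputable def t4_0_0_0 : T := (dec 3 (nat_lit 0x100000200002c50000010000020001883))
noncomputable def t4_0_0_2 : T := (.leaf 2 [])
noncomputable def t4_0_0_3 : T := (.leaf 2 [])
noncomputable def t4_0_0_4 : T := (.leaf 2 [])
noncomputable def t4_0_0_5 : T := (dec 23 (nat_lit 0x20004000a201c006300e00228070000000020000080000e9600000c00000e000430718038008a01c0000000180000280003a180000180000200010c1e700e00278070000000020000080000e97540380000000300000400007430000060000070003bc58a01c004e00e00000002c0000300001d1600040008a01c004400e00220070011003800ac01c0000000580000600003a280000080003a80010c38000008000230001de38000008000150002b03800000800002000382580000080000c8004563c300e00258070000000160000180000e8b100380000000300000500007438601c004b00e00000002c0000300001d1618070012c0380000000b00000c000074500000300000500021838001000200040008401c004200e0020807001100380000002100002200007458201c004400e0000000840000880001d1400001c00002c000860c00000800000c001580e080700114038000000210000220000745800100020807001100380000003800003900007458e01c0000001080001100003a28000008000060001de58000008000618002b23c100e002280700000004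20000440000e8b00020004100e00220070000000700000720000e8b1c03800000021000022000074500000100000c0003bcb0000010000c300056470000020000030008ac30000010000750012887000001000046001abc78e01c0000000980000a00003a2800000800003800f025800000800002000fd65c000800108038008001000200040008201c004200e00208070011c03800000021000022000074580010002080700110038000000380000390000745000001000014000218b9201c0000001080001100003a28000008000a28002b23800000800061800456380000080003a80052838000008000060005fa58000008000038006ce58000008000230007a23c800e00000004c0000500001d14000004000010004a32c00000c0000140050d0e70070000000160000180000e8a0000020000540070b8e000002000032007dd8e0000060000080087b075403800000006000007000074500000100000f0052a07000001000002005fc0b80010002e0070000000020000040000e97880380000000300000400007430000030000040003c059001c004000800114038008c01c004600e00200040008a01c004500e002280700114038008a01c004500e00318070000000160000180000e8a000002000710000430e00000200043c000778e00000200028a000ac0e000002000186000e08e0000020000ea001150e000002000008001499600000200008c0017e8e000002000054001b30f600380000000600000700007450000010000190010e07000001000002001284b00000100000f00142c7d401c0000000180000200003a2e600e00360070000000060000080000e8a00000200000800043060000020000040035787a803800d801c006e00e0037007001b403800000001000004000074500000100000700021830000010000040003bc300000100000200056030000010000020007045))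

theorem far4_0 : (c4.far false p4_0).ok c4.box t4_0_0_0 t4_0_0_2 t4_0_0_3 t4_0_0_4 t4_0_0_5 = true := by
  decide +kernel

noncomputable def t4_0_1_0 : T := (dec 6 (nat_lit 0x180000200001628000008000038000c41800000800002000172180000000100000200002c500000100000200059c3))
noncomputable def t4_0_1_2 : T := (.leaf 2 [])
noncomputable def t4_0_1_3 : T := (dec 5 (nat_lit 0x600000700002c5000000006000008000058a0000000040000080000b0c0000000000100000200002c30000010000020001885))
noncomputable def t4_0_1_4 : T := (.leaf 2 [])
noncomputable def t4_0_1_5 : T := (dec 5 (nat_lit 0x80010002000400000000600000700007858001000000000c0000100001e160004000000001000002000078580010002000400000000100000200007850000010000020002203))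

theorem near4_0 : (c4.near false p4_0).ok c4.box t4_0_1_0 t4_0_1_2 t4_0_1_3 t4_0_1_4 t4_0_1_5 = true := by
  decide +kernel

def p4_1 : List Int := [0, 0, 0, 0, -412629, 561626, 0, 0, -70273, 684286, 0, 0, -485729, -261108, 0, 0, -14138, 147433, 55464, 47502, -303743, -3269809, 4016411, 476563, 267175, -2441579, -831983, 46847, -628512, 421340, -190899, 352, 0, 0, 0, 0, -298850, -711506, 0, 0, -580, -1261315, 0, 0, -704407, 263118, 0, 0, -7760, -240648, 372345, 38703, -3321, -1093922, 670583, 382170, -2331465, 8492828, 579451, 334178, -156625, -312187, 291149, 14187]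

noncomputable def t4_1_0_0 : T := (dec 5 (nat_lit 0x100000400002c500000100000200018850000010000040002e430000010000020004403))
noncomputable def t4_1_0_2 : T := (.leaf 2 [])
noncomputable def t4_1_0_3 : T := (.leaf 2 [])
noncomputable def t4_1_0_4 : T := (.leaf 2 [])
noncomputable def t4_1_0_5 : T := (dec 23 (nat_lit 0x100020005f00e0021007001040380000000100000b0000747000001000004000218b80010002080700108038000000010000190000747000001000004000218b00000100000f0003c07e0030000000060000070000705000001000002000a4cb80010003f00c00200040008001c004000e0020007001000380080010002000700100020004100e0000000040000300001d2e000700100020004000e00200040008001000208070000000020000440000e9600000200002800043970002000400080010403800000001000022000074b00000100001400021cb0000050000090003c4300000100021e0008b8700000100000c000a5cb000001000145000c047000003000005000da830000010000c30010f47000001000007001298b00000100007500144078401c0000000580000600003a2800000800023000bc43800000800015000c96380000080000c800d683800000800002000e3a5800000800007800f0e3f00180000000300000380003828000008000010010ae58000018000020011821e601800680180000000180000200003818000018000020001082e8018000000008000010000382c100e002080700000000200001e0000e8ff0060000000060000080000e0b88060011403800000001000004000074300000100000200021450000010000020006fc3))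

theorem far4_1 : (c4.far true p4_1).ok c4.box t4_1_0_0 t4_1_0_2 t4_1_0_3 t4_1_0_4 t4_1_0_5 = true := by
  decide +kernel

noncomputable def t4_1_1_0 : T := (dec 3 (nat_lit 0x40000080000b140000000000100000200002c50000010000020001883))
noncomputable def t4_1_1_2 : T := (.leaf 2 [])
noncomputable def t4_1_1_3 : T := (dec 12 (nat_lit 0x1800001c0000b14000004000064000621c00000400003c000b91c00000001800002000016280000000100000200002c50000000000040000100000b0c000000000000000000980000a000016280000000100000400002c30000010000460002e47000000016000018000058a000002000054000b38e00000001800001c0000b14000004000064002151c00000400003c0026c1c00000001800002000016280000000100000200002c5000001000002000f203))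
noncomputable def t4_1_1_4 : T := (.leaf 2 [])
noncomputable def t4_1_1_5 : T := (dec 12 (nat_lit 0x200040008001000200040008001000000001800001c0001e14000004000064000881c00000400003c000f21e0004000000003000004000078580010002000400000000100000400007838001000200040008001000200040008001000000004c0000500001e16000400000000100000400007830000010000460003c878001000000002c0000300001e140000040000a8001c61e00040000000060000070000785000001000019000a68700000100000f000c1078001000000000c0000100001e14000004000008004420e00040000000010000020000785))

theorem near4_1 : (c4.near true p4_1).ok c4.box t4_1_1_0 t4_1_1_2 t4_1_1_3 t4_1_1_4 t4_1_1_5 = true := by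
  decide +kernel

def p10_0 : List Int := [16190, -12415, 82155, 7349, 46552, 912091, -214821, 60705, 534832, -1368079, 570474, 74932, 91822, 90625, 18579, 1761, 23301, -18515, 123385, 8895, 35311, 1092602, -237677, 105711, 575316, -947430, 459098, 107478, 94227, 140471, 28168, 2534, 0, -3069, -10616, -5630, 152054, 377991, -104597, 41581, 199773, 478069, -78831, 92903, 92114, 135697, 15195, 1755, 14383, 106291, 20805, 9103, 231488, -342306, 178498, 100957, 423951, -428215, 564279, 107900, 94141, 141977, 26781, 2536]

noncomputable def t10_0_0_0 : T := (dec 2 (nat_lit 0x100000200002c5))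
noncomputable def t10_0_0_2 : T := (dec 3 (nat_lit 0x800001000016180000000100000200002c5))
noncomputable def t10_0_0_3 : T := (.leaf 2 [])
noncomputable def t10_0_0_4 : T := (.leaf 2 [])
noncomputable def t10_0_0_5 : T := (dec 3 (nat_lit 0x20004000800100000000040000080001e0e00040000000010000020000785))

theorem far10_0 : (c10.far false p10_0).ok c10.box t10_0_0_0 t10_0_0_2 t10_0_0_3 t10_0_0_4 t10_0_0_5 = true := by
  decide +kernel

noncomputable def t10_0_1_0 : T := (dec 5 (nat_lit 0x100000200002c500000100000700018830000010000040002e430000010000020004403))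
noncomputable def t10_0_1_2 : T := (.leaf 2 [])
noncomputable def t10_0_1_3 : T := (dec 5 (nat_lit 0x300000400002c3000000006000008000058a0000000040000080000b140000000000100000400002c30000010000020001883))
noncomputable def t10_0_1_4 : T := (.leaf 2 [])
noncomputable def t10_0_1_5 : T := (dec 3 (nat_lit 0x800100020004000000001000002000078580010002000400000000100000400007830000010000020002203))

theorem near10_0 : (c10.near false p10_0).ok c10.box t10_0_1_0 t10_0_1_2 t10_0_1_3 t10_0_1_4 t10_0_1_5 = true := by
  decide +kernel

def p10_1 : List Int := [-2293, 8397, 7069, 6253, -149710, 247863, 121385, 65884, -156435, 7138, 231158, 75162, -82607, 58340, 36952, 1735, -3586, -19400, 52873, 9161, -84165, 525432, -58254, 104278, -310661, 431998, 335579, 107892, -80507, 71147, 71888, 2530, -5654, 2506, -30222, -3482, -14916, -180297, 226913, 23343, -387266, 829210, -82614, 84782, -87830, 53156, 28164, 1764, -5175, -14197, 72555, 8899, -15340, 151058, -24084, 105102, -382637, 834661, 280991, 107894, -79501, 65772, 75993, 2525]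

noncomputable def t10_1_0_0 : T := (dec 6 (nat_lit 0x100000200002c500000100000c00018830000010000070002e43000001000004000440300000100000200059c3))
noncomputable def t10_1_0_2 : T := (dec 5 (nat_lit 0x100000200002c50000000000000080000380001618000008000020000c4180000000100000200002c50000010000020004403))
noncomputable def t10_1_0_3 : T := (.leaf 2 [])
noncomputable def t10_1_0_4 : T := (.leaf 2 [])
noncomputable def t10_1_0_5 : T := (dec 5 (nat_lit 0x80010002000400000000100000200007858001000200040008001000000000400001c0001e0c000004000010000880e000400000000100000200007850000010000020005703))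

theorem far10_1 : (c10.far true p10_1).ok c10.box t10_1_0_0 t10_1_0_2 t10_1_0_3 t10_1_0_4 t10_1_0_5 = true := by
  decide +kernel

noncomputable def t10_1_1_0 : T := (dec 3 (nat_lit 0x100000200002c30000010000020001885))
noncomputable def t10_1_1_2 : T := (.leaf 2 [])
noncomputable def t10_1_1_3 : T := (dec 6 (nat_lit 0x2000004000058a0000000000000300000400002c500000000000c0000100000b1400000400001c000620c000004000010001100c0000000000100000400002c300000100000200018850000010000020008543))
noncomputable def t10_1_1_4 : T := (.leaf 2 [])
noncomputable def t10_1_1_5 : T := (dec 6 (nat_lit 0x20004000800100000000040000080001e160004000800100020004000000003000004000078580010002000400000000300000400007850000010000070002203000001000004000570380010002000400000000100000400007830000010000020002205000001000002000a683))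

theorem near10_1 : (c10.near true p10_1).ok c10.box t10_1_1_0 t10_1_1_2 t10_1_1_3 t10_1_1_4 t10_1_1_5 = true := by
  decide +kernel

def p16_0 : List Int := [182397, 160621, 363147, 6602, 552170, 7445, 2819246, -112954, 550415, 325323, 189390, -248269, 183488, 65634, 89687, -105307, 166972, 693764, 11724, 97691, 747620, -1031, 2124286, -123708, 435228, 1885903, -432825, -273314, 172221, 404427, -125837, -135883, 207023, 274604, 777596, 127847, 626983, 1578026, -627516, 258912, 761693, 1716818, 764515, -75882, 234698, 567162, 78842, -58301, 213863, 437332, 669871, 193225, 415097, 3159533, -551207, 265732, 797614, 281028, 1707147, -4302, 282941, 357991, 124084, -53564]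

noncomputable def t16_0_0_0 : T := (.leaf 0 [])
noncomputable def t16_0_0_2 : T := (.leaf 2 [])
noncomputable def t16_0_0_3 : T := (.leaf 2 [])
noncomputable def t16_0_0_4 : T := (.leaf 2 [])
noncomputable def t16_0_0_5 : T := (.leaf 0 [64])

theorem far16_0 : (c16.far false p16_0).ok c16.box t16_0_0_0 t16_0_0_2 t16_0_0_3 t16_0_0_4 t16_0_0_5 = true := by
  decide +kernel

noncomputable def t16_0_1_0 : T := (.leaf 0 [])
noncomputable def t16_0_1_2 : T := (.leaf 2 [])
noncomputable def t16_0_1_3 : T := (.leaf 2 [])
noncomputable def t16_0_1_4 : T := (.leaf 2 [])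
noncomputable def t16_0_1_5 : T := (dec 2 (nat_lit 0xb403000a4030000000010000020000705))

theorem near16_0 : (c16.near false p16_0).ok c16.box t16_0_1_0 t16_0_1_2 t16_0_1_3 t16_0_1_4 t16_0_1_5 = true := by
  decide +kernel

def p16_1 : List Int := [-155776, -19819, -473758, 50390, -241449, -3107452, 1145152, -167086, -744715, 145171, -2456529, -110482, -175209, -576113, -380904, -107062, -108973, 20147, -20596, 58436, -310400, -1726861, 8166, -86219, -441292, -1250328, -1088209, -287125, -163747, -545752, -458757, -136893, -51941, 114626, 282526, 127035, -255237, -192510, -1312020, 290851, -429331, -1844760, 792585, -130613, -203131, -300511, -332628, -51507, 0, 212996, 470812, 188084, -222307, -790471, 392932, 303285, -372500, -120272, -399958, -10861, -164310, -232812, -224672, -54144]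

noncomputable def t16_1_0_0 : T := (dec 2 (nat_lit 0x100000200002c3))
noncomputable def t16_1_0_2 : T := (.leaf 2 [])
noncomputable def t16_1_0_3 : T := (.leaf 2 [])
noncomputable def t16_1_0_4 : T := (.leaf 2 [])
noncomputable def t16_1_0_5 : T := (.leaf 0 [64])

theorem far16_1 : (c16.far true p16_1).ok c16.box t16_1_0_0 t16_1_0_2 t16_1_0_3 t16_1_0_4 t16_1_0_5 = true := by
  decide +kernel

noncomputable def t16_1_1_0 : T := (.leaf 0 [])
noncomputable def t16_1_1_2 : T := (.leaf 2 [])
noncomputable def t16_1_1_3 : T := (.leaf 2 [])
noncomputable def t16_1_1_4 : T := (.leaf 2 [])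
noncomputable def t16_1_1_5 : T := (.leaf 0 [68])

theorem near16_1 : (c16.near true p16_1).ok c16.box t16_1_1_0 t16_1_1_2 t16_1_1_3 t16_1_1_4 t16_1_1_5 = true := by
  decide +kernel

def p22_0 : List Int := [60390, 235536, 224596, 51715, 608239, -613353, 1023768, 344470, 527504, 1452602, 746167, 364140, 238022, 285381, 147036, 9502, 100865, 478941, 243499, 95892, 488912, 2477834, 699225, 518648, 969779, -1162915, 2871412, 820133, 301007, 487480, 463409, 34846, 0, -8896, -16528, -8968, 321392, 1689745, -512200, 230660, 722749, -607391, 2400063, 410456, 286571, 512546, 74215, 9734, 0, -7873, -10844, -5882, 443064, 856951, 1408360, 170655, 445733, 4586142, 293342, 880449, 325743, 543164, 498148, 35084]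

noncomputable def t22_0_0_0 : T := (.leaf 0 [])
noncomputable def t22_0_0_2 : T := (.leaf 0 [])
noncomputable def t22_0_0_3 : T := (.leaf 2 [])
noncomputable def t22_0_0_4 : T := (.leaf 2 [])
noncomputable def t22_0_0_5 : T := (.leaf 0 [128])

theorem far22_0 : (c22.far false p22_0).ok c22.box t22_0_0_0 t22_0_0_2 t22_0_0_3 t22_0_0_4 t22_0_0_5 = true := by
  decide +kernel

noncomputable def t22_0_1_0 : T := (dec 2 (nat_lit 0x100000200002c3))
noncomputable def t22_0_1_2 : T := (.leaf 2 [])
noncomputable def t22_0_1_3 : T := (.leaf 2 [])
noncomputable def t22_0_1_4 : T := (dec 2 (nat_lit 0x100000200002c3))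
noncomputable def t22_0_1_5 : T := (.leaf 0 [128])

theorem near22_0 : (c22.near false p22_0).ok c22.box t22_0_1_0 t22_0_1_2 t22_0_1_3 t22_0_1_4 t22_0_1_5 = true := by
  decide +kernel

def p22_1 : List Int := [-6605, 67488, 86966, 47777, -171042, 581064, 958845, 329026, -433484, 877503, 393829, 400646, -204376, 362788, 245952, 9405, -5497, 89791, 308212, 87164, -144601, 417737, 482878, 669304, -351266, 725386, 1913226, 725341, -170396, 383910, 475986, 34383, -9193, -8894, -28990, -9188, -127424, -442043, 649773, 272405, -434516, 486111, 141455, 321732, -204488, 108891, 283199, 9395, -7648, -7456, -25311, -7775, -110685, -280415, 115379, 346985, -204148, -871065, 1077607, 671536, -170714, -91693, 635183, 33512]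

noncomputable def t22_1_0_0 : T := (.leaf 0 [])
noncomputable def t22_1_0_2 : T := (dec 2 (nat_lit 0x100000200002c3))
noncomputable def t22_1_0_3 : T := (.leaf 2 [])
noncomputable def t22_1_0_4 : T := (.leaf 2 [])
noncomputable def t22_1_0_5 : T := (dec 2 (nat_lit 0x8001000200040000000010000020000783))

theorem far22_1 : (c22.far true p22_1).ok c22.box t22_1_0_0 t22_1_0_2 t22_1_0_3 t22_1_0_4 t22_1_0_5 = true := by
  decide +kernel

noncomputable def t22_1_1_0 : T := (dec 2 (nat_lit 0x100000200002c5))
noncomputable def t22_1_1_2 : T := (.leaf 2 [])
noncomputable def t22_1_1_3 : T := (.leaf 2 [])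
noncomputable def t22_1_1_4 : T := (dec 3 (nat_lit 0x40000080000b0c0000000000100000200002c30000010000020001885))
noncomputable def t22_1_1_5 : T := (dec 3 (nat_lit 0x20004000800100000000040000080001e1600040000000010000020000783))

theorem near22_1 : (c22.near true p22_1).ok c22.box t22_1_1_0 t22_1_1_2 t22_1_1_3 t22_1_1_4 t22_1_1_5 = true := by
  decide +kernel

def p28_0 : List Int := [218315, 644408, 618259, 205269, 671799, 1385243, 1344459, 318282, 768611, 1473833, 973168, 145097, 277043, 420151, 174329, -19992, 222435, 650036, 715521, 215739, 752060, 1906413, 1015675, 400310, 735551, 1518732, 1297635, 183221, 298443, 397474, 202577, -22270, 187189, 552952, 553798, 174655, 580763, 1683524, 995942, 333751, 745592, 1081957, 993648, 162411, 284803, 315485, 139322, -17357, 222297, 722733, 643194, 215761, 748306, 1025292, 1651710, 396630, 763512, 1908700, 891698, 202160, 294548, 408270, 197419, -21724]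

noncomputable def t28_0_0_0 : T := (.leaf 0 [])
noncomputable def t28_0_0_2 : T := (.leaf 2 [])
noncomputable def t28_0_0_3 : T := (.leaf 2 [])
noncomputable def t28_0_0_4 : T := (.leaf 2 [])
noncomputable def t28_0_0_5 : T := (.leaf 0 [69])

theorem far28_0 : (c28.far false p28_0).ok c28.box t28_0_0_0 t28_0_0_2 t28_0_0_3 t28_0_0_4 t28_0_0_5 = true := by
  decide +kernel

noncomputable def t28_0_1_0 : T := (.leaf 0 [])
noncomputable def t28_0_1_2 : T := (.leaf 2 [])
noncomputable def t28_0_1_3 : T := (.leaf 2 [])
noncomputable def t28_0_1_4 : T := (.leaf 2 [])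
noncomputable def t28_0_1_5 : T := (.leaf 0 [83])

theorem near28_0 : (c28.near false p28_0).ok c28.box t28_0_1_0 t28_0_1_2 t28_0_1_3 t28_0_1_4 t28_0_1_5 = true := by
  decide +kernel

def p28_1 : List Int := [-6966, 208654, 389666, 200441, -114387, 138776, 727471, 348740, -349543, 194078, 131174, 130547, -166264, -25376, -50871, -20917, -6835, 217744, 445267, 226056, -100235, 313622, 675394, 372640, -332608, 504620, 641783, 185443, -150450, 102963, -40540, -24676, -6937, 158923, 347095, 180643, -130992, 537690, 602426, 324895, -344320, 376400, 311901, 153878, -165995, 104592, 11685, -18879, -6840, 230932, 367045, 225295, -95021, 306995, 1203669, 370829, -363989, 741798, 202691, 204812, -143617, 57992, -10043, -22713]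

noncomputable def t28_1_0_0 : T := (.leaf 0 [])
noncomputable def t28_1_0_2 : T := (.leaf 2 [])
noncomputable def t28_1_0_3 : T := (.leaf 2 [])
noncomputable def t28_1_0_4 : T := (.leaf 2 [])
noncomputable def t28_1_0_5 : T := (.leaf 0 [69])

theorem far28_1 : (c28.far true p28_1).ok c28.box t28_1_0_0 t28_1_0_2 t28_1_0_3 t28_1_0_4 t28_1_0_5 = true := by
  decide +kernel

noncomputable def t28_1_1_0 : T := (.leaf 0 [])
noncomputable def t28_1_1_2 : T := (.leaf 2 [])
noncomputable def t28_1_1_3 : T := (.leaf 2 [])
noncomputable def t28_1_1_4 : T := (.leaf 2 [])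
noncomputable def t28_1_1_5 : T := (.leaf 0 [83])

theorem near28_1 : (c28.near true p28_1).ok c28.box t28_1_1_0 t28_1_1_2 t28_1_1_3 t28_1_1_4 t28_1_1_5 = true := by
  decide +kernel

def p34_0 : List Int := [0, -11601, -24024, -11825, 844101, 2321181, 1906311, 374032, 954187, 9675704, -541142, 1550983, 638702, 1059777, 974027, 81663, 0, -10368, -17183, -8862, 797134, 4319112, 1408631, 541264, 1687128, 2262749, 7008385, 1705248, 731420, 1403693, 1577015, 315042, 25854, 80539, 61727, 17269, 544577, 221588, 856616, -3427, 1086830, 2012810, 7777397, 1098366, 528806, 2863743, 77270, 81676, 14496, 34541, 26770, 5625, 819323, -335332, 4113026, 327430, 1293136, 8314015, 1759057, 1652749, 592545, 2879546, 1303999, 315141]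

noncomputable def t34_0_0_0 : T := (.leaf 0 [])
noncomputable def t34_0_0_2 : T := (.leaf 0 [])
noncomputable def t34_0_0_3 : T := (.leaf 0 [])
noncomputable def t34_0_0_4 : T := (.leaf 2 [])
noncomputable def t34_0_0_5 : T := (.leaf 0 [128])

theorem far34_0 : (c34.far false p34_0).ok c34.box t34_0_0_0 t34_0_0_2 t34_0_0_3 t34_0_0_4 t34_0_0_5 = true := by
  decide +kernel

noncomputable def t34_0_1_0 : T := (.leaf 0 [])
noncomputable def t34_0_1_2 : T := (.leaf 2 [])
noncomputable def t34_0_1_3 : T := (.leaf 2 [])
noncomputable def t34_0_1_4 : T := (.leaf 0 [])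
noncomputable def t34_0_1_5 : T := (.leaf 2 [])

theorem near34_0 : (c34.near false p34_0).ok c34.box t34_0_1_0 t34_0_1_2 t34_0_1_3 t34_0_1_4 t34_0_1_5 = true := by
  decide +kernel

def p34_1 : List Int := [-14326, -31907, -25242, -15231, -266840, 797665, -1609490, 731043, -710957, -1443655, 2511397, 1222069, -339118, -212490, 1276976, 67794, -11445, -22341, -26204, -8227, -142024, -420473, -10714, 438813, -403150, -1534420, -1064585, 2099551, -187252, -1131984, 2306325, 255857, -11182, -62161, 72690, 11590, -337452, 1652391, -2794472, 372662, -304979, -5770883, -18254, 903529, -339179, -1061907, 1455806, 67937, -8393, -27199, -19495, 6770, -241941, -226935, 967313, 218977, -365456, -1464672, -4857045, 2087161, -187290, -1402758, 2214679, 255795]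

noncomputable def t34_1_0_0 : T := (dec 2 (nat_lit 0x100000200002c5))
noncomputable def t34_1_0_2 : T := (dec 2 (nat_lit 0x100000200002c5))
noncomputable def t34_1_0_3 : T := (.leaf 0 [])
noncomputable def t34_1_0_4 : T := (.leaf 2 [])
noncomputable def t34_1_0_5 : T := (.leaf 0 [128])

theorem far34_1 : (c34.far true p34_1).ok c34.box t34_1_0_0 t34_1_0_2 t34_1_0_3 t34_1_0_4 t34_1_0_5 = true := by
  decide +kernel

noncomputable def t34_1_1_0 : T := (dec 3 (nat_lit 0x100000400002c30000010000020001883))
noncomputable def t34_1_1_2 : T := (.leaf 2 [])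
noncomputable def t34_1_1_3 : T := (.leaf 2 [])
noncomputable def t34_1_1_4 : T := (.leaf 0 [])
noncomputable def t34_1_1_5 : T := (.leaf 2 [])

theorem near34_1 : (c34.near true p34_1).ok c34.box t34_1_1_0 t34_1_1_2 t34_1_1_3 t34_1_1_4 t34_1_1_5 = true := by
  decide +kernel

def p40_0 : List Int := [497074, 1465254, 1549074, 508355, 1739357, 5029110, 4320149, 1356222, 1680195, 4202470, 4841785, 1611515, 675773, 1612748, 1275698, 215254, 515484, 1750369, 1481374, 508471, 1803778, 3031915, 5255855, 1657430, 1742425, 5981321, 5139666, 1807902, 700802, 1656747, 1549464, 292651, 331370, 1043208, 1014533, 335719, 1465467, 2504652, 3971683, 1530109, 1632518, 4532273, 5203857, 2266278, 675732, 1567804, 1478613, 279781, 368192, 1160575, 1131752, 375246, 1560320, 3251765, 4395584, 1637214, 1700045, 4334867, 5937076, 2525820, 700766, 1775962, 1655798, 348734]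

noncomputable def t40_0_0_0 : T := (.leaf 0 [])
noncomputable def t40_0_0_2 : T := (.leaf 2 [])
noncomputable def t40_0_0_3 : T := (.leaf 2 [])
noncomputable def t40_0_0_4 : T := (.leaf 2 [])
noncomputable def t40_0_0_5 : T := (.leaf 0 [85])

theorem far40_0 : (c40.far false p40_0).ok c40.box t40_0_0_0 t40_0_0_2 t40_0_0_3 t40_0_0_4 t40_0_0_5 = true := by
  decide +kernel

noncomputable def t40_0_1_0 : T := (.leaf 0 [])
noncomputable def t40_0_1_2 : T := (.leaf 2 [])
noncomputable def t40_0_1_3 : T := (.leaf 2 [])
noncomputable def t40_0_1_4 : T := (.leaf 0 [])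
noncomputable def t40_0_1_5 : T := (.leaf 0 [128])

theorem near40_0 : (c40.near false p40_0).ok c40.box t40_0_1_0 t40_0_1_2 t40_0_1_3 t40_0_1_4 t40_0_1_5 = true := by
  decide +kernel

def p40_1 : List Int := [-10391, 443370, 919763, 466774, -127703, 2087333, 4656474, 1485076, -581633, -278087, 3060060, 1375744, -214969, 386543, 934478, 206641, -9443, 536977, 1089597, 549674, -170671, 888027, 3589366, 1534551, -368187, 791075, 3843286, 1954315, -186795, 354569, 1350588, 263135, -9314, 332617, 687148, 350076, -147794, 660729, 3699756, 1245344, -497418, 1194066, 4382358, 2624832, -233833, 677721, 1644642, 262666, -8178, 309084, 885226, 342945, -183491, 2904010, 104837, 2162552, -335785, -882800, 7805023, 2079710, -207962, 753807, 1630242, 361046]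

noncomputable def t40_1_0_0 : T := (.leaf 0 [])
noncomputable def t40_1_0_2 : T := (.leaf 2 [])
noncomputable def t40_1_0_3 : T := (.leaf 2 [])
noncomputable def t40_1_0_4 : T := (.leaf 2 [])
noncomputable def t40_1_0_5 : T := (.leaf 0 [86])

theorem far40_1 : (c40.far true p40_1).ok c40.box t40_1_0_0 t40_1_0_2 t40_1_0_3 t40_1_0_4 t40_1_0_5 = true := by
  decide +kernel

noncomputable def t40_1_1_0 : T := (dec 2 (nat_lit 0x100000200002c3))
noncomputable def t40_1_1_2 : T := (.leaf 2 [])
noncomputable def t40_1_1_3 : T := (.leaf 2 [])
noncomputable def t40_1_1_4 : T := (.leaf 0 [])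
noncomputable def t40_1_1_5 : T := (.leaf 0 [128])

theorem near40_1 : (c40.near true p40_1).ok c40.box t40_1_1_0 t40_1_1_2 t40_1_1_3 t40_1_1_4 t40_1_1_5 = true := by
  decide +kernel

def p46_0 : List Int := [222680, 628475, 933068, 218679, 988330, 710075, 878783, 718895, 453332, 4342337, 536196, 72418, 264733, 338325, 322470, 2799, 254641, 471430, 838373, 220706, 633908, 3344312, 449336, 735048, 685737, 2242568, 1236982, 37238, 225119, 615429, 190958, 5099, 280533, 480763, 1079954, 242502, 497214, 6007693, -47601, 894970, 1280722, -2279171, 4925004, 911675, 321821, 1111439, 679016, 153551, 254469, 1074249, 702271, 250185, 725677, 3868034, 1725539, 978009, 1224562, -1323419, 4488283, 1006989, 340795, 1073891, 860330, 184380]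

noncomputable def t46_0_0_0 : T := (.leaf 0 [])
noncomputable def t46_0_0_2 : T := (.leaf 2 [])
noncomputable def t46_0_0_3 : T := (.leaf 2 [])
noncomputable def t46_0_0_4 : T := (.leaf 2 [])
noncomputable def t46_0_0_5 : T := (.leaf 0 [64])

theorem far46_0 : (c46.far false p46_0).ok c46.box t46_0_0_0 t46_0_0_2 t46_0_0_3 t46_0_0_4 t46_0_0_5 = true := by
  decide +kernel

noncomputable def t46_0_1_0 : T := (dec 2 (nat_lit 0x100000200002c3))
noncomputable def t46_0_1_2 : T := (.leaf 2 [])
noncomputable def t46_0_1_3 : T := (.leaf 2 [])
noncomputable def t46_0_1_4 : T := (.leaf 0 [])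
noncomputable def t46_0_1_5 : T := (.leaf 0 [128])

theorem near46_0 : (c46.near false p46_0).ok c46.box t46_0_1_0 t46_0_1_2 t46_0_1_3 t46_0_1_4 t46_0_1_5 = true := by
  decide +kernel

def p46_1 : List Int := [-4692, 268731, 343000, 247934, -61451, -273434, 2911959, 306084, -226862, 742738, -251141, 333598, -103737, 154196, -179258, 2030, -3683, 210711, 440386, 220782, -79217, 336420, 1441961, 732171, -172247, 691565, 87260, 39138, -83006, -19813, -26986, 4898, -4627, 205070, 642652, 242192, -66661, 1267968, -58559, 1034870, -198677, -100315, 3515917, 771083, -104004, 299187, 479288, 153623, -4302, 276908, 486794, 250537, -49216, 193671, 3066587, 973081, -238782, 1728923, 739485, 1010944, -82940, 190768, 655679, 184296]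

noncomputable def t46_1_0_0 : T := (.leaf 0 [])
noncomputable def t46_1_0_2 : T := (.leaf 2 [])
noncomputable def t46_1_0_3 : T := (.leaf 2 [])
noncomputable def t46_1_0_4 : T := (.leaf 2 [])
noncomputable def t46_1_0_5 : T := (.leaf 0 [64])

theorem far46_1 : (c46.far true p46_1).ok c46.box t46_1_0_0 t46_1_0_2 t46_1_0_3 t46_1_0_4 t46_1_0_5 = true := by
  decide +kernel

noncomputable def t46_1_1_0 : T := (.leaf 0 [])
noncomputable def t46_1_1_2 : T := (.leaf 2 [])
noncomputable def t46_1_1_3 : T := (.leaf 2 [])
noncomputable def t46_1_1_4 : T := (.leaf 0 [])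
noncomputable def t46_1_1_5 : T := (.leaf 0 [128])

theorem near46_1 : (c46.near true p46_1).ok c46.box t46_1_1_0 t46_1_1_2 t46_1_1_3 t46_1_1_4 t46_1_1_5 = true := by
  decide +kernel

def p52_0 : List Int := [220466, 589188, 1041115, 215689, 660290, 2265437, -1125660, 803893, 660943, 810187, 3141329, 80562, 220333, 748238, 102076, 6293, 323628, 1013292, 789922, 275230, 496831, 4706819, 2629008, 853288, 1062111, 1719770, 2961371, 1009149, 324421, 577443, 931442, 242151, 247608, 1015994, 421341, 289704, 1173881, 2087447, 5816365, 580031, 709659, 2440207, 1639716, 1200871, 382808, 615106, 965172, 188397, 366020, 558363, 1191000, 367193, 1230884, 5767202, 1859276, 862146, 684202, 4503523, 3249976, 1975693, 472962, 1467235, 1428511, 437897]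

noncomputable def t52_0_0_0 : T := (.leaf 0 [])
noncomputable def t52_0_0_2 : T := (.leaf 2 [])
noncomputable def t52_0_0_3 : T := (.leaf 2 [])
noncomputable def t52_0_0_4 : T := (.leaf 2 [])
noncomputable def t52_0_0_5 : T := (.leaf 0 [64])

theorem far52_0 : (c52.far false p52_0).ok c52.box t52_0_0_0 t52_0_0_2 t52_0_0_3 t52_0_0_4 t52_0_0_5 = true := by
  decide +kernel

noncomputable def t52_0_1_0 : T := (dec 2 (nat_lit 0x100000200002c3))
noncomputable def t52_0_1_2 : T := (.leaf 2 [])
noncomputable def t52_0_1_3 : T := (.leaf 2 [])
noncomputable def t52_0_1_4 : T := (.leaf 0 [])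
noncomputable def t52_0_1_5 : T := (.leaf 0 [96])

theorem near52_0 : (c52.near false p52_0).ok c52.box t52_0_1_0 t52_0_1_2 t52_0_1_3 t52_0_1_4 t52_0_1_5 = true := by
  decide +kernel

def p52_1 : List Int := [-3474, 163000, 615784, 246314, -58079, 695776, 262117, 619431, -170708, 287506, 610622, 213240, -77496, -42806, -39261, 12616, 0, 331060, 682921, 335663, 0, 470778, 1204737, 608404, 0, 1031879, 1728930, 1094849, 0, 249367, 622658, 251071, -3456, 192169, 715719, 267239, -76433, 1880369, 289535, 1021133, -160033, -307803, 2558515, 1093900, -77506, 73325, 906033, 156700, 0, 373445, 770674, 378743, 0, 1193026, 1486309, 851138, 0, 1760632, 2988406, 1875888, 0, 590144, 1237458, 451165]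

noncomputable def t52_1_0_0 : T := (.leaf 0 [])
noncomputable def t52_1_0_2 : T := (.leaf 2 [])
noncomputable def t52_1_0_3 : T := (.leaf 2 [])
noncomputable def t52_1_0_4 : T := (.leaf 2 [])
noncomputable def t52_1_0_5 : T := (dec 2 (nat_lit 0x2000700100038000000010000020000749))

theorem far52_1 : (c52.far true p52_1).ok c52.box t52_1_0_0 t52_1_0_2 t52_1_0_3 t52_1_0_4 t52_1_0_5 = true := by
  decide +kernel

noncomputable def t52_1_1_0 : T := (dec 2 (nat_lit 0x100000200002c3))
noncomputable def t52_1_1_2 : T := (.leaf 2 [])
noncomputable def t52_1_1_3 : T := (.leaf 2 [])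
noncomputable def t52_1_1_4 : T := (.leaf 1 [])
noncomputable def t52_1_1_5 : T := (dec 2 (nat_lit 0x36007001b0038020000010000020000745))

theorem near52_1 : (c52.near true p52_1).ok c52.box t52_1_1_0 t52_1_1_2 t52_1_1_3 t52_1_1_4 t52_1_1_5 = true := by
  decide +kernel

end Crest.Agent.R310.H17
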