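import Crest.Agent.R310.H17Cells

/-! # Row 310: certificates (generated by tools/h17/wr.py) -/

set_option autoImplicit false
set_option maxRecDepth 100000
set_option Elab.async false

open Crest.Agent.Lib.PolyBB

namespace Crest.Agent.R310.H17

def p5_0 : List Int := [0, 0, 0, 0, 899014, -168281, 0, 0, -119011, -1456812, 0, 0, 494678, 173833, 0, 0, 73395, -232997, 489415, 33002, 1336556, -3512532, 1185046, 237822, -843914, 8477288, -314020, 253922, 713769, -781625, 212749, 6847, 0, 0, 0, 0, 598287, 599060, 0, 0, 365562, -2113191, 0, 0, 284268, 225638, 0, 0, 0, -11563, -6594, -25015, 933618, 2731301, -1009289, 121781, 1686510, -10203124, 4861725, 366379, 697380, 841153, -39439, 6182]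

noncomputable def t5_0_0_0 : T := (dec 3 (nat_lit 0x40000080000b140000000000100000200002c50000010000020001883))
noncomputable def t5_0_0_2 : T := (dec 4 (nat_lit 0x80000200001618000008000010000c4180000000100000200002c5))
noncomputable def t5_0_0_3 : T := (.leaf 2 [])
noncomputable def t5_0_0_4 : T := (.leaf 2 [])
noncomputable def t5_0_0_5 : T := (dec 4 (nat_lit 0x800100020004000800100000000040000100001e0c000004000008000880e00040000000010000020000785))

theorem far5_0 : (c5.far false p5_0).ok c5.box t5_0_0_0 t5_0_0_2 t5_0_0_3 t5_0_0_4 t5_0_0_5 = true := by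
  decide +kernel

noncomputable def t5_0_1_0 : T := (dec 4 (nat_lit 0x100000200002c500000100000400018830000010000020002e43))
noncomputable def t5_0_1_2 : T := (.leaf 2 [])
noncomputable def t5_0_1_3 : T := (dec 7 (nat_lit 0xc00000e000058a00000000c0000100000b140000000000000c00000e000058a0000000040000100000b0c000004000058000b91c0000000180000200001628000008000010002ce180000000100000200002c5))
noncomputable def t5_0_1_4 : T := (.leaf 2 [])
noncomputable def t5_0_1_5 : T := (dec 7 (nat_lit 0x20004000800100000000040000580001e1e000400000000300000400007858001000200040008001000000001800001c0001e16000400000000100000400007830000010000160003c878001000000000c0000100001e14000004000008001c60e00040000000010000020000785))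

theorem near5_0 : (c5.near false p5_0).ok c5.box t5_0_1_0 t5_0_1_2 t5_0_1_3 t5_0_1_4 t5_0_1_5 = true := by
  decide +kernel

def p5_1 : List Int := [0, 0, 0, 0, -332065, 582, 0, 0, -466382, -1759619, 0, 0, -253056, 246724, 0, 0, -6269, -145404, 284938, 30936, -441040, -907709, 519621, 240929, -1908035, 6934544, -81256, 254817, -208132, -363807, 284909, 7317, 0, 0, 0, 0, -353257, -479147, 0, 0, -622655, -1155026, 0, 0, -657548, 225199, 0, 0, -8483, -184680, 61252, -26788, -790618, 2889646, -1161678, 148668, -63212, -5349512, 4262621, 330091, -263684, -586918, 383989, 6150]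

noncomputable def t5_1_0_0 : T := (dec 6 (nat_lit 0x100000400002c500000100000200018850000010000070002e43000001000004000440300000100000200059c3))
noncomputable def t5_1_0_2 : T := (dec 6 (nat_lit 0x300000400002c5000000002000004000058a0000000000000100000700002c300000100000400018830000000000040000100000b0c00000c00001000062140000000000100000400002c300000100000200018850000010000020008543))
noncomputable def t5_1_0_3 : T := (.leaf 2 [])
noncomputable def t5_1_0_4 : T := (.leaf 2 [])
noncomputable def t5_1_0_5 : T := (dec 6 (nat_lit 0x8001000200040000000030000040000785800100000000040000080001e1600040008001000000000c0000100001e16000400000000100000200007858001000200040000000030000040000785800100000000040000080001e1600040008001000000000c0000100001e16000400000000100000200007850000010000070003c830000010000040008c03000001000002000db83))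

theorem far5_1 : (c5.far true p5_1).ok c5.box t5_1_0_0 t5_1_0_2 t5_1_0_3 t5_1_0_4 t5_1_0_5 = true := by
  decide +kernel

noncomputable def t5_1_1_0 : T := (dec 3 (nat_lit 0x40000080000b140000000000100000200002c50000010000020001883))
noncomputable def t5_1_1_2 : T := (.leaf 2 [])
noncomputable def t5_1_1_3 : T := (dec 8 (nat_lit 0x40000940000b1c000004000058000621c0000000180000200001628000000000000000300000380001628000008000128000c4380000080000b000172380000000300000400002c500000000000400001c0000b0c0000000000000c00000e000058a00000200004a000310e00000200002c0005c8e0000000000000300000500002c5000000002000018000058600000200000e0005c86000006000008000880a00000200000800161860000020000040023b060000000000000100000400002c300000100000200018830000010000020002e45))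
noncomputable def t5_1_1_4 : T := (.leaf 2 [])
noncomputable def t5_1_1_5 : T := (dec 8 (nat_lit 0x20004000800100020004000000001000025000078700000100001600022078001000000000c0000100001e1600040000000010000020000785800100020004000800100020004000000006000007000078500000100002500022070000010000160003c878001000000000c0000100001e1600040008001000000000400001c0001e0e0004000800100020004000000006000007000078500000100002500022070000010000160003c878001000200040008001000000000c0000140001e16000400000000100000c00007830000010000070003c830000030000040005705000001000004000db83800100020004000000001000004000078300000100000200022050000010000020019503))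

theorem near5_1 : (c5.near true p5_1).ok c5.box t5_1_1_0 t5_1_1_2 t5_1_1_3 t5_1_1_4 t5_1_1_5 = true := by
  decide +kernel

def p11_0 : List Int := [0, -6433, -2285, -5541, 140334, 653857, -336708, 44326, 406884, -1315979, 978858, 73390, 125900, 93036, 26639, 1761, 14350, 100821, 31745, 9222, 292918, -491789, 157322, 103841, 310128, -115140, 441618, 107751, 95114, 136190, 28838, 2543, 0, -3499, -7050, -3572, 190125, -205854, 124003, 25236, 385992, 807610, -244239, 93944, 97003, 39711, 42696, 1726, 0, -2977, -11871, -5332, 205107, -165830, 285105, 65987, 203638, 958261, -246165, 136613, 95462, 222569, 3956, 2580]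

noncomputable def t11_0_0_0 : T := (dec 2 (nat_lit 0x100000200002c5))
noncomputable def t11_0_0_2 : T := (dec 4 (nat_lit 0x2000004000058a00000000000800002000016180000000100000200002c50000010000020002e43))
noncomputable def t11_0_0_3 : T := (.leaf 2 [])
noncomputable def t11_0_0_4 : T := (.leaf 2 [])
noncomputable def t11_0_0_5 : T := (dec 4 (nat_lit 0x20004000800100000000040000080001e160004000800100000000040000100001e0e000400000000100000200007850000010000020003c83))

theorem far11_0 : (c11.far false p11_0).ok c11.box t11_0_0_0 t11_0_0_2 t11_0_0_3 t11_0_0_4 t11_0_0_5 = true := by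
  decide +kernel

noncomputable def t11_0_1_0 : T := (.leaf 0 [])
noncomputable def t11_0_1_2 : T := (.leaf 2 [])
noncomputable def t11_0_1_3 : T := (dec 3 (nat_lit 0x40000080000b140000000000100000400002c30000010000020001883))
noncomputable def t11_0_1_4 : T := (dec 3 (nat_lit 0x100000400002c30000010000020001883))
noncomputable def t11_0_1_5 : T := (dec 3 (nat_lit 0x2000400080010002000400000000100000400007830000010000020002203))

theorem near11_0 : (c11.near false p11_0).ok c11.box t11_0_1_0 t11_0_1_2 t11_0_1_3 t11_0_1_4 t11_0_1_5 = true := by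
  decide +kernel

def p11_1 : List Int := [-3470, -26094, -8606, -3756, -49406, 317946, -72287, 26192, -338613, -238662, 613910, 76634, -87616, 33268, 47055, 2159, -5441, 30701, 6868, 8944, -11782, -198925, 296363, 104310, -388713, 1074716, 96260, 108247, -78154, 59294, 79277, 2511, -4163, -13702, -17370, -5659, -78087, 284694, -54319, 46646, -152506, -452852, 699740, 58103, -79393, -3793, 67491, 1749, -3174, -32559, 4718, -5464, -129919, 669644, -351844, 69254, -123609, -830665, 827227, 131231, -78835, 12170, 62613, 3073]

noncomputable def t11_1_0_0 : T := (dec 6 (nat_lit 0x100000200002c500000100000c00018830000010000070002e43000001000004000440300000100000200059c3))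
noncomputable def t11_1_0_2 : T := (dec 6 (nat_lit 0x40000080000b1400000000000006000008000058a0000000000180000200001628000008000038000c41800000800002000220180000000100000200002c50000010000020006f83))
noncomputable def t11_1_0_3 : T := (.leaf 2 [])
noncomputable def t11_1_0_4 : T := (.leaf 2 [])
noncomputable def t11_1_0_5 : T := (dec 6 (nat_lit 0x80010002000400000000100000200007858001000200040008001000000000c0000100001e1600040008001000000000c0000100001e1400000400001c000880c0000040000100015c0e000400000000100000200007850000010000020008c03))

theorem far11_1 : (c11.far true p11_1).ok c11.box t11_1_0_0 t11_1_0_2 t11_1_0_3 t11_1_0_4 t11_1_0_5 = true := by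
  decide +kernel

noncomputable def t11_1_1_0 : T := (dec 4 (nat_lit 0x2000004000058a0000000000000100000400002c300000100000200018850000010000020002e43))
noncomputable def t11_1_1_2 : T := (.leaf 2 [])
noncomputable def t11_1_1_3 : T := (dec 6 (nat_lit 0x2000004000058a0000000000000300000400002c500000000000c0000100000b1400000400001c000620c000004000010001100c0000000000100000400002c300000100000200018850000010000020008543))
noncomputable def t11_1_1_4 : T := (dec 6 (nat_lit 0x2000004000058a0000000000000300000400002c500000000000c0000100000b1400000400001c000620c000004000010001100c0000000000100000400002c300000100000200018850000010000020008543))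
noncomputable def t11_1_1_5 : T := (dec 6 (nat_lit 0x20004000800100000000040000080001e160004000800100000000040000080001e1600040008001000000000c0000100001e1600040008001000000000c0000100001e1400000400001c000880e000400000000100000200007850000010000040007183000001000002000a683))

theorem near11_1 : (c11.near true p11_1).ok c11.box t11_1_1_0 t11_1_1_2 t11_1_1_3 t11_1_1_4 t11_1_1_5 = true := by
  decide +kernel

def p17_0 : List Int := [182482, 597601, 32943, 97505, 377644, 934252, 1462260, -144829, 751491, -293815, -39206, -256758, 167613, 373688, -121151, -135558, 213516, 653891, 544781, 186444, 355772, 3420669, -133642, 335311, 845392, 398495, -129360, -219653, 186264, 245164, 117342, -134268, 216470, 646864, 681111, 190101, 667381, -1075315, 2713188, 172388, 752996, 2691705, 82567, 14950, 282594, 312873, 168861, -53581, 186777, 844181, 357972, 213225, 516640, 1415973, 68113, 196400, 815546, -678115, 2733164, -322209, 186740, 272849, -60990, -112718]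

noncomputable def t17_0_0_0 : T := (dec 2 (nat_lit 0x100000200002c3))
noncomputable def t17_0_0_2 : T := (.leaf 2 [])
noncomputable def t17_0_0_3 : T := (.leaf 2 [])
noncomputable def t17_0_0_4 : T := (.leaf 2 [])
noncomputable def t17_0_0_5 : T := (.leaf 0 [0])

theorem far17_0 : (c17.far false p17_0).ok c17.box t17_0_0_0 t17_0_0_2 t17_0_0_3 t17_0_0_4 t17_0_0_5 = true := by
  decide +kernel

noncomputable def t17_0_1_0 : T := (.leaf 0 [])
noncomputable def t17_0_1_2 : T := (.leaf 2 [])
noncomputable def t17_0_1_3 : T := (.leaf 2 [])
noncomputable def t17_0_1_4 : T := (.leaf 2 [])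
noncomputable def t17_0_1_5 : T := (dec 2 (nat_lit 0xb803000a8030000000010000020000705))

theorem near17_0 : (c17.near false p17_0).ok c17.box t17_0_1_0 t17_0_1_2 t17_0_1_3 t17_0_1_4 t17_0_1_5 = true := by
  decide +kernel

def p17_1 : List Int := [-94384, -170209, 10699, 59056, -514315, -928280, 421585, -24532, -285974, -1538704, -1161149, -294399, -188900, -500915, -463819, -135936, 0, 186748, 444395, 211692, -210114, 415918, -246357, 195501, -381025, -1681442, 622898, -238532, -137290, -385835, -434980, -128224, 0, 233765, 339262, 217049, -238940, -569301, 502928, 103488, -470715, 171496, -658609, 54430, -164653, -231219, -221474, -53850, 0, 166774, 485287, 204659, -183571, -602714, -255128, 140991, -408301, 552687, -883029, -40883, -136556, -558583, -162050, -135813]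

noncomputable def t17_1_0_0 : T := (.leaf 0 [])
noncomputable def t17_1_0_2 : T := (.leaf 2 [])
noncomputable def t17_1_0_3 : T := (.leaf 2 [])
noncomputable def t17_1_0_4 : T := (.leaf 2 [])
noncomputable def t17_1_0_5 : T := (.leaf 0 [0])

theorem far17_1 : (c17.far true p17_1).ok c17.box t17_1_0_0 t17_1_0_2 t17_1_0_3 t17_1_0_4 t17_1_0_5 = true := by
  decide +kernel

noncomputable def t17_1_1_0 : T := (.leaf 0 [])
noncomputable def t17_1_1_2 : T := (.leaf 2 [])
noncomputable def t17_1_1_3 : T := (.leaf 2 [])
noncomputable def t17_1_1_4 : T := (.leaf 2 [])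
noncomputable def t17_1_1_5 : T := (.leaf 0 [68])

theorem near17_1 : (c17.near true p17_1).ok c17.box t17_1_1_0 t17_1_1_2 t17_1_1_3 t17_1_1_4 t17_1_1_5 = true := by
  decide +kernel

def p23_0 : List Int := [0, -9156, -9766, -8884, 320399, 1313448, -326407, 232741, 730289, -573258, 2431657, 409825, 284616, 559886, 54530, 9670, 0, -6648, -11359, -5882, 443913, 830722, 1263796, 175637, 736753, 2119327, 1794757, 846830, 326465, 547466, 480684, 39450, 13116, 13374, 43044, 1916, 239175, -215630, 1035827, 33534, 399856, 4025980, 942306, 497290, 293950, 621110, 34105, 9670, 11780, 49936, 19200, 8891, 199783, 936466, 337809, -11103, 554212, 2450448, 2530626, 636261, 320632, 1047740, 245511, 41401]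

noncomputable def t23_0_0_0 : T := (.leaf 0 [])
noncomputable def t23_0_0_2 : T := (.leaf 0 [])
noncomputable def t23_0_0_3 : T := (.leaf 0 [])
noncomputable def t23_0_0_4 : T := (.leaf 2 [])
noncomputable def t23_0_0_5 : T := (.leaf 0 [128])

theorem far23_0 : (c23.far false p23_0).ok c23.box t23_0_0_0 t23_0_0_2 t23_0_0_3 t23_0_0_4 t23_0_0_5 = true := by
  decide +kernel

noncomputable def t23_0_1_0 : T := (.leaf 0 [])
noncomputable def t23_0_1_2 : T := (.leaf 2 [])
noncomputable def t23_0_1_3 : T := (.leaf 2 [])
noncomputable def t23_0_1_4 : T := (dec 2 (nat_lit 0x100000200002cb))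
noncomputable def t23_0_1_5 : T := (.leaf 0 [128])

theorem near23_0 : (c23.near false p23_0).ok c23.box t23_0_1_0 t23_0_1_2 t23_0_1_3 t23_0_1_4 t23_0_1_5 = true := by
  decide +kernel

def p23_1 : List Int := [-6601, -18409, -33809, -8409, -212658, 50668, 721675, 222645, -165915, -560457, 714481, 426138, -206470, 91940, 301967, 9423, -5464, -16830, -15807, -5643, -133922, -157727, 42384, 122392, -182122, -35903, -363075, 949267, -169389, -92745, 626670, 33547, -6604, -4032, -11643, 695, -206827, -305174, -26488, 196446, -167146, -1871436, 100493, 150989, -205946, -242448, 365773, 9392, -5424, -29079, 17954, 10385, -174578, 142405, -358809, -92668, -151491, -2308959, -1260381, 928925, -171772, -557281, 742490, 33035]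

noncomputable def t23_1_0_0 : T := (dec 2 (nat_lit 0x100000200002c5))
noncomputable def t23_1_0_2 : T := (.leaf 0 [])
noncomputable def t23_1_0_3 : T := (.leaf 0 [])
noncomputable def t23_1_0_4 : T := (.leaf 2 [])
noncomputable def t23_1_0_5 : T := (.leaf 0 [128])

theorem far23_1 : (c23.far true p23_1).ok c23.box t23_1_0_0 t23_1_0_2 t23_1_0_3 t23_1_0_4 t23_1_0_5 = true := by
  decide +kernel

noncomputable def t23_1_1_0 : T := (.leaf 0 [])
noncomputable def t23_1_1_2 : T := (.leaf 2 [])
noncomputable def t23_1_1_3 : T := (.leaf 2 [])
noncomputable def t23_1_1_4 : T := (dec 2 (nat_lit 0x100000200002c3))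
noncomputable def t23_1_1_5 : T := (dec 2 (nat_lit 0x8001000200040000000010000020000783))

theorem near23_1 : (c23.near true p23_1).ok c23.box t23_1_1_0 t23_1_1_2 t23_1_1_3 t23_1_1_4 t23_1_1_5 = true := by
  decide +kernel

def p29_0 : List Int := [402789, 1148151, 1251812, 397082, 1154909, 3783582, 1414798, 291642, 1217474, 1860506, 1212456, -289040, 402729, 577594, -26378, -250448, 416906, 1297804, 1216721, 405154, 1310653, 2385555, 2880043, 602981, 1232419, 3127072, 1130657, -89517, 423005, 660966, 137769, -162101, 428517, 1282352, 1201601, 415365, 1279265, 3348609, 2745662, 510497, 1426401, 2557887, 1417061, 103939, 490837, 771640, 205758, -125930, 417300, 1294994, 1213319, 411205, 1240380, 3061848, 2299756, 556825, 1307788, 2352964, 1923770, -82079, 417012, 718567, 85624, -162053]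

noncomputable def t29_0_0_0 : T := (.leaf 0 [])
noncomputable def t29_0_0_2 : T := (.leaf 2 [])
noncomputable def t29_0_0_3 : T := (.leaf 2 [])
noncomputable def t29_0_0_4 : T := (.leaf 2 [])
noncomputable def t29_0_0_5 : T := (.leaf 0 [0])

theorem far29_0 : (c29.far false p29_0).ok c29.box t29_0_0_0 t29_0_0_2 t29_0_0_3 t29_0_0_4 t29_0_0_5 = true := by
  decide +kernel

noncomputable def t29_0_1_0 : T := (.leaf 0 [])
noncomputable def t29_0_1_2 : T := (.leaf 2 [])
noncomputable def t29_0_1_3 : T := (.leaf 2 [])
noncomputable def t29_0_1_4 : T := (.leaf 2 [])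
noncomputable def t29_0_1_5 : T := (.leaf 0 [71])

theorem near29_0 : (c29.near false p29_0).ok c29.box t29_0_1_0 t29_0_1_2 t29_0_1_3 t29_0_1_4 t29_0_1_5 = true := by
  decide +kernel

def p29_1 : List Int := [0, 379811, 862305, 391492, -384836, -684102, -37607, 377650, -688559, -1021430, -1211329, -320111, -300273, -712788, -772338, -254991, -11700, 395059, 820937, 416918, -198209, 170975, 846911, 588391, -569689, -445842, -311022, -33251, -270258, -576896, -372787, -170472, -13442, 414698, 735890, 421604, -231153, 636425, 1306646, 504847, -631104, -479454, 64921, 77846, -300286, -318685, -298283, -129459, -12191, 396100, 830217, 407833, -181709, 107623, 562617, 650086, -626305, -279827, -408116, -83920, -261028, -573247, -376798, -172277]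

noncomputable def t29_1_0_0 : T := (.leaf 0 [])
noncomputable def t29_1_0_2 : T := (.leaf 2 [])
noncomputable def t29_1_0_3 : T := (.leaf 2 [])
noncomputable def t29_1_0_4 : T := (.leaf 2 [])
noncomputable def t29_1_0_5 : T := (.leaf 0 [0])

theorem far29_1 : (c29.far true p29_1).ok c29.box t29_1_0_0 t29_1_0_2 t29_1_0_3 t29_1_0_4 t29_1_0_5 = true := by
  decide +kernel

noncomputable def t29_1_1_0 : T := (.leaf 0 [])
noncomputable def t29_1_1_2 : T := (.leaf 2 [])
noncomputable def t29_1_1_3 : T := (.leaf 2 [])
noncomputable def t29_1_1_4 : T := (.leaf 2 [])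
noncomputable def t29_1_1_5 : T := (.leaf 0 [70])

theorem near29_1 : (c29.near true p29_1).ok c29.box t29_1_1_0 t29_1_1_2 t29_1_1_3 t29_1_1_4 t29_1_1_5 = true := by
  decide +kernel

def p35_0 : List Int := [28598, 25588, 99630, 9543, 557808, 94534, 824820, 207773, 1003486, 5704249, 5197321, 1197021, 549649, 2353941, 490275, 81203, 14767, 8486, 34980, 5489, 592990, 3585904, 673768, 339956, 1578556, 4268774, 6481530, 1681688, 722523, 1650065, 1472546, 311867, 27239, 42997, 78477, 15624, 546127, 1820148, -732187, 247149, 923591, 4111056, 6985890, 1110482, 642419, 1956945, 567986, 81498, 31558, 57177, 63734, 23878, 613187, -382077, 3772717, 86106, 1241497, 6944247, 815992, 1667317, 602026, 3019730, 1102413, 306255]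

noncomputable def t35_0_0_0 : T := (.leaf 0 [])
noncomputable def t35_0_0_2 : T := (.leaf 0 [])
noncomputable def t35_0_0_3 : T := (.leaf 0 [])
noncomputable def t35_0_0_4 : T := (.leaf 2 [])
noncomputable def t35_0_0_5 : T := (.leaf 2 [])

theorem far35_0 : (c35.far false p35_0).ok c35.box t35_0_0_0 t35_0_0_2 t35_0_0_3 t35_0_0_4 t35_0_0_5 = true := by
  decide +kernel

noncomputable def t35_0_1_0 : T := (dec 3 (nat_lit 0x100000200002c50000010000020001883))
noncomputable def t35_0_1_2 : T := (.leaf 2 [])
noncomputable def t35_0_1_3 : T := (.leaf 2 [])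
noncomputable def t35_0_1_4 : T := (.leaf 0 [])
noncomputable def t35_0_1_5 : T := (.leaf 2 [])

theorem near35_0 : (c35.near false p35_0).ok c35.box t35_0_1_0 t35_0_1_2 t35_0_1_3 t35_0_1_4 t35_0_1_5 = true := by
  decide +kernel

def p35_1 : List Int := [-11486, -46508, 34948, 19361, -330994, 1058827, -1038297, -125959, -326446, -5300006, -1563900, 1723772, -337207, -967757, 1363358, 70764, -8455, -25000, -22029, 7105, -140989, -608159, 2070952, 227923, -417638, 88596, -6948606, 1995135, -187038, -1365422, 2061405, 314094, -10887, -51028, 38416, 18834, -339164, 1136305, -833345, -130628, -317460, -5012833, -2733314, 1731410, -337491, -1015262, 1417327, 68321, -9786, 6892, 3232, 25971, -219036, -70284, 719001, 63159, -379719, -59821, -4533414, 1859839, -189008, -1422954, 1514138, 327064]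

noncomputable def t35_1_0_0 : T := (dec 2 (nat_lit 0x100000200002c5))
noncomputable def t35_1_0_2 : T := (.leaf 0 [])
noncomputable def t35_1_0_3 : T := (.leaf 0 [])
noncomputable def t35_1_0_4 : T := (.leaf 2 [])
noncomputable def t35_1_0_5 : T := (.leaf 2 [])

theorem far35_1 : (c35.far true p35_1).ok c35.box t35_1_0_0 t35_1_0_2 t35_1_0_3 t35_1_0_4 t35_1_0_5 = true := by
  decide +kernel

noncomputable def t35_1_1_0 : T := (dec 2 (nat_lit 0x100000200002c3))
noncomputable def t35_1_1_2 : T := (.leaf 2 [])
noncomputable def t35_1_1_3 : T := (.leaf 2 [])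
noncomputable def t35_1_1_4 : T := (.leaf 0 [])
noncomputable def t35_1_1_5 : T := (.leaf 2 [])

theorem near35_1 : (c35.near true p35_1).ok c35.box t35_1_1_0 t35_1_1_2 t35_1_1_3 t35_1_1_4 t35_1_1_5 = true := by
  decide +kernel

def p41_0 : List Int := [377606, 536479, 1218441, 369007, 1084634, 6110025, 1702944, 972389, 1513852, 5862593, 5647752, 2940982, 584071, 2507876, 1031186, 250322, 383147, 1453619, 981687, 412047, 1764352, -1610671, 7144695, 1179349, 1802008, 4062045, 9338997, 2618525, 766063, 1059232, 1768836, 377752, 0, -11951, -10804, -10266, 796373, 3930947, 1783991, 565280, 1306113, 8120356, 1082590, 1633389, 739159, 1291699, 1686434, 319318, 0, -7168, -19026, -7105, 1076284, 394603, 5428120, 535525, 1557338, 6266033, -968284, 1739648, 761596, 1951619, 1714693, 392401]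

noncomputable def t41_0_0_0 : T := (.leaf 0 [])
noncomputable def t41_0_0_2 : T := (.leaf 0 [])
noncomputable def t41_0_0_3 : T := (.leaf 2 [])
noncomputable def t41_0_0_4 : T := (.leaf 2 [])
noncomputable def t41_0_0_5 : T := (.leaf 0 [128])

theorem far41_0 : (c41.far false p41_0).ok c41.box t41_0_0_0 t41_0_0_2 t41_0_0_3 t41_0_0_4 t41_0_0_5 = true := by
  decide +kernel

noncomputable def t41_0_1_0 : T := (.leaf 0 [])
noncomputable def t41_0_1_2 : T := (.leaf 2 [])
noncomputable def t41_0_1_3 : T := (.leaf 2 [])
noncomputable def t41_0_1_4 : T := (.leaf 0 [])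
noncomputable def t41_0_1_5 : T := (.leaf 0 [128])

theorem near41_0 : (c41.near false p41_0).ok c41.box t41_0_1_0 t41_0_1_2 t41_0_1_3 t41_0_1_4 t41_0_1_5 = true := by
  decide +kernel

def p41_1 : List Int := [-8714, 211131, 764978, 369908, -232679, 2806930, 2008463, 933638, -287263, -19274, 5003660, 2956931, -247488, 644085, 1789957, 250133, -7614, 396646, 822333, 414102, -209150, 2513967, 1381232, 1128530, -260357, -156672, 6425837, 2787111, -212782, 687120, 1814866, 361677, -11091, -25191, -26171, -8674, -203345, 231198, -24723, 512478, -376635, -1586404, -954541, 1719804, -200898, -927919, 2002892, 303422, -7977, -38714, -21615, -7718, -147314, -428979, 337349, 570832, -360630, -679770, -1452400, 1679997, -172523, -924832, 1996405, 395406]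

noncomputable def t41_1_0_0 : T := (.leaf 0 [])
noncomputable def t41_1_0_2 : T := (dec 3 (nat_lit 0x800001000016280000000100000200002cb))
noncomputable def t41_1_0_3 : T := (.leaf 2 [])
noncomputable def t41_1_0_4 : T := (.leaf 2 [])
noncomputable def t41_1_0_5 : T := (.leaf 0 [128])

theorem far41_1 : (c41.far true p41_1).ok c41.box t41_1_0_0 t41_1_0_2 t41_1_0_3 t41_1_0_4 t41_1_0_5 = true := by
  decide +kernel

noncomputable def t41_1_1_0 : T := (dec 2 (nat_lit 0x100000200002c3))
noncomputable def t41_1_1_2 : T := (.leaf 2 [])
noncomputable def t41_1_1_3 : T := (.leaf 2 [])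
noncomputable def t41_1_1_4 : T := (dec 2 (nat_lit 0x100000200002cb))
noncomputable def t41_1_1_5 : T := (.leaf 0 [128])

theorem near41_1 : (c41.near true p41_1).ok c41.box t41_1_1_0 t41_1_1_2 t41_1_1_3 t41_1_1_4 t41_1_1_5 = true := by
  decide +kernel

def p47_0 : List Int := [138303, 403686, 421494, 134997, 295722, 2187072, -111275, 435452, 492124, 655118, 2581218, 447850, 180519, 472808, 288281, 76015, 178360, 363154, 563304, 178003, 372573, 2589560, 1812353, 530323, 662830, 1072305, 1803811, 873399, 209097, 695783, 733383, 212190, 88687, 365707, 233087, 96987, 458302, -366222, 1616612, 351986, 320114, 2068493, 1518544, 652822, 180823, 357682, 444773, 89615, 172977, 530578, 533505, 178103, 592398, 328939, 3085455, 488570, 538488, 2359634, 1381148, 809877, 209409, 796290, 630543, 214518]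

noncomputable def t47_0_0_0 : T := (.leaf 0 [])
noncomputable def t47_0_0_2 : T := (.leaf 2 [])
noncomputable def t47_0_0_3 : T := (.leaf 2 [])
noncomputable def t47_0_0_4 : T := (.leaf 2 [])
noncomputable def t47_0_0_5 : T := (.leaf 0 [81])

theorem far47_0 : (c47.far false p47_0).ok c47.box t47_0_0_0 t47_0_0_2 t47_0_0_3 t47_0_0_4 t47_0_0_5 = true := by
  decide +kernel

noncomputable def t47_0_1_0 : T := (.leaf 0 [])
noncomputable def t47_0_1_2 : T := (.leaf 2 [])
noncomputable def t47_0_1_3 : T := (.leaf 2 [])
noncomputable def t47_0_1_4 : T := (.leaf 0 [])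
noncomputable def t47_0_1_5 : T := (.leaf 0 [128])

theorem near47_0 : (c47.near false p47_0).ok c47.box t47_0_1_0 t47_0_1_2 t47_0_1_3 t47_0_1_4 t47_0_1_5 = true := by
  decide +kernel

def p47_1 : List Int := [-2093, 98236, 325842, 131172, -29782, 309201, 477331, 477640, -115160, 684551, 754332, 460184, -53804, 88797, 338819, 66100, 0, 185861, 370579, 185908, 0, 563461, 948797, 417650, 0, 748066, 1609949, 893642, 0, 296168, 610702, 221440, -1951, 71454, 240075, 87563, -49774, 612949, 313133, 344597, -71450, -37839, 1367122, 781074, -53827, 137278, 516438, 77756, 0, 181005, 378291, 183941, 0, 629445, 903412, 435524, 0, 752454, 1514651, 911122, 0, 296260, 608786, 221415]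

noncomputable def t47_1_0_0 : T := (.leaf 0 [])
noncomputable def t47_1_0_2 : T := (.leaf 2 [])
noncomputable def t47_1_0_3 : T := (.leaf 2 [])
noncomputable def t47_1_0_4 : T := (.leaf 2 [])
noncomputable def t47_1_0_5 : T := (.leaf 0 [84])

theorem far47_1 : (c47.far true p47_1).ok c47.box t47_1_0_0 t47_1_0_2 t47_1_0_3 t47_1_0_4 t47_1_0_5 = true := by
  decide +kernel

noncomputable def t47_1_1_0 : T := (.leaf 0 [])
noncomputable def t47_1_1_2 : T := (.leaf 2 [])
noncomputable def t47_1_1_3 : T := (.leaf 2 [])
noncomputable def t47_1_1_4 : T := (dec 2 (nat_lit 0x200000100000200002c5))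
noncomputable def t47_1_1_5 : T := (.leaf 1 [128])

theorem near47_1 : (c47.near true p47_1).ok c47.box t47_1_1_0 t47_1_1_2 t47_1_1_3 t47_1_1_4 t47_1_1_5 = true := by
  decide +kernel

def p53_0 : List Int := [479059, 888925, 1541313, 468615, 1126427, 12280093, 2213530, 1575389, 2058991, -2664331, 10642542, 3087102, 734199, 2698061, 1404456, 490424, 656285, 1737323, 2159146, 717786, 1721231, 15644899, 3728115, 1920496, 2944224, -5698875, 12562733, 3713323, 835622, 3508792, 2017669, 863649, 299178, 558736, 940081, 293904, 1356536, 6370449, 1548684, 874736, 1946319, 2843016, 7425182, 2777246, 780366, 1511356, 2158617, 512957, 538717, 1018598, 1720166, 538832, 1332001, 8991541, 2398412, 1362627, 3159839, -1792204, 11629678, 3501941, 826237, 3638568, 1763051, 891559]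

noncomputable def t53_0_0_0 : T := (.leaf 0 [])
noncomputable def t53_0_0_2 : T := (.leaf 0 [])
noncomputable def t53_0_0_3 : T := (.leaf 2 [])
noncomputable def t53_0_0_4 : T := (.leaf 2 [])
noncomputable def t53_0_0_5 : T := (.leaf 0 [128])

theorem far53_0 : (c53.far false p53_0).ok c53.box t53_0_0_0 t53_0_0_2 t53_0_0_3 t53_0_0_4 t53_0_0_5 = true := by
  decide +kernel

noncomputable def t53_0_1_0 : T := (dec 2 (nat_lit 0x100000200002c3))
noncomputable def t53_0_1_2 : T := (.leaf 2 [])
noncomputable def t53_0_1_3 : T := (.leaf 2 [])
noncomputable def t53_0_1_4 : T := (.leaf 0 [])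
noncomputable def t53_0_1_5 : T := (.leaf 2 [])

theorem near53_0 : (c53.near false p53_0).ok c53.box t53_0_1_0 t53_0_1_2 t53_0_1_3 t53_0_1_4 t53_0_1_5 = true := by
  decide +kernel

def p53_1 : List Int := [-6910, 239994, 1193094, 315500, -106171, 4605604, -5272330, 3534105, -309671, 1885724, 9882352, 1610465, -127649, 235287, 2402480, 569351, 0, 850900, 218228, 867812, 0, 1117162, 17928980, -515611, 0, 3605259, -3146394, 5976095, 0, 1243503, 2562110, 661779, -8556, 176713, 352053, 357522, -3238, 2531784, 3390557, 665021, -575622, 909135, 4461613, 2295138, -136489, -85895, 2764342, 379551, 0, 653117, 1279428, 649380, 0, 1110308, 144174, 996820, 0, 2701112, 6708874, 4950053, 0, 1007026, 2290050, 697593]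

noncomputable def t53_1_0_0 : T := (dec 2 (nat_lit 0x100000200002c3))
noncomputable def t53_1_0_2 : T := (dec 7 (nat_lit 0x180000200001648000008000060000c42800000800003800172280000000100000200002c900000100000400059c50000010000020006f85))
noncomputable def t53_1_0_3 : T := (.leaf 2 [])
noncomputable def t53_1_0_4 : T := (.leaf 2 [])
noncomputable def t53_1_0_5 : T := (dec 7 (nat_lit 0x200040008001000200040008001000200040008001000000000c0000100001e24000004000030000881400000400001c000f2160004000000001000002000078900000100000400071850000010000020008c05))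

theorem far53_1 : (c53.far true p53_1).ok c53.box t53_1_0_0 t53_1_0_2 t53_1_0_3 t53_1_0_4 t53_1_0_5 = true := by
  decide +kernel

noncomputable def t53_1_1_0 : T := (dec 3 (nat_lit 0x40000080000b140000000000100000200002c50000010000020001883))
noncomputable def t53_1_1_2 : T := (.leaf 2 [])
noncomputable def t53_1_1_3 : T := (.leaf 2 [])
noncomputable def t53_1_1_4 : T := (dec 2 (nat_lit 0x100000200002cb))
noncomputable def t53_1_1_5 : T := (.leaf 2 [])

theorem near53_1 : (c53.near true p53_1).ok c53.box t53_1_1_0 t53_1_1_2 t53_1_1_3 t53_1_1_4 t53_1_1_5 = true := by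
  decide +kernel

end Crest.Agent.R310.H17
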