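import Crest.Agent.R310.H17Side

/-! # Row 310: cells -/

set_option autoImplicit false

open Set Crest.Agent.Lib.PolyBB Crest.Agent.R310.Des

namespace Crest.Agent.R310.H17

/-- `(d, u)` lies in the cell. -/
def Cell.mem (c : Cell) (d u : ℝ) : Prop :=
  (c.n0 : ℝ) ≤ d * c.den ∧ d * c.den ≤ c.n1 ∧ c.a1 + c.b1 * d ≤ u ∧
    (c.top = false → u ≤ c.a2 + c.b2 * d)

/-- The linear facts about a cell. -/
def Cell.geo (c : Cell) : Prop :=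
  1 ≤ c.jk ∧ 1 ≤ c.ji ∧ ∀ d u : ℝ, 0 ≤ d → d ≤ 1 → 6 + 6 * d ≤ u → c.mem d u →
    Pc c.jk u (6 + 6 * d) ∧ Pc c.ji (u + 24 * d) (6 - 6 * d) ∧ Pc c.jg (24 * d) (6 - 6 * d) ∧
    Rng c.kl2 c.kh2 c.kl3 c.kh3 c.kl4 c.kh4 u (6 + 6 * d) ∧
    Rng 4 4 c.il3 c.ih3 c.il4 c.ih4 (u + 24 * d) (6 - 6 * d)

/-- The certificates of one half of a cell. -/
def Cell.Cert (c : Cell) (hf : Bool) : Prop :=
  ∃ (p : List ℤ) (t0 t2 t3 t4 t5 r0 r2 r3 r4 r5 : T),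
    (c.far hf p).ok c.box t0 t2 t3 t4 t5 = true ∧ (c.near hf p).ok c.box r0 r2 r3 r4 r5 = true

theorem Cell.cert_of {c : Cell} {hf : Bool} {p : List ℤ} {t0 t2 t3 t4 t5 r0 r2 r3 r4 r5 : T}
    (h1 : (c.far hf p).ok c.box t0 t2 t3 t4 t5 = true)
    (h2 : (c.near hf p).ok c.box r0 r2 r3 r4 r5 = true) : c.Cert hf :=
  ⟨p, t0, t2, t3, t4, t5, r0, r2, r3, r4, r5, h1, h2⟩

/-- The claim at `(d, u)`. -/
def NR (d u : ℝ) : Prop :=
  ∀ b b' : ℝ, 0 ≤ b → b ≤ 1 → 0 ≤ b' → b' ≤ 1 →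
    ∃ τ, NAtD (u + (12 + 12 * d)) (12 - 12 * d) (12 + 12 * d) b b' τ

theorem nAtD_of_sides {d u b b' τ : ℝ} (h0 : 0 ≤ d) (h1 : d ≤ 1)
    (hk : SideR b b' u (u + 24 * d) (6 + 6 * d) (6 - 6 * d) 0 τ)
    (hi : SideR b' b (u + 24 * d) u (6 - 6 * d) (6 + 6 * d) (24 * d) (-τ)) :
    NAtD (u + (12 + 12 * d)) (12 - 12 * d) (12 + 12 * d) b b' τ := by
  have e1 : u + (12 + 12 * d) - (12 + 12 * d) = u := by ring
  have e2 : u + (12 + 12 * d) - (12 - 12 * d) = u + 24 * d := by ring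
  have e3 : 2 * (12 + 12 * d) = 4 * (6 + 6 * d) := by ring
  have e4 : 2 * (12 - 12 * d) = 4 * (6 - 6 * d) := by ring
  have e5 : 12 + 12 * d + (12 - 12 * d) = 24 := by ring
  have e6 : HkD (u + (12 + 12 * d)) (12 - 12 * d) (12 + 12 * d) b b' τ =
      HR b b' u (u + 24 * d) (6 + 6 * d) (6 - 6 * d) τ := by
    rw [HkD, phD, phD, HR, e1, e2, e3, e4]
    ring
  have e7 : HiD (u + (12 + 12 * d)) (12 - 12 * d) (12 + 12 * d) b b' τ =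
      HR b' b (u + 24 * d) u (6 - 6 * d) (6 + 6 * d) (-τ) := by
    rw [HiD, phD, phD, HR, e1, e2, e3, e4]
    ring
  have e8 : g0 (12 - 12 * d) (12 + 12 * d) b' = gR b' (6 - 6 * d) (24 * d) := by
    rw [g0, gR, e4, show 12 + 12 * d - (12 - 12 * d) = 24 * d by ring]
  have e9 : gR b (6 + 6 * d) 0 = 0 := by
    rw [gR, Phi_P0 (by linarith) (by linarith), sub_zero]
  have kB := hk.B
  have kC := hk.C
  simp only [e9, mul_zero, add_zero] at kB kC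
  refine ⟨?_, ?_, ?_, ?_, ?_, ?_⟩ <;> simp only [e1, e2, e3, e4, e5, e6, e7, e8]
  · linarith [hk.I]
  · linarith [hi.I]
  exacts [kB, kC, hi.B, hi.C]

theorem lin_eval (a b : ℤ) (θ m s d μ l : ℝ) (p : ℕ → ℤ) :
    (lin a b).eval (pt [θ, m, s, d, μ, l]) p = a + b * d := rfl

theorem Cell.tau_eval (c : Cell) (P : List ℤ) (θ m s d μ l : ℝ) (p : ℕ → ℤ) :
    (c.tau P).eval (pt [θ, m, s, d, μ, l]) p = (c.tau P).eval (pt [0, m, s, d, μ, 0]) fun _ => 0 := by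
  unfold Cell.tau
  cases c.top <;> rfl

theorem Cell.exists_mu (c : Cell) {d u : ℝ} (hm : c.mem d u) :
    ∃ μ : ℝ, (∀ θ m s l p, c.u.eval (pt [θ, m, s, d, μ, l]) p = u) ∧
      ∀ θ ∈ Icc (0 : ℝ) 1, ∀ m ∈ Icc (0 : ℝ) 1, ∀ s ∈ Icc (0 : ℝ) 1, ∀ l ∈ Icc (0 : ℝ) 1,
        c.box.mem (pt [θ, m, s, d, μ, l]) := by
  obtain ⟨m1, m2, m3, m4⟩ := hm
  unfold Cell.u Cell.box
  cases ht : c.top with
  | true =>
    refine ⟨u - (c.a1 + c.b1 * d), fun θ m s l p => ?_, fun θ hθ m hm s hs l hl => ?_⟩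
    · change (c.a1 : ℝ) + c.b1 * d + (u - (c.a1 + c.b1 * d)) = u
      ring
    · simp [hθ.1, hθ.2, hm.1, hm.2, hs.1, hs.2, hl.1, hl.2, m1, m2, m3]
  | false =>
    have m5 := m4 ht
    have : ∃ μ : ℝ, 0 ≤ μ ∧ μ ≤ 1 ∧
        μ * (c.a2 + c.b2 * d - (c.a1 + c.b1 * d)) = u - (c.a1 + c.b1 * d) := by
      rcases (sub_nonneg.2 (m3.trans m5)).eq_or_lt with h | h
      · exact ⟨0, le_rfl, zero_le_one, by linarith⟩
      · exact ⟨_ / _, div_nonneg (sub_nonneg.2 m3) h.le, div_le_one_of_le₀ (by linarith) h.le,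
          div_mul_cancel₀ _ h.ne'⟩
    obtain ⟨μ, a0, a1, e⟩ := this
    refine ⟨μ, fun θ m s l p => ?_, fun θ hθ m hm s hs l hl => ?_⟩
    · change (c.a1 : ℝ) + c.b1 * d +
        μ * (((c.a2 - c.a1 : ℤ) : ℝ) + ((c.b2 - c.b1 : ℤ) : ℝ) * d) = u
      push_cast
      linarith
    · simp [hθ.1, hθ.2, hm.1, hm.2, hs.1, hs.2, hl.1, hl.2, m1, m2, a0, a1]

theorem Cell.half (c : Cell) (hg : c.geo) {hf : Bool} (h : c.Cert hf) {d u b b' m s : ℝ}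
    (d0 : 0 ≤ d) (d1 : d ≤ 1) (hu : 6 + 6 * d ≤ u) (hm : c.mem d u) (hb : b ∈ Icc (0 : ℝ) 1)
    (hb' : b' ∈ Icc (0 : ℝ) 1) (m0 : m ∈ Icc (0 : ℝ) 1) (s0 : s ∈ Icc (0 : ℝ) 1)
    (e1 : ∀ θ μ l p, (bk hf).eval (pt [θ, m, s, d, μ, l]) p = b)
    (e2 : ∀ θ μ l p, (bi hf).eval (pt [θ, m, s, d, μ, l]) p = b') :
    ∃ τ, NAtD (u + (12 + 12 * d)) (12 - 12 * d) (12 + 12 * d) b b' τ := by
  obtain ⟨P, t0, t2, t3, t4, t5, r0, r2, r3, r4, r5, k1, k2⟩ := h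
  obtain ⟨j1, j2, hg⟩ := hg
  obtain ⟨g1, g2, g3, g4, g5⟩ := hg d u d0 d1 hu hm
  obtain ⟨μ, eu, hB⟩ := c.exists_mu hm
  obtain ⟨τ, hτ⟩ : ∃ τ, (c.tau P).eval (pt [0, m, s, d, μ, 0]) (fun _ => 0) = 100000 * τ :=
    ⟨_ / 100000, (mul_div_cancel₀ _ (by norm_num)).symm⟩
  have eup : ∀ θ l p, c.up.eval (pt [θ, m, s, d, μ, l]) p = u + 24 * d := fun θ l p => by
    rw [Cell.up, E.eval_add, eu]
    change u + ((24 : ℤ) : ℝ) * d = _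
    push_cast
    rfl
  have q1 : ∀ θ l p, (lin 6 6).eval (pt [θ, m, s, d, μ, l]) p = 6 + 6 * d := fun θ l p => by
    rw [lin_eval]; push_cast; rfl
  have q2 : ∀ θ l p, (lin 6 (-6)).eval (pt [θ, m, s, d, μ, l]) p = 6 - 6 * d := fun θ l p => by
    rw [lin_eval]; push_cast; ring
  refine ⟨τ, nAtD_of_sides d0 d1
    (Side.sound (h := c.far hf P) (m := m) (s := s) (d := d) (μ := μ)
      ⟨fun θ l p => e1 θ μ l p, fun θ l p => e2 θ μ l p, fun θ l p => eu θ m s l p, eup, q1, q2,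
        fun _ _ _ => Int.cast_zero, fun θ l p => (c.tau_eval P θ m s d μ l p).trans hτ⟩
      ⟨hb, hb', by linarith, by linarith, by linarith, by linarith, j1, g1, g2,
        show (0 : ℝ) ≤ 6 + 6 * d by linarith, g4⟩ (fun θ hθ l hl => hB θ hθ m m0 s s0 l hl) k1)
    (Side.sound (h := c.near hf P) (m := m) (s := s) (d := d) (μ := μ)
      ⟨fun θ l p => e2 θ μ l p, fun θ l p => e1 θ μ l p, eup, fun θ l p => eu θ m s l p, q2, q1,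
        fun θ l p => ?_, fun θ l p => ?_⟩
      ⟨hb', hb, by linarith, by linarith, by linarith, by linarith, j2, g2, g1, g3, g5⟩
      (fun θ hθ l hl => hB θ hθ m m0 s s0 l hl) k2)⟩
  · change ((24 : ℤ) : ℝ) * d = _
    push_cast
    rfl
  · change ((0 : ℤ) : ℝ) - (c.tau P).eval (pt [θ, m, s, d, μ, l]) p = _
    rw [c.tau_eval, hτ]
    push_cast
    ring

theorem exists_ratio {a b : ℝ} (h0 : 0 ≤ a) (h : a ≤ b) : ∃ s ∈ Icc (0 : ℝ) 1, b * s = a := by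
  rcases (h0.trans h).eq_or_lt with e | e
  · exact ⟨0, ⟨le_rfl, zero_le_one⟩, by linarith⟩
  · exact ⟨a / b, ⟨div_nonneg h0 e.le, div_le_one_of_le₀ h e.le⟩, mul_div_cancel₀ _ e.ne'⟩

/-- `τ = (c.tau p).eval / 100000` does not depend on the variables `0, 5` or the parameters;
`μ` is chosen with `c.u.eval = u`; `hf = false`: `b' ≤ b`, `m = b`, `m s = b'`. -/
theorem Cell.sound (c : Cell) (hg : c.geo) (h0 : c.Cert false) (h1 : c.Cert true) {d u : ℝ}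
    (d0 : 0 ≤ d) (d1 : d ≤ 1) (hu : 6 + 6 * d ≤ u) (hm : c.mem d u) : NR d u := by
  intro b b' b0 b1 b0' b1'
  rcases le_total b' b with h | h
  · obtain ⟨s, hs, e⟩ := exists_ratio b0' h
    exact c.half hg h0 d0 d1 hu hm ⟨b0, b1⟩ ⟨b0', b1'⟩ ⟨b0, b1⟩ hs (fun _ _ _ _ => rfl)
      fun _ _ _ _ => e
  · obtain ⟨s, hs, e⟩ := exists_ratio b0 h
    exact c.half hg h1 d0 d1 hu hm ⟨b0, b1⟩ ⟨b0', b1'⟩ ⟨b0', b1'⟩ hs (fun _ _ _ _ => e)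
      fun _ _ _ _ => rfl

/-- `d = (y - y') / (y + y')`, `D = 24 / (y + y')`, `u = D (1 - y)`, `NAtD.nAt`. -/
theorem hypN_of_NR (h : ∀ d u : ℝ, 0 ≤ d → d ≤ 1 → 6 + 6 * d ≤ u → NR d u) : HypN := by
  intro y' y b b' y0 y1 y2 y3 b0 b1 b0' b1'
  have hρ : 0 < y + y' := by linarith
  obtain ⟨D, hD, eD⟩ : ∃ D : ℝ, 0 < D ∧ D * (y + y') = 24 :=
    ⟨24 / (y + y'), by positivity, div_mul_cancel₀ _ hρ.ne'⟩
  have a0 : 0 ≤ D * y' := by positivity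
  have a1 : D * y' ≤ D * y := mul_le_mul_of_nonneg_left y1 hD.le
  have a2 : D * y ≤ D * (2 / 3) := mul_le_mul_of_nonneg_left y3 hD.le
  obtain ⟨τ, hτ⟩ := h ((D * y - D * y') / 24) (D - D * y) (by linarith) (by linarith) (by linarith)
    b b' b0 b1 b0' b1'
  rw [show 12 + 12 * ((D * y - D * y') / 24) = D * y by linarith,
    show 12 - 12 * ((D * y - D * y') / 24) = D * y' by linarith, sub_add_cancel] at hτ
  exact ⟨_, hτ.nAt hD⟩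

end Crest.Agent.R310.H17
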