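import Crest.Agent.R310.H17Defs

/-! # Row 310: the cells (generated by tools/h17/wr.py) -/

set_option autoImplicit false
set_option maxRecDepth 100000
set_option Elab.async false

open Crest.Agent.Lib.PolyBB

namespace Crest.Agent.R310.H17

def c0 : Cell := ⟨false, 6, 6, 12, (-36), 0, 1, 7, 1, 1, 0, 4, 4, 4, 4, 4, 4, 4, 4, 4, 4⟩
def c1 : Cell := ⟨false, 12, (-36), 12, 12, 0, 1, 7, 1, 2, 0, 4, 4, 4, 4, 4, 4, 4, 4, 4, 4⟩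
def c2 : Cell := ⟨false, 12, 12, 24, (-48), 0, 1, 5, 2, 2, 0, 4, 4, 4, 4, 4, 4, 4, 4, 4, 4⟩
def c3 : Cell := ⟨false, 24, (-48), 24, (-24), 0, 1, 5, 2, 3, 0, 4, 4, 4, 4, 4, 4, 4, 4, 4, 4⟩
def c4 : Cell := ⟨false, 24, (-24), 24, 0, 0, 1, 9, 2, 3, 0, 4, 4, 4, 4, 4, 4, 0, 4, 4, 4⟩
def c5 : Cell := ⟨false, 24, 0, 24, 24, 0, 1, 13, 2, 3, 0, 0, 4, 4, 4, 4, 4, 0, 4, 4, 4⟩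
def c6 : Cell := ⟨false, 24, 24, 30, (-54), 0, 1, 13, 3, 3, 0, 0, 2, 2, 4, 4, 4, 0, 4, 4, 4⟩
def c7 : Cell := ⟨false, 30, (-54), 30, 30, 0, 1, 13, 3, 4, 0, 0, 2, 2, 4, 4, 4, 0, 3, 3, 4⟩
def c8 : Cell := ⟨false, 30, 30, 40, 0, 0, 1, 5, 4, 4, 0, 0, 2, 2, 3, 3, 4, 0, 3, 3, 4⟩
def c9 : Cell := ⟨true, 40, 0, 0, 0, 0, 1, 5, 4, 4, 0, 0, 2, 2, 3, 3, 1, 0, 3, 3, 1⟩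
def c10 : Cell := ⟨false, 24, 0, 30, (-54), 9, 13, 117, 2, 3, 0, 0, 4, 4, 4, 4, 4, 0, 4, 4, 4⟩
def c11 : Cell := ⟨false, 30, (-54), 24, 24, 9, 13, 117, 2, 4, 0, 0, 4, 4, 4, 4, 4, 0, 3, 3, 4⟩
def c12 : Cell := ⟨false, 24, 24, 30, 30, 5, 13, 65, 3, 4, 0, 0, 2, 2, 4, 4, 4, 0, 3, 3, 4⟩
def c13 : Cell := ⟨false, 24, (-24), 30, (-54), 5, 9, 45, 2, 3, 0, 4, 4, 4, 4, 4, 4, 0, 4, 4, 4⟩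
def c14 : Cell := ⟨false, 30, (-54), 24, 0, 5, 9, 45, 2, 4, 0, 4, 4, 4, 4, 4, 4, 0, 3, 3, 4⟩
def c15 : Cell := ⟨false, 24, 0, 24, 24, 5, 9, 45, 2, 4, 0, 0, 4, 4, 4, 4, 4, 0, 3, 3, 4⟩
def c16 : Cell := ⟨false, 6, 6, 12, 12, 5, 7, 35, 1, 2, 0, 4, 4, 4, 4, 4, 4, 4, 4, 4, 4⟩
def c17 : Cell := ⟨false, 6, 6, 24, (-48), 3, 5, 15, 1, 2, 1, 4, 4, 4, 4, 4, 4, 4, 4, 4, 4⟩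
def c18 : Cell := ⟨false, 24, (-48), 12, 12, 11, 15, 55, 1, 3, 1, 4, 4, 4, 4, 4, 4, 4, 4, 4, 4⟩
def c19 : Cell := ⟨false, 12, 12, 30, (-54), 11, 15, 55, 2, 3, 1, 4, 4, 4, 4, 4, 4, 4, 4, 4, 4⟩
def c20 : Cell := ⟨false, 30, (-54), 24, (-24), 11, 15, 55, 2, 4, 1, 4, 4, 4, 4, 4, 4, 4, 4, 4, 4⟩
def c21 : Cell := ⟨false, 24, (-24), 24, 0, 3, 5, 15, 2, 4, 1, 4, 4, 4, 4, 4, 4, 4, 4, 0, 4⟩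
def c22 : Cell := ⟨false, 24, 0, 24, 24, 3, 5, 15, 2, 4, 1, 0, 4, 4, 4, 4, 4, 4, 4, 0, 4⟩
def c23 : Cell := ⟨false, 24, 24, 30, 30, 3, 5, 15, 3, 4, 1, 0, 2, 2, 4, 4, 4, 4, 4, 0, 4⟩
def c24 : Cell := ⟨false, 30, 30, 40, 0, 3, 5, 15, 4, 4, 1, 0, 2, 2, 3, 3, 4, 4, 4, 0, 1⟩
def c25 : Cell := ⟨true, 40, 0, 0, 0, 3, 5, 15, 4, 4, 1, 0, 2, 2, 3, 3, 1, 4, 4, 0, 1⟩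
def c26 : Cell := ⟨false, 24, (-48), 30, (-54), 9, 11, 33, 1, 3, 1, 4, 4, 4, 4, 4, 4, 4, 4, 4, 4⟩
def c27 : Cell := ⟨false, 30, (-54), 12, 12, 9, 11, 33, 1, 4, 1, 4, 4, 4, 4, 4, 4, 4, 4, 4, 4⟩
def c28 : Cell := ⟨false, 12, 12, 24, (-24), 9, 11, 33, 2, 4, 1, 4, 4, 4, 4, 4, 4, 4, 4, 4, 4⟩
def c29 : Cell := ⟨false, 6, 6, 30, (-54), 5, 6, 15, 1, 3, 2, 4, 4, 4, 4, 4, 4, 4, 4, 4, 4⟩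
def c30 : Cell := ⟨false, 30, (-54), 24, (-24), 5, 6, 15, 1, 4, 2, 4, 4, 4, 4, 4, 4, 4, 4, 4, 4⟩
def c31 : Cell := ⟨false, 24, (-24), 12, 12, 2, 3, 6, 1, 4, 2, 4, 4, 4, 4, 4, 4, 4, 4, 0, 4⟩
def c32 : Cell := ⟨false, 12, 12, 24, 0, 2, 3, 6, 2, 4, 2, 4, 4, 4, 4, 4, 4, 4, 4, 0, 4⟩
def c33 : Cell := ⟨false, 24, 0, 24, 24, 2, 3, 6, 2, 4, 2, 0, 4, 4, 4, 4, 4, 4, 4, 0, 4⟩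
def c34 : Cell := ⟨false, 24, 24, 40, 0, 2, 3, 6, 3, 4, 2, 0, 2, 2, 4, 4, 4, 4, 4, 0, 1⟩
def c35 : Cell := ⟨false, 40, 0, 30, 30, 2, 3, 6, 3, 4, 2, 0, 2, 2, 1, 4, 4, 4, 4, 0, 1⟩
def c36 : Cell := ⟨true, 30, 30, 0, 0, 2, 3, 6, 4, 4, 2, 0, 2, 2, 1, 4, 4, 4, 4, 0, 1⟩
def c37 : Cell := ⟨false, 6, 6, 24, (-24), 4, 5, 10, 1, 4, 2, 4, 4, 4, 4, 4, 4, 4, 4, 4, 4⟩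
def c38 : Cell := ⟨false, 6, 6, 24, (-24), 9, 10, 18, 1, 4, 3, 4, 4, 4, 4, 4, 4, 4, 4, 4, 4⟩
def c39 : Cell := ⟨false, 24, (-24), 12, 12, 9, 10, 18, 1, 4, 3, 4, 4, 4, 4, 4, 4, 4, 4, 0, 4⟩
def c40 : Cell := ⟨false, 12, 12, 24, 0, 9, 10, 18, 2, 4, 3, 4, 4, 4, 4, 4, 4, 4, 4, 0, 4⟩
def c41 : Cell := ⟨false, 24, 0, 24, 24, 9, 10, 18, 2, 4, 3, 0, 4, 4, 4, 4, 4, 4, 4, 0, 4⟩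
def c42 : Cell := ⟨false, 24, 24, 40, 0, 9, 10, 18, 3, 4, 3, 0, 2, 2, 4, 4, 4, 4, 4, 0, 1⟩
def c43 : Cell := ⟨false, 40, 0, 30, 30, 9, 10, 18, 3, 4, 3, 0, 2, 2, 1, 4, 4, 4, 4, 0, 1⟩
def c44 : Cell := ⟨true, 30, 30, 0, 0, 9, 10, 18, 4, 4, 3, 0, 2, 2, 1, 4, 4, 4, 4, 0, 1⟩
def c45 : Cell := ⟨false, 6, 6, 24, (-24), 25, 27, 45, 1, 4, 4, 4, 4, 4, 4, 4, 4, 4, 4, 4, 4⟩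
def c46 : Cell := ⟨false, 24, (-24), 12, 12, 25, 27, 45, 1, 4, 4, 4, 4, 4, 4, 4, 4, 4, 4, 0, 4⟩
def c47 : Cell := ⟨false, 12, 12, 24, 0, 5, 9, 9, 2, 4, 4, 4, 4, 4, 4, 4, 4, 4, 4, 0, 4⟩
def c48 : Cell := ⟨false, 24, 0, 24, 24, 5, 6, 9, 2, 4, 4, 0, 4, 4, 4, 4, 4, 4, 4, 0, 4⟩
def c49 : Cell := ⟨false, 24, 24, 40, 0, 5, 6, 9, 3, 4, 4, 0, 2, 2, 4, 4, 4, 4, 4, 0, 1⟩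
def c50 : Cell := ⟨false, 40, 0, 30, 30, 5, 6, 9, 3, 4, 4, 0, 2, 2, 1, 4, 4, 4, 4, 0, 1⟩
def c51 : Cell := ⟨true, 30, 30, 0, 0, 5, 6, 9, 4, 4, 4, 0, 2, 2, 1, 4, 4, 4, 4, 0, 1⟩
def c52 : Cell := ⟨false, 6, 6, 12, 12, 3, 5, 5, 1, 4, 4, 4, 4, 4, 4, 4, 4, 4, 4, 0, 4⟩
def c53 : Cell := ⟨false, 24, 0, 30, 0, 2, 3, 3, 2, 4, 4, 0, 4, 4, 4, 4, 4, 4, 4, 0, 1⟩
def c54 : Cell := ⟨false, 30, 0, 40, 0, 2, 3, 3, 2, 4, 4, 0, 4, 4, 4, 4, 4, 4, 4, 0, 1⟩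
def c55 : Cell := ⟨false, 40, 0, 24, 24, 2, 3, 3, 2, 4, 4, 0, 1, 4, 4, 4, 4, 4, 4, 0, 1⟩
def c56 : Cell := ⟨false, 24, 24, 30, 30, 2, 3, 3, 3, 4, 4, 0, 1, 4, 4, 4, 4, 4, 4, 0, 1⟩
def c57 : Cell := ⟨true, 30, 30, 0, 0, 2, 3, 3, 4, 4, 4, 0, 1, 4, 4, 4, 4, 4, 4, 0, 1⟩

end Crest.Agent.R310.H17
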