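import Crest.Agent.Lib.PolyBB.Core

/-!
# Row 310: polynomial families for the certificate of `HypN` (helper17)

Units: `ρ = y + y' = 24`, functions of `b` are scaled by `M = 100000`.
Variables: `0` band of the exponential, `1` the larger of `b, b'`, `2` their ratio, `3` the
difference `d` (`y = 12 + 12 d`, `y' = 12 - 12 d`), `4` position of `u` in the cell, `5` inner.
-/

set_option autoImplicit false

open Crest.Agent.Lib.PolyBB

namespace Crest.Agent.R310.H17

noncomputable section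

/-- `M sm b` -/
def smE (b : E) : E :=
  (.add (.cst 100000) (.mul b (.add (.cst (-156400)) (.mul b (.add (.cst 95200) (.mul b (.add (.cst (-50000)) (.mul b (.cst 11200)))))))))

/-- `M sp b` -/
def spE (b : E) : E :=
  (.add (.cst 100000) (.mul b (.add (.cst (-93400)) (.mul b (.add (.cst (-113100)) (.mul b (.add (.cst 224900) (.mul b (.add (.cst (-169400)) (.mul b (.cst 51000)))))))))))

/-- `M (sm b - b smd b)` -/
def n2E (b : E) : E :=
  (.add (.cst 100000) (.mul b (.add (.cst 0) (.mul b (.add (.cst (-95200)) (.mul b (.add (.cst 100000) (.mul b (.cst (-33600))))))))))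

/-- `M (sp b - b spd b)` -/
def n3E (b : E) : E :=
  (.add (.cst 100000) (.mul b (.add (.cst 0) (.mul b (.add (.cst 113100) (.mul b (.add (.cst (-449800)) (.mul b (.add (.cst 508200) (.mul b (.cst (-204000))))))))))))

/-- `M (1 - b)` -/
def omE (b : E) : E :=
  (.add (.cst 100000) (.mul b (.cst (-100000))))

/-- `M exp (-b)` for a suitable `th ∈ [0, 1]`; a lower bound for `th = 0` -/
def EE (b th : E) : E :=
  .add (.add (.cst 100000) (.mul b (.add (.cst (-100000)) (.mul b (.add (.cst 49958) (.mul b (.add (.cst (-16295)) (.mul b (.cst 3121))))))))) (.mul (.mul (.cst 43) th) (.pow b 2))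

/-- `Q'' ≤ M exp (-x)` on `[0, 1]` -/
def QE (x : E) : E :=
  (.add (.cst 0) (.mul x (.add (.cst 0) (.mul x (.add (.cst 49965) (.mul x (.add (.cst (-16548)) (.mul x (.add (.cst 3860) (.mul x (.cst (-512))))))))))))

/-- the derivative of `QE` -/
def QdE (x : E) : E :=
  (.add (.cst 0) (.mul x (.add (.cst 99930) (.mul x (.add (.cst (-49644)) (.mul x (.add (.cst 15440) (.mul x (.cst (-2560))))))))))

/-- lower bound of `M exp (-bo)` when `e = M exp (-b)` -/
def EoE (b e bo : E) : E :=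
  .add (.add e (.sub (QE bo) (QE b))) (.mul (.sub b bo) (.add e (QdE b)))

/-- `M Φ (b; u, 4 q)` on piece `j` -/
def PhiP (j : Nat) (e b u q : E) : E :=
  match j with
  | 0 => .mul (.cst 100000) u
  | 1 => .add (.mul (.cst 100000) q) (.mul (.sub u q)
      (.sub (.sub (.mul (.cst 4) e) (.mul (.cst 2) (smE b))) (.cst 100000)))
  | 2 => .add (.mul (.mul (.cst 4) q) e) (.mul (.sub u (.mul (.cst 4) q)) (smE b))
  | 3 => .add (.mul (.mul (.cst 4) q) e) (.mul (.sub u (.mul (.cst 4) q)) (spE b))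
  | _ => .add (.mul q (.add (.mul (.cst 4) e) (spE b))) (.mul (.sub u (.mul (.cst 5) q)) (omE b))

/-- `M N (b; c, 4 q)` on piece `j ≥ 2` -/
def NP (j : Nat) (e b c q : E) : E :=
  match j with
  | 2 => .add (.mul (.mul (.cst 4) q) (.mul e (.add (.cst 1) b)))
      (.mul (.sub c (.mul (.cst 4) q)) (n2E b))
  | 3 => .add (.mul (.mul (.cst 4) q) (.mul e (.add (.cst 1) b)))
      (.mul (.sub c (.mul (.cst 4) q)) (n3E b))
  | _ => .add (.mul q (.add (.mul (.cst 4) (.mul e (.add (.cst 1) b))) (n3E b)))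
      (.mul (.sub c (.mul (.cst 5) q)) (.cst 100000))

/-- `M (sm (b (1 - w)) - sm b) / w` -/
def DmE (b w : E) : E :=
  (.add (.add (.cst 0) (.mul b (.add (.cst 156400) (.mul b (.add (.cst (-190400)) (.mul b (.add (.cst 150000) (.mul b (.cst (-44800)))))))))) (.mul w (.add (.add (.cst 0) (.mul b (.add (.cst 0) (.mul b (.add (.cst 95200) (.mul b (.add (.cst (-150000)) (.mul b (.cst 67200))))))))) (.mul w (.add (.add (.cst 0) (.mul b (.add (.cst 0) (.mul b (.add (.cst 0) (.mul b (.add (.cst 50000) (.mul b (.cst (-44800)))))))))) (.mul w (.add (.cst 0) (.mul b (.add (.cst 0) (.mul b (.add (.cst 0) (.mul b (.add (.cst 0) (.mul b (.cst 11200)))))))))))))))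

/-- `M (sp (b (1 - w)) - sp b) / w` -/
def DpE (b w : E) : E :=
  (.add (.add (.cst 0) (.mul b (.add (.cst 93400) (.mul b (.add (.cst 226200) (.mul b (.add (.cst (-674700)) (.mul b (.add (.cst 677600) (.mul b (.cst (-255000)))))))))))) (.mul w (.add (.add (.cst 0) (.mul b (.add (.cst 0) (.mul b (.add (.cst (-113100)) (.mul b (.add (.cst 674700) (.mul b (.add (.cst (-1016400)) (.mul b (.cst 510000))))))))))) (.mul w (.add (.add (.cst 0) (.mul b (.add (.cst 0) (.mul b (.add (.cst 0) (.mul b (.add (.cst (-224900)) (.mul b (.add (.cst 677600) (.mul b (.cst (-510000)))))))))))) (.mul w (.add (.add (.cst 0) (.mul b (.add (.cst 0) (.mul b (.add (.cst 0) (.mul b (.add (.cst 0) (.mul b (.add (.cst (-169400)) (.mul b (.cst 255000))))))))))) (.mul w (.add (.cst 0) (.mul b (.add (.cst 0) (.mul b (.add (.cst 0) (.mul b (.add (.cst 0) (.mul b (.add (.cst 0) (.mul b (.cst (-51000))))))))))))))))))))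

/-- upper bound of `M (exp (-b (1 - w)) - exp (-b)) / w` -/
def DEE (b e w : E) : E :=
  (.add (.mul b e) (.mul w (.add (.add (.cst 0) (.mul b (.add (.cst 0) (.mul b (.add (.cst 50001) (.mul b (.add (.cst (-49610)) (.mul b (.add (.cst 23050) (.mul b (.cst (-5026)))))))))))) (.mul w (.add (.add (.cst 0) (.mul b (.add (.cst 0) (.mul b (.add (.cst 0) (.mul b (.add (.cst 16668) (.mul b (.add (.cst (-15562)) (.mul b (.cst 5138))))))))))) (.mul w (.add (.cst 0) (.mul b (.add (.cst 0) (.mul b (.add (.cst 0) (.mul b (.add (.cst 0) (.mul b (.add (.cst 4168) (.mul b (.cst (-2245))))))))))))))))))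

/-- upper bound of `M S (b; u, 4 q; w)` on piece `j ≥ 1` -/
def SP (j : Nat) (e b u q w : E) : E :=
  match j with
  | 1 => .mul (.sub u q) (.sub (.mul (.cst 4) (DEE b e w)) (.mul (.cst 2) (DmE b w)))
  | 2 => .add (.mul (.mul (.cst 4) q) (DEE b e w)) (.mul (.sub u (.mul (.cst 4) q)) (DmE b w))
  | 3 => .add (.mul (.mul (.cst 4) q) (DEE b e w)) (.mul (.sub u (.mul (.cst 4) q)) (DpE b w))
  | _ => .add (.mul q (.add (.mul (.cst 4) (DEE b e w)) (DpE b w)))
      (.mul (.sub u (.mul (.cst 5) q)) (.mul (.cst 100000) b))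

/-- One side: own and other `b`, `u`, `q = t / 4`, the scaled `± τ`, the distance `dl` of the gain,
the pieces of `u`, `uo`, `dl` and the codes of the ranges of `c` in the pieces `2, 3, 4`. -/
structure Side where
  b : E
  bo : E
  u : E
  uo : E
  q : E
  qo : E
  t : E
  dl : E
  j : Nat
  jo : Nat
  jg : Nat
  l2 : Nat
  h2 : Nat
  l3 : Nat
  h3 : Nat
  l4 : Nat
  h4 : Nat

/-- ends of the ranges of `c` -/
def Side.rv (h : Side) (k : Nat) : E :=
  match k with
  | 0 => .cst 24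
  | 1 => .cst 40
  | 2 => .mul (.cst 4) h.q
  | 3 => .mul (.cst 5) h.q
  | _ => h.u

def Side.e (h : Side) : E := EE h.b (.var 0)

/-- lower bound of `M (± τ + σ)` -/
def Side.ts (h : Side) (cp : Bool) : E :=
  .add h.t (.sub (PhiP h.jo (cond cp (EoE h.b h.e h.bo) (EE h.bo (.cst 0))) h.bo h.uo h.qo)
    (.mul h.uo (omE h.bo)))

def Side.ph (h : Side) : E := PhiP h.j h.e h.b h.u h.q

def Side.g (h : Side) : E := .sub (.mul (.cst 100000) h.dl) (PhiP h.jg h.e h.b h.dl h.q)

def Side.c (h : Side) (lo hi : Nat) : E := .add (h.rv lo) (.mul (.var 5) (.sub (h.rv hi) (h.rv lo)))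

def Side.mainC (h : Side) (j : Nat) (c : E) (cp : Bool) : E :=
  .add (.sub (.mul (.mul (.cst 2) c) (.add (h.ts cp) (.mul h.u (omE h.bo))))
      (.mul (NP j h.e h.b c h.q)
        (.sub (.mul (.cst 2) c) (.mul (.mul (.cst 5) h.bo) (.sub c (.cst 24))))))
    (.mul (.mul h.bo (.sub (.cst 120) (.mul (.cst 3) c))) (.add h.ph h.g))

/-- `2 u Kl` -/
def Side.Kn (h : Side) : E := .add (.sub (.mul (.cst 5) h.u) (.cst 120)) (.mul (.cst 48) (.var 5))

def Side.mainB (h : Side) (cp : Bool) : E :=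
  .sub (.add (.mul (.mul (.cst 256) h.u) (.add (h.ts cp)
        (.mul (.sub (.cst 1) h.bo) (.sub (.mul (.cst 100000) h.u) h.ph))))
      (.mul (.mul h.bo (.sub (.mul (.cst 256) h.u) (.mul (.par 0) h.Kn))) h.g))
    (.mul (SP h.j h.e h.b h.u h.q (.var 5))
      (.sub (.mul (.cst 256) h.u) (.mul h.bo (.mul (.par 0) h.Kn))))

def nuE : E := .mul (.par 0) (.sub (.cst 128) (.par 0))

def Side.famI (h : Side) : Nat → List E := fun _ => [h.ts false]

def Side.famC (h : Side) (j lo hi : Nat) : Nat → List E := fun k =>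
  match k with
  | 0 => [h.mainC j (h.c lo hi) true]
  | 1 => [h.mainC j (h.c lo hi) false]
  | 2 => [.sub (h.c lo hi) h.u]
  | _ => [.sub (h.c lo hi) (.cst 40)]

def Side.famB (h : Side) : Nat → List E := fun k =>
  match k with
  | 0 => [h.mainB true, nuE]
  | 1 => [h.mainB false, nuE]
  | _ => [.sub h.Kn (.mul (.cst 2) h.u)]

/-- The five certificates of one side. -/
def Side.ok (h : Side) (B : Box) (t0 t2 t3 t4 t5 : T) : Bool :=
  band (run h.famI t0 B []) (band (run (h.famC 2 h.l2 h.h2) t2 B [])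
    (band (run (h.famC 3 h.l3 h.h3) t3 B []) (band (run (h.famC 4 h.l4 h.h4) t4 B [])
      (run h.famB t5 B []))))

/-- A cell `n0 / den ≤ d ≤ n1 / den`, `a1 + b1 d ≤ u ≤ a2 + b2 d` (no upper bound if `top`). -/
structure Cell where
  top : Bool
  a1 : Int
  b1 : Int
  a2 : Int
  b2 : Int
  n0 : Int
  n1 : Int
  den : Nat
  jk : Nat
  ji : Nat
  jg : Nat
  kl2 : Nat
  kh2 : Nat
  kl3 : Nat
  kh3 : Nat
  kl4 : Nat
  kh4 : Nat
  il3 : Nat
  ih3 : Nat
  il4 : Nat
  ih4 : Nat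

def lin (a b : Int) : E := .add (.cst a) (.mul (.cst b) (.var 3))

def Cell.u (c : Cell) : E :=
  cond c.top (.add (lin c.a1 c.b1) (.var 4))
    (.add (lin c.a1 c.b1) (.mul (.var 4) (lin (Int.sub c.a2 c.a1) (Int.sub c.b2 c.b1))))

def Cell.up (c : Cell) : E := .add c.u (.mul (.cst 24) (.var 3))

def Cell.box (c : Cell) : Box :=
  [⟨1, 0, 1, 1⟩, ⟨1, 0, 1, 1⟩, ⟨1, 0, 1, 1⟩, ⟨c.den, c.n0, c.den, c.n1⟩,
    cond c.top ⟨1, 0, 0, 1⟩ ⟨1, 0, 1, 1⟩, ⟨1, 0, 1, 1⟩]

def m1 : E := .sub (.cst 1) (.var 1)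
def s1 : E := .sub (.cst 1) (.var 2)

def tauS (p : List Int) (n : Nat) : E :=
  .add (.add (.add (.mul (.cst (nth 0 p n)) (.pow s1 3))
    (.mul (.cst (nth 0 p (Nat.add n 1))) (.mul (.var 2) (.pow s1 2))))
    (.mul (.cst (nth 0 p (Nat.add n 2))) (.mul (.pow (.var 2) 2) s1)))
    (.mul (.cst (nth 0 p (Nat.add n 3))) (.pow (.var 2) 3))

def tauM (p : List Int) (n : Nat) : E :=
  .add (.add (.add (.mul (.mul (.var 1) (.pow m1 3)) (tauS p n))
    (.mul (.mul (.pow (.var 1) 2) (.pow m1 2)) (tauS p (Nat.add n 4))))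
    (.mul (.mul (.pow (.var 1) 3) m1) (tauS p (Nat.add n 8))))
    (.mul (.pow (.var 1) 4) (tauS p (Nat.add n 12)))

def Cell.tauD (c : Cell) (p : List Int) (n : Nat) : E :=
  .add (.mul (lin c.n1 (Int.neg (Int.ofNat c.den))) (tauM p n))
    (.mul (lin (Int.neg c.n0) (Int.ofNat c.den)) (tauM p (Nat.add n 16)))

/-- `M τ` -/
def Cell.tau (c : Cell) (p : List Int) : E :=
  cond c.top (c.tauD p 0)
    (.add (.mul (.sub (.cst 1) (.var 4)) (c.tauD p 0)) (.mul (.var 4) (c.tauD p 32)))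

/-- `b` of the far facility: the larger one if `hf = false` -/
def bk (hf : Bool) : E := cond hf (.mul (.var 1) (.var 2)) (.var 1)

/-- `b` of the near facility -/
def bi (hf : Bool) : E := cond hf (.var 1) (.mul (.var 1) (.var 2))

def Cell.far (c : Cell) (hf : Bool) (p : List Int) : Side :=
  ⟨bk hf, bi hf, c.u, c.up, lin 6 6, lin 6 (-6), c.tau p, .cst 0, c.jk, c.ji, 0,
    c.kl2, c.kh2, c.kl3, c.kh3, c.kl4, c.kh4⟩

def Cell.near (c : Cell) (hf : Bool) (p : List Int) : Side :=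
  ⟨bi hf, bk hf, c.up, c.u, lin 6 (-6), lin 6 6, .sub (.cst 0) (c.tau p), .mul (.cst 24) (.var 3),
    c.ji, c.jk, c.jg, 4, 4, c.il3, c.ih3, c.il4, c.ih4⟩

end

end Crest.Agent.R310.H17
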