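import Crest.Agent.Lib.PolyBB.Core

set_option autoImplicit false
set_option maxRecDepth 100000
set_option Elab.async false

open Crest.Agent.Lib.PolyBB

namespace Crest.Agent.R310.H17Ev

noncomputable def t0 : E := .mul (.var 0) (.add (.mul (.var 0) (.add (.mul (.cst (-1250)) (.var 0)) (.cst 8750))) (.cst (-52500)))
noncomputable def e0 : E := .mul (.var 0) (.mul (.var 0) (.add (.mul (.var 0) (.add (.mul (.var 0) (.add t0 (.cst 65877))) (.cst (-23415)))) (.cst 2646)))
noncomputable def t1 : E := .mul (.var 0) (.add (.mul (.var 0) (.add (.mul (.var 0) (.add (.mul (.cst (-625)) (.var 0)) (.cst 5000))) (.cst (-35000)))) (.cst 210000))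
noncomputable def e1 : E := .mul (.var 0) (.mul (.var 0) (.add (.mul (.var 0) (.add (.mul (.var 0) (.add t1 (.cst (-263508)))) (.cst 93660))) (.cst 252)))
noncomputable def e2 : E := .add (.mul (.var 0) (.add (.mul (.var 0) (.add (.mul (.var 0) (.add (.mul (.var 0) (.add t0 (.cst 262500))) (.cst (-404880)))) (.cst 231840))) (.cst (-44856)))) (.cst 4410)
noncomputable def t2 : E := .mul (.var 0) (.add t1 (.cst (-1050000)))
noncomputable def e3 : E := .add (.mul (.var 0) (.add (.mul (.var 0) (.add (.mul (.var 0) (.add t2 (.cst 1666896))) (.cst (-982800)))) (.cst 196560))) (.cst 504)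
noncomputable def e4 : E := .add (.mul (.var 0) (.add (.mul (.var 0) (.add (.mul (.var 0) (.add t2 (.cst 4200000))) (.cst (-4831344)))) (.cst 1670256))) (.cst 2016)
noncomputable def e5 : E := .add (.mul (.var 0) (.add (.mul (.var 0) (.add (.mul (.var 0) (.add (.mul (.var 0) (.add (.cst (-42000)) (.mul (.var 0) (.add (.mul (.var 0) (.add (.mul (.var 0) (.add (.mul (.var 0) (.add (.mul (.cst (-150)) (.var 0)) (.cst 575))) (.cst (-3400)))) (.cst 15400))) (.cst (-42000)))))) (.cst 1176000))) (.cst (-6552000)))) (.cst 5574240))) (.cst 8064)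

noncomputable def es : Nat → List E := fun _ => [e0, e1, e2, e3, e4, e5]

/- unfold with
simp only [t0, e0, t1, e1, e2, t2, e3, e4, e5,
  E.eval_var, E.eval_par, E.eval_cst, E.eval_add, E.eval_sub, E.eval_mul, E.eval_pow]
-/

end Crest.Agent.R310.H17Ev
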