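import Crest.Agent.Lib.PolyBB.Core
import Crest.Agent.R310.H17EvDefs

set_option autoImplicit false
set_option maxRecDepth 100000
set_option Elab.async false

open Crest.Agent.Lib.PolyBB

namespace Crest.Agent.R310.H17Ev.H17EvCertCert

theorem c0 : run es (dec 3 (nat_lit 0xc0000100000b040000000000100000400002c10000010000020001881))
  [⟨1, 0, 1, 1⟩] [] = true := by
  decide +kernel

end Crest.Agent.R310.H17Ev.H17EvCertCert
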