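import Crest.Agent.Lib.PolyBB.Basic
import Crest.Agent.R310.H17EvCertC0

set_option autoImplicit false
set_option maxRecDepth 100000
set_option Elab.async false

open Crest.Agent.Lib.PolyBB

namespace Crest.Agent.R310.H17Ev.H17EvCertCert

theorem g0 : Holds es [] [⟨1, 0, 1, 1⟩] :=
  Holds.of_run c0

end Crest.Agent.R310.H17Ev.H17EvCertCert

theorem Crest.Agent.R310.H17Ev.holds : Holds es [] [⟨1, 0, 1, 1⟩] :=
  Crest.Agent.R310.H17Ev.H17EvCertCert.g0
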