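import Crest.Agent.R310.DesN

/-! # Row 310: bounds for `exp` and the homogeneous form of `NAt` (for the pipeline of helper17) -/

set_option autoImplicit false

open Set

namespace Crest.Agent.R310.H17

open Des

noncomputable section

/-- Taylor polynomial of degree 7 of `exp (-b)` -/
def T7 (b : ℝ) : ℝ :=
  1 - b + b ^ 2 / 2 - b ^ 3 / 6 + b ^ 4 / 24 - b ^ 5 / 120 + b ^ 6 / 720 - b ^ 7 / 5040

theorem T7_le {b : ℝ} (h0 : 0 ≤ b) (h1 : b ≤ 1) : T7 b ≤ Real.exp (-b) := by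
  have h := Real.exp_bound (x := -b) (by rwa [abs_neg, abs_of_nonneg h0]) (n := 9) (by norm_num)
  rw [abs_neg, abs_of_nonneg h0] at h
  have h2 := (abs_le.1 h).1
  simp only [Finset.sum_range_succ, Finset.sum_range_zero, Nat.factorial] at h2
  push_cast at h2
  have h3 : b ^ 9 ≤ b ^ 8 := pow_le_pow_of_le_one h0 h1 (by norm_num)
  have h4 : 0 ≤ b ^ 8 := by positivity
  unfold T7
  linarith

theorem le_T8 {b : ℝ} (h0 : 0 ≤ b) (h1 : b ≤ 1) : Real.exp (-b) ≤ T7 b + b ^ 8 / 40320 := by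
  have h := Real.exp_bound (x := -b) (by rwa [abs_neg, abs_of_nonneg h0]) (n := 10) (by norm_num)
  rw [abs_neg, abs_of_nonneg h0] at h
  have h2 := (abs_le.1 h).2
  simp only [Finset.sum_range_succ, Finset.sum_range_zero, Nat.factorial] at h2
  push_cast at h2
  have h3 : b ^ 10 ≤ b ^ 9 := pow_le_pow_of_le_one h0 h1 (by norm_num)
  have h4 : 0 ≤ b ^ 9 := by positivity
  unfold T7
  linarith

/-- (a) the band: `exp (-b) = lo + e * (hi - lo)` with `e ∈ [0,1]` -/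
theorem band {b lo wd : ℝ} (h0 : 0 ≤ b) (h1 : b ≤ 1) (hl : lo ≤ T7 b)
    (hh : T7 b + b ^ 8 / 40320 ≤ lo + wd) :
    lo ≤ Real.exp (-b) ∧ ∃ e, 0 ≤ e ∧ e ≤ 1 ∧ Real.exp (-b) = lo + e * wd := by
  have a1 := hl.trans (T7_le h0 h1)
  have a2 := (le_T8 h0 h1).trans hh
  refine ⟨a1, ?_⟩
  rcases (show 0 ≤ wd by linarith).eq_or_lt with h | h
  · exact ⟨0, le_rfl, zero_le_one, by linarith⟩
  · exact ⟨(Real.exp (-b) - lo) / wd, div_nonneg (by linarith) h.le,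
      div_le_one_of_le₀ (by linarith) h.le, by rw [div_mul_cancel₀ _ h.ne']; ring⟩

/-- (b) convexity of `exp (-x) - Q x` -/
theorem tangent {Q Q1 Q2 : ℝ → ℝ} (h1 : ∀ x, HasDerivAt Q (Q1 x) x)
    (h2 : ∀ x, HasDerivAt Q1 (Q2 x) x) (h : ∀ x ∈ Icc (0 : ℝ) 1, Q2 x ≤ Real.exp (-x))
    {x y : ℝ} (hx : x ∈ Icc (0 : ℝ) 1) (hy : y ∈ Icc (0 : ℝ) 1) :
    Real.exp (-x) * (1 + x - y) + Q y - Q x - Q1 x * (y - x) ≤ Real.exp (-y) := by
  have e1 : ∀ x, HasDerivAt (fun x => Real.exp (-x) - Q x) (-Real.exp (-x) - Q1 x) x := fun x =>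
    (hasDerivAt_E x).sub (h1 x)
  have e2 : ∀ x, HasDerivAt (fun x => -Real.exp (-x) - Q1 x) (Real.exp (-x) - Q2 x) x := fun x =>
    ((hasDerivAt_E x).neg.sub (h2 x)).congr_deriv (by rw [neg_neg])
  have hm : MonotoneOn (fun x => -Real.exp (-x) - Q1 x) (Icc 0 1) :=
    monotoneOn_of_hasDerivWithinAt_nonneg (convex_Icc 0 1)
      (fun x _ => (e2 x).continuousAt.continuousWithinAt) (fun x _ => (e2 x).hasDerivWithinAt)
      fun x hx => sub_nonneg.2 (h x (interior_subset hx))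
  rcases lt_trichotomy x y with hxy | rfl | hxy
  · obtain ⟨c, hc, e⟩ := exists_hasDerivAt_eq_slope _ _ hxy
      (fun x _ => (e1 x).continuousAt.continuousWithinAt) fun x _ => e1 x
    have := hm hx ⟨hx.1.trans hc.1.le, hc.2.le.trans hy.2⟩ hc.1.le
    simp only at this
    rw [e, le_div_iff₀ (sub_pos.2 hxy)] at this
    linarith
  · simp
  · obtain ⟨c, hc, e⟩ := exists_hasDerivAt_eq_slope _ _ hxy
      (fun x _ => (e1 x).continuousAt.continuousWithinAt) fun x _ => e1 x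
    have := hm ⟨hy.1.trans hc.1.le, hc.2.le.trans hx.2⟩ hx hc.2.le
    simp only at this
    rw [e, div_le_iff₀ (sub_pos.2 hxy)] at this
    linarith

/-- (b) for a quintic without constant and linear term -/
theorem tangent5 {c2 c3 c4 c5 : ℝ}
    (h : ∀ x ∈ Icc (0 : ℝ) 1, 2 * c2 + 6 * c3 * x + 12 * c4 * x ^ 2 + 20 * c5 * x ^ 3 ≤ Real.exp (-x))
    {x y : ℝ} (hx : x ∈ Icc (0 : ℝ) 1) (hy : y ∈ Icc (0 : ℝ) 1) :
    Real.exp (-x) * (1 + x - y) + (y - x) ^ 2 * (c2 + c3 * (y + 2 * x) +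
      c4 * (y ^ 2 + 2 * x * y + 3 * x ^ 2) +
      c5 * (y ^ 3 + 2 * x * y ^ 2 + 3 * x ^ 2 * y + 4 * x ^ 3)) ≤ Real.exp (-y) := by
  have := tangent (Q := fun x => c2 * x ^ 2 + c3 * x ^ 3 + c4 * x ^ 4 + c5 * x ^ 5)
    (Q1 := fun x => 2 * c2 * x + 3 * c3 * x ^ 2 + 4 * c4 * x ^ 3 + 5 * c5 * x ^ 4)
    (Q2 := fun x => 2 * c2 + 6 * c3 * x + 12 * c4 * x ^ 2 + 20 * c5 * x ^ 3)
    (fun x => (((((hasDerivAt_pow 2 x).const_mul c2).add ((hasDerivAt_pow 3 x).const_mul c3)).add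
        ((hasDerivAt_pow 4 x).const_mul c4)).add ((hasDerivAt_pow 5 x).const_mul c5)).congr_deriv
        (by norm_num; ring))
    (fun x => (((((hasDerivAt_id x).const_mul (2 * c2)).add
        ((hasDerivAt_pow 2 x).const_mul (3 * c3))).add ((hasDerivAt_pow 3 x).const_mul (4 * c4))).add
        ((hasDerivAt_pow 4 x).const_mul (5 * c5))).congr_deriv (by norm_num; ring)) h hx hy
  linarith

/-- (c) -/
theorem exp_le5 {d : ℝ} (h0 : 0 ≤ d) (h1 : d ≤ 1) :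
    Real.exp d ≤ 1 + d + d ^ 2 / 2 + d ^ 3 / 6 + d ^ 4 / 24 + d ^ 5 / 100 := by
  have h := Real.exp_bound' h0 h1 (n := 5) (by norm_num)
  simp only [Finset.sum_range_succ, Finset.sum_range_zero, Nat.factorial] at h
  push_cast at h
  linarith

/-- the value `y + Φ` for a general `D` -/
def phD (D y b : ℝ) : ℝ := y + Phi b (D - y) (2 * y)

def HkD (D y' y b b' τ : ℝ) : ℝ := τ + phD D y' b' - phD D y b - b' * (y' - phD D y b)

def HiD (D y' y b b' τ : ℝ) : ℝ := -τ + phD D y b - phD D y' b' - b * (y - phD D y' b')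

/-- (d) the six inequalities for a general `D` -/
structure NAtD (D y' y b b' τ : ℝ) : Prop where
  I1 : 0 ≤ Phi b' (D - y') (2 * y') - (D - y') * (1 - b') + τ
  I2 : 0 ≤ Phi b (D - y) (2 * y) - (D - y) * (1 - b) - τ
  Bk : ∀ w, 0 ≤ w → w ≤ 1 → Kl (D - y) (y + y') w < 1 →
    S b (D - y) (2 * y) w * (1 - b' * max 0 (Kl (D - y) (y + y') w)) ≤ HkD D y' y b b' τ
  Ck : ∀ K, 0 ≤ K → K ≤ 1 → cK (y + y') K < D - y →
    (N b (cK (y + y') K) (2 * y) - Phi b (D - y) (2 * y)) * (1 - b' * K) ≤ HkD D y' y b b' τ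
  Bi : ∀ w, 0 ≤ w → w ≤ 1 → Kl (D - y') (y + y') w < 1 →
    S b' (D - y') (2 * y') w * (1 - b * max 0 (Kl (D - y') (y + y') w)) ≤
      HiD D y' y b b' τ + b * (1 - max 0 (Kl (D - y') (y + y') w)) * g0 y' y b'
  Ci : ∀ K, 0 ≤ K → K ≤ 1 → cK (y + y') K < D - y' →
    (N b' (cK (y + y') K) (2 * y') - Phi b' (D - y') (2 * y')) * (1 - b * K) ≤
      HiD D y' y b b' τ + b * (1 - K) * g0 y' y b'

end

theorem NAtD.smul {s D y' y b b' τ : ℝ} (hs : 0 < s)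
    (h : NAtD (s * D) (s * y') (s * y) b b' (s * τ)) : NAtD D y' y b b' τ := by
  have eu : ∀ y, s * D - s * y = s * (D - y) := fun y => by ring
  have et : ∀ y, 2 * (s * y) = s * (2 * y) := fun y => by ring
  have er : s * y + s * y' = s * (y + y') := by ring
  have eP : ∀ y b, phD (s * D) (s * y) b = s * phD D y b := fun y b => by
    rw [phD, phD, eu, et, Phi_smul hs.le]; ring
  have eK : ∀ u ρ w, Kl (s * u) (s * ρ) w = Kl u ρ w := fun u ρ w => by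
    rw [Kl, Kl, mul_assoc, mul_left_comm 2, mul_div_mul_left _ _ hs.ne']
  have eC : ∀ ρ K, cK (s * ρ) K = s * cK ρ K := fun ρ K => by rw [cK, cK]; ring
  have eN : ∀ b c t, N b (s * c) (s * t) = s * N b c t := fun b c t => by
    rw [N, N, Phi_smul hs.le, Pi_smul hs.le]; ring
  have eg : g0 (s * y') (s * y) b' = s * g0 y' y b' := by
    rw [g0, g0, ← mul_sub, et, Phi_smul hs.le]; ring
  have e1 : HkD (s * D) (s * y') (s * y) b b' (s * τ) = s * HkD D y' y b b' τ := by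
    rw [HkD, HkD, eP, eP]; ring
  have e2 : HiD (s * D) (s * y') (s * y) b b' (s * τ) = s * HiD D y' y b b' τ := by
    rw [HiD, HiD, eP, eP]; ring
  obtain ⟨I1, I2, Bk, Ck, Bi, Ci⟩ := h
  simp only [eu, et, er, eK, eC, eN, eg, e1, e2, Phi_smul hs.le, S_smul hs.le,
    mul_lt_mul_iff_right₀ hs] at I1 I2 Bk Ck Bi Ci
  refine ⟨le_of_mul_le_mul_left (by linarith) hs, le_of_mul_le_mul_left (by linarith) hs,
    fun w a1 a2 a3 => le_of_mul_le_mul_left (by linarith [Bk w a1 a2 a3]) hs,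
    fun w a1 a2 a3 => le_of_mul_le_mul_left (by linarith [Ck w a1 a2 a3]) hs,
    fun w a1 a2 a3 => le_of_mul_le_mul_left (by linarith [Bi w a1 a2 a3]) hs,
    fun w a1 a2 a3 => le_of_mul_le_mul_left (by linarith [Ci w a1 a2 a3]) hs⟩

theorem NAtD.one {y' y b b' τ : ℝ} (h : NAtD 1 y' y b b' τ) : NAt y' y b b' τ :=
  ⟨h.I1, h.I2, h.Bk, h.Ck, h.Bi, h.Ci⟩

/-- (d) -/
theorem NAtD.nAt {D y' y b b' τ : ℝ} (hD : 0 < D) (h : NAtD D (D * y') (D * y) b b' τ) :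
    NAt y' y b b' (τ / D) :=
  (NAtD.smul (D := 1) hD (by rwa [mul_one, mul_div_cancel₀ _ hD.ne'])).one

end Crest.Agent.R310.H17
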