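import Crest.Agent.R310.H17Defs
import Crest.Agent.R310.H17Exp
import Crest.Agent.Lib.PolyBB.Basic
import Crest.Agent.R310.H17EvCert

/-! # Row 310: values of the polynomial families -/

set_option autoImplicit false

open Set Crest.Agent.Lib.PolyBB Crest.Agent.R310.Des

namespace Crest.Agent.R310.H17

/-- `u` lies in the piece `j` of `Φ (·; u, 4 q)`. -/
def Pc (j : ℕ) (u q : ℝ) : Prop :=
  match j with
  | 0 => u ≤ q
  | 1 => q ≤ u ∧ u ≤ 2 * q
  | 2 => 2 * q ≤ u ∧ u ≤ 4 * q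
  | 3 => 4 * q ≤ u ∧ u ≤ 5 * q
  | _ => 5 * q ≤ u

variable {x : ℕ → ℝ} {p : ℕ → ℤ} {bE eE boE uE qE wE : E} {b bo u q w : ℝ} {j : ℕ}

theorem poly1 (hb : b ∈ Icc (0 : ℝ) 1) :
    100000 - 100000 * b + 49958 * b ^ 2 - 16295 * b ^ 3 + 3121 * b ^ 4 ≤ 100000 * T7 b ∧
    100000 * (T7 b + b ^ 8 / 40320) ≤
      100000 - 100000 * b + 49958 * b ^ 2 - 16295 * b ^ 3 + 3121 * b ^ 4 + 43 * b ^ 2 ∧
    99930 - 99288 * b + 46320 * b ^ 2 - 10240 * b ^ 3 ≤ 100000 * T7 b ∧
    100000 * (T7 b + b ^ 8 / 40320) / 2 ≤ 50001 - 49610 * b + 23050 * b ^ 2 - 5026 * b ^ 3 ∧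
    100000 * (T7 b + b ^ 8 / 40320) / 6 ≤ 16668 - 15562 * b + 5138 * b ^ 2 ∧
    100000 * (T7 b + b ^ 8 / 40320) * (1 / 24 + b / 100) ≤ 4168 - 2245 * b := by
  obtain ⟨k, ps, h⟩ := H17Ev.holds (pt [b]) (by simp [hb.1, hb.2])
  have h' : ∀ w ∈ [H17Ev.e0, H17Ev.e1, H17Ev.e2, H17Ev.e3, H17Ev.e4, H17Ev.e5],
    (0 : ℝ) ≤ w.eval (pt [b]) _ := h
  simp only [List.forall_mem_cons, List.not_mem_nil, H17Ev.e0, H17Ev.e1, H17Ev.e2, H17Ev.e3,
    H17Ev.e4, H17Ev.e5, H17Ev.t0, H17Ev.t1, H17Ev.t2, E.eval_var, E.eval_cst, E.eval_add, E.eval_mul, pt_zero] at h'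
  push_cast at h'
  obtain ⟨a0, a1, a2, a3, a4, a5, -⟩ := h'
  simp only [T7]
  refine ⟨?_, ?_, ?_, ?_, ?_, ?_⟩ <;> linarith

theorem smE_eval (h : bE.eval x p = b) : (smE bE).eval x p = 100000 * sm b := by
  simp only [smE, E.eval_cst, E.eval_add, E.eval_mul, h, sm]; push_cast; ring

theorem spE_eval (h : bE.eval x p = b) : (spE bE).eval x p = 100000 * sp b := by
  simp only [spE, E.eval_cst, E.eval_add, E.eval_mul, h, sp]; push_cast; ring

theorem n2E_eval (h : bE.eval x p = b) : (n2E bE).eval x p = 100000 * (sm b - b * smd b) := by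
  simp only [n2E, E.eval_cst, E.eval_add, E.eval_mul, h, sm, smd]; push_cast; ring

theorem n3E_eval (h : bE.eval x p = b) : (n3E bE).eval x p = 100000 * (sp b - b * spd b) := by
  simp only [n3E, E.eval_cst, E.eval_add, E.eval_mul, h, sp, spd]; push_cast; ring

/-- chord slope of a function with derivative `f'` -/
noncomputable def Sg (f f' : ℝ → ℝ) (b k : ℝ) : ℝ :=
  if k = 0 then -(b * f' b) else (f (b * (1 - k)) - f b) / k

theorem S_eq_Sg (b u t k : ℝ) : S b u t k =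
    u2 u t * (4 * Sg (fun x => Real.exp (-x)) (fun x => -Real.exp (-x)) b k - 2 * Sg sm smd b k) +
      u3 u t * Sg sm smd b k + u4 u t * Sg sp spd b k + u5 u t * b := by
  unfold S Sg
  split_ifs with hk
  · rw [Pi, PiE]; ring
  · rw [Phi, Phi, PhiE, PhiE]; field_simp; ring

theorem DmE_eval (h : bE.eval x p = b) (hw : wE.eval x p = w) :
    (DmE bE wE).eval x p = 100000 * Sg sm smd b w := by
  simp only [DmE, E.eval_cst, E.eval_add, E.eval_mul, h, hw, Sg]
  push_cast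
  split_ifs with h0
  · rw [h0, smd]; ring
  · rw [sm, sm]; field_simp; ring

theorem DpE_eval (h : bE.eval x p = b) (hw : wE.eval x p = w) :
    (DpE bE wE).eval x p = 100000 * Sg sp spd b w := by
  simp only [DpE, E.eval_cst, E.eval_add, E.eval_mul, h, hw, Sg]
  push_cast
  split_ifs with h0
  · rw [h0, spd]; ring
  · rw [sp, sp]; field_simp; ring

theorem DEE_ge (hb : b ∈ Icc (0 : ℝ) 1) (hw : w ∈ Icc (0 : ℝ) 1) (h : bE.eval x p = b)
    (hw' : wE.eval x p = w) (he : eE.eval x p = 100000 * Real.exp (-b)) :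
    100000 * Sg (fun x => Real.exp (-x)) (fun x => -Real.exp (-x)) b w ≤
      (DEE bE eE wE).eval x p := by
  simp only [DEE, E.eval_cst, E.eval_add, E.eval_mul, h, hw', he, Sg]
  push_cast
  split_ifs with h0
  · rw [h0]; apply le_of_eq; ring
  · have w0 : 0 < w := lt_of_le_of_ne hw.1 (Ne.symm h0)
    obtain ⟨-, -, -, a3, a4, a5⟩ := poly1 hb
    have hT := le_T8 hb.1 hb.2
    have hE := (Real.exp_pos (-b)).le
    have b0 := hb.1
    have e5 : Real.exp (-(b * (1 - w))) = Real.exp (-b) * Real.exp (b * w) := by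
      rw [← Real.exp_add]; congr 1; ring
    have h6 := mul_le_mul_of_nonneg_left
      (exp_le5 (mul_nonneg hb.1 hw.1) (mul_le_one₀ hb.2 hw.1 hw.2)) hE
    have c3 : 100000 * Real.exp (-b) / 2 ≤ 50001 - 49610 * b + 23050 * b ^ 2 - 5026 * b ^ 3 := by
      linarith
    have c4 : 100000 * Real.exp (-b) / 6 ≤ 16668 - 15562 * b + 5138 * b ^ 2 := by linarith
    have c5 : 100000 * Real.exp (-b) * (1 / 24 + b * w / 100) ≤ 4168 - 2245 * b := by
      refine le_trans (mul_le_mul (by linarith) ?_ (by positivity) ?_) a5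
      · linarith [mul_le_of_le_one_right hb.1 hw.2]
      · linarith
    have d3 := mul_le_mul_of_nonneg_left c3 (show 0 ≤ (b * w) ^ 2 by positivity)
    have d4 := mul_le_mul_of_nonneg_left c4 (show 0 ≤ (b * w) ^ 3 by positivity)
    have d5 := mul_le_mul_of_nonneg_left c5 (show 0 ≤ (b * w) ^ 4 by positivity)
    rw [e5, ← mul_div_assoc, div_le_iff₀ w0]
    linear_combination 100000 * h6 + d3 + d4 + d5

theorem omE_eval (hb : bE.eval x p = b) : (omE bE).eval x p = 100000 * (1 - b) := by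
  simp only [omE, E.eval_cst, E.eval_add, E.eval_mul, hb]; push_cast; ring

theorem EE_band (hb : b ∈ Icc (0 : ℝ) 1) : ∃ θ ∈ Icc (0 : ℝ) 1, ∀ (x : ℕ → ℝ) (p : ℕ → ℤ)
    (bE thE : E), bE.eval x p = b → thE.eval x p = θ →
      (EE bE thE).eval x p = 100000 * Real.exp (-b) := by
  obtain ⟨a0, a1, -⟩ := poly1 hb
  obtain ⟨-, e, e0, e1, he⟩ := band (b := b)
    (lo := (100000 - 100000 * b + 49958 * b ^ 2 - 16295 * b ^ 3 + 3121 * b ^ 4) / 100000)
    (wd := 43 * b ^ 2 / 100000) hb.1 hb.2 (by linarith) (by linarith)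
  refine ⟨e, ⟨e0, e1⟩, fun x p bE thE h ht => ?_⟩
  simp only [EE, E.eval_cst, E.eval_add, E.eval_mul, E.eval_pow, h, ht, he]
  push_cast; ring

theorem EE_zero_le (hb : b ∈ Icc (0 : ℝ) 1) (h : bE.eval x p = b) :
    (EE bE (.cst 0)).eval x p ≤ 100000 * Real.exp (-b) := by
  have a0 := (poly1 hb).1
  have := T7_le hb.1 hb.2
  simp only [EE, E.eval_cst, E.eval_add, E.eval_mul, E.eval_pow, h]
  push_cast; linarith

theorem EoE_le (hb : b ∈ Icc (0 : ℝ) 1) (hbo : bo ∈ Icc (0 : ℝ) 1) (h : bE.eval x p = b)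
    (ho : boE.eval x p = bo) (he : eE.eval x p = 100000 * Real.exp (-b)) :
    (EoE bE eE boE).eval x p ≤ 100000 * Real.exp (-bo) := by
  have := tangent5 (c2 := 49965 / 100000) (c3 := -16548 / 100000) (c4 := 3860 / 100000)
    (c5 := -512 / 100000) (fun z hz => by linarith [(poly1 hz).2.2.1, T7_le hz.1 hz.2]) hb hbo
  simp only [EoE, QE, QdE, E.eval_cst, E.eval_add, E.eval_sub, E.eval_mul, h, ho, he]
  push_cast
  linear_combination 100000 * this

theorem PhiP_eq (hq0 : 0 ≤ q) (hj : Pc j u q) (h : bE.eval x p = b) (hu : uE.eval x p = u)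
    (hq : qE.eval x p = q) (he : eE.eval x p = 100000 * Real.exp (-b)) :
    (PhiP j eE bE uE qE).eval x p = 100000 * Phi b u (4 * q) := by
  match j, hj with
  | 0, hj =>
    rw [Phi_P0 (by linarith) (by simpa [Pc] using hj)]
    simp only [PhiP, E.eval_cst, E.eval_mul, hu]; push_cast; ring
  | 1, hj =>
    rw [Phi_P1 (by linarith [hj.1]) (by linarith [hj.2])]
    simp only [PhiP, E.eval_cst, E.eval_add, E.eval_sub, E.eval_mul, hu, hq, he, smE_eval h]
    push_cast; ring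
  | 2, hj =>
    rw [Phi_P2 (by linarith [hj.1]) hj.2]
    simp only [PhiP, E.eval_cst, E.eval_add, E.eval_sub, E.eval_mul, hu, hq, he, smE_eval h]
    push_cast; ring
  | 3, hj =>
    rw [Phi_P3 hj.1 (by linarith [hj.2])]
    simp only [PhiP, E.eval_cst, E.eval_add, E.eval_sub, E.eval_mul, hu, hq, he, spE_eval h]
    push_cast; ring
  | n + 4, hj =>
    have hj' : 5 * q ≤ u := hj
    rw [Phi_P4 (by linarith) (by linarith)]
    simp only [PhiP, E.eval_cst, E.eval_add, E.eval_sub, E.eval_mul, hu, hq, he, spE_eval h,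
      omE_eval h]
    push_cast; ring

theorem PhiP_le (hq0 : 0 ≤ q) (hj : Pc j u q) (h : bE.eval x p = b) (hu : uE.eval x p = u)
    (hq : qE.eval x p = q) (he : eE.eval x p ≤ 100000 * Real.exp (-b)) :
    (PhiP j eE bE uE qE).eval x p ≤ 100000 * Phi b u (4 * q) := by
  have h4 := mul_le_mul_of_nonneg_left he hq0
  match j, hj with
  | 0, hj =>
    rw [Phi_P0 (by linarith) (by simpa [Pc] using hj)]
    simp only [PhiP, E.eval_cst, E.eval_mul, hu]; push_cast; exact le_rfl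
  | 1, hj =>
    have h5 := mul_le_mul_of_nonneg_left he (sub_nonneg.2 hj.1)
    rw [Phi_P1 (by linarith [hj.1]) (by linarith [hj.2])]
    simp only [PhiP, E.eval_cst, E.eval_add, E.eval_sub, E.eval_mul, hu, hq, smE_eval h]
    push_cast; linear_combination 4 * h5
  | 2, hj =>
    rw [Phi_P2 (by linarith [hj.1]) hj.2]
    simp only [PhiP, E.eval_cst, E.eval_add, E.eval_sub, E.eval_mul, hu, hq, smE_eval h]
    push_cast; linear_combination 4 * h4
  | 3, hj =>
    rw [Phi_P3 hj.1 (by linarith [hj.2])]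
    simp only [PhiP, E.eval_cst, E.eval_add, E.eval_sub, E.eval_mul, hu, hq, spE_eval h]
    push_cast; linear_combination 4 * h4
  | n + 4, hj =>
    have hj' : 5 * q ≤ u := hj
    rw [Phi_P4 (by linarith) (by linarith)]
    simp only [PhiP, E.eval_cst, E.eval_add, E.eval_sub, E.eval_mul, hu, hq, spE_eval h,
      omE_eval h]
    push_cast; linear_combination 4 * h4

theorem NP_eq (hq0 : 0 ≤ q) (h2 : 2 ≤ j) (hj : Pc j u q) (h : bE.eval x p = b)
    (hu : uE.eval x p = u) (hq : qE.eval x p = q) (he : eE.eval x p = 100000 * Real.exp (-b)) :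
    (NP j eE bE uE qE).eval x p = 100000 * N b u (4 * q) := by
  match j, h2, hj with
  | 2, _, hj =>
    rw [N, Phi_P2 (by linarith [hj.1]) hj.2, Pi_P2 (by linarith [hj.1]) hj.2]
    simp only [NP, E.eval_cst, E.eval_add, E.eval_sub, E.eval_mul, h, hu, hq, he, n2E_eval h]
    push_cast; ring
  | 3, _, hj =>
    rw [N, Phi_P3 hj.1 (by linarith [hj.2]), Pi_P3 hj.1 (by linarith [hj.2])]
    simp only [NP, E.eval_cst, E.eval_add, E.eval_sub, E.eval_mul, h, hu, hq, he, n3E_eval h]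
    push_cast; ring
  | n + 4, _, hj =>
    have hj' : 5 * q ≤ u := hj
    rw [N, Phi_P4 (by linarith) (by linarith), Pi_P4 (by linarith) (by linarith)]
    simp only [NP, E.eval_cst, E.eval_add, E.eval_sub, E.eval_mul, h, hu, hq, he, n3E_eval h]
    push_cast; ring

/-- `exp_le5` at `b w`, then `exp (-b) / 2`, `exp (-b) / 6`, `exp (-b) (1 / 24 + b / 100)` are
below the polynomials in `DEE` (they are even above the upper end of the band). -/
theorem SP_ge (hb : b ∈ Icc (0 : ℝ) 1) (hw : w ∈ Icc (0 : ℝ) 1) (hq0 : 0 ≤ q) (h1 : 1 ≤ j)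
    (hj : Pc j u q) (h : bE.eval x p = b) (hu : uE.eval x p = u) (hq : qE.eval x p = q)
    (hw' : wE.eval x p = w) (he : eE.eval x p = 100000 * Real.exp (-b)) :
    100000 * S b u (4 * q) w ≤ (SP j eE bE uE qE wE).eval x p := by
  have hD := DEE_ge hb hw h hw' he
  have h4 := mul_le_mul_of_nonneg_left hD hq0
  rw [S_eq_Sg]
  match j, h1, hj with
  | 1, _, hj =>
    have h5 := mul_le_mul_of_nonneg_left hD (sub_nonneg.2 hj.1)
    obtain ⟨-, a2, a3, a4, a5⟩ := u_P1 (u := u) (t := 4 * q) (by linarith [hj.1])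
      (by linarith [hj.2])
    simp only [SP, E.eval_cst, E.eval_sub, E.eval_mul, hu, hq, DmE_eval h hw', a2, a3, a4, a5]
    push_cast; linear_combination 4 * h5
  | 2, _, hj =>
    obtain ⟨-, a2, a3, a4, a5⟩ := u_P2 (u := u) (t := 4 * q) (by linarith [hj.1]) hj.2
    simp only [SP, E.eval_cst, E.eval_add, E.eval_sub, E.eval_mul, hu, hq, DmE_eval h hw', a2, a3,
      a4, a5]
    push_cast; linear_combination 4 * h4
  | 3, _, hj =>
    obtain ⟨-, a2, a3, a4, a5⟩ := u_P3 (u := u) (t := 4 * q) hj.1 (by linarith [hj.2])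
    simp only [SP, E.eval_cst, E.eval_add, E.eval_sub, E.eval_mul, hu, hq, DpE_eval h hw', a2, a3,
      a4, a5]
    push_cast; linear_combination 4 * h4
  | n + 4, _, hj =>
    have hj' : 5 * q ≤ u := hj
    obtain ⟨-, a2, a3, a4, a5⟩ := u_P4 (u := u) (t := 4 * q) (by linarith) (by linarith)
    simp only [SP, E.eval_cst, E.eval_add, E.eval_sub, E.eval_mul, h, hu, hq, DpE_eval h hw', a2, a3,
      a4, a5]
    push_cast; linear_combination 4 * h4

end Crest.Agent.R310.H17
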