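import Crest.Agent.R310.H17Cell
import Crest.Agent.R310.H17Cells

/-! # Row 310: the linear facts about the cells and the cover (generated by tools/h17/wr2.py) -/

set_option autoImplicit false

namespace Crest.Agent.R310.H17

/-- proves `Cell.geo` for a concrete cell -/
macro "geo_tac" c:ident : tactic => `(tactic| (
  refine ⟨by decide, by decide, fun d u h0 h1 h2 hm => ?_⟩
  simp only [Cell.mem, $c:ident] at hm
  obtain ⟨m1, m2, m3, m4⟩ := hm
  push_cast at m1 m2 m3 m4
  try replace m4 := m4 trivial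
  simp only [$c:ident, Pc, Rng, rvR]
  refine ⟨?_, ?_, ?_, fun c a1 a2 a3 => ⟨fun a4 => ?_, fun a4 a5 => ?_, fun a4 => ?_⟩,
    fun c a1 a2 a3 => ⟨fun a4 => ?_, fun a4 a5 => ?_, fun a4 => ?_⟩⟩ <;>
  first | linarith | (constructor <;> linarith)))

theorem geo0 : c0.geo := by geo_tac c0
theorem geo1 : c1.geo := by geo_tac c1
theorem geo2 : c2.geo := by geo_tac c2
theorem geo3 : c3.geo := by geo_tac c3
theorem geo4 : c4.geo := by geo_tac c4
theorem geo5 : c5.geo := by geo_tac c5
theorem geo6 : c6.geo := by geo_tac c6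
theorem geo7 : c7.geo := by geo_tac c7
theorem geo8 : c8.geo := by geo_tac c8
theorem geo9 : c9.geo := by geo_tac c9
theorem geo10 : c10.geo := by geo_tac c10
theorem geo11 : c11.geo := by geo_tac c11
theorem geo12 : c12.geo := by geo_tac c12
theorem geo13 : c13.geo := by geo_tac c13
theorem geo14 : c14.geo := by geo_tac c14
theorem geo15 : c15.geo := by geo_tac c15
theorem geo16 : c16.geo := by geo_tac c16
theorem geo17 : c17.geo := by geo_tac c17
theorem geo18 : c18.geo := by geo_tac c18
theorem geo19 : c19.geo := by geo_tac c19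
theorem geo20 : c20.geo := by geo_tac c20
theorem geo21 : c21.geo := by geo_tac c21
theorem geo22 : c22.geo := by geo_tac c22
theorem geo23 : c23.geo := by geo_tac c23
theorem geo24 : c24.geo := by geo_tac c24
theorem geo25 : c25.geo := by geo_tac c25
theorem geo26 : c26.geo := by geo_tac c26
theorem geo27 : c27.geo := by geo_tac c27
theorem geo28 : c28.geo := by geo_tac c28
theorem geo29 : c29.geo := by geo_tac c29
theorem geo30 : c30.geo := by geo_tac c30
theorem geo31 : c31.geo := by geo_tac c31
theorem geo32 : c32.geo := by geo_tac c32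
theorem geo33 : c33.geo := by geo_tac c33
theorem geo34 : c34.geo := by geo_tac c34
theorem geo35 : c35.geo := by geo_tac c35
theorem geo36 : c36.geo := by geo_tac c36
theorem geo37 : c37.geo := by geo_tac c37
theorem geo38 : c38.geo := by geo_tac c38
theorem geo39 : c39.geo := by geo_tac c39
theorem geo40 : c40.geo := by geo_tac c40
theorem geo41 : c41.geo := by geo_tac c41
theorem geo42 : c42.geo := by geo_tac c42
theorem geo43 : c43.geo := by geo_tac c43
theorem geo44 : c44.geo := by geo_tac c44
theorem geo45 : c45.geo := by geo_tac c45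
theorem geo46 : c46.geo := by geo_tac c46
theorem geo47 : c47.geo := by geo_tac c47
theorem geo48 : c48.geo := by geo_tac c48
theorem geo49 : c49.geo := by geo_tac c49
theorem geo50 : c50.geo := by geo_tac c50
theorem geo51 : c51.geo := by geo_tac c51
theorem geo52 : c52.geo := by geo_tac c52
theorem geo53 : c53.geo := by geo_tac c53
theorem geo54 : c54.geo := by geo_tac c54
theorem geo55 : c55.geo := by geo_tac c55
theorem geo56 : c56.geo := by geo_tac c56
theorem geo57 : c57.geo := by geo_tac c57

/-- proves `Cell.mem` for a concrete cell -/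
macro "mem_tac" c:ident : tactic => `(tactic| (
  simp only [Cell.mem, $c:ident]
  push_cast
  refine ⟨by linarith, by linarith, by linarith, ?_⟩
  first | (intro _; linarith) | simp))

theorem strip0 {R : Prop} {d u : ℝ} (d0 : (0 / 1 : ℝ) ≤ d) (d1 : d ≤ (1 / 13 : ℝ)) (hu : 6 + 6 * d ≤ u)
    (h0 : c0.mem d u → R)
    (h1 : c1.mem d u → R)
    (h2 : c2.mem d u → R)
    (h3 : c3.mem d u → R)
    (h4 : c4.mem d u → R)
    (h5 : c5.mem d u → R)
    (h6 : c6.mem d u → R)
    (h7 : c7.mem d u → R)
    (h8 : c8.mem d u → R)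
    (h9 : c9.mem d u → R)
    : R := by
  rcases le_total u (12 + (-36) * d) with e0 | e0
  · exact h0 (by mem_tac c0)
  rcases le_total u (12 + (12) * d) with e1 | e1
  · exact h1 (by mem_tac c1)
  rcases le_total u (24 + (-48) * d) with e2 | e2
  · exact h2 (by mem_tac c2)
  rcases le_total u (24 + (-24) * d) with e3 | e3
  · exact h3 (by mem_tac c3)
  rcases le_total u (24 + (0) * d) with e4 | e4
  · exact h4 (by mem_tac c4)
  rcases le_total u (24 + (24) * d) with e5 | e5
  · exact h5 (by mem_tac c5)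
  rcases le_total u (30 + (-54) * d) with e6 | e6
  · exact h6 (by mem_tac c6)
  rcases le_total u (30 + (30) * d) with e7 | e7
  · exact h7 (by mem_tac c7)
  rcases le_total u (40 + (0) * d) with e8 | e8
  · exact h8 (by mem_tac c8)
  exact h9 (by mem_tac c9)

theorem strip1 {R : Prop} {d u : ℝ} (d0 : (1 / 13 : ℝ) ≤ d) (d1 : d ≤ (1 / 9 : ℝ)) (hu : 6 + 6 * d ≤ u)
    (h0 : c0.mem d u → R)
    (h1 : c1.mem d u → R)
    (h2 : c2.mem d u → R)
    (h3 : c3.mem d u → R)
    (h4 : c4.mem d u → R)
    (h10 : c10.mem d u → R)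
    (h11 : c11.mem d u → R)
    (h12 : c12.mem d u → R)
    (h8 : c8.mem d u → R)
    (h9 : c9.mem d u → R)
    : R := by
  rcases le_total u (12 + (-36) * d) with e0 | e0
  · exact h0 (by mem_tac c0)
  rcases le_total u (12 + (12) * d) with e1 | e1
  · exact h1 (by mem_tac c1)
  rcases le_total u (24 + (-48) * d) with e2 | e2
  · exact h2 (by mem_tac c2)
  rcases le_total u (24 + (-24) * d) with e3 | e3
  · exact h3 (by mem_tac c3)
  rcases le_total u (24 + (0) * d) with e4 | e4
  · exact h4 (by mem_tac c4)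
  rcases le_total u (30 + (-54) * d) with e10 | e10
  · exact h10 (by mem_tac c10)
  rcases le_total u (24 + (24) * d) with e11 | e11
  · exact h11 (by mem_tac c11)
  rcases le_total u (30 + (30) * d) with e12 | e12
  · exact h12 (by mem_tac c12)
  rcases le_total u (40 + (0) * d) with e8 | e8
  · exact h8 (by mem_tac c8)
  exact h9 (by mem_tac c9)

theorem strip2 {R : Prop} {d u : ℝ} (d0 : (1 / 9 : ℝ) ≤ d) (d1 : d ≤ (1 / 7 : ℝ)) (hu : 6 + 6 * d ≤ u)
    (h0 : c0.mem d u → R)
    (h1 : c1.mem d u → R)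
    (h2 : c2.mem d u → R)
    (h3 : c3.mem d u → R)
    (h13 : c13.mem d u → R)
    (h14 : c14.mem d u → R)
    (h15 : c15.mem d u → R)
    (h12 : c12.mem d u → R)
    (h8 : c8.mem d u → R)
    (h9 : c9.mem d u → R)
    : R := by
  rcases le_total u (12 + (-36) * d) with e0 | e0
  · exact h0 (by mem_tac c0)
  rcases le_total u (12 + (12) * d) with e1 | e1
  · exact h1 (by mem_tac c1)
  rcases le_total u (24 + (-48) * d) with e2 | e2
  · exact h2 (by mem_tac c2)
  rcases le_total u (24 + (-24) * d) with e3 | e3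
  · exact h3 (by mem_tac c3)
  rcases le_total u (30 + (-54) * d) with e13 | e13
  · exact h13 (by mem_tac c13)
  rcases le_total u (24 + (0) * d) with e14 | e14
  · exact h14 (by mem_tac c14)
  rcases le_total u (24 + (24) * d) with e15 | e15
  · exact h15 (by mem_tac c15)
  rcases le_total u (30 + (30) * d) with e12 | e12
  · exact h12 (by mem_tac c12)
  rcases le_total u (40 + (0) * d) with e8 | e8
  · exact h8 (by mem_tac c8)
  exact h9 (by mem_tac c9)

theorem strip3 {R : Prop} {d u : ℝ} (d0 : (1 / 7 : ℝ) ≤ d) (d1 : d ≤ (1 / 5 : ℝ)) (hu : 6 + 6 * d ≤ u)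
    (h16 : c16.mem d u → R)
    (h2 : c2.mem d u → R)
    (h3 : c3.mem d u → R)
    (h13 : c13.mem d u → R)
    (h14 : c14.mem d u → R)
    (h15 : c15.mem d u → R)
    (h12 : c12.mem d u → R)
    (h8 : c8.mem d u → R)
    (h9 : c9.mem d u → R)
    : R := by
  rcases le_total u (12 + (12) * d) with e16 | e16
  · exact h16 (by mem_tac c16)
  rcases le_total u (24 + (-48) * d) with e2 | e2
  · exact h2 (by mem_tac c2)
  rcases le_total u (24 + (-24) * d) with e3 | e3
  · exact h3 (by mem_tac c3)
  rcases le_total u (30 + (-54) * d) with e13 | e13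
  · exact h13 (by mem_tac c13)
  rcases le_total u (24 + (0) * d) with e14 | e14
  · exact h14 (by mem_tac c14)
  rcases le_total u (24 + (24) * d) with e15 | e15
  · exact h15 (by mem_tac c15)
  rcases le_total u (30 + (30) * d) with e12 | e12
  · exact h12 (by mem_tac c12)
  rcases le_total u (40 + (0) * d) with e8 | e8
  · exact h8 (by mem_tac c8)
  exact h9 (by mem_tac c9)

theorem strip4 {R : Prop} {d u : ℝ} (d0 : (1 / 5 : ℝ) ≤ d) (d1 : d ≤ (3 / 11 : ℝ)) (hu : 6 + 6 * d ≤ u)
    (h17 : c17.mem d u → R)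
    (h18 : c18.mem d u → R)
    (h19 : c19.mem d u → R)
    (h20 : c20.mem d u → R)
    (h21 : c21.mem d u → R)
    (h22 : c22.mem d u → R)
    (h23 : c23.mem d u → R)
    (h24 : c24.mem d u → R)
    (h25 : c25.mem d u → R)
    : R := by
  rcases le_total u (24 + (-48) * d) with e17 | e17
  · exact h17 (by mem_tac c17)
  rcases le_total u (12 + (12) * d) with e18 | e18
  · exact h18 (by mem_tac c18)
  rcases le_total u (30 + (-54) * d) with e19 | e19
  · exact h19 (by mem_tac c19)
  rcases le_total u (24 + (-24) * d) with e20 | e20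
  · exact h20 (by mem_tac c20)
  rcases le_total u (24 + (0) * d) with e21 | e21
  · exact h21 (by mem_tac c21)
  rcases le_total u (24 + (24) * d) with e22 | e22
  · exact h22 (by mem_tac c22)
  rcases le_total u (30 + (30) * d) with e23 | e23
  · exact h23 (by mem_tac c23)
  rcases le_total u (40 + (0) * d) with e24 | e24
  · exact h24 (by mem_tac c24)
  exact h25 (by mem_tac c25)

theorem strip5 {R : Prop} {d u : ℝ} (d0 : (3 / 11 : ℝ) ≤ d) (d1 : d ≤ (1 / 3 : ℝ)) (hu : 6 + 6 * d ≤ u)
    (h17 : c17.mem d u → R)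
    (h26 : c26.mem d u → R)
    (h27 : c27.mem d u → R)
    (h28 : c28.mem d u → R)
    (h21 : c21.mem d u → R)
    (h22 : c22.mem d u → R)
    (h23 : c23.mem d u → R)
    (h24 : c24.mem d u → R)
    (h25 : c25.mem d u → R)
    : R := by
  rcases le_total u (24 + (-48) * d) with e17 | e17
  · exact h17 (by mem_tac c17)
  rcases le_total u (30 + (-54) * d) with e26 | e26
  · exact h26 (by mem_tac c26)
  rcases le_total u (12 + (12) * d) with e27 | e27
  · exact h27 (by mem_tac c27)
  rcases le_total u (24 + (-24) * d) with e28 | e28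
  · exact h28 (by mem_tac c28)
  rcases le_total u (24 + (0) * d) with e21 | e21
  · exact h21 (by mem_tac c21)
  rcases le_total u (24 + (24) * d) with e22 | e22
  · exact h22 (by mem_tac c22)
  rcases le_total u (30 + (30) * d) with e23 | e23
  · exact h23 (by mem_tac c23)
  rcases le_total u (40 + (0) * d) with e24 | e24
  · exact h24 (by mem_tac c24)
  exact h25 (by mem_tac c25)

theorem strip6 {R : Prop} {d u : ℝ} (d0 : (1 / 3 : ℝ) ≤ d) (d1 : d ≤ (2 / 5 : ℝ)) (hu : 6 + 6 * d ≤ u)
    (h29 : c29.mem d u → R)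
    (h30 : c30.mem d u → R)
    (h31 : c31.mem d u → R)
    (h32 : c32.mem d u → R)
    (h33 : c33.mem d u → R)
    (h34 : c34.mem d u → R)
    (h35 : c35.mem d u → R)
    (h36 : c36.mem d u → R)
    : R := by
  rcases le_total u (30 + (-54) * d) with e29 | e29
  · exact h29 (by mem_tac c29)
  rcases le_total u (24 + (-24) * d) with e30 | e30
  · exact h30 (by mem_tac c30)
  rcases le_total u (12 + (12) * d) with e31 | e31
  · exact h31 (by mem_tac c31)
  rcases le_total u (24 + (0) * d) with e32 | e32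
  · exact h32 (by mem_tac c32)
  rcases le_total u (24 + (24) * d) with e33 | e33
  · exact h33 (by mem_tac c33)
  rcases le_total u (40 + (0) * d) with e34 | e34
  · exact h34 (by mem_tac c34)
  rcases le_total u (30 + (30) * d) with e35 | e35
  · exact h35 (by mem_tac c35)
  exact h36 (by mem_tac c36)

theorem strip7 {R : Prop} {d u : ℝ} (d0 : (2 / 5 : ℝ) ≤ d) (d1 : d ≤ (1 / 2 : ℝ)) (hu : 6 + 6 * d ≤ u)
    (h37 : c37.mem d u → R)
    (h31 : c31.mem d u → R)
    (h32 : c32.mem d u → R)
    (h33 : c33.mem d u → R)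
    (h34 : c34.mem d u → R)
    (h35 : c35.mem d u → R)
    (h36 : c36.mem d u → R)
    : R := by
  rcases le_total u (24 + (-24) * d) with e37 | e37
  · exact h37 (by mem_tac c37)
  rcases le_total u (12 + (12) * d) with e31 | e31
  · exact h31 (by mem_tac c31)
  rcases le_total u (24 + (0) * d) with e32 | e32
  · exact h32 (by mem_tac c32)
  rcases le_total u (24 + (24) * d) with e33 | e33
  · exact h33 (by mem_tac c33)
  rcases le_total u (40 + (0) * d) with e34 | e34
  · exact h34 (by mem_tac c34)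
  rcases le_total u (30 + (30) * d) with e35 | e35
  · exact h35 (by mem_tac c35)
  exact h36 (by mem_tac c36)

theorem strip8 {R : Prop} {d u : ℝ} (d0 : (1 / 2 : ℝ) ≤ d) (d1 : d ≤ (5 / 9 : ℝ)) (hu : 6 + 6 * d ≤ u)
    (h38 : c38.mem d u → R)
    (h39 : c39.mem d u → R)
    (h40 : c40.mem d u → R)
    (h41 : c41.mem d u → R)
    (h42 : c42.mem d u → R)
    (h43 : c43.mem d u → R)
    (h44 : c44.mem d u → R)
    : R := by
  rcases le_total u (24 + (-24) * d) with e38 | e38
  · exact h38 (by mem_tac c38)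
  rcases le_total u (12 + (12) * d) with e39 | e39
  · exact h39 (by mem_tac c39)
  rcases le_total u (24 + (0) * d) with e40 | e40
  · exact h40 (by mem_tac c40)
  rcases le_total u (24 + (24) * d) with e41 | e41
  · exact h41 (by mem_tac c41)
  rcases le_total u (40 + (0) * d) with e42 | e42
  · exact h42 (by mem_tac c42)
  rcases le_total u (30 + (30) * d) with e43 | e43
  · exact h43 (by mem_tac c43)
  exact h44 (by mem_tac c44)

theorem strip9 {R : Prop} {d u : ℝ} (d0 : (5 / 9 : ℝ) ≤ d) (d1 : d ≤ (3 / 5 : ℝ)) (hu : 6 + 6 * d ≤ u)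
    (h45 : c45.mem d u → R)
    (h46 : c46.mem d u → R)
    (h47 : c47.mem d u → R)
    (h48 : c48.mem d u → R)
    (h49 : c49.mem d u → R)
    (h50 : c50.mem d u → R)
    (h51 : c51.mem d u → R)
    : R := by
  rcases le_total u (24 + (-24) * d) with e45 | e45
  · exact h45 (by mem_tac c45)
  rcases le_total u (12 + (12) * d) with e46 | e46
  · exact h46 (by mem_tac c46)
  rcases le_total u (24 + (0) * d) with e47 | e47
  · exact h47 (by mem_tac c47)
  rcases le_total u (24 + (24) * d) with e48 | e48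
  · exact h48 (by mem_tac c48)
  rcases le_total u (40 + (0) * d) with e49 | e49
  · exact h49 (by mem_tac c49)
  rcases le_total u (30 + (30) * d) with e50 | e50
  · exact h50 (by mem_tac c50)
  exact h51 (by mem_tac c51)

theorem strip10 {R : Prop} {d u : ℝ} (d0 : (3 / 5 : ℝ) ≤ d) (d1 : d ≤ (2 / 3 : ℝ)) (hu : 6 + 6 * d ≤ u)
    (h52 : c52.mem d u → R)
    (h47 : c47.mem d u → R)
    (h48 : c48.mem d u → R)
    (h49 : c49.mem d u → R)
    (h50 : c50.mem d u → R)
    (h51 : c51.mem d u → R)
    : R := by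
  rcases le_total u (12 + (12) * d) with e52 | e52
  · exact h52 (by mem_tac c52)
  rcases le_total u (24 + (0) * d) with e47 | e47
  · exact h47 (by mem_tac c47)
  rcases le_total u (24 + (24) * d) with e48 | e48
  · exact h48 (by mem_tac c48)
  rcases le_total u (40 + (0) * d) with e49 | e49
  · exact h49 (by mem_tac c49)
  rcases le_total u (30 + (30) * d) with e50 | e50
  · exact h50 (by mem_tac c50)
  exact h51 (by mem_tac c51)

theorem strip11 {R : Prop} {d u : ℝ} (d0 : (2 / 3 : ℝ) ≤ d) (d1 : d ≤ (1 / 1 : ℝ)) (hu : 6 + 6 * d ≤ u)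
    (h52 : c52.mem d u → R)
    (h47 : c47.mem d u → R)
    (h53 : c53.mem d u → R)
    (h54 : c54.mem d u → R)
    (h55 : c55.mem d u → R)
    (h56 : c56.mem d u → R)
    (h57 : c57.mem d u → R)
    : R := by
  rcases le_total u (12 + (12) * d) with e52 | e52
  · exact h52 (by mem_tac c52)
  rcases le_total u (24 + (0) * d) with e47 | e47
  · exact h47 (by mem_tac c47)
  rcases le_total u (30 + (0) * d) with e53 | e53
  · exact h53 (by mem_tac c53)
  rcases le_total u (40 + (0) * d) with e54 | e54
  · exact h54 (by mem_tac c54)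
  rcases le_total u (24 + (24) * d) with e55 | e55
  · exact h55 (by mem_tac c55)
  rcases le_total u (30 + (30) * d) with e56 | e56
  · exact h56 (by mem_tac c56)
  exact h57 (by mem_tac c57)

theorem cover {R : Prop} {d u : ℝ} (d0 : 0 ≤ d) (d1 : d ≤ 1) (hu : 6 + 6 * d ≤ u)
    (h0 : c0.mem d u → R)
    (h1 : c1.mem d u → R)
    (h2 : c2.mem d u → R)
    (h3 : c3.mem d u → R)
    (h4 : c4.mem d u → R)
    (h5 : c5.mem d u → R)
    (h6 : c6.mem d u → R)
    (h7 : c7.mem d u → R)
    (h8 : c8.mem d u → R)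
    (h9 : c9.mem d u → R)
    (h10 : c10.mem d u → R)
    (h11 : c11.mem d u → R)
    (h12 : c12.mem d u → R)
    (h13 : c13.mem d u → R)
    (h14 : c14.mem d u → R)
    (h15 : c15.mem d u → R)
    (h16 : c16.mem d u → R)
    (h17 : c17.mem d u → R)
    (h18 : c18.mem d u → R)
    (h19 : c19.mem d u → R)
    (h20 : c20.mem d u → R)
    (h21 : c21.mem d u → R)
    (h22 : c22.mem d u → R)
    (h23 : c23.mem d u → R)
    (h24 : c24.mem d u → R)
    (h25 : c25.mem d u → R)
    (h26 : c26.mem d u → R)
    (h27 : c27.mem d u → R)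
    (h28 : c28.mem d u → R)
    (h29 : c29.mem d u → R)
    (h30 : c30.mem d u → R)
    (h31 : c31.mem d u → R)
    (h32 : c32.mem d u → R)
    (h33 : c33.mem d u → R)
    (h34 : c34.mem d u → R)
    (h35 : c35.mem d u → R)
    (h36 : c36.mem d u → R)
    (h37 : c37.mem d u → R)
    (h38 : c38.mem d u → R)
    (h39 : c39.mem d u → R)
    (h40 : c40.mem d u → R)
    (h41 : c41.mem d u → R)
    (h42 : c42.mem d u → R)
    (h43 : c43.mem d u → R)
    (h44 : c44.mem d u → R)
    (h45 : c45.mem d u → R)
    (h46 : c46.mem d u → R)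
    (h47 : c47.mem d u → R)
    (h48 : c48.mem d u → R)
    (h49 : c49.mem d u → R)
    (h50 : c50.mem d u → R)
    (h51 : c51.mem d u → R)
    (h52 : c52.mem d u → R)
    (h53 : c53.mem d u → R)
    (h54 : c54.mem d u → R)
    (h55 : c55.mem d u → R)
    (h56 : c56.mem d u → R)
    (h57 : c57.mem d u → R)
    : R := by
  rcases le_total d (1 / 13 : ℝ) with e0 | e0
  · exact strip0 (by linarith) (by linarith) hu h0 h1 h2 h3 h4 h5 h6 h7 h8 h9
  rcases le_total d (1 / 9 : ℝ) with e1 | e1
  · exact strip1 (by linarith) (by linarith) hu h0 h1 h2 h3 h4 h10 h11 h12 h8 h9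
  rcases le_total d (1 / 7 : ℝ) with e2 | e2
  · exact strip2 (by linarith) (by linarith) hu h0 h1 h2 h3 h13 h14 h15 h12 h8 h9
  rcases le_total d (1 / 5 : ℝ) with e3 | e3
  · exact strip3 (by linarith) (by linarith) hu h16 h2 h3 h13 h14 h15 h12 h8 h9
  rcases le_total d (3 / 11 : ℝ) with e4 | e4
  · exact strip4 (by linarith) (by linarith) hu h17 h18 h19 h20 h21 h22 h23 h24 h25
  rcases le_total d (1 / 3 : ℝ) with e5 | e5
  · exact strip5 (by linarith) (by linarith) hu h17 h26 h27 h28 h21 h22 h23 h24 h25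
  rcases le_total d (2 / 5 : ℝ) with e6 | e6
  · exact strip6 (by linarith) (by linarith) hu h29 h30 h31 h32 h33 h34 h35 h36
  rcases le_total d (1 / 2 : ℝ) with e7 | e7
  · exact strip7 (by linarith) (by linarith) hu h37 h31 h32 h33 h34 h35 h36
  rcases le_total d (5 / 9 : ℝ) with e8 | e8
  · exact strip8 (by linarith) (by linarith) hu h38 h39 h40 h41 h42 h43 h44
  rcases le_total d (3 / 5 : ℝ) with e9 | e9
  · exact strip9 (by linarith) (by linarith) hu h45 h46 h47 h48 h49 h50 h51
  rcases le_total d (2 / 3 : ℝ) with e10 | e10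
  · exact strip10 (by linarith) (by linarith) hu h52 h47 h48 h49 h50 h51
  exact strip11 (by linarith) (by linarith) hu h52 h47 h53 h54 h55 h56 h57

end Crest.Agent.R310.H17
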