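import Crest.Agent.R310.H17C0
import Crest.Agent.R310.H17C1
import Crest.Agent.R310.H17C2
import Crest.Agent.R310.H17C3
import Crest.Agent.R310.H17C4
import Crest.Agent.R310.H17C5
import Crest.Agent.R310.H17Geo

/-! # Row 310: the inequality (N) -/

set_option autoImplicit false

namespace Crest.Agent.R310.H17

theorem hypN : Des.HypN := hypN_of_NR fun _ _ d0 d1 hu => cover d0 d1 hu
  (c0.sound geo0 (Cell.cert_of far0_0 near0_0) (Cell.cert_of far0_1 near0_1) d0 d1 hu)
  (c1.sound geo1 (Cell.cert_of far1_0 near1_0) (Cell.cert_of far1_1 near1_1) d0 d1 hu)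
  (c2.sound geo2 (Cell.cert_of far2_0 near2_0) (Cell.cert_of far2_1 near2_1) d0 d1 hu)
  (c3.sound geo3 (Cell.cert_of far3_0 near3_0) (Cell.cert_of far3_1 near3_1) d0 d1 hu)
  (c4.sound geo4 (Cell.cert_of far4_0 near4_0) (Cell.cert_of far4_1 near4_1) d0 d1 hu)
  (c5.sound geo5 (Cell.cert_of far5_0 near5_0) (Cell.cert_of far5_1 near5_1) d0 d1 hu)
  (c6.sound geo6 (Cell.cert_of far6_0 near6_0) (Cell.cert_of far6_1 near6_1) d0 d1 hu)
  (c7.sound geo7 (Cell.cert_of far7_0 near7_0) (Cell.cert_of far7_1 near7_1) d0 d1 hu)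
  (c8.sound geo8 (Cell.cert_of far8_0 near8_0) (Cell.cert_of far8_1 near8_1) d0 d1 hu)
  (c9.sound geo9 (Cell.cert_of far9_0 near9_0) (Cell.cert_of far9_1 near9_1) d0 d1 hu)
  (c10.sound geo10 (Cell.cert_of far10_0 near10_0) (Cell.cert_of far10_1 near10_1) d0 d1 hu)
  (c11.sound geo11 (Cell.cert_of far11_0 near11_0) (Cell.cert_of far11_1 near11_1) d0 d1 hu)
  (c12.sound geo12 (Cell.cert_of far12_0 near12_0) (Cell.cert_of far12_1 near12_1) d0 d1 hu)
  (c13.sound geo13 (Cell.cert_of far13_0 near13_0) (Cell.cert_of far13_1 near13_1) d0 d1 hu)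
  (c14.sound geo14 (Cell.cert_of far14_0 near14_0) (Cell.cert_of far14_1 near14_1) d0 d1 hu)
  (c15.sound geo15 (Cell.cert_of far15_0 near15_0) (Cell.cert_of far15_1 near15_1) d0 d1 hu)
  (c16.sound geo16 (Cell.cert_of far16_0 near16_0) (Cell.cert_of far16_1 near16_1) d0 d1 hu)
  (c17.sound geo17 (Cell.cert_of far17_0 near17_0) (Cell.cert_of far17_1 near17_1) d0 d1 hu)
  (c18.sound geo18 (Cell.cert_of far18_0 near18_0) (Cell.cert_of far18_1 near18_1) d0 d1 hu)
  (c19.sound geo19 (Cell.cert_of far19_0 near19_0) (Cell.cert_of far19_1 near19_1) d0 d1 hu)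
  (c20.sound geo20 (Cell.cert_of far20_0 near20_0) (Cell.cert_of far20_1 near20_1) d0 d1 hu)
  (c21.sound geo21 (Cell.cert_of far21_0 near21_0) (Cell.cert_of far21_1 near21_1) d0 d1 hu)
  (c22.sound geo22 (Cell.cert_of far22_0 near22_0) (Cell.cert_of far22_1 near22_1) d0 d1 hu)
  (c23.sound geo23 (Cell.cert_of far23_0 near23_0) (Cell.cert_of far23_1 near23_1) d0 d1 hu)
  (c24.sound geo24 (Cell.cert_of far24_0 near24_0) (Cell.cert_of far24_1 near24_1) d0 d1 hu)
  (c25.sound geo25 (Cell.cert_of far25_0 near25_0) (Cell.cert_of far25_1 near25_1) d0 d1 hu)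
  (c26.sound geo26 (Cell.cert_of far26_0 near26_0) (Cell.cert_of far26_1 near26_1) d0 d1 hu)
  (c27.sound geo27 (Cell.cert_of far27_0 near27_0) (Cell.cert_of far27_1 near27_1) d0 d1 hu)
  (c28.sound geo28 (Cell.cert_of far28_0 near28_0) (Cell.cert_of far28_1 near28_1) d0 d1 hu)
  (c29.sound geo29 (Cell.cert_of far29_0 near29_0) (Cell.cert_of far29_1 near29_1) d0 d1 hu)
  (c30.sound geo30 (Cell.cert_of far30_0 near30_0) (Cell.cert_of far30_1 near30_1) d0 d1 hu)
  (c31.sound geo31 (Cell.cert_of far31_0 near31_0) (Cell.cert_of far31_1 near31_1) d0 d1 hu)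
  (c32.sound geo32 (Cell.cert_of far32_0 near32_0) (Cell.cert_of far32_1 near32_1) d0 d1 hu)
  (c33.sound geo33 (Cell.cert_of far33_0 near33_0) (Cell.cert_of far33_1 near33_1) d0 d1 hu)
  (c34.sound geo34 (Cell.cert_of far34_0 near34_0) (Cell.cert_of far34_1 near34_1) d0 d1 hu)
  (c35.sound geo35 (Cell.cert_of far35_0 near35_0) (Cell.cert_of far35_1 near35_1) d0 d1 hu)
  (c36.sound geo36 (Cell.cert_of far36_0 near36_0) (Cell.cert_of far36_1 near36_1) d0 d1 hu)
  (c37.sound geo37 (Cell.cert_of far37_0 near37_0) (Cell.cert_of far37_1 near37_1) d0 d1 hu)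
  (c38.sound geo38 (Cell.cert_of far38_0 near38_0) (Cell.cert_of far38_1 near38_1) d0 d1 hu)
  (c39.sound geo39 (Cell.cert_of far39_0 near39_0) (Cell.cert_of far39_1 near39_1) d0 d1 hu)
  (c40.sound geo40 (Cell.cert_of far40_0 near40_0) (Cell.cert_of far40_1 near40_1) d0 d1 hu)
  (c41.sound geo41 (Cell.cert_of far41_0 near41_0) (Cell.cert_of far41_1 near41_1) d0 d1 hu)
  (c42.sound geo42 (Cell.cert_of far42_0 near42_0) (Cell.cert_of far42_1 near42_1) d0 d1 hu)
  (c43.sound geo43 (Cell.cert_of far43_0 near43_0) (Cell.cert_of far43_1 near43_1) d0 d1 hu)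
  (c44.sound geo44 (Cell.cert_of far44_0 near44_0) (Cell.cert_of far44_1 near44_1) d0 d1 hu)
  (c45.sound geo45 (Cell.cert_of far45_0 near45_0) (Cell.cert_of far45_1 near45_1) d0 d1 hu)
  (c46.sound geo46 (Cell.cert_of far46_0 near46_0) (Cell.cert_of far46_1 near46_1) d0 d1 hu)
  (c47.sound geo47 (Cell.cert_of far47_0 near47_0) (Cell.cert_of far47_1 near47_1) d0 d1 hu)
  (c48.sound geo48 (Cell.cert_of far48_0 near48_0) (Cell.cert_of far48_1 near48_1) d0 d1 hu)
  (c49.sound geo49 (Cell.cert_of far49_0 near49_0) (Cell.cert_of far49_1 near49_1) d0 d1 hu)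
  (c50.sound geo50 (Cell.cert_of far50_0 near50_0) (Cell.cert_of far50_1 near50_1) d0 d1 hu)
  (c51.sound geo51 (Cell.cert_of far51_0 near51_0) (Cell.cert_of far51_1 near51_1) d0 d1 hu)
  (c52.sound geo52 (Cell.cert_of far52_0 near52_0) (Cell.cert_of far52_1 near52_1) d0 d1 hu)
  (c53.sound geo53 (Cell.cert_of far53_0 near53_0) (Cell.cert_of far53_1 near53_1) d0 d1 hu)
  (c54.sound geo54 (Cell.cert_of far54_0 near54_0) (Cell.cert_of far54_1 near54_1) d0 d1 hu)
  (c55.sound geo55 (Cell.cert_of far55_0 near55_0) (Cell.cert_of far55_1 near55_1) d0 d1 hu)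
  (c56.sound geo56 (Cell.cert_of far56_0 near56_0) (Cell.cert_of far56_1 near56_1) d0 d1 hu)
  (c57.sound geo57 (Cell.cert_of far57_0 near57_0) (Cell.cert_of far57_1 near57_1) d0 d1 hu)

end Crest.Agent.R310.H17
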