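import Crest.Agent.R310.H17Eval

/-! # Row 310: soundness of the certificates of one side -/

set_option autoImplicit false

open Set Crest.Agent.Lib.PolyBB Crest.Agent.R310.Des

namespace Crest.Agent.R310.H17

/-- ends of the ranges of `c` -/
def rvR (k : ℕ) (u q : ℝ) : ℝ :=
  match k with
  | 0 => 24
  | 1 => 40
  | 2 => 4 * q
  | 3 => 5 * q
  | _ => u

/-- The ranges cover the radii `24 ≤ c < min u 40` in the three pieces. -/
def Rng (l2 h2 l3 h3 l4 h4 : ℕ) (u q : ℝ) : Prop :=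
  ∀ c : ℝ, 24 ≤ c → c < u → c < 40 →
    (c < 4 * q → rvR l2 u q ≤ c ∧ c ≤ rvR h2 u q) ∧
    (4 * q ≤ c → c < 5 * q → rvR l3 u q ≤ c ∧ c ≤ rvR h3 u q) ∧
    (5 * q ≤ c → rvR l4 u q ≤ c ∧ c ≤ rvR h4 u q)

noncomputable def HR (b bo u uo q qo τ : ℝ) : ℝ :=
  τ + (Phi bo uo (4 * qo) - uo * (1 - bo)) + (1 - bo) * (u - Phi b u (4 * q))

noncomputable def gR (b q dl : ℝ) : ℝ := dl - Phi b dl (4 * q)

/-- The inequalities of one side for `ρ = 24`. -/
structure SideR (b bo u uo q qo dl τ : ℝ) : Prop where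
  I : 0 ≤ τ + (Phi bo uo (4 * qo) - uo * (1 - bo))
  B : ∀ w, 0 ≤ w → w ≤ 1 → Kl u 24 w < 1 →
    S b u (4 * q) w * (1 - bo * max 0 (Kl u 24 w)) ≤
      HR b bo u uo q qo τ + bo * (1 - max 0 (Kl u 24 w)) * gR b q dl
  C : ∀ K, 0 ≤ K → K ≤ 1 → cK 24 K < u →
    (N b (cK 24 K) (4 * q) - Phi b u (4 * q)) * (1 - bo * K) ≤
      HR b bo u uo q qo τ + bo * (1 - K) * gR b q dl

/-- The values of the terms of a side on the fibre over `(m, s, d, μ)`. -/
structure Vals (h : Side) (m s d μ b bo u uo q qo dl τ : ℝ) : Prop where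
  hb : ∀ θ l p, h.b.eval (pt [θ, m, s, d, μ, l]) p = b
  hbo : ∀ θ l p, h.bo.eval (pt [θ, m, s, d, μ, l]) p = bo
  hu : ∀ θ l p, h.u.eval (pt [θ, m, s, d, μ, l]) p = u
  huo : ∀ θ l p, h.uo.eval (pt [θ, m, s, d, μ, l]) p = uo
  hq : ∀ θ l p, h.q.eval (pt [θ, m, s, d, μ, l]) p = q
  hqo : ∀ θ l p, h.qo.eval (pt [θ, m, s, d, μ, l]) p = qo
  hdl : ∀ θ l p, h.dl.eval (pt [θ, m, s, d, μ, l]) p = dl
  ht : ∀ θ l p, h.t.eval (pt [θ, m, s, d, μ, l]) p = 100000 * τ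

/-- The geometric facts. -/
structure Geo (h : Side) (b bo u uo q qo dl : ℝ) : Prop where
  hb : b ∈ Icc (0 : ℝ) 1
  hbo : bo ∈ Icc (0 : ℝ) 1
  hu : 0 < u
  hq : 0 ≤ q
  hqo : 0 ≤ qo
  hq12 : q ≤ 12
  hj1 : 1 ≤ h.j
  hj : Pc h.j u q
  hjo : Pc h.jo uo qo
  hjg : Pc h.jg dl q
  hr : Rng h.l2 h.h2 h.l3 h.h3 h.l4 h.h4 u q

variable {h : Side} {B : Box} {m s d μ b bo u uo q qo dl τ : ℝ}

theorem ts_le (V : Vals h m s d μ b bo u uo q qo dl τ) (G : Geo h b bo u uo q qo dl) {θ w : ℝ}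
    {p : ℕ → ℤ} (eE : h.e.eval (pt [θ, m, s, d, μ, w]) p = 100000 * Real.exp (-b)) (cp : Bool) :
    (h.ts cp).eval (pt [θ, m, s, d, μ, w]) p ≤
      100000 * (τ + (Phi bo uo (4 * qo) - uo * (1 - bo))) := by
  have := PhiP_le (eE := cond cp (EoE h.b h.e h.bo) (EE h.bo (.cst 0))) G.hqo G.hjo
    (V.hbo θ w p) (V.huo θ w p) (V.hqo θ w p) (by
      cases cp
      · exact EE_zero_le G.hbo (V.hbo θ w p)
      · exact EoE_le G.hb G.hbo (V.hb θ w p) (V.hbo θ w p) eE)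
  rw [Side.ts, E.eval_add, E.eval_sub, E.eval_mul, omE_eval (V.hbo θ w p), V.ht, V.huo]
  linarith

theorem rv_eval (V : Vals h m s d μ b bo u uo q qo dl τ) (θ w : ℝ) (p : ℕ → ℤ) (k : ℕ) :
    (h.rv k).eval (pt [θ, m, s, d, μ, w]) p = rvR k u q := by
  match k with
  | 0 => simp [Side.rv, rvR]
  | 1 => simp [Side.rv, rvR]
  | 2 => simp [Side.rv, rvR, V.hq]
  | 3 => simp [Side.rv, rvR, V.hq]
  | k + 4 => exact V.hu θ w p

theorem exists_l {x y c : ℝ} (h1 : x ≤ c) (h2 : c ≤ y) :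
    ∃ l ∈ Icc (0 : ℝ) 1, x + l * (y - x) = c := by
  rcases (h1.trans h2).eq_or_lt with e | e
  · exact ⟨0, ⟨le_rfl, zero_le_one⟩, by linarith⟩
  · have h3 : 0 < y - x := by linarith
    refine ⟨(c - x) / (y - x), ⟨div_nonneg (by linarith) h3.le, (div_le_one h3).2 (by linarith)⟩, ?_⟩
    rw [div_mul_cancel₀ _ h3.ne']
    ring

theorem cK_mul {K : ℝ} (h1 : K ≤ 1) : cK 24 K * (5 - 2 * K) = 120 := by
  rw [cK, div_mul_cancel₀ _ (by linarith : (0 : ℝ) < 5 - 2 * K).ne']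
  norm_num

theorem sound_I (V : Vals h m s d μ b bo u uo q qo dl τ) (G : Geo h b bo u uo q qo dl)
    (hB : ∀ θ ∈ Icc (0 : ℝ) 1, ∀ l ∈ Icc (0 : ℝ) 1, B.mem (pt [θ, m, s, d, μ, l]))
    (H : Holds h.famI [] B) : 0 ≤ τ + (Phi bo uo (4 * qo) - uo * (1 - bo)) := by
  obtain ⟨θ, hθ, he⟩ := EE_band G.hb
  obtain ⟨k, p, -, H⟩ := H.elim (hB θ hθ 0 ⟨le_rfl, zero_le_one⟩)
  have h1 := H (h.ts false) (by simp [Side.famI])
  have h2 := ts_le V G (he _ p _ _ (V.hb θ 0 p) rfl) false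
  linarith

/-- `F K = H + bo (1 - K) g - S (1 - bo K)` is affine, `F (ν Kl) ≥ 0` by the certificate
(`ν = p 0 / 128 ∈ [0, 1]`, `Kn = 2 u Kl`), `F 1 ≥ 0` by `hI` and `S_le`, and
`ν Kl ≤ max 0 Kl ≤ 1`. -/
theorem sound_B (V : Vals h m s d μ b bo u uo q qo dl τ) (G : Geo h b bo u uo q qo dl)
    (hB : ∀ θ ∈ Icc (0 : ℝ) 1, ∀ l ∈ Icc (0 : ℝ) 1, B.mem (pt [θ, m, s, d, μ, l]))
    (hI : 0 ≤ τ + (Phi bo uo (4 * qo) - uo * (1 - bo))) (H : Holds h.famB [] B)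
    (w : ℝ) (h0 : 0 ≤ w) (h1 : w ≤ 1) (hK : Kl u 24 w < 1) :
    S b u (4 * q) w * (1 - bo * max 0 (Kl u 24 w)) ≤
      HR b bo u uo q qo τ + bo * (1 - max 0 (Kl u 24 w)) * gR b q dl := by
  obtain ⟨θ, hθ, he⟩ := EE_band G.hb
  obtain ⟨k, p, -, H⟩ := H.elim (hB θ hθ w ⟨h0, h1⟩)
  have hu := G.hu
  have eE : h.e.eval (pt [θ, m, s, d, μ, w]) p = 100000 * Real.exp (-b) :=
    he _ p _ _ (V.hb θ w p) rfl
  have eK : h.Kn.eval (pt [θ, m, s, d, μ, w]) p = 2 * u * Kl u 24 w := by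
    simp only [Side.Kn, E.eval_add, E.eval_sub, E.eval_mul, E.eval_cst, E.eval_var, V.hu, pt_succ,
      pt_zero, Kl]
    push_cast
    field_simp
    ring
  have eP : h.ph.eval (pt [θ, m, s, d, μ, w]) p = 100000 * Phi b u (4 * q) :=
    PhiP_eq G.hq G.hj (V.hb θ w p) (V.hu θ w p) (V.hq θ w p) eE
  have eG : h.g.eval (pt [θ, m, s, d, μ, w]) p = 100000 * gR b q dl := by
    rw [Side.g, E.eval_sub, PhiP_eq G.hq G.hjg (V.hb θ w p) (V.hdl θ w p) (V.hq θ w p) eE,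
      E.eval_mul, E.eval_cst, V.hdl, gR]
    push_cast
    ring
  have eS := SP_ge (wE := .var 5) G.hb ⟨h0, h1⟩ G.hq G.hj1 G.hj (V.hb θ w p) (V.hu θ w p)
    (V.hq θ w p) (rfl : (E.var 5).eval (pt [θ, m, s, d, μ, w]) p = w) eE
  have eT : ∀ cp, (h.ts cp).eval (pt [θ, m, s, d, μ, w]) p ≤
      100000 * (τ + (Phi bo uo (4 * qo) - uo * (1 - bo))) := by
    intro cp
    have := PhiP_le (eE := cond cp (EoE h.b h.e h.bo) (EE h.bo (.cst 0))) G.hqo G.hjo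
      (V.hbo θ w p) (V.huo θ w p) (V.hqo θ w p) (by
        cases cp
        · exact EE_zero_le G.hbo (V.hbo θ w p)
        · exact EoE_le G.hb G.hbo (V.hb θ w p) (V.hbo θ w p) eE)
    rw [Side.ts, E.eval_add, E.eval_sub, E.eval_mul, omE_eval (V.hbo θ w p), V.ht, V.huo]
    linarith
  have main : ∀ cp, 0 ≤ (h.mainB cp).eval (pt [θ, m, s, d, μ, w]) p →
      0 ≤ nuE.eval (pt [θ, m, s, d, μ, w]) p →
      S b u (4 * q) w * (1 - bo * max 0 (Kl u 24 w)) ≤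
        HR b bo u uo q qo τ + bo * (1 - max 0 (Kl u 24 w)) * gR b q dl := by
    intro cp a1 a2
    simp only [nuE, E.eval_mul, E.eval_sub, E.eval_par, E.eval_cst] at a2
    simp only [Side.mainB, E.eval_add, E.eval_sub, E.eval_mul, E.eval_par, E.eval_cst, eK, eP, eG,
      V.hu, V.hbo] at a1
    push_cast at a1 a2
    have eT := eT cp
    have hS := S_le u (by linarith [G.hq] : 0 ≤ 4 * q) G.hb ⟨h0, h1⟩
    obtain ⟨b0, b1⟩ := G.hbo
    generalize (h.ts cp).eval (pt [θ, m, s, d, μ, w]) p = T at a1 eT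
    generalize (SP h.j h.e h.b h.u h.q (.var 5)).eval (pt [θ, m, s, d, μ, w]) p = Sp at a1 eS
    generalize S b u (4 * q) w = Sv at *
    generalize gR b q dl = g at *
    have n0 : (0 : ℝ) ≤ p 0 := by nlinarith
    have n1 : (p 0 : ℝ) ≤ 128 := by nlinarith
    have hm0 := le_max_left 0 (Kl u 24 w)
    have hm1 := le_max_right 0 (Kl u 24 w)
    have hm2 : max 0 (Kl u 24 w) < 1 := max_lt one_pos hK
    have hk : p 0 / 128 * Kl u 24 w ≤ max 0 (Kl u 24 w) := by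
      rcases le_total 0 (Kl u 24 w) with e | e
      · rw [max_eq_right e]; nlinarith
      · rw [max_eq_left e]; nlinarith
    generalize max 0 (Kl u 24 w) = K at *
    have e1 : (p 0 : ℝ) * (2 * u * Kl u 24 w) = 256 * u * (p 0 / 128 * Kl u 24 w) := by ring
    rw [e1] at a1
    generalize (p 0 : ℝ) / 128 * Kl u 24 w = k0 at *
    have f0 : 0 ≤ 1 - bo * k0 := by nlinarith
    have f1 : 0 ≤ HR b bo u uo q qo τ + bo * (1 - k0) * g - Sv * (1 - bo * k0) := by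
      refine nonneg_of_mul_nonneg_right (a := 256 * u * 100000) ?_ (by positivity)
      rw [HR]
      nlinarith [mul_le_mul_of_nonneg_left eT hu.le,
        mul_le_mul_of_nonneg_left (mul_le_mul_of_nonneg_right eS f0) hu.le]
    have f2 : 0 ≤ HR b bo u uo q qo τ - Sv * (1 - bo) := by
      rw [HR]
      linarith [mul_le_mul_of_nonneg_right hS (sub_nonneg.2 b1)]
    have f3 : 0 ≤ HR b bo u uo q qo τ + bo * (1 - K) * g - Sv * (1 - bo * K) := by
      refine nonneg_of_mul_nonneg_right (a := 1 - k0) ?_ (by linarith)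
      nlinarith [mul_nonneg (sub_nonneg.2 hm2.le) f1, mul_nonneg (sub_nonneg.2 hk) f2]
    linarith
  match k, H with
  | 0, H => exact main true (H _ (by simp [Side.famB])) (H _ (by simp [Side.famB]))
  | 1, H => exact main false (H _ (by simp [Side.famB])) (H _ (by simp [Side.famB]))
  | k + 2, H =>
    have := H (.sub h.Kn (.mul (.cst 2) h.u)) (by simp [Side.famB])
    rw [E.eval_sub, eK, E.eval_mul, E.eval_cst, V.hu] at this
    push_cast at this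
    nlinarith

/-- One piece: `c = lo + l (hi - lo)`, `2 c (1 - bo K) = 2 c - 5 bo (c - 24)`,
`2 c (1 - K) = 120 - 3 c`. -/
theorem sound_C1 (V : Vals h m s d μ b bo u uo q qo dl τ) (G : Geo h b bo u uo q qo dl)
    (hB : ∀ θ ∈ Icc (0 : ℝ) 1, ∀ l ∈ Icc (0 : ℝ) 1, B.mem (pt [θ, m, s, d, μ, l]))
    {j lo hi : ℕ} (hj : 2 ≤ j) (H : Holds (h.famC j lo hi) [] B) (K : ℝ) (h0 : 0 ≤ K) (h1 : K < 1)
    (hu : cK 24 K < u) (hp : Pc j (cK 24 K) q) (hl : rvR lo u q ≤ cK 24 K)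
    (hh : cK 24 K ≤ rvR hi u q) :
    (N b (cK 24 K) (4 * q) - Phi b u (4 * q)) * (1 - bo * K) ≤
      HR b bo u uo q qo τ + bo * (1 - K) * gR b q dl := by
  obtain ⟨θ, hθ, he⟩ := EE_band G.hb
  obtain ⟨w, hw, hc⟩ := exists_l hl hh
  obtain ⟨k, p, -, H⟩ := H.elim (hB θ hθ w hw)
  have hK := cK_mul h1.le
  generalize cK 24 K = c at *
  have c0 : 0 < c := by nlinarith
  have c1 : c < 40 := by nlinarith
  have eE : h.e.eval (pt [θ, m, s, d, μ, w]) p = 100000 * Real.exp (-b) :=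
    he _ p _ _ (V.hb θ w p) rfl
  have eC : (h.c lo hi).eval (pt [θ, m, s, d, μ, w]) p = c := by
    rw [Side.c, E.eval_add, E.eval_mul, E.eval_sub, rv_eval V, rv_eval V, ← hc]
    rfl
  have eP : h.ph.eval (pt [θ, m, s, d, μ, w]) p = 100000 * Phi b u (4 * q) :=
    PhiP_eq G.hq G.hj (V.hb θ w p) (V.hu θ w p) (V.hq θ w p) eE
  have eG : h.g.eval (pt [θ, m, s, d, μ, w]) p = 100000 * gR b q dl := by
    rw [Side.g, E.eval_sub, PhiP_eq G.hq G.hjg (V.hb θ w p) (V.hdl θ w p) (V.hq θ w p) eE,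
      E.eval_mul, E.eval_cst, V.hdl, gR]
    push_cast
    ring
  have eN := NP_eq G.hq hj hp (V.hb θ w p) eC (V.hq θ w p) eE
  have main : ∀ cp, 0 ≤ (h.mainC j (h.c lo hi) cp).eval (pt [θ, m, s, d, μ, w]) p →
      (N b c (4 * q) - Phi b u (4 * q)) * (1 - bo * K) ≤
        HR b bo u uo q qo τ + bo * (1 - K) * gR b q dl := by
    intro cp a1
    simp only [Side.mainC, E.eval_add, E.eval_sub, E.eval_mul, E.eval_cst, eC, eP, eG, eN,
      V.hu, V.hbo, omE_eval (V.hbo θ w p)] at a1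
    push_cast at a1
    have eT := mul_le_mul_of_nonneg_left (ts_le V G eE cp) c0.le
    rw [← sub_nonneg]
    refine nonneg_of_mul_nonneg_right (a := 200000 * c) ?_ (by positivity)
    rw [HR]
    generalize (h.ts cp).eval (pt [θ, m, s, d, μ, w]) p = T at a1 eT
    generalize gR b q dl = g at *
    generalize N b c (4 * q) = n at *
    generalize Phi b u (4 * q) = f at *
    generalize Phi bo uo (4 * qo) = fo at *
    linear_combination a1 + 2 * eT - 100000 * bo * (f + g - n) * hK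
  match k, H with
  | 0, H => exact main true (H _ (by simp [Side.famC]))
  | 1, H => exact main false (H _ (by simp [Side.famC]))
  | 2, H =>
    have := H (.sub (h.c lo hi) h.u) (by simp [Side.famC])
    rw [E.eval_sub, eC, V.hu] at this
    linarith
  | k + 3, H =>
    have := H (.sub (h.c lo hi) (.cst 40)) (by simp [Side.famC])
    rw [E.eval_sub, eC, E.eval_cst] at this
    push_cast at this
    linarith

/-- `K = 1`: `N b c t ≤ c ≤ u` (`Phi_tan` at `0`) and `sound_I`; `K < 1`: `24 ≤ c < 40`,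
`2 q ≤ 24 ≤ c`, three pieces. -/
theorem Side.sound (V : Vals h m s d μ b bo u uo q qo dl τ) (G : Geo h b bo u uo q qo dl)
    (hB : ∀ θ ∈ Icc (0 : ℝ) 1, ∀ l ∈ Icc (0 : ℝ) 1, B.mem (pt [θ, m, s, d, μ, l]))
    {t0 t2 t3 t4 t5 : T} (hok : h.ok B t0 t2 t3 t4 t5 = true) : SideR b bo u uo q qo dl τ := by
  have hb : ∀ x y, Lib.PolyBB.band x y = true → x = true ∧ y = true := by
    intro x y
    cases x <;> cases y <;> simp [Lib.PolyBB.band]
  obtain ⟨a0, hok⟩ := hb _ _ hok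
  obtain ⟨a2, hok⟩ := hb _ _ hok
  obtain ⟨a3, hok⟩ := hb _ _ hok
  obtain ⟨a4, a5⟩ := hb _ _ hok
  have hI := sound_I V G hB (Holds.of_run a0)
  refine ⟨hI, sound_B V G hB hI (Holds.of_run a5), fun K h0 h1 hu => ?_⟩
  rcases h1.eq_or_lt with rfl | h1
  · have h2 := Phi_tan (cK 24 1) (by linarith [G.hq] : 0 ≤ 4 * q) G.hb ⟨le_rfl, zero_le_one⟩
    rw [Phi_zero _ (by linarith [G.hq])] at h2
    have h3 : N b (cK 24 1) (4 * q) - Phi b u (4 * q) ≤ u - Phi b u (4 * q) := by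
      rw [N]; linarith
    rw [HR]
    linarith [mul_le_mul_of_nonneg_right h3 (sub_nonneg.2 G.hbo.2)]
  · have hK := cK_mul h1.le
    have c0 : 0 < cK 24 K := by nlinarith
    have c1 : cK 24 K < 40 := by nlinarith
    have c2 : 24 ≤ cK 24 K := by nlinarith
    obtain ⟨r2, r3, r4⟩ := G.hr _ c2 hu c1
    rcases lt_or_ge (cK 24 K) (4 * q) with e | e
    · exact sound_C1 V G hB le_rfl (Holds.of_run a2) K h0 h1 hu
        ⟨by linarith [G.hq12], e.le⟩ (r2 e).1 (r2 e).2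
    rcases lt_or_ge (cK 24 K) (5 * q) with e' | e'
    · exact sound_C1 V G hB (by norm_num) (Holds.of_run a3) K h0 h1 hu ⟨e, e'.le⟩
        (r3 e e').1 (r3 e e').2
    · exact sound_C1 V G hB (by norm_num) (Holds.of_run a4) K h0 h1 hu e' (r4 e').1 (r4 e').2

end Crest.Agent.R310.H17
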