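import Crest.Agent.R310.HnCell
import Crest.Agent.R310.HnC0
import Crest.Agent.R310.HnC1
import Crest.Agent.R310.HnC2
import Crest.Agent.R310.HnC3

/-! # Row 310: the inequality (N) -/

set_option autoImplicit false

namespace Crest.Agent.R310.Hn

open Des

section

variable {y y' b b' : ℝ} (y0 : 0 ≤ y') (y1 : y' ≤ y) (y2 : 0 < y) (y3 : y ≤ 2 / 3)
  (b0 : 0 ≤ b) (b1 : b ≤ 1) (b0' : 0 ≤ b') (b1' : b' ≤ 1)

include y0 y1 y2 y3 b0 b1 b0' b1'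

theorem cell0 (h1 : (0 / 1 : ℝ) ≤ y) (h2 : y ≤ (2 / 7 : ℝ)) (h3 : ((0 / 1 : ℝ) + (0 / 1 : ℝ) * y) ≤ y')
    (h4 : y' ≤ ((0 / 1 : ℝ) + (1 / 5 : ℝ) * y)) : ∃ τ, NAt y' y b b' τ :=
  nat2 U0a U0b rfl rfl U0a_ok U0b_ok 1 7 0 2 5 (0) (0) (0) (1) rfl rfl y0 y1 y2 y3 b0 b1 b0' b1'
    (by push_cast; linarith) (by push_cast; linarith) (by push_cast; linarith)
    (by push_cast; linarith)

theorem cell1 (h1 : (0 / 1 : ℝ) ≤ y) (h2 : y ≤ (2 / 7 : ℝ)) (h3 : ((0 / 1 : ℝ) + (1 / 5 : ℝ) * y) ≤ y')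
    (h4 : y' ≤ ((0 / 1 : ℝ) + (1 / 2 : ℝ) * y)) : ∃ τ, NAt y' y b b' τ :=
  nat2 U1a U1b rfl rfl U1a_ok U1b_ok 1 7 0 2 10 (0) (2) (0) (3) rfl rfl y0 y1 y2 y3 b0 b1 b0' b1'
    (by push_cast; linarith) (by push_cast; linarith) (by push_cast; linarith)
    (by push_cast; linarith)

theorem cell2 (h1 : (0 / 1 : ℝ) ≤ y) (h2 : y ≤ (9 / 34 : ℝ)) (h3 : ((0 / 1 : ℝ) + (1 / 2 : ℝ) * y) ≤ y')
    (h4 : y' ≤ ((0 / 1 : ℝ) + (2 / 3 : ℝ) * y)) : ∃ τ, NAt y' y b b' τ :=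
  nat2 U2a U2b rfl rfl U2a_ok U2b_ok 1 34 0 9 6 (0) (3) (0) (1) rfl rfl y0 y1 y2 y3 b0 b1 b0' b1'
    (by push_cast; linarith) (by push_cast; linarith) (by push_cast; linarith)
    (by push_cast; linarith)

theorem cell3 (h1 : (0 / 1 : ℝ) ≤ y) (h2 : y ≤ (3 / 13 : ℝ)) (h3 : ((0 / 1 : ℝ) + (2 / 3 : ℝ) * y) ≤ y')
    (h4 : y' ≤ ((0 / 1 : ℝ) + (1 / 1 : ℝ) * y)) : ∃ τ, NAt y' y b b' τ :=
  nat2 U3a U3b rfl rfl U3a_ok U3b_ok 1 13 0 3 3 (0) (2) (0) (1) rfl rfl y0 y1 y2 y3 b0 b1 b0' b1'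
    (by push_cast; linarith) (by push_cast; linarith) (by push_cast; linarith)
    (by push_cast; linarith)

theorem cell4 (h1 : (3 / 13 : ℝ) ≤ y) (h2 : y ≤ (9 / 34 : ℝ)) (h3 : ((0 / 1 : ℝ) + (2 / 3 : ℝ) * y) ≤ y')
    (h4 : y' ≤ ((3 / 5 : ℝ) + (-8 / 5 : ℝ) * y)) : ∃ τ, NAt y' y b b' τ :=
  nat2 U4a U4b rfl rfl U4a_ok U4b_ok 13 34 3 9 15 (0) (10) (9) (-34) rfl rfl y0 y1 y2 y3 b0 b1 b0' b1'
    (by push_cast; linarith) (by push_cast; linarith) (by push_cast; linarith)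
    (by push_cast; linarith)

theorem cell5 (h1 : (3 / 13 : ℝ) ≤ y) (h2 : y ≤ (9 / 34 : ℝ)) (h3 : ((3 / 5 : ℝ) + (-8 / 5 : ℝ) * y) ≤ y')
    (h4 : y' ≤ ((3 / 8 : ℝ) + (-5 / 8 : ℝ) * y)) : ∃ τ, NAt y' y b b' τ :=
  nat2 U5a U5b rfl rfl U5a_ok U5b_ok 13 34 3 9 40 (24) (-64) (-9) (39) rfl rfl y0 y1 y2 y3 b0 b1 b0' b1'
    (by push_cast; linarith) (by push_cast; linarith) (by push_cast; linarith)
    (by push_cast; linarith)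

theorem cell6 (h1 : (3 / 13 : ℝ) ≤ y) (h2 : y ≤ (2 / 7 : ℝ)) (h3 : ((3 / 8 : ℝ) + (-5 / 8 : ℝ) * y) ≤ y')
    (h4 : y' ≤ ((0 / 1 : ℝ) + (1 / 1 : ℝ) * y)) : ∃ τ, NAt y' y b b' τ :=
  nat2 U6a U6b rfl rfl U6a_ok U6b_ok 13 7 3 2 8 (3) (-5) (-3) (13) rfl rfl y0 y1 y2 y3 b0 b1 b0' b1'
    (by push_cast; linarith) (by push_cast; linarith) (by push_cast; linarith)
    (by push_cast; linarith)

theorem cell7 (h1 : (9 / 34 : ℝ) ≤ y) (h2 : y ≤ (2 / 7 : ℝ)) (h3 : ((0 / 1 : ℝ) + (1 / 2 : ℝ) * y) ≤ y')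
    (h4 : y' ≤ ((3 / 5 : ℝ) + (-8 / 5 : ℝ) * y)) : ∃ τ, NAt y' y b b' τ :=
  nat2 U7a U7b rfl rfl U7a_ok U7b_ok 34 7 9 2 10 (0) (5) (6) (-21) rfl rfl y0 y1 y2 y3 b0 b1 b0' b1'
    (by push_cast; linarith) (by push_cast; linarith) (by push_cast; linarith)
    (by push_cast; linarith)

theorem cell8 (h1 : (9 / 34 : ℝ) ≤ y) (h2 : y ≤ (2 / 7 : ℝ)) (h3 : ((3 / 5 : ℝ) + (-8 / 5 : ℝ) * y) ≤ y')
    (h4 : y' ≤ ((0 / 1 : ℝ) + (2 / 3 : ℝ) * y)) : ∃ τ, NAt y' y b b' τ :=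
  nat2 U8a U8b rfl rfl U8a_ok U8b_ok 34 7 9 2 15 (9) (-24) (-9) (34) rfl rfl y0 y1 y2 y3 b0 b1 b0' b1'
    (by push_cast; linarith) (by push_cast; linarith) (by push_cast; linarith)
    (by push_cast; linarith)

theorem cell9 (h1 : (9 / 34 : ℝ) ≤ y) (h2 : y ≤ (2 / 7 : ℝ)) (h3 : ((0 / 1 : ℝ) + (2 / 3 : ℝ) * y) ≤ y')
    (h4 : y' ≤ ((3 / 8 : ℝ) + (-5 / 8 : ℝ) * y)) : ∃ τ, NAt y' y b b' τ :=
  nat2 U9a U9b rfl rfl U9a_ok U9b_ok 34 7 9 2 24 (0) (16) (9) (-31) rfl rfl y0 y1 y2 y3 b0 b1 b0' b1'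
    (by push_cast; linarith) (by push_cast; linarith) (by push_cast; linarith)
    (by push_cast; linarith)

theorem cell10 (h1 : (2 / 7 : ℝ) ≤ y) (h2 : y ≤ (1 / 3 : ℝ)) (h3 : ((0 / 1 : ℝ) + (0 / 1 : ℝ) * y) ≤ y')
    (h4 : y' ≤ ((0 / 1 : ℝ) + (1 / 5 : ℝ) * y)) : ∃ τ, NAt y' y b b' τ :=
  nat2 U10a U10b rfl rfl U10a_ok U10b_ok 7 3 2 1 5 (0) (0) (0) (1) rfl rfl y0 y1 y2 y3 b0 b1 b0' b1'
    (by push_cast; linarith) (by push_cast; linarith) (by push_cast; linarith)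
    (by push_cast; linarith)

theorem cell11 (h1 : (2 / 7 : ℝ) ≤ y) (h2 : y ≤ (1 / 3 : ℝ)) (h3 : ((0 / 1 : ℝ) + (1 / 5 : ℝ) * y) ≤ y')
    (h4 : y' ≤ ((3 / 5 : ℝ) + (-8 / 5 : ℝ) * y)) : ∃ τ, NAt y' y b b' τ :=
  nat2 U11a U11b rfl rfl U11a_ok U11b_ok 7 3 2 1 5 (0) (1) (3) (-9) rfl rfl y0 y1 y2 y3 b0 b1 b0' b1'
    (by push_cast; linarith) (by push_cast; linarith) (by push_cast; linarith)
    (by push_cast; linarith)

theorem cell12 (h1 : (2 / 7 : ℝ) ≤ y) (h2 : y ≤ (9 / 31 : ℝ)) (h3 : ((3 / 5 : ℝ) + (-8 / 5 : ℝ) * y) ≤ y')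
    (h4 : y' ≤ ((0 / 1 : ℝ) + (2 / 3 : ℝ) * y)) : ∃ τ, NAt y' y b b' τ :=
  nat2 U12a U12b rfl rfl U12a_ok U12b_ok 7 31 2 9 15 (9) (-24) (-9) (34) rfl rfl y0 y1 y2 y3 b0 b1 b0' b1'
    (by push_cast; linarith) (by push_cast; linarith) (by push_cast; linarith)
    (by push_cast; linarith)

theorem cell13 (h1 : (2 / 7 : ℝ) ≤ y) (h2 : y ≤ (9 / 31 : ℝ)) (h3 : ((0 / 1 : ℝ) + (2 / 3 : ℝ) * y) ≤ y')
    (h4 : y' ≤ ((3 / 8 : ℝ) + (-5 / 8 : ℝ) * y)) : ∃ τ, NAt y' y b b' τ :=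
  nat2 U13a U13b rfl rfl U13a_ok U13b_ok 7 31 2 9 24 (0) (16) (9) (-31) rfl rfl y0 y1 y2 y3 b0 b1 b0' b1'
    (by push_cast; linarith) (by push_cast; linarith) (by push_cast; linarith)
    (by push_cast; linarith)

theorem cell14 (h1 : (2 / 7 : ℝ) ≤ y) (h2 : y ≤ (9 / 31 : ℝ)) (h3 : ((3 / 8 : ℝ) + (-5 / 8 : ℝ) * y) ≤ y')
    (h4 : y' ≤ ((2 / 7 : ℝ) + (0 / 1 : ℝ) * y)) : ∃ τ, NAt y' y b b' τ :=
  nat2 U14a U14b rfl rfl U14a_ok U14b_ok 7 31 2 9 56 (21) (-35) (-5) (35) rfl rfl y0 y1 y2 y3 b0 b1 b0' b1'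
    (by push_cast; linarith) (by push_cast; linarith) (by push_cast; linarith)
    (by push_cast; linarith)

theorem cell15 (h1 : (2 / 7 : ℝ) ≤ y) (h2 : y ≤ (1 / 3 : ℝ)) (h3 : ((2 / 7 : ℝ) + (0 / 1 : ℝ) * y) ≤ y')
    (h4 : y' ≤ ((0 / 1 : ℝ) + (1 / 1 : ℝ) * y)) : ∃ τ, NAt y' y b b' τ :=
  nat2 U15a U15b rfl rfl U15a_ok U15b_ok 7 3 2 1 7 (2) (0) (-2) (7) rfl rfl y0 y1 y2 y3 b0 b1 b0' b1'
    (by push_cast; linarith) (by push_cast; linarith) (by push_cast; linarith)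
    (by push_cast; linarith)

theorem cell16 (h1 : (9 / 31 : ℝ) ≤ y) (h2 : y ≤ (1 / 3 : ℝ)) (h3 : ((3 / 5 : ℝ) + (-8 / 5 : ℝ) * y) ≤ y')
    (h4 : y' ≤ ((3 / 8 : ℝ) + (-5 / 8 : ℝ) * y)) : ∃ τ, NAt y' y b b' τ :=
  nat2 U16a U16b rfl rfl U16a_ok U16b_ok 31 3 9 1 40 (24) (-64) (-9) (39) rfl rfl y0 y1 y2 y3 b0 b1 b0' b1'
    (by push_cast; linarith) (by push_cast; linarith) (by push_cast; linarith)
    (by push_cast; linarith)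

theorem cell17 (h1 : (9 / 31 : ℝ) ≤ y) (h2 : y ≤ (1 / 3 : ℝ)) (h3 : ((3 / 8 : ℝ) + (-5 / 8 : ℝ) * y) ≤ y')
    (h4 : y' ≤ ((0 / 1 : ℝ) + (2 / 3 : ℝ) * y)) : ∃ τ, NAt y' y b b' τ :=
  nat2 U17a U17b rfl rfl U17a_ok U17b_ok 31 3 9 1 24 (9) (-15) (-9) (31) rfl rfl y0 y1 y2 y3 b0 b1 b0' b1'
    (by push_cast; linarith) (by push_cast; linarith) (by push_cast; linarith)
    (by push_cast; linarith)

theorem cell18 (h1 : (9 / 31 : ℝ) ≤ y) (h2 : y ≤ (1 / 3 : ℝ)) (h3 : ((0 / 1 : ℝ) + (2 / 3 : ℝ) * y) ≤ y')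
    (h4 : y' ≤ ((2 / 7 : ℝ) + (0 / 1 : ℝ) * y)) : ∃ τ, NAt y' y b b' τ :=
  nat2 U18a U18b rfl rfl U18a_ok U18b_ok 31 3 9 1 21 (0) (14) (6) (-14) rfl rfl y0 y1 y2 y3 b0 b1 b0' b1'
    (by push_cast; linarith) (by push_cast; linarith) (by push_cast; linarith)
    (by push_cast; linarith)

theorem cell19 (h1 : (1 / 3 : ℝ) ≤ y) (h2 : y ≤ (3 / 8 : ℝ)) (h3 : ((0 / 1 : ℝ) + (0 / 1 : ℝ) * y) ≤ y')
    (h4 : y' ≤ ((3 / 5 : ℝ) + (-8 / 5 : ℝ) * y)) : ∃ τ, NAt y' y b b' τ :=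
  nat2 U19a U19b rfl rfl U19a_ok U19b_ok 3 8 1 3 5 (0) (0) (3) (-8) rfl rfl y0 y1 y2 y3 b0 b1 b0' b1'
    (by push_cast; linarith) (by push_cast; linarith) (by push_cast; linarith)
    (by push_cast; linarith)

theorem cell20 (h1 : (1 / 3 : ℝ) ≤ y) (h2 : y ≤ (3 / 8 : ℝ)) (h3 : ((3 / 5 : ℝ) + (-8 / 5 : ℝ) * y) ≤ y')
    (h4 : y' ≤ ((3 / 8 : ℝ) + (-5 / 8 : ℝ) * y)) : ∃ τ, NAt y' y b b' τ :=
  nat2 U20a U20b rfl rfl U20a_ok U20b_ok 3 8 1 3 40 (24) (-64) (-9) (39) rfl rfl y0 y1 y2 y3 b0 b1 b0' b1'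
    (by push_cast; linarith) (by push_cast; linarith) (by push_cast; linarith)
    (by push_cast; linarith)

theorem cell21 (h1 : (1 / 3 : ℝ) ≤ y) (h2 : y ≤ (3 / 8 : ℝ)) (h3 : ((3 / 8 : ℝ) + (-5 / 8 : ℝ) * y) ≤ y')
    (h4 : y' ≤ ((0 / 1 : ℝ) + (2 / 3 : ℝ) * y)) : ∃ τ, NAt y' y b b' τ :=
  nat2 U21a U21b rfl rfl U21a_ok U21b_ok 3 8 1 3 24 (9) (-15) (-9) (31) rfl rfl y0 y1 y2 y3 b0 b1 b0' b1'
    (by push_cast; linarith) (by push_cast; linarith) (by push_cast; linarith)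
    (by push_cast; linarith)

theorem cell22 (h1 : (1 / 3 : ℝ) ≤ y) (h2 : y ≤ (5 / 14 : ℝ)) (h3 : ((0 / 1 : ℝ) + (2 / 3 : ℝ) * y) ≤ y')
    (h4 : y' ≤ ((2 / 7 : ℝ) + (0 / 1 : ℝ) * y)) : ∃ τ, NAt y' y b b' τ :=
  nat2 U22a U22b rfl rfl U22a_ok U22b_ok 3 14 1 5 21 (0) (14) (6) (-14) rfl rfl y0 y1 y2 y3 b0 b1 b0' b1'
    (by push_cast; linarith) (by push_cast; linarith) (by push_cast; linarith)
    (by push_cast; linarith)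

theorem cell23 (h1 : (1 / 3 : ℝ) ≤ y) (h2 : y ≤ (5 / 14 : ℝ)) (h3 : ((2 / 7 : ℝ) + (0 / 1 : ℝ) * y) ≤ y')
    (h4 : y' ≤ ((1 / 1 : ℝ) + (-2 / 1 : ℝ) * y)) : ∃ τ, NAt y' y b b' τ :=
  nat2 U23a U23b rfl rfl U23a_ok U23b_ok 3 14 1 5 7 (2) (0) (5) (-14) rfl rfl y0 y1 y2 y3 b0 b1 b0' b1'
    (by push_cast; linarith) (by push_cast; linarith) (by push_cast; linarith)
    (by push_cast; linarith)

theorem cell24 (h1 : (1 / 3 : ℝ) ≤ y) (h2 : y ≤ (5 / 14 : ℝ)) (h3 : ((1 / 1 : ℝ) + (-2 / 1 : ℝ) * y) ≤ y')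
    (h4 : y' ≤ ((1 / 2 : ℝ) + (-1 / 2 : ℝ) * y)) : ∃ τ, NAt y' y b b' τ :=
  nat2 U24a U24b rfl rfl U24a_ok U24b_ok 3 14 1 5 2 (2) (-4) (-1) (3) rfl rfl y0 y1 y2 y3 b0 b1 b0' b1'
    (by push_cast; linarith) (by push_cast; linarith) (by push_cast; linarith)
    (by push_cast; linarith)

theorem cell25 (h1 : (1 / 3 : ℝ) ≤ y) (h2 : y ≤ (3 / 7 : ℝ)) (h3 : ((1 / 2 : ℝ) + (-1 / 2 : ℝ) * y) ≤ y')
    (h4 : y' ≤ ((1 / 3 : ℝ) + (0 / 1 : ℝ) * y)) : ∃ τ, NAt y' y b b' τ :=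
  nat2 U25a U25b rfl rfl U25a_ok U25b_ok 3 7 1 3 6 (3) (-3) (-1) (3) rfl rfl y0 y1 y2 y3 b0 b1 b0' b1'
    (by push_cast; linarith) (by push_cast; linarith) (by push_cast; linarith)
    (by push_cast; linarith)

theorem cell26 (h1 : (1 / 3 : ℝ) ≤ y) (h2 : y ≤ (1 / 2 : ℝ)) (h3 : ((1 / 3 : ℝ) + (0 / 1 : ℝ) * y) ≤ y')
    (h4 : y' ≤ ((0 / 1 : ℝ) + (1 / 1 : ℝ) * y)) : ∃ τ, NAt y' y b b' τ :=
  nat2 U26a U26b rfl rfl U26a_ok U26b_ok 3 2 1 1 3 (1) (0) (-1) (3) rfl rfl y0 y1 y2 y3 b0 b1 b0' b1'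
    (by push_cast; linarith) (by push_cast; linarith) (by push_cast; linarith)
    (by push_cast; linarith)

theorem cell27 (h1 : (5 / 14 : ℝ) ≤ y) (h2 : y ≤ (3 / 8 : ℝ)) (h3 : ((0 / 1 : ℝ) + (2 / 3 : ℝ) * y) ≤ y')
    (h4 : y' ≤ ((1 / 1 : ℝ) + (-2 / 1 : ℝ) * y)) : ∃ τ, NAt y' y b b' τ :=
  nat2 U27a U27b rfl rfl U27a_ok U27b_ok 14 8 5 3 3 (0) (2) (3) (-8) rfl rfl y0 y1 y2 y3 b0 b1 b0' b1'
    (by push_cast; linarith) (by push_cast; linarith) (by push_cast; linarith)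
    (by push_cast; linarith)

theorem cell28 (h1 : (5 / 14 : ℝ) ≤ y) (h2 : y ≤ (3 / 8 : ℝ)) (h3 : ((1 / 1 : ℝ) + (-2 / 1 : ℝ) * y) ≤ y')
    (h4 : y' ≤ ((2 / 7 : ℝ) + (0 / 1 : ℝ) * y)) : ∃ τ, NAt y' y b b' τ :=
  nat2 U28a U28b rfl rfl U28a_ok U28b_ok 14 8 5 3 7 (7) (-14) (-5) (14) rfl rfl y0 y1 y2 y3 b0 b1 b0' b1'
    (by push_cast; linarith) (by push_cast; linarith) (by push_cast; linarith)
    (by push_cast; linarith)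

theorem cell29 (h1 : (5 / 14 : ℝ) ≤ y) (h2 : y ≤ (3 / 7 : ℝ)) (h3 : ((2 / 7 : ℝ) + (0 / 1 : ℝ) * y) ≤ y')
    (h4 : y' ≤ ((1 / 2 : ℝ) + (-1 / 2 : ℝ) * y)) : ∃ τ, NAt y' y b b' τ :=
  nat2 U29a U29b rfl rfl U29a_ok U29b_ok 14 7 5 3 14 (4) (0) (3) (-7) rfl rfl y0 y1 y2 y3 b0 b1 b0' b1'
    (by push_cast; linarith) (by push_cast; linarith) (by push_cast; linarith)
    (by push_cast; linarith)

theorem cell30 (h1 : (3 / 8 : ℝ) ≤ y) (h2 : y ≤ (5 / 11 : ℝ)) (h3 : ((0 / 1 : ℝ) + (0 / 1 : ℝ) * y) ≤ y')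
    (h4 : y' ≤ ((3 / 8 : ℝ) + (-5 / 8 : ℝ) * y)) : ∃ τ, NAt y' y b b' τ :=
  nat2 U30a U30b rfl rfl U30a_ok U30b_ok 8 11 3 5 8 (0) (0) (3) (-5) rfl rfl y0 y1 y2 y3 b0 b1 b0' b1'
    (by push_cast; linarith) (by push_cast; linarith) (by push_cast; linarith)
    (by push_cast; linarith)

theorem cell31 (h1 : (3 / 8 : ℝ) ≤ y) (h2 : y ≤ (5 / 11 : ℝ)) (h3 : ((3 / 8 : ℝ) + (-5 / 8 : ℝ) * y) ≤ y')
    (h4 : y' ≤ ((1 / 1 : ℝ) + (-2 / 1 : ℝ) * y)) : ∃ τ, NAt y' y b b' τ :=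
  nat2 U31a U31b rfl rfl U31a_ok U31b_ok 8 11 3 5 8 (3) (-5) (5) (-11) rfl rfl y0 y1 y2 y3 b0 b1 b0' b1'
    (by push_cast; linarith) (by push_cast; linarith) (by push_cast; linarith)
    (by push_cast; linarith)

theorem cell32 (h1 : (3 / 8 : ℝ) ≤ y) (h2 : y ≤ (3 / 7 : ℝ)) (h3 : ((1 / 1 : ℝ) + (-2 / 1 : ℝ) * y) ≤ y')
    (h4 : y' ≤ ((0 / 1 : ℝ) + (2 / 3 : ℝ) * y)) : ∃ τ, NAt y' y b b' τ :=
  nat2 U32a U32b rfl rfl U32a_ok U32b_ok 8 7 3 3 3 (3) (-6) (-3) (8) rfl rfl y0 y1 y2 y3 b0 b1 b0' b1'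
    (by push_cast; linarith) (by push_cast; linarith) (by push_cast; linarith)
    (by push_cast; linarith)

theorem cell33 (h1 : (3 / 8 : ℝ) ≤ y) (h2 : y ≤ (3 / 7 : ℝ)) (h3 : ((0 / 1 : ℝ) + (2 / 3 : ℝ) * y) ≤ y')
    (h4 : y' ≤ ((2 / 7 : ℝ) + (0 / 1 : ℝ) * y)) : ∃ τ, NAt y' y b b' τ :=
  nat2 U33a U33b rfl rfl U33a_ok U33b_ok 8 7 3 3 21 (0) (14) (6) (-14) rfl rfl y0 y1 y2 y3 b0 b1 b0' b1'
    (by push_cast; linarith) (by push_cast; linarith) (by push_cast; linarith)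
    (by push_cast; linarith)

theorem cell34 (h1 : (3 / 7 : ℝ) ≤ y) (h2 : y ≤ (5 / 11 : ℝ)) (h3 : ((1 / 1 : ℝ) + (-2 / 1 : ℝ) * y) ≤ y')
    (h4 : y' ≤ ((1 / 2 : ℝ) + (-1 / 2 : ℝ) * y)) : ∃ τ, NAt y' y b b' τ :=
  nat2 U34a U34b rfl rfl U34a_ok U34b_ok 7 11 3 5 2 (2) (-4) (-1) (3) rfl rfl y0 y1 y2 y3 b0 b1 b0' b1'
    (by push_cast; linarith) (by push_cast; linarith) (by push_cast; linarith)
    (by push_cast; linarith)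

theorem cell35 (h1 : (3 / 7 : ℝ) ≤ y) (h2 : y ≤ (1 / 2 : ℝ)) (h3 : ((1 / 2 : ℝ) + (-1 / 2 : ℝ) * y) ≤ y')
    (h4 : y' ≤ ((2 / 7 : ℝ) + (0 / 1 : ℝ) * y)) : ∃ τ, NAt y' y b b' τ :=
  nat2 U35a U35b rfl rfl U35a_ok U35b_ok 7 2 3 1 14 (7) (-7) (-3) (7) rfl rfl y0 y1 y2 y3 b0 b1 b0' b1'
    (by push_cast; linarith) (by push_cast; linarith) (by push_cast; linarith)
    (by push_cast; linarith)

theorem cell36 (h1 : (3 / 7 : ℝ) ≤ y) (h2 : y ≤ (1 / 2 : ℝ)) (h3 : ((2 / 7 : ℝ) + (0 / 1 : ℝ) * y) ≤ y')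
    (h4 : y' ≤ ((1 / 3 : ℝ) + (0 / 1 : ℝ) * y)) : ∃ τ, NAt y' y b b' τ :=
  nat2 U36a U36b rfl rfl U36a_ok U36b_ok 7 2 3 1 21 (6) (0) (1) (0) rfl rfl y0 y1 y2 y3 b0 b1 b0' b1'
    (by push_cast; linarith) (by push_cast; linarith) (by push_cast; linarith)
    (by push_cast; linarith)

theorem cell37 (h1 : (5 / 11 : ℝ) ≤ y) (h2 : y ≤ (1 / 2 : ℝ)) (h3 : ((0 / 1 : ℝ) + (0 / 1 : ℝ) * y) ≤ y')
    (h4 : y' ≤ ((1 / 1 : ℝ) + (-2 / 1 : ℝ) * y)) : ∃ τ, NAt y' y b b' τ :=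
  nat2 U37a U37b rfl rfl U37a_ok U37b_ok 11 2 5 1 1 (0) (0) (1) (-2) rfl rfl y0 y1 y2 y3 b0 b1 b0' b1'
    (by push_cast; linarith) (by push_cast; linarith) (by push_cast; linarith)
    (by push_cast; linarith)

theorem cell38 (h1 : (5 / 11 : ℝ) ≤ y) (h2 : y ≤ (1 / 2 : ℝ)) (h3 : ((1 / 1 : ℝ) + (-2 / 1 : ℝ) * y) ≤ y')
    (h4 : y' ≤ ((3 / 8 : ℝ) + (-5 / 8 : ℝ) * y)) : ∃ τ, NAt y' y b b' τ :=
  nat2 U38a U38b rfl rfl U38a_ok U38b_ok 11 2 5 1 8 (8) (-16) (-5) (11) rfl rfl y0 y1 y2 y3 b0 b1 b0' b1'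
    (by push_cast; linarith) (by push_cast; linarith) (by push_cast; linarith)
    (by push_cast; linarith)

theorem cell39 (h1 : (5 / 11 : ℝ) ≤ y) (h2 : y ≤ (1 / 2 : ℝ)) (h3 : ((3 / 8 : ℝ) + (-5 / 8 : ℝ) * y) ≤ y')
    (h4 : y' ≤ ((1 / 2 : ℝ) + (-1 / 2 : ℝ) * y)) : ∃ τ, NAt y' y b b' τ :=
  nat2 U39a U39b rfl rfl U39a_ok U39b_ok 11 2 5 1 8 (3) (-5) (1) (1) rfl rfl y0 y1 y2 y3 b0 b1 b0' b1'
    (by push_cast; linarith) (by push_cast; linarith) (by push_cast; linarith)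
    (by push_cast; linarith)

theorem cell40 (h1 : (1 / 2 : ℝ) ≤ y) (h2 : y ≤ (3 / 5 : ℝ)) (h3 : ((0 / 1 : ℝ) + (0 / 1 : ℝ) * y) ≤ y')
    (h4 : y' ≤ ((3 / 8 : ℝ) + (-5 / 8 : ℝ) * y)) : ∃ τ, NAt y' y b b' τ :=
  nat2 U40a U40b rfl rfl U40a_ok U40b_ok 2 5 1 3 8 (0) (0) (3) (-5) rfl rfl y0 y1 y2 y3 b0 b1 b0' b1'
    (by push_cast; linarith) (by push_cast; linarith) (by push_cast; linarith)
    (by push_cast; linarith)

theorem cell41 (h1 : (1 / 2 : ℝ) ≤ y) (h2 : y ≤ (3 / 5 : ℝ)) (h3 : ((3 / 8 : ℝ) + (-5 / 8 : ℝ) * y) ≤ y')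
    (h4 : y' ≤ ((1 / 2 : ℝ) + (-1 / 2 : ℝ) * y)) : ∃ τ, NAt y' y b b' τ :=
  nat2 U41a U41b rfl rfl U41a_ok U41b_ok 2 5 1 3 8 (3) (-5) (1) (1) rfl rfl y0 y1 y2 y3 b0 b1 b0' b1'
    (by push_cast; linarith) (by push_cast; linarith) (by push_cast; linarith)
    (by push_cast; linarith)

theorem cell42 (h1 : (1 / 2 : ℝ) ≤ y) (h2 : y ≤ (2 / 3 : ℝ)) (h3 : ((1 / 2 : ℝ) + (-1 / 2 : ℝ) * y) ≤ y')
    (h4 : y' ≤ ((2 / 7 : ℝ) + (0 / 1 : ℝ) * y)) : ∃ τ, NAt y' y b b' τ :=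
  nat2 U42a U42b rfl rfl U42a_ok U42b_ok 2 3 1 2 14 (7) (-7) (-3) (7) rfl rfl y0 y1 y2 y3 b0 b1 b0' b1'
    (by push_cast; linarith) (by push_cast; linarith) (by push_cast; linarith)
    (by push_cast; linarith)

theorem cell43 (h1 : (1 / 2 : ℝ) ≤ y) (h2 : y ≤ (2 / 3 : ℝ)) (h3 : ((2 / 7 : ℝ) + (0 / 1 : ℝ) * y) ≤ y')
    (h4 : y' ≤ ((1 / 3 : ℝ) + (0 / 1 : ℝ) * y)) : ∃ τ, NAt y' y b b' τ :=
  nat2 U43a U43b rfl rfl U43a_ok U43b_ok 2 3 1 2 21 (6) (0) (1) (0) rfl rfl y0 y1 y2 y3 b0 b1 b0' b1'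
    (by push_cast; linarith) (by push_cast; linarith) (by push_cast; linarith)
    (by push_cast; linarith)

theorem cell44 (h1 : (1 / 2 : ℝ) ≤ y) (h2 : y ≤ (2 / 3 : ℝ)) (h3 : ((1 / 3 : ℝ) + (0 / 1 : ℝ) * y) ≤ y')
    (h4 : y' ≤ ((1 / 2 : ℝ) + (0 / 1 : ℝ) * y)) : ∃ τ, NAt y' y b b' τ :=
  nat2 U44a U44b rfl rfl U44a_ok U44b_ok 2 3 1 2 6 (2) (0) (1) (0) rfl rfl y0 y1 y2 y3 b0 b1 b0' b1'
    (by push_cast; linarith) (by push_cast; linarith) (by push_cast; linarith)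
    (by push_cast; linarith)

theorem cell45 (h1 : (1 / 2 : ℝ) ≤ y) (h2 : y ≤ (2 / 3 : ℝ)) (h3 : ((1 / 2 : ℝ) + (0 / 1 : ℝ) * y) ≤ y')
    (h4 : y' ≤ ((0 / 1 : ℝ) + (1 / 1 : ℝ) * y)) : ∃ τ, NAt y' y b b' τ :=
  nat2 U45a U45b rfl rfl U45a_ok U45b_ok 2 3 1 2 2 (1) (0) (-1) (2) rfl rfl y0 y1 y2 y3 b0 b1 b0' b1'
    (by push_cast; linarith) (by push_cast; linarith) (by push_cast; linarith)
    (by push_cast; linarith)

theorem cell46 (h1 : (3 / 5 : ℝ) ≤ y) (h2 : y ≤ (2 / 3 : ℝ)) (h3 : ((0 / 1 : ℝ) + (0 / 1 : ℝ) * y) ≤ y')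
    (h4 : y' ≤ ((1 / 2 : ℝ) + (-1 / 2 : ℝ) * y)) : ∃ τ, NAt y' y b b' τ :=
  nat2 U46a U46b rfl rfl U46a_ok U46b_ok 5 3 3 2 2 (0) (0) (1) (-1) rfl rfl y0 y1 y2 y3 b0 b1 b0' b1'
    (by push_cast; linarith) (by push_cast; linarith) (by push_cast; linarith)
    (by push_cast; linarith)

theorem strip0 (h1 : (0 / 1 : ℝ) ≤ y) (h2 : y ≤ (3 / 13 : ℝ)) : ∃ τ, NAt y' y b b' τ := by
  rcases le_total y' ((0 / 1 : ℝ) + (1 / 5 : ℝ) * y) with k0 | k0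
  · exact cell0 y0 y1 y2 y3 b0 b1 b0' b1' (by linarith) (by linarith) (by linarith) (by linarith)
  rcases le_total y' ((0 / 1 : ℝ) + (1 / 2 : ℝ) * y) with k1 | k1
  · exact cell1 y0 y1 y2 y3 b0 b1 b0' b1' (by linarith) (by linarith) (by linarith) (by linarith)
  rcases le_total y' ((0 / 1 : ℝ) + (2 / 3 : ℝ) * y) with k2 | k2
  · exact cell2 y0 y1 y2 y3 b0 b1 b0' b1' (by linarith) (by linarith) (by linarith) (by linarith)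
  exact cell3 y0 y1 y2 y3 b0 b1 b0' b1' (by linarith) (by linarith) (by linarith) (by linarith)

theorem strip1 (h1 : (3 / 13 : ℝ) ≤ y) (h2 : y ≤ (9 / 34 : ℝ)) : ∃ τ, NAt y' y b b' τ := by
  rcases le_total y' ((0 / 1 : ℝ) + (1 / 5 : ℝ) * y) with k0 | k0
  · exact cell0 y0 y1 y2 y3 b0 b1 b0' b1' (by linarith) (by linarith) (by linarith) (by linarith)
  rcases le_total y' ((0 / 1 : ℝ) + (1 / 2 : ℝ) * y) with k1 | k1
  · exact cell1 y0 y1 y2 y3 b0 b1 b0' b1' (by linarith) (by linarith) (by linarith) (by linarith)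
  rcases le_total y' ((0 / 1 : ℝ) + (2 / 3 : ℝ) * y) with k2 | k2
  · exact cell2 y0 y1 y2 y3 b0 b1 b0' b1' (by linarith) (by linarith) (by linarith) (by linarith)
  rcases le_total y' ((3 / 5 : ℝ) + (-8 / 5 : ℝ) * y) with k3 | k3
  · exact cell4 y0 y1 y2 y3 b0 b1 b0' b1' (by linarith) (by linarith) (by linarith) (by linarith)
  rcases le_total y' ((3 / 8 : ℝ) + (-5 / 8 : ℝ) * y) with k4 | k4
  · exact cell5 y0 y1 y2 y3 b0 b1 b0' b1' (by linarith) (by linarith) (by linarith) (by linarith)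
  exact cell6 y0 y1 y2 y3 b0 b1 b0' b1' (by linarith) (by linarith) (by linarith) (by linarith)

theorem strip2 (h1 : (9 / 34 : ℝ) ≤ y) (h2 : y ≤ (2 / 7 : ℝ)) : ∃ τ, NAt y' y b b' τ := by
  rcases le_total y' ((0 / 1 : ℝ) + (1 / 5 : ℝ) * y) with k0 | k0
  · exact cell0 y0 y1 y2 y3 b0 b1 b0' b1' (by linarith) (by linarith) (by linarith) (by linarith)
  rcases le_total y' ((0 / 1 : ℝ) + (1 / 2 : ℝ) * y) with k1 | k1
  · exact cell1 y0 y1 y2 y3 b0 b1 b0' b1' (by linarith) (by linarith) (by linarith) (by linarith)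
  rcases le_total y' ((3 / 5 : ℝ) + (-8 / 5 : ℝ) * y) with k2 | k2
  · exact cell7 y0 y1 y2 y3 b0 b1 b0' b1' (by linarith) (by linarith) (by linarith) (by linarith)
  rcases le_total y' ((0 / 1 : ℝ) + (2 / 3 : ℝ) * y) with k3 | k3
  · exact cell8 y0 y1 y2 y3 b0 b1 b0' b1' (by linarith) (by linarith) (by linarith) (by linarith)
  rcases le_total y' ((3 / 8 : ℝ) + (-5 / 8 : ℝ) * y) with k4 | k4
  · exact cell9 y0 y1 y2 y3 b0 b1 b0' b1' (by linarith) (by linarith) (by linarith) (by linarith)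
  exact cell6 y0 y1 y2 y3 b0 b1 b0' b1' (by linarith) (by linarith) (by linarith) (by linarith)

theorem strip3 (h1 : (2 / 7 : ℝ) ≤ y) (h2 : y ≤ (9 / 31 : ℝ)) : ∃ τ, NAt y' y b b' τ := by
  rcases le_total y' ((0 / 1 : ℝ) + (1 / 5 : ℝ) * y) with k0 | k0
  · exact cell10 y0 y1 y2 y3 b0 b1 b0' b1' (by linarith) (by linarith) (by linarith) (by linarith)
  rcases le_total y' ((3 / 5 : ℝ) + (-8 / 5 : ℝ) * y) with k1 | k1
  · exact cell11 y0 y1 y2 y3 b0 b1 b0' b1' (by linarith) (by linarith) (by linarith) (by linarith)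
  rcases le_total y' ((0 / 1 : ℝ) + (2 / 3 : ℝ) * y) with k2 | k2
  · exact cell12 y0 y1 y2 y3 b0 b1 b0' b1' (by linarith) (by linarith) (by linarith) (by linarith)
  rcases le_total y' ((3 / 8 : ℝ) + (-5 / 8 : ℝ) * y) with k3 | k3
  · exact cell13 y0 y1 y2 y3 b0 b1 b0' b1' (by linarith) (by linarith) (by linarith) (by linarith)
  rcases le_total y' ((2 / 7 : ℝ) + (0 / 1 : ℝ) * y) with k4 | k4
  · exact cell14 y0 y1 y2 y3 b0 b1 b0' b1' (by linarith) (by linarith) (by linarith) (by linarith)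
  exact cell15 y0 y1 y2 y3 b0 b1 b0' b1' (by linarith) (by linarith) (by linarith) (by linarith)

theorem strip4 (h1 : (9 / 31 : ℝ) ≤ y) (h2 : y ≤ (1 / 3 : ℝ)) : ∃ τ, NAt y' y b b' τ := by
  rcases le_total y' ((0 / 1 : ℝ) + (1 / 5 : ℝ) * y) with k0 | k0
  · exact cell10 y0 y1 y2 y3 b0 b1 b0' b1' (by linarith) (by linarith) (by linarith) (by linarith)
  rcases le_total y' ((3 / 5 : ℝ) + (-8 / 5 : ℝ) * y) with k1 | k1
  · exact cell11 y0 y1 y2 y3 b0 b1 b0' b1' (by linarith) (by linarith) (by linarith) (by linarith)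
  rcases le_total y' ((3 / 8 : ℝ) + (-5 / 8 : ℝ) * y) with k2 | k2
  · exact cell16 y0 y1 y2 y3 b0 b1 b0' b1' (by linarith) (by linarith) (by linarith) (by linarith)
  rcases le_total y' ((0 / 1 : ℝ) + (2 / 3 : ℝ) * y) with k3 | k3
  · exact cell17 y0 y1 y2 y3 b0 b1 b0' b1' (by linarith) (by linarith) (by linarith) (by linarith)
  rcases le_total y' ((2 / 7 : ℝ) + (0 / 1 : ℝ) * y) with k4 | k4
  · exact cell18 y0 y1 y2 y3 b0 b1 b0' b1' (by linarith) (by linarith) (by linarith) (by linarith)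
  exact cell15 y0 y1 y2 y3 b0 b1 b0' b1' (by linarith) (by linarith) (by linarith) (by linarith)

theorem strip5 (h1 : (1 / 3 : ℝ) ≤ y) (h2 : y ≤ (5 / 14 : ℝ)) : ∃ τ, NAt y' y b b' τ := by
  rcases le_total y' ((3 / 5 : ℝ) + (-8 / 5 : ℝ) * y) with k0 | k0
  · exact cell19 y0 y1 y2 y3 b0 b1 b0' b1' (by linarith) (by linarith) (by linarith) (by linarith)
  rcases le_total y' ((3 / 8 : ℝ) + (-5 / 8 : ℝ) * y) with k1 | k1
  · exact cell20 y0 y1 y2 y3 b0 b1 b0' b1' (by linarith) (by linarith) (by linarith) (by linarith)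
  rcases le_total y' ((0 / 1 : ℝ) + (2 / 3 : ℝ) * y) with k2 | k2
  · exact cell21 y0 y1 y2 y3 b0 b1 b0' b1' (by linarith) (by linarith) (by linarith) (by linarith)
  rcases le_total y' ((2 / 7 : ℝ) + (0 / 1 : ℝ) * y) with k3 | k3
  · exact cell22 y0 y1 y2 y3 b0 b1 b0' b1' (by linarith) (by linarith) (by linarith) (by linarith)
  rcases le_total y' ((1 / 1 : ℝ) + (-2 / 1 : ℝ) * y) with k4 | k4
  · exact cell23 y0 y1 y2 y3 b0 b1 b0' b1' (by linarith) (by linarith) (by linarith) (by linarith)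
  rcases le_total y' ((1 / 2 : ℝ) + (-1 / 2 : ℝ) * y) with k5 | k5
  · exact cell24 y0 y1 y2 y3 b0 b1 b0' b1' (by linarith) (by linarith) (by linarith) (by linarith)
  rcases le_total y' ((1 / 3 : ℝ) + (0 / 1 : ℝ) * y) with k6 | k6
  · exact cell25 y0 y1 y2 y3 b0 b1 b0' b1' (by linarith) (by linarith) (by linarith) (by linarith)
  exact cell26 y0 y1 y2 y3 b0 b1 b0' b1' (by linarith) (by linarith) (by linarith) (by linarith)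

theorem strip6 (h1 : (5 / 14 : ℝ) ≤ y) (h2 : y ≤ (3 / 8 : ℝ)) : ∃ τ, NAt y' y b b' τ := by
  rcases le_total y' ((3 / 5 : ℝ) + (-8 / 5 : ℝ) * y) with k0 | k0
  · exact cell19 y0 y1 y2 y3 b0 b1 b0' b1' (by linarith) (by linarith) (by linarith) (by linarith)
  rcases le_total y' ((3 / 8 : ℝ) + (-5 / 8 : ℝ) * y) with k1 | k1
  · exact cell20 y0 y1 y2 y3 b0 b1 b0' b1' (by linarith) (by linarith) (by linarith) (by linarith)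
  rcases le_total y' ((0 / 1 : ℝ) + (2 / 3 : ℝ) * y) with k2 | k2
  · exact cell21 y0 y1 y2 y3 b0 b1 b0' b1' (by linarith) (by linarith) (by linarith) (by linarith)
  rcases le_total y' ((1 / 1 : ℝ) + (-2 / 1 : ℝ) * y) with k3 | k3
  · exact cell27 y0 y1 y2 y3 b0 b1 b0' b1' (by linarith) (by linarith) (by linarith) (by linarith)
  rcases le_total y' ((2 / 7 : ℝ) + (0 / 1 : ℝ) * y) with k4 | k4
  · exact cell28 y0 y1 y2 y3 b0 b1 b0' b1' (by linarith) (by linarith) (by linarith) (by linarith)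
  rcases le_total y' ((1 / 2 : ℝ) + (-1 / 2 : ℝ) * y) with k5 | k5
  · exact cell29 y0 y1 y2 y3 b0 b1 b0' b1' (by linarith) (by linarith) (by linarith) (by linarith)
  rcases le_total y' ((1 / 3 : ℝ) + (0 / 1 : ℝ) * y) with k6 | k6
  · exact cell25 y0 y1 y2 y3 b0 b1 b0' b1' (by linarith) (by linarith) (by linarith) (by linarith)
  exact cell26 y0 y1 y2 y3 b0 b1 b0' b1' (by linarith) (by linarith) (by linarith) (by linarith)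

theorem strip7 (h1 : (3 / 8 : ℝ) ≤ y) (h2 : y ≤ (3 / 7 : ℝ)) : ∃ τ, NAt y' y b b' τ := by
  rcases le_total y' ((3 / 8 : ℝ) + (-5 / 8 : ℝ) * y) with k0 | k0
  · exact cell30 y0 y1 y2 y3 b0 b1 b0' b1' (by linarith) (by linarith) (by linarith) (by linarith)
  rcases le_total y' ((1 / 1 : ℝ) + (-2 / 1 : ℝ) * y) with k1 | k1
  · exact cell31 y0 y1 y2 y3 b0 b1 b0' b1' (by linarith) (by linarith) (by linarith) (by linarith)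
  rcases le_total y' ((0 / 1 : ℝ) + (2 / 3 : ℝ) * y) with k2 | k2
  · exact cell32 y0 y1 y2 y3 b0 b1 b0' b1' (by linarith) (by linarith) (by linarith) (by linarith)
  rcases le_total y' ((2 / 7 : ℝ) + (0 / 1 : ℝ) * y) with k3 | k3
  · exact cell33 y0 y1 y2 y3 b0 b1 b0' b1' (by linarith) (by linarith) (by linarith) (by linarith)
  rcases le_total y' ((1 / 2 : ℝ) + (-1 / 2 : ℝ) * y) with k4 | k4
  · exact cell29 y0 y1 y2 y3 b0 b1 b0' b1' (by linarith) (by linarith) (by linarith) (by linarith)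
  rcases le_total y' ((1 / 3 : ℝ) + (0 / 1 : ℝ) * y) with k5 | k5
  · exact cell25 y0 y1 y2 y3 b0 b1 b0' b1' (by linarith) (by linarith) (by linarith) (by linarith)
  exact cell26 y0 y1 y2 y3 b0 b1 b0' b1' (by linarith) (by linarith) (by linarith) (by linarith)

theorem strip8 (h1 : (3 / 7 : ℝ) ≤ y) (h2 : y ≤ (5 / 11 : ℝ)) : ∃ τ, NAt y' y b b' τ := by
  rcases le_total y' ((3 / 8 : ℝ) + (-5 / 8 : ℝ) * y) with k0 | k0
  · exact cell30 y0 y1 y2 y3 b0 b1 b0' b1' (by linarith) (by linarith) (by linarith) (by linarith)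
  rcases le_total y' ((1 / 1 : ℝ) + (-2 / 1 : ℝ) * y) with k1 | k1
  · exact cell31 y0 y1 y2 y3 b0 b1 b0' b1' (by linarith) (by linarith) (by linarith) (by linarith)
  rcases le_total y' ((1 / 2 : ℝ) + (-1 / 2 : ℝ) * y) with k2 | k2
  · exact cell34 y0 y1 y2 y3 b0 b1 b0' b1' (by linarith) (by linarith) (by linarith) (by linarith)
  rcases le_total y' ((2 / 7 : ℝ) + (0 / 1 : ℝ) * y) with k3 | k3
  · exact cell35 y0 y1 y2 y3 b0 b1 b0' b1' (by linarith) (by linarith) (by linarith) (by linarith)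
  rcases le_total y' ((1 / 3 : ℝ) + (0 / 1 : ℝ) * y) with k4 | k4
  · exact cell36 y0 y1 y2 y3 b0 b1 b0' b1' (by linarith) (by linarith) (by linarith) (by linarith)
  exact cell26 y0 y1 y2 y3 b0 b1 b0' b1' (by linarith) (by linarith) (by linarith) (by linarith)

theorem strip9 (h1 : (5 / 11 : ℝ) ≤ y) (h2 : y ≤ (1 / 2 : ℝ)) : ∃ τ, NAt y' y b b' τ := by
  rcases le_total y' ((1 / 1 : ℝ) + (-2 / 1 : ℝ) * y) with k0 | k0
  · exact cell37 y0 y1 y2 y3 b0 b1 b0' b1' (by linarith) (by linarith) (by linarith) (by linarith)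
  rcases le_total y' ((3 / 8 : ℝ) + (-5 / 8 : ℝ) * y) with k1 | k1
  · exact cell38 y0 y1 y2 y3 b0 b1 b0' b1' (by linarith) (by linarith) (by linarith) (by linarith)
  rcases le_total y' ((1 / 2 : ℝ) + (-1 / 2 : ℝ) * y) with k2 | k2
  · exact cell39 y0 y1 y2 y3 b0 b1 b0' b1' (by linarith) (by linarith) (by linarith) (by linarith)
  rcases le_total y' ((2 / 7 : ℝ) + (0 / 1 : ℝ) * y) with k3 | k3
  · exact cell35 y0 y1 y2 y3 b0 b1 b0' b1' (by linarith) (by linarith) (by linarith) (by linarith)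
  rcases le_total y' ((1 / 3 : ℝ) + (0 / 1 : ℝ) * y) with k4 | k4
  · exact cell36 y0 y1 y2 y3 b0 b1 b0' b1' (by linarith) (by linarith) (by linarith) (by linarith)
  exact cell26 y0 y1 y2 y3 b0 b1 b0' b1' (by linarith) (by linarith) (by linarith) (by linarith)

theorem strip10 (h1 : (1 / 2 : ℝ) ≤ y) (h2 : y ≤ (3 / 5 : ℝ)) : ∃ τ, NAt y' y b b' τ := by
  rcases le_total y' ((3 / 8 : ℝ) + (-5 / 8 : ℝ) * y) with k0 | k0
  · exact cell40 y0 y1 y2 y3 b0 b1 b0' b1' (by linarith) (by linarith) (by linarith) (by linarith)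
  rcases le_total y' ((1 / 2 : ℝ) + (-1 / 2 : ℝ) * y) with k1 | k1
  · exact cell41 y0 y1 y2 y3 b0 b1 b0' b1' (by linarith) (by linarith) (by linarith) (by linarith)
  rcases le_total y' ((2 / 7 : ℝ) + (0 / 1 : ℝ) * y) with k2 | k2
  · exact cell42 y0 y1 y2 y3 b0 b1 b0' b1' (by linarith) (by linarith) (by linarith) (by linarith)
  rcases le_total y' ((1 / 3 : ℝ) + (0 / 1 : ℝ) * y) with k3 | k3
  · exact cell43 y0 y1 y2 y3 b0 b1 b0' b1' (by linarith) (by linarith) (by linarith) (by linarith)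
  rcases le_total y' ((1 / 2 : ℝ) + (0 / 1 : ℝ) * y) with k4 | k4
  · exact cell44 y0 y1 y2 y3 b0 b1 b0' b1' (by linarith) (by linarith) (by linarith) (by linarith)
  exact cell45 y0 y1 y2 y3 b0 b1 b0' b1' (by linarith) (by linarith) (by linarith) (by linarith)

theorem strip11 (h1 : (3 / 5 : ℝ) ≤ y) (h2 : y ≤ (2 / 3 : ℝ)) : ∃ τ, NAt y' y b b' τ := by
  rcases le_total y' ((1 / 2 : ℝ) + (-1 / 2 : ℝ) * y) with k0 | k0
  · exact cell46 y0 y1 y2 y3 b0 b1 b0' b1' (by linarith) (by linarith) (by linarith) (by linarith)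
  rcases le_total y' ((2 / 7 : ℝ) + (0 / 1 : ℝ) * y) with k1 | k1
  · exact cell42 y0 y1 y2 y3 b0 b1 b0' b1' (by linarith) (by linarith) (by linarith) (by linarith)
  rcases le_total y' ((1 / 3 : ℝ) + (0 / 1 : ℝ) * y) with k2 | k2
  · exact cell43 y0 y1 y2 y3 b0 b1 b0' b1' (by linarith) (by linarith) (by linarith) (by linarith)
  rcases le_total y' ((1 / 2 : ℝ) + (0 / 1 : ℝ) * y) with k3 | k3
  · exact cell44 y0 y1 y2 y3 b0 b1 b0' b1' (by linarith) (by linarith) (by linarith) (by linarith)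
  exact cell45 y0 y1 y2 y3 b0 b1 b0' b1' (by linarith) (by linarith) (by linarith) (by linarith)

end

theorem hypN : HypN := by
  intro y' y b b' y0 y1 y2 y3 b0 b1 b0' b1'
  rcases le_total y (3 / 13 : ℝ) with k0 | k0
  · exact strip0 y0 y1 y2 y3 b0 b1 b0' b1' (by linarith) (by linarith)
  rcases le_total y (9 / 34 : ℝ) with k1 | k1
  · exact strip1 y0 y1 y2 y3 b0 b1 b0' b1' (by linarith) (by linarith)
  rcases le_total y (2 / 7 : ℝ) with k2 | k2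
  · exact strip2 y0 y1 y2 y3 b0 b1 b0' b1' (by linarith) (by linarith)
  rcases le_total y (9 / 31 : ℝ) with k3 | k3
  · exact strip3 y0 y1 y2 y3 b0 b1 b0' b1' (by linarith) (by linarith)
  rcases le_total y (1 / 3 : ℝ) with k4 | k4
  · exact strip4 y0 y1 y2 y3 b0 b1 b0' b1' (by linarith) (by linarith)
  rcases le_total y (5 / 14 : ℝ) with k5 | k5
  · exact strip5 y0 y1 y2 y3 b0 b1 b0' b1' (by linarith) (by linarith)
  rcases le_total y (3 / 8 : ℝ) with k6 | k6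
  · exact strip6 y0 y1 y2 y3 b0 b1 b0' b1' (by linarith) (by linarith)
  rcases le_total y (3 / 7 : ℝ) with k7 | k7
  · exact strip7 y0 y1 y2 y3 b0 b1 b0' b1' (by linarith) (by linarith)
  rcases le_total y (5 / 11 : ℝ) with k8 | k8
  · exact strip8 y0 y1 y2 y3 b0 b1 b0' b1' (by linarith) (by linarith)
  rcases le_total y (1 / 2 : ℝ) with k9 | k9
  · exact strip9 y0 y1 y2 y3 b0 b1 b0' b1' (by linarith) (by linarith)
  rcases le_total y (3 / 5 : ℝ) with k10 | k10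
  · exact strip10 y0 y1 y2 y3 b0 b1 b0' b1' (by linarith) (by linarith)
  exact strip11 y0 y1 y2 y3 b0 b1 b0' b1' (by linarith) (by linarith)

end Crest.Agent.R310.Hn
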