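import Crest.Agent.R310.HnSide

/-! # Row 310: from the certificate of a cell to the six inequalities -/

set_option autoImplicit false

open Set Crest.Agent.Lib.PolyBB

namespace Crest.Agent.R310.Hn

open Ar Des

namespace Side

/-- change of the inner variables and the multipliers -/
def inn (h : Side ℝ) (w η p0 p1 : ℝ) : Side ℝ := { h with w := w, η := η, p0 := p0, p1 := p1 }

variable {h : Side ℝ} {y yo τ : ℝ}

theorem Ok.inn (k : h.Ok y yo τ) (w η p0 p1 : ℝ) : (h.inn w η p0 p1).Ok y yo τ :=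
  ⟨k.D0, k.M0, k.hY, k.hYo, k.y0, k.y1, k.yo0, k.s0, k.a0, k.ao0, k.b1, k.bo1, k.p1, k.p2, k.p3,
    k.p4, k.hτ⟩

/-- the families `f` hold for all values of the inner variables -/
def All (h : Side ℝ) (f : Side ℝ → ℕ → List ℝ) : Prop :=
  ∀ w η : ℝ, 0 ≤ w → w ≤ 1 → 0 ≤ η → η ≤ 1 → ∃ (k : ℕ) (p0 p1 : ℝ),
    ∀ e ∈ f (h.inn w η p0 p1) k, 0 ≤ e

theorem Ok.gain' (k : h.Ok y yo τ) (hη : 100000 * Real.exp (-h.b) = h.EE) (nr : Bool) (g : ℕ) :
    h.b * h.gv (cond nr g 0) ≤ 200000 * h.D * cond nr (g0 y yo h.b) 0 := by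
  cases nr
  · simp [gv]
  · exact k.gain hη g

theorem Ok.allB (k : h.Ok y yo τ) (hF : 0 ≤ h.F) (nr : Bool) (hB : h.All fun h => h.famB nr)
    (w : ℝ) (w0 : 0 ≤ w) (w1 : w ≤ 1) (hK : Kl (1 - y) (y + yo) w < 1) :
    S h.b (1 - y) (2 * y) w * (1 - h.bo * max 0 (Kl (1 - y) (y + yo) w)) ≤
      Hk yo y h.b h.bo τ + h.bo * (1 - max 0 (Kl (1 - y) (y + yo) w)) * cond nr (g0 y yo h.b) 0 := by
  obtain ⟨η, η0, η1, hη⟩ := exists_eta k.b0 k.b1
  obtain ⟨j, p0, p1, H⟩ := hB w η w0 w1 η0 η1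
  simp only [famB, List.mem_cons, List.not_mem_nil, or_false, forall_eq_or_imp, forall_eq] at H
  have k' := k.inn w η p0 p1
  refine k'.B hη hF (k'.gain' hη nr (j / 2)) w0 w1 H.1 ?_ H.2.2 hK
  simpa only [r_sub, r_mul, r_c, Int.cast_ofNat] using H.2.1

theorem Ok.allC (k : h.Ok y yo τ) (nr : Bool) {n i j : ℕ} (hC : h.All fun h => h.famC n i j nr)
    {K c : ℝ} (K1 : K ≤ 1) (c0 : 0 < c) (hc : c * (5 - 2 * K) = 5 * (y + yo))
    (h1 : h.lim i ≤ 6 * h.D * c) (h2 : 6 * h.D * c < h.lim j)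
    (q1 : 0 ≤ pcLo n (6 * h.D * c) (6 * h.Y)) (q2 : 0 ≤ pcHi n (6 * h.D * c) (6 * h.Y)) :
    (N h.b c (2 * y) - Phi h.b (1 - y) (2 * y)) * (1 - h.bo * K) ≤
      Hk yo y h.b h.bo τ + h.bo * (1 - K) * cond nr (g0 y yo h.b) 0 := by
  obtain ⟨η, η0, η1, hη⟩ := exists_eta k.b0 k.b1
  have hp : 0 < h.lim j - h.lim i := by linarith
  obtain ⟨l, p0, p1, H⟩ := hC ((6 * h.D * c - h.lim i) / (h.lim j - h.lim i)) η
    (div_nonneg (by linarith) hp.le) ((div_le_one hp).2 (by linarith)) η0 η1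
  have hl : ∀ (w : ℝ) (i : ℕ), (h.inn w η p0 p1).lim i = h.lim i := fun w i => by
    rcases i with _ | _ | _ | _ | i <;> rfl
  have h3 : (h.inn ((6 * h.D * c - h.lim i) / (h.lim j - h.lim i)) η p0 p1).C3 i j =
      6 * h.D * c := by
    rw [C3, hl, hl, r_add, r_mul, r_sub]
    change h.lim i + (6 * h.D * c - h.lim i) / (h.lim j - h.lim i) * (h.lim j - h.lim i) = _
    rw [div_mul_cancel₀ _ hp.ne']
    ring
  have k' := k.inn ((6 * h.D * c - h.lim i) / (h.lim j - h.lim i)) η p0 p1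
  rcases l with _ | l
  · have := H _ (List.mem_singleton_self _)
    rw [hl, hl, r_sub] at this
    linarith
  · exact k'.C hη (k'.gain' hη nr (l / 2)) K1 c0 hc h3 (by rw [h3]; exact q1) (by rw [h3]; exact q2)
      (H _ (List.mem_singleton_self _))

theorem Ok.allC' (k : h.Ok y yo τ) (hF : 0 ≤ h.F) (nr : Bool) (hρ : 0 < y + yo) {l3 h3 l4 h4 : ℕ}
    (h2 : yo < y → ∃ h2, (h2 = 1 ∨ h2 = 2 ∨ h2 = 3) ∧ h.All fun h => h.famC 2 0 h2 nr)
    (w3 : l3 = 1 ∨ l3 = 0) (w3' : h3 = 2 ∨ h3 = 3 ∨ h3 = 4)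
    (c3 : h.All fun h => h.famC 3 l3 h3 nr) (w4 : l4 = 0 ∨ l4 = 4) (w4' : h4 = 2 ∨ h4 = 3)
    (c4 : h.All fun h => h.famC 4 l4 h4 nr) (K : ℝ) (K0 : 0 ≤ K) (K1 : K ≤ 1)
    (hK : cK (y + yo) K < 1 - y) :
    (N h.b (cK (y + yo) K) (2 * y) - Phi h.b (1 - y) (2 * y)) * (1 - h.bo * K) ≤
      Hk yo y h.b h.bo τ + h.bo * (1 - K) * cond nr (g0 y yo h.b) 0 := by
  have h5 : 0 < 5 - 2 * K := by linarith
  have hc : cK (y + yo) K * (5 - 2 * K) = 5 * (y + yo) := div_mul_cancel₀ _ h5.ne'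
  have c0 : 0 < cK (y + yo) K := div_pos (by linarith) h5
  generalize cK (y + yo) K = c at *
  rcases K1.eq_or_lt with rfl | K1'
  · have h1 := Lam_le (u := 1 - y) (c := c) (t := 2 * y) (by linarith [k.y0]) ⟨k.b0, k.b1⟩
    rw [Lam_of_lt hK] at h1
    have := mul_le_mul_of_nonneg_right h1 (sub_nonneg.2 k.bo1)
    have := k.full hF
    rw [N]
    linarith
  have D0 := k.D0
  have a0 : h.lim 0 ≤ 6 * h.D * c := by
    simp only [lim, r_add, r_mul, r_c, k.hY, k.hYo]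
    push_cast
    nlinarith [mul_nonneg D0.le (mul_nonneg c0.le K0)]
  have a2 : 6 * h.D * c < h.lim 2 := by
    simp only [lim, r_mul, r_c, k.hU]
    push_cast
    nlinarith [mul_pos D0 (sub_pos.2 hK)]
  have a3 : 6 * h.D * c < h.lim 3 := by
    simp only [lim, r_add, r_mul, r_c, k.hY, k.hYo]
    push_cast
    nlinarith [mul_pos D0 (mul_pos c0 (sub_pos.2 K1'))]
  have a1 : h.lim 1 = 12 * h.Y := by simp only [lim, r_mul, r_c, Int.cast_ofNat]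
  have a4 : h.lim 4 = 15 * h.Y := by simp only [lim, r_mul, r_c, Int.cast_ofNat]
  have a5 : h.lim 0 = 6 * (h.Y + h.Yo) := by simp only [lim, r_add, r_mul, r_c, Int.cast_ofNat]
  have Y0 := k.Y0
  have Yo0 := k.Yo0
  rcases lt_or_ge (6 * h.D * c) (12 * h.Y) with b1 | b1
  · obtain ⟨h2, w2, c2⟩ := h2 (by
      refine lt_of_mul_lt_mul_left ?_ D0.le
      rw [← k.hY, ← k.hYo]
      linarith)
    refine k.allC nr c2 K1 c0 hc a0 ?_ ?_ ?_
    · rcases w2 with rfl | rfl | rfl <;> linarith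
    · simp only [pcLo, r_sub]; linarith
    · simp only [pcHi, r_sub, r_mul, r_c, Int.cast_ofNat]; linarith
  rcases lt_or_ge (6 * h.D * c) (15 * h.Y) with b2 | b2
  · refine k.allC nr c3 K1 c0 hc ?_ ?_ ?_ ?_
    · rcases w3 with rfl | rfl <;> linarith
    · rcases w3' with rfl | rfl | rfl <;> linarith
    · simp only [pcLo, r_sub, r_mul, r_c, Int.cast_ofNat]; linarith
    · simp only [pcHi, r_sub, r_mul, r_c, Int.cast_ofNat]; linarith
  · refine k.allC nr c4 K1 c0 hc ?_ ?_ ?_ ?_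
    · rcases w4 with rfl | rfl <;> linarith
    · rcases w4' with rfl | rfl <;> linarith
    · simp only [pcLo, r_sub, r_mul, r_c, Int.cast_ofNat]; linarith
    · simp only [pcHi]; linarith

end Side

theorem ev_famB (x : ℕ → ℝ) (p : ℕ → ℤ) (h : Side E) (nr : Bool) (k : ℕ)
    (H : ∀ e ∈ h.famB nr k, 0 ≤ e.eval x p) : ∀ e ∈ (h.ev x p).famB nr k, 0 ≤ e := by
  simp only [Side.famB, List.mem_cons, List.not_mem_nil, or_false, forall_eq_or_imp, forall_eq,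
    ev_B] at H ⊢
  exact H

theorem ev_famC (x : ℕ → ℝ) (p : ℕ → ℤ) (h : Side E) (n i j : ℕ) (nr : Bool) (k : ℕ)
    (H : ∀ e ∈ h.famC n i j nr k, 0 ≤ e.eval x p) : ∀ e ∈ (h.ev x p).famC n i j nr k, 0 ≤ e := by
  rcases k with _ | k <;>
    simpa only [Side.famC, List.mem_singleton, forall_eq, ev_C, ev_sub, ev_lim] using H

theorem ev_famF (x : ℕ → ℝ) (p : ℕ → ℤ) (h : Side E) (H : ∀ e ∈ h.famF, 0 ≤ e.eval x p) :
    0 ≤ (h.ev x p).F ∧ 0 ≤ pcLo (h.ev x p).m (h.ev x p).U (h.ev x p).Y ∧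
      0 ≤ pcHi (h.ev x p).m (h.ev x p).U (h.ev x p).Y := by
  simp only [Side.famF, List.mem_cons, List.not_mem_nil, or_false, forall_eq_or_imp, forall_eq,
    ev_F, ev_pcLo, ev_pcHi] at H
  exact H

namespace Cell

theorem mem_box (u : Cell) {y z s v w η : ℝ} (hy : u.I.mem y) (z0 : 0 ≤ z) (z1 : z ≤ 1)
    (s0 : 0 ≤ s) (s1 : s ≤ 1) (v0 : 0 ≤ v) (v1 : v ≤ 1) (w0 : 0 ≤ w) (w1 : w ≤ 1) (η0 : 0 ≤ η)
    (η1 : η ≤ 1) : u.box.mem (pt [y, z, s, v, w, η]) := by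
  simp only [box, Box.mem_cons_pt, Iv.mem_mk, Box.mem_nil]
  simp [*]

theorem nat (u : Cell)
    (H : ∃ t0 t1 t2 t3 t4 t5 t6 t7, u.chk t0 t1 t2 t3 t4 t5 t6 t7 = true) {y y' s v : ℝ}
    (hy : u.I.mem y) (hl : u.l0 + u.l1 * y ≤ u.D * y')
    (hh : u.D * y' ≤ u.l0 + u.l1 * y + (u.h0 + u.h1 * y)) (y0 : 0 ≤ y') (y1 : y' ≤ y) (y2 : 0 < y)
    (y3 : y < 1) (s0 : 0 ≤ s) (s1 : s ≤ 1) (v0 : 0 ≤ v) (v1 : v ≤ 1) :
    ∃ τ, NAt y' y (s * cond u.sw v 1) (s * cond u.sw 1 v) τ := by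
  obtain ⟨t0, t1, t2, t3, t4, t5, t6, t7, H⟩ := H
  simp only [chk, band_eq_true, wf, decide_eq_true_eq] at H
  obtain ⟨⟨D0, M0, w2, w3, w4, w3i, w4i, w4i'⟩, r0, r1, r2, r3, r4, r5, r6, r7⟩ := H
  obtain ⟨z, z0, z1, hz⟩ : ∃ z : ℝ, 0 ≤ z ∧ z ≤ 1 ∧ u.Yp y z = u.D * y' := by
    simp only [Yp, r_add, r_mul, r_c]
    rcases (show 0 ≤ u.h0 + u.h1 * y by linarith).eq_or_lt with h | h
    · exact ⟨0, le_rfl, zero_le_one, by linarith⟩
    · refine ⟨(u.D * y' - (u.l0 + u.l1 * y)) / (u.h0 + u.h1 * y), div_nonneg (by linarith) h.le,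
        (div_le_one h).2 (by linarith), ?_⟩
      rw [div_mul_cancel₀ _ h.ne']
      ring
  have D0' : (0 : ℝ) < u.D := by exact_mod_cast D0
  have M0' : (0 : ℝ) < u.M := by exact_mod_cast M0
  have c1 : (c 1 : ℝ) = 1 := by rw [r_c, Int.cast_one]
  have a0 : (0 : ℝ) ≤ cond u.sw v (c 1) := by cases u.sw <;> simp [c1, v0]
  have a0' : (0 : ℝ) ≤ cond u.sw (c 1) v := by cases u.sw <;> simp [c1, v0]
  have b1 : s * cond u.sw v (c 1) ≤ 1 := by
    cases u.sw <;> simp [c1, s1, mul_le_one₀ s1 v0 v1]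
  have b1' : s * cond u.sw (c 1) v ≤ 1 := by
    cases u.sw <;> simp [c1, s1, mul_le_one₀ s1 v0 v1]
  obtain ⟨_, ps, hF⟩ := run_sound r0
    (u.mem_box hy z0 z1 s0 s1 v0 v1 le_rfl zero_le_one le_rfl zero_le_one)
  obtain ⟨f1, f2, f3⟩ := ev_famF _ _ _ fun e he => hF e (List.mem_append_left _ he)
  obtain ⟨g1, g2, g3⟩ := ev_famF _ _ _ fun e he => hF e (List.mem_append_right _ he)
  rw [ev_far] at f1 f2 f3
  rw [ev_near] at g1 g2 g3
  have hp : (200000 * u.D * u.M : ℝ) ≠ 0 := (mul_pos (mul_pos (by norm_num) D0') M0').ne'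
  set τ := s * u.T y z s v / (200000 * u.D * u.M) with hτ
  have kf : (u.far y z s v 0 0 0 0).Ok y y' τ :=
    ⟨D0', M0', rfl, hz, y2.le, y3, y0, s0, a0, a0', b1, b1', f2, f3, g2, g3,
      mul_div_cancel₀ _ hp⟩
  have kn : (u.near y z s v 0 0 0 0).Ok y' y (-τ) :=
    ⟨D0', M0', hz, rfl, y0, y1.trans_lt y3, y2.le, s0, a0', a0, b1', b1, g2, g3, f2, f3, by
      change 200000 * u.D * u.M * -τ = s * (((0 : ℤ) : ℝ) - u.T y z s v)
      rw [mul_neg, hτ, mul_div_cancel₀ _ hp]; simp⟩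
  have af : ∀ {f : Side E → ℕ → List E} {g : Side ℝ → ℕ → List ℝ} {t : Lib.PolyBB.T},
      (∀ x p h k, (∀ e ∈ f h k, 0 ≤ e.eval x p) → ∀ e ∈ g (h.ev x p) k, 0 ≤ e) →
      run (f u.farE) t u.box [] = true → (u.far y z s v 0 0 0 0).All g := by
    intro f g t hf r w η w0 w1 η0 η1
    obtain ⟨k, ps, h⟩ := run_sound r (u.mem_box hy z0 z1 s0 s1 v0 v1 w0 w1 η0 η1)
    have := hf _ _ _ _ h
    rw [ev_far] at this
    exact ⟨k, _, _, this⟩
  have an : ∀ {f : Side E → ℕ → List E} {g : Side ℝ → ℕ → List ℝ} {t : Lib.PolyBB.T},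
      (∀ x p h k, (∀ e ∈ f h k, 0 ≤ e.eval x p) → ∀ e ∈ g (h.ev x p) k, 0 ≤ e) →
      run (f u.nearE) t u.box [] = true → (u.near y z s v 0 0 0 0).All g := by
    intro f g t hf r w η w0 w1 η0 η1
    obtain ⟨k, ps, h⟩ := run_sound r (u.mem_box hy z0 z1 s0 s1 v0 v1 w0 w1 η0 η1)
    have := hf _ _ _ _ h
    rw [ev_near] at this
    exact ⟨k, _, _, this⟩
  have hf : 0 ≤ (u.far y z s v 0 0 0 0).F := f1
  have hn : 0 ≤ (u.near y z s v 0 0 0 0).F := g1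
  have hρ : 0 < y + y' := by linarith
  have B1 := kf.allB hf false (af (f := fun h => h.famB false)
    (fun x p h k => ev_famB x p h false k) r1)
  have B2 := kn.allB hn true (an (f := fun h => h.famB true)
    (fun x p h k => ev_famB x p h true k) r5)
  have C1 := kf.allC' hf false hρ
    (fun _ => ⟨_, w2, af (f := fun h => h.famC 2 0 u.hi2 false)
      (fun x p h k => ev_famC x p h _ _ _ false k) r2⟩) (Or.inl rfl) w3
    (af (f := fun h => h.famC 3 1 u.hi3 false) (fun x p h k => ev_famC x p h _ _ _ false k) r3)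
    (Or.inr rfl) w4
    (af (f := fun h => h.famC 4 4 u.hi4 false) (fun x p h k => ev_famC x p h _ _ _ false k) r4)
  have C2 := kn.allC' hn true (by linarith) (fun h => absurd y1 h.not_ge) (Or.inr rfl) w3i
    (an (f := fun h => h.famC 3 0 u.hi3i true) (fun x p h k => ev_famC x p h _ _ _ true k) r6)
    w4i w4i'
    (an (f := fun h => h.famC 4 u.lo4i u.hi4i true) (fun x p h k => ev_famC x p h _ _ _ true k) r7)
  have I1 := kf.F hf
  have I2 := kn.F hn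
  have e1 : (u.far y z s v 0 0 0 0).b = s * cond u.sw v 1 := by rw [← c1]; rfl
  have e2 : (u.far y z s v 0 0 0 0).bo = s * cond u.sw 1 v := by rw [← c1]; rfl
  have e3 : (u.near y z s v 0 0 0 0).b = s * cond u.sw 1 v := by rw [← c1]; rfl
  have e4 : (u.near y z s v 0 0 0 0).bo = s * cond u.sw v 1 := by rw [← c1]; rfl
  simp only [e1, e2, e3, e4, cond_false, cond_true, mul_zero, add_zero, add_comm y' y]
    at B1 B2 C1 C2 I1 I2
  exact ⟨τ, I1, by linarith, B1, C1, B2, C2⟩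

end Cell

/-- a pair of certificates for the two orders of the states -/
theorem nat2 (u u' : Cell) (hu : u.sw = false) (hu' : u'.sw = true)
    (H : ∃ t0 t1 t2 t3 t4 t5 t6 t7, u.chk t0 t1 t2 t3 t4 t5 t6 t7 = true)
    (H' : ∃ t0 t1 t2 t3 t4 t5 t6 t7, u'.chk t0 t1 t2 t3 t4 t5 t6 t7 = true)
    (ua ub : ℕ) (va vb D l0 l1 h0 h1 : ℤ)
    (e : (u.I, u.D, u.l0, u.l1, u.h0, u.h1) = (⟨ua, va, ub, vb⟩, D, l0, l1, h0, h1))
    (e' : (u'.I, u'.D, u'.l0, u'.l1, u'.h0, u'.h1) = (⟨ua, va, ub, vb⟩, D, l0, l1, h0, h1))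
    {y y' b b' : ℝ} (y0 : 0 ≤ y') (y1 : y' ≤ y) (y2 : 0 < y) (y3 : y ≤ 2 / 3)
    (b0 : 0 ≤ b) (b1 : b ≤ 1) (b0' : 0 ≤ b') (b1' : b' ≤ 1)
    (ha : va ≤ y * ua) (hb : y * ub ≤ vb) (hl : l0 + l1 * y ≤ D * y')
    (hh : D * y' ≤ l0 + l1 * y + (h0 + h1 * y)) : ∃ τ, NAt y' y b b' τ := by
  simp only [Prod.mk.injEq] at e e'
  obtain ⟨e1, e2, e3, e4, e5, e6⟩ := e
  obtain ⟨f1, f2, f3, f4, f5, f6⟩ := e'
  rcases le_total b' b with h | h
  · have := u.nat H (y := y) (y' := y') (s := b) (v := b' / b) (e1 ▸ ⟨ha, hb⟩)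
      (by rwa [e2, e3, e4]) (by rwa [e2, e3, e4, e5, e6]) y0 y1 y2 (by linarith) b0 b1
      (div_nonneg b0' b0) (div_le_one_of_le₀ h b0)
    have e : b * (b' / b) = b' := by
      rcases b0.eq_or_lt with h0 | h0
      · rw [← h0, zero_mul]; linarith
      · field_simp
    simpa only [hu, cond_false, mul_one, e] using this
  · have := u'.nat H' (y := y) (y' := y') (s := b') (v := b / b') (f1 ▸ ⟨ha, hb⟩)
      (by rwa [f2, f3, f4]) (by rwa [f2, f3, f4, f5, f6]) y0 y1 y2 (by linarith) b0' b1'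
      (div_nonneg b0 b0') (div_le_one_of_le₀ h b0')
    have e : b' * (b / b') = b := by
      rcases b0'.eq_or_lt with h0 | h0
      · rw [← h0, zero_mul]; linarith
      · field_simp
    simpa only [hu', cond_true, mul_one, e] using this

end Crest.Agent.R310.Hn
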