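import Crest.Agent.Lib.PolyBB.Core

/-!
# Row 310: polynomial families of the certificate for `HypN` (helper53)

All formulas are written once, for expressions and for real numbers. Scale `Q = 100000` for the
polynomials in the states, `D` for the geometry, `M` for the separating polynomial `T`.
-/

set_option autoImplicit false

open Crest.Agent.Lib.PolyBB

namespace Crest.Agent.R310.Hn

class Ar (α : Type) where
  add : α → α → α
  sub : α → α → α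
  mul : α → α → α
  c : Int → α

instance : Ar E := ⟨E.add, E.sub, E.mul, E.cst⟩

scoped infixl:65 " +' " => Ar.add
scoped infixl:65 " -' " => Ar.sub
scoped infixl:70 " *' " => Ar.mul

open Ar

variable {α : Type} [Ar α]

def qlo (b d : α) : α :=
  (c 49954 +' b *' (c (-33132) +' b *' (c 11642 +' b *' c (-2086)))) +'
    d *' ((c (-16320) +' b *' (c 7889 +' b *' c (-1595))) +' d *' (c 3149 +' b *' c (-1147)))
def hb (b e : α) : α := (c 49954 +' b *' (c (-16320) +' b *' c 3149)) +' c 50 *' e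
def e1 (b e : α) : α := c 100000 -' b *' hb b e
def ee (b e : α) : α := c 100000 -' b *' e1 b e
def m1 (b : α) : α := c 156400 +' b *' (c (-95200) +' b *' (c 50000 +' b *' c (-11200)))
def p1 (b : α) : α :=
  c 93400 +' b *' (c 113100 +' b *' (c (-224900) +' b *' (c 169400 +' b *' c (-51000))))
def mx (b : α) : α := b *' (c (-95200) +' b *' (c 100000 +' b *' c (-33600)))
def px (b : α) : α :=
  b *' (c 113100 +' b *' (c (-449800) +' b *' (c 508200 +' b *' c (-204000))))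
def h2 (w : α) : α := c 2 -' w
def h3 (w : α) : α := c 1 +' (c 1 -' w) *' h2 w
def h4 (w : α) : α := c 1 +' (c 1 -' w) *' h3 w
def h5 (w : α) : α := c 1 +' (c 1 -' w) *' h4 w
def ddm (b w : α) : α :=
  c 156400 +' b *' (c (-95200) *' h2 w +' b *' (c 50000 *' h3 w +' b *' (c (-11200) *' h4 w)))
def ddp (b w : α) : α :=
  c 93400 +' b *' (c 113100 *' h2 w +' b *' (c (-224900) *' h3 w +' b *' (c 169400 *' h4 w +'
    b *' (c (-51000) *' h5 w))))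

def al : Nat → α → α → α
  | 1, U, Y => c 4 *' (c 2 *' U -' Y)
  | _, _, Y => c 4 *' Y
def rest : Nat → α → α → α → α → α → α
  | 1, U, Y, m, _, _ => c 2 *' (Y -' c 2 *' U) *' m
  | 2, U, Y, m, _, _ => c 2 *' (U -' c 2 *' Y) *' m
  | 3, U, Y, _, p, _ => c 2 *' (U -' c 2 *' Y) *' p
  | _, U, Y, _, p, o => Y *' p +' (c 2 *' U -' c 5 *' Y) *' o
def comb (n : Nat) (U Y e m p o : α) : α := al n U Y *' e +' rest n U Y m p o
def pcLo : Nat → α → α → α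
  | 1, U, Y => c 2 *' U -' Y
  | 2, U, Y => U -' Y
  | 3, U, Y => U -' c 2 *' Y
  | _, U, Y => c 2 *' U -' c 5 *' Y
def pcHi : Nat → α → α → α
  | 1, U, Y => Y -' U
  | 2, U, Y => c 2 *' Y -' U
  | 3, U, Y => c 5 *' Y -' c 2 *' U
  | _, _, Y => Y

/-- One side: own data `(m, a, Y)`, data of the other facility `(mo, ao, Yo)`. -/
structure Side (α : Type) where
  D : Int
  M : Int
  T : α
  m : Nat
  a : α
  Y : α
  mo : Nat
  ao : α
  Yo : α
  s : α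
  w : α
  η : α
  p0 : α
  p1 : α

namespace Side

variable (h : Side α)

def b : α := h.s *' h.a
def bo : α := h.s *' h.ao
def U : α := c h.D -' h.Y
def Uo : α := c h.D -' h.Yo
def E1 : α := e1 h.b h.η
def EE : α := ee h.b h.η
def psi : α := comb h.m h.U h.Y h.E1 (m1 h.b) (Hn.p1 h.b) (c 100000)
def eo : Nat → α
  | 0 => h.a *' h.E1 -' (h.a -' h.ao) *' (h.EE +' h.s *' (h.a -' h.ao) *' qlo h.b h.bo)
  | _ => h.ao *' e1 h.bo (c 0)
def H (v : Nat) : α :=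
  c h.M *' (h.a *' h.psi *' (c 1 -' h.bo) +'
    h.ao *' (c 200000 *' h.Uo -' rest h.mo h.Uo h.Yo (m1 h.bo) (Hn.p1 h.bo) (c 100000)) -'
    al h.mo h.Uo h.Yo *' h.eo v) +' h.T
def F : α :=
  c h.M *' (h.ao *' (c 200000 *' h.Uo -'
    comb h.mo h.Uo h.Yo (e1 h.bo (c 0)) (m1 h.bo) (Hn.p1 h.bo) (c 100000))) +' h.T
def gam : Nat → α
  | 1 => c 2 *' (c 2 *' h.Yo -' c 3 *' h.Y) *' (c 2 *' h.E1 -' m1 h.b)
  | _ => c 2 *' (h.Y *' (c 2 *' h.E1 -' m1 h.b) +' c 100000 *' (h.Yo -' c 2 *' h.Y))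
def sig : α :=
  comb h.m h.U h.Y (h.EE +' h.b *' h.w *' (qlo h.b (h.b *' (c 1 -' h.w)) +' c 50))
    (ddm h.b h.w) (ddp h.b h.w) (c 100000)
def mu : α := h.p0 *' h.ao +' h.p1 *' h.a
def KL : α := h.mu *' (c 5 *' h.U -' (h.Y +' h.Yo) *' (c 5 -' c 2 *' h.w))
def B : Nat → Nat → α
  | 0, v => c 512 *' h.U *' h.H v -' c h.M *' (h.a *' (h.sig *' (c 512 *' h.U -' h.s *' h.KL)))
  | g, v => c 512 *' h.U *' h.H v -' c h.M *' (h.a *' (h.sig *' (c 512 *' h.U -' h.s *' h.KL) -'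
      h.s *' h.gam g *' (c 512 *' h.U *' h.ao -' h.KL)))
def lim : Nat → α
  | 0 => c 6 *' (h.Y +' h.Yo)
  | 1 => c 12 *' h.Y
  | 2 => c 6 *' h.U
  | 3 => c 10 *' (h.Y +' h.Yo)
  | _ => c 15 *' h.Y
def C3 (lo hi : Nat) : α := h.lim lo +' h.w *' (h.lim hi -' h.lim lo)
def K5 (lo hi : Nat) : α := c 5 *' (h.C3 lo hi -' h.lim 0)
def NN (n lo hi : Nat) : α :=
  h.b *' (comb n (h.C3 lo hi) (c 6 *' h.Y) (h.EE -' h.E1) (mx h.b) (px h.b) (c 0) +' c 6 *' h.psi) -'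
    c 200000 *' (h.lim 2 -' h.C3 lo hi)
def C (n lo hi : Nat) : Nat → Nat → α
  | 0, v => c 12 *' h.C3 lo hi *' (h.s *' h.H v) -'
      c h.M *' (h.NN n lo hi *' (c 2 *' h.C3 lo hi -' h.bo *' h.K5 lo hi))
  | g, v => c 12 *' h.C3 lo hi *' (h.s *' h.H v) -'
      c h.M *' (h.NN n lo hi *' (c 2 *' h.C3 lo hi -' h.bo *' h.K5 lo hi) -'
        c 6 *' (h.bo *' h.b *' h.gam g) *' (c 2 *' h.C3 lo hi -' h.K5 lo hi))
def famF : List α := [h.F, pcLo h.m h.U h.Y, pcHi h.m h.U h.Y]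
def famB (near : Bool) (k : Nat) : List α :=
  [h.mu, c 256 *' h.ao -' h.mu, h.B (cond near (k / 2) 0) (k % 2)]
def famC (n lo hi : Nat) (near : Bool) : Nat → List α
  | 0 => [h.lim lo -' h.lim hi]
  | k + 1 => [h.C n lo hi (cond near (k / 2) 0) (k % 2)]

end Side

def hor {β : Type} (f : β → α) (v : α) : List β → α
  | [] => c 0
  | [z] => f z
  | z :: z' :: l => f z +' v *' hor f v (z' :: l)

/-- A trapezoid `va / ua ≤ y ≤ vb / ub`, `l0 + l1 y ≤ D y' ≤ l0 + l1 y + h0 + h1 y`, with an order of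
the two states and the separating polynomial. -/
structure Cell where
  D : Int
  M : Int
  mK : Nat
  mI : Nat
  l0 : Int
  l1 : Int
  h0 : Int
  h1 : Int
  sw : Bool
  hi2 : Nat
  hi3 : Nat
  hi4 : Nat
  hi3i : Nat
  lo4i : Nat
  hi4i : Nat
  I : Iv
  cs : List (List (List (List Int)))

namespace Cell

variable (u : Cell)

def T (x0 x1 x2 x3 : α) : α := hor (hor (hor (hor c x0) x1) x2) x3 u.cs
def Yp (x0 x1 : α) : α := (c u.l0 +' c u.l1 *' x0) +' x1 *' (c u.h0 +' c u.h1 *' x0)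
def far (x0 x1 x2 x3 x4 x5 p0 p1 : α) : Side α :=
  ⟨u.D, u.M, u.T x0 x1 x2 x3, u.mK, cond u.sw x3 (c 1), c u.D *' x0, u.mI, cond u.sw (c 1) x3,
    u.Yp x0 x1, x2, x4, x5, p0, p1⟩
def near (x0 x1 x2 x3 x4 x5 p0 p1 : α) : Side α :=
  ⟨u.D, u.M, c 0 -' u.T x0 x1 x2 x3, u.mI, cond u.sw (c 1) x3, u.Yp x0 x1, u.mK,
    cond u.sw x3 (c 1), c u.D *' x0, x2, x4, x5, p0, p1⟩
def farE : Side E :=
  u.far (.var 0) (.var 1) (.var 2) (.var 3) (.var 4) (.var 5) (.par 0) (.par 1)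
def nearE : Side E :=
  u.near (.var 0) (.var 1) (.var 2) (.var 3) (.var 4) (.var 5) (.par 0) (.par 1)
def box : Box := [u.I, ⟨1, 0, 1, 1⟩, ⟨1, 0, 1, 1⟩, ⟨1, 0, 1, 1⟩, ⟨1, 0, 1, 1⟩, ⟨1, 0, 1, 1⟩]
def wf : Bool :=
  decide (0 < u.D ∧ 0 < u.M ∧ (u.hi2 = 1 ∨ u.hi2 = 2 ∨ u.hi2 = 3) ∧
    (u.hi3 = 2 ∨ u.hi3 = 3 ∨ u.hi3 = 4) ∧ (u.hi4 = 2 ∨ u.hi4 = 3) ∧
    (u.hi3i = 2 ∨ u.hi3i = 3 ∨ u.hi3i = 4) ∧ (u.lo4i = 0 ∨ u.lo4i = 4) ∧ (u.hi4i = 2 ∨ u.hi4i = 3))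
noncomputable def chk (t0 t1 t2 t3 t4 t5 t6 t7 : Lib.PolyBB.T) : Bool :=
  band u.wf (band (run (fun _ => u.farE.famF ++ u.nearE.famF) t0 u.box [])
    (band (run (u.farE.famB false) t1 u.box [])
    (band (run (u.farE.famC 2 0 u.hi2 false) t2 u.box [])
    (band (run (u.farE.famC 3 1 u.hi3 false) t3 u.box [])
    (band (run (u.farE.famC 4 4 u.hi4 false) t4 u.box [])
    (band (run (u.nearE.famB true) t5 u.box [])
    (band (run (u.nearE.famC 3 0 u.hi3i true) t6 u.box [])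
      (run (u.nearE.famC 4 u.lo4i u.hi4i true) t7 u.box []))))))))

end Cell

end Crest.Agent.R310.Hn
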