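import Crest.Agent.R310.HnDefs
import Crest.Agent.Lib.PolyBB.Basic

/-! # Row 310: evaluation of the families, and the band for the exponential -/

set_option autoImplicit false

open Crest.Agent.Lib.PolyBB

namespace Crest.Agent.R310.Hn

open Ar

noncomputable instance : Ar ℝ := ⟨(· + ·), (· - ·), (· * ·), fun z => (z : ℝ)⟩

theorem r_add (a b : ℝ) : a +' b = a + b := rfl
theorem r_sub (a b : ℝ) : a -' b = a - b := rfl
theorem r_mul (a b : ℝ) : a *' b = a * b := rfl
theorem r_c (z : ℤ) : (c z : ℝ) = z := rfl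

section Ev

variable (x : ℕ → ℝ) (p : ℕ → ℤ)

theorem ev_add (a b : E) : (a +' b).eval x p = a.eval x p +' b.eval x p := rfl
theorem ev_sub (a b : E) : (a -' b).eval x p = a.eval x p -' b.eval x p := rfl
theorem ev_mul (a b : E) : (a *' b).eval x p = a.eval x p *' b.eval x p := rfl
theorem ev_c (z : ℤ) : (c z : E).eval x p = c z := rfl
theorem ev_qlo (b d : E) : (qlo b d).eval x p = qlo (b.eval x p) (d.eval x p) := rfl
theorem ev_e1 (b d : E) : (e1 b d).eval x p = e1 (b.eval x p) (d.eval x p) := rfl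
theorem ev_ee (b d : E) : (ee b d).eval x p = ee (b.eval x p) (d.eval x p) := rfl
theorem ev_m1 (b : E) : (m1 b).eval x p = m1 (b.eval x p) := rfl
theorem ev_p1 (b : E) : (p1 b).eval x p = p1 (b.eval x p) := rfl
theorem ev_mx (b : E) : (mx b).eval x p = mx (b.eval x p) := rfl
theorem ev_px (b : E) : (px b).eval x p = px (b.eval x p) := rfl
theorem ev_ddm (b d : E) : (ddm b d).eval x p = ddm (b.eval x p) (d.eval x p) := rfl
theorem ev_ddp (b d : E) : (ddp b d).eval x p = ddp (b.eval x p) (d.eval x p) := rfl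
theorem ev_al (n : ℕ) (U Y : E) : (al n U Y).eval x p = al n (U.eval x p) (Y.eval x p) := by
  rcases n with _ | _ | n <;> rfl
theorem ev_rest (n : ℕ) (U Y m q o : E) : (rest n U Y m q o).eval x p =
    rest n (U.eval x p) (Y.eval x p) (m.eval x p) (q.eval x p) (o.eval x p) := by
  rcases n with _ | _ | _ | _ | n <;> rfl
theorem ev_pcLo (n : ℕ) (U Y : E) : (pcLo n U Y).eval x p = pcLo n (U.eval x p) (Y.eval x p) := by
  rcases n with _ | _ | _ | _ | n <;> rfl
theorem ev_pcHi (n : ℕ) (U Y : E) : (pcHi n U Y).eval x p = pcHi n (U.eval x p) (Y.eval x p) := by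
  rcases n with _ | _ | _ | _ | n <;> rfl
theorem ev_comb (n : ℕ) (U Y e m q o : E) : (comb n U Y e m q o).eval x p =
    comb n (U.eval x p) (Y.eval x p) (e.eval x p) (m.eval x p) (q.eval x p) (o.eval x p) := by
  simp only [comb, ev_add, ev_mul, ev_al, ev_rest]

/-- the values of a side -/
noncomputable def Side.ev (h : Side E) : Side ℝ :=
  ⟨h.D, h.M, h.T.eval x p, h.m, h.a.eval x p, h.Y.eval x p, h.mo, h.ao.eval x p, h.Yo.eval x p,
    h.s.eval x p, h.w.eval x p, h.η.eval x p, h.p0.eval x p, h.p1.eval x p⟩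

variable (h : Side E)

theorem ev_b : h.b.eval x p = (h.ev x p).b := rfl
theorem ev_bo : h.bo.eval x p = (h.ev x p).bo := rfl
theorem ev_U : h.U.eval x p = (h.ev x p).U := rfl
theorem ev_Uo : h.Uo.eval x p = (h.ev x p).Uo := rfl
theorem ev_E1 : h.E1.eval x p = (h.ev x p).E1 := rfl
theorem ev_EE : h.EE.eval x p = (h.ev x p).EE := rfl
theorem ev_mu : h.mu.eval x p = (h.ev x p).mu := rfl
theorem ev_KL : h.KL.eval x p = (h.ev x p).KL := rfl
theorem ev_psi : h.psi.eval x p = (h.ev x p).psi := by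
  simp only [Side.psi, ev_comb]; rfl
theorem ev_eo (v : ℕ) : (h.eo v).eval x p = (h.ev x p).eo v := by
  rcases v with _ | v <;> rfl
theorem ev_H (v : ℕ) : (h.H v).eval x p = (h.ev x p).H v := by
  simp only [Side.H, ev_add, ev_sub, ev_mul, ev_psi, ev_eo, ev_al, ev_rest]; rfl
theorem ev_F : h.F.eval x p = (h.ev x p).F := by
  simp only [Side.F, ev_add, ev_sub, ev_mul, ev_comb]; rfl
theorem ev_gam (g : ℕ) : (h.gam g).eval x p = (h.ev x p).gam g := by
  rcases g with _ | _ | g <;> rfl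
theorem ev_sig : h.sig.eval x p = (h.ev x p).sig := by
  simp only [Side.sig, ev_comb]; rfl
theorem ev_B (g v : ℕ) : (h.B g v).eval x p = (h.ev x p).B g v := by
  rcases g with _ | g <;>
    (simp only [Side.B, ev_add, ev_sub, ev_mul, ev_H, ev_sig, ev_gam]; rfl)
theorem ev_lim (j : ℕ) : (h.lim j).eval x p = (h.ev x p).lim j := by
  rcases j with _ | _ | _ | _ | j <;> rfl
theorem ev_C3 (i j : ℕ) : (h.C3 i j).eval x p = (h.ev x p).C3 i j := by
  simp only [Side.C3, ev_add, ev_sub, ev_mul, ev_lim]; rfl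
theorem ev_K5 (i j : ℕ) : (h.K5 i j).eval x p = (h.ev x p).K5 i j := by
  simp only [Side.K5, ev_sub, ev_mul, ev_lim, ev_C3]; rfl
theorem ev_NN (n i j : ℕ) : (h.NN n i j).eval x p = (h.ev x p).NN n i j := by
  simp only [Side.NN, ev_add, ev_sub, ev_mul, ev_lim, ev_C3, ev_comb, ev_psi]; rfl
theorem ev_C (n i j g v : ℕ) : (h.C n i j g v).eval x p = (h.ev x p).C n i j g v := by
  rcases g with _ | g <;>
    (simp only [Side.C, ev_add, ev_sub, ev_mul, ev_H, ev_C3, ev_K5, ev_NN, ev_gam]; rfl)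

theorem ev_hor {β : Type} (f : β → E) (g : β → ℝ) (hf : ∀ z, (f z).eval x p = g z) (v : E) :
    ∀ l : List β, (hor f v l).eval x p = hor g (v.eval x p) l
  | [] => rfl
  | [z] => hf z
  | z :: z' :: l => by
    simp only [hor, ev_add, ev_mul, hf, ev_hor f g hf v (z' :: l)]

theorem ev_T (u : Cell) (a0 a1 a2 a3 : E) : (u.T a0 a1 a2 a3).eval x p =
    u.T (a0.eval x p) (a1.eval x p) (a2.eval x p) (a3.eval x p) :=
  ev_hor x p _ _ (ev_hor x p _ _ (ev_hor x p _ _ (ev_hor x p _ _ (ev_c x p) a0) a1) a2) a3 _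

theorem ev_far (u : Cell) : u.farE.ev x p =
    u.far (x 0) (x 1) (x 2) (x 3) (x 4) (x 5) (p 0) (p 1) := by
  simp only [Cell.farE, Cell.far, Side.ev, ev_T]
  cases u.sw <;> rfl

theorem ev_near (u : Cell) : u.nearE.ev x p =
    u.near (x 0) (x 1) (x 2) (x 3) (x 4) (x 5) (p 0) (p 1) := by
  simp only [Cell.nearE, Cell.near, Side.ev, ev_sub, ev_T]
  cases u.sw <;> rfl

end Ev

/-! The band -/

section Band

variable {α : Type} [Ar α]

/-- `36288000 * (exp v - 1 - v) / v ^ 2` up to the remainder `r` -/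
def ty2 (v : α) (r : ℤ) : α :=
  c 18144000 +' v *' (c 6048000 +' v *' (c 1512000 +' v *' (c 302400 +' v *' (c 50400 +'
    v *' (c 7200 +' v *' (c 900 +' v *' (c 100 +' v *' c r)))))))
def ty0 (v : α) (r : ℤ) : α := c 36288000 +' v *' (c 36288000 +' v *' ty2 v r)
def bandL (b d : α) : List α :=
  [c 100000 *' (ty0 (c 0 -' b) (-11) *' ty2 (b -' d) (-11)) -' c 1316818944000000 *' qlo b d,
    c 1316818944000000 *' (qlo b d +' c 50) -' c 100000 *' (ty0 (c 0 -' b) 11 *' ty2 (b -' d) 11),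
    ty2 (b -' d) (-11)]

theorem band_run : run (fun _ => bandL (.var 0) (.var 1))
    (dec 3 (nat_lit 0xc0000100000b0c0000000000100000400002c30000010000020001883))
    [⟨1, 0, 1, 1⟩, ⟨1, 0, 1, 1⟩] [] = true := by decide +kernel

theorem exp_ty {v : ℝ} (h : |v| ≤ 1) :
    ty0 v (-11) ≤ 36288000 * Real.exp v ∧ 36288000 * Real.exp v ≤ ty0 v 11 := by
  have h1 := Real.exp_bound h (n := 10) (by norm_num)
  rw [Even.pow_abs (by decide), abs_le] at h1
  simp only [Finset.sum_range_succ, Finset.range_zero, Finset.sum_empty, Nat.factorial] at h1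
  simp only [ty0, ty2, r_add, r_mul, r_c]
  push_cast at h1 ⊢
  constructor <;> linarith [h1.1, h1.2]

theorem exp_band {b d : ℝ} (b0 : 0 ≤ b) (b1 : b ≤ 1) (d0 : 0 ≤ d) (d1 : d ≤ 1) :
    100000 * Real.exp (-b) * (1 + (b - d)) + (b - d) ^ 2 * qlo b d ≤ 100000 * Real.exp (-d) ∧
    100000 * Real.exp (-d) ≤
      100000 * Real.exp (-b) * (1 + (b - d)) + (b - d) ^ 2 * (qlo b d + 50) := by
  obtain ⟨_, ps, h⟩ := run_sound band_run (x := pt [b, d]) (by
    simp [Box.mem_cons, pt, b0, b1, d0, d1])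
  have h1 : 0 ≤ (c 100000 *' (ty0 (c 0 -' b) (-11) *' ty2 (b -' d) (-11)) -'
      c 1316818944000000 *' qlo b d : ℝ) := h _ (List.mem_cons_self ..)
  have h2 : 0 ≤ (c 1316818944000000 *' (qlo b d +' c 50) -'
      c 100000 *' (ty0 (c 0 -' b) 11 *' ty2 (b -' d) 11) : ℝ) :=
    h _ (List.mem_cons_of_mem _ (List.mem_cons_self ..))
  have h3 : 0 ≤ (ty2 (b -' d) (-11) : ℝ) :=
    h _ (List.mem_cons_of_mem _ (List.mem_cons_of_mem _ (List.mem_cons_self ..)))
  simp only [r_add, r_sub, r_mul, r_c, Int.cast_zero, zero_sub] at h1 h2 h3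
  push_cast at h1 h2
  obtain ⟨e1, e2⟩ := exp_ty (v := -b) (abs_le.2 ⟨by linarith, by linarith⟩)
  obtain ⟨e3, e4⟩ := exp_ty (v := b - d) (abs_le.2 ⟨by linarith, by linarith⟩)
  have e5 : Real.exp (-d) = Real.exp (-b) * Real.exp (b - d) := by
    rw [← Real.exp_add]; congr 1; ring
  have hE := (Real.exp_pos (-b)).le
  have h4 : (ty2 (b - d) (-11) : ℝ) ≤ ty2 (b - d) 11 := by
    simp only [ty2, r_add, r_mul, r_c]
    push_cast
    nlinarith [Even.pow_nonneg (by decide : Even 8) (b - d)]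
  rw [ty0] at e3 e4
  simp only [r_add, r_mul, r_c] at e3 e4
  push_cast at e3 e4
  generalize (ty2 (b - d) (-11) : ℝ) = A at *
  generalize (ty2 (b - d) 11 : ℝ) = A' at *
  generalize (ty0 (-b) (-11) : ℝ) = L at *
  generalize (ty0 (-b) 11 : ℝ) = L' at *
  generalize (qlo b d : ℝ) = q at *
  generalize Real.exp (-b) = X at *
  generalize Real.exp (b - d) = Z at *
  generalize b - d = β at *
  rw [e5]
  have s := sq_nonneg β
  constructor
  · nlinarith [mul_le_mul_of_nonneg_left e3 hE, mul_nonneg s h1,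
      mul_nonneg s (mul_nonneg (sub_nonneg.2 e1) h3)]
  · nlinarith [mul_le_mul_of_nonneg_left e4 hE, mul_nonneg s h2,
      mul_nonneg s (mul_nonneg (sub_nonneg.2 e2) (h3.trans h4))]

theorem qlo_zero (b : ℝ) : qlo 0 b = hb b 0 := by
  simp only [qlo, hb, r_add, r_mul, r_c]; ring

theorem exists_eta {b : ℝ} (b0 : 0 ≤ b) (b1 : b ≤ 1) :
    ∃ η, 0 ≤ η ∧ η ≤ 1 ∧ 100000 * Real.exp (-b) = ee b η := by
  obtain ⟨h1, h2⟩ := exp_band le_rfl zero_le_one b0 b1
  rw [qlo_zero, neg_zero, Real.exp_zero] at h1 h2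
  rcases b0.eq_or_lt with rfl | h
  · exact ⟨0, le_rfl, zero_le_one, by simp [ee, r_sub, r_mul, r_c]⟩
  have hp : 0 < 50 * b ^ 2 := by positivity
  refine ⟨(100000 * Real.exp (-b) - 100000 * (1 - b) - b ^ 2 * hb b 0) / (50 * b ^ 2),
    div_nonneg (by nlinarith) hp.le, (div_le_one hp).2 (by nlinarith), ?_⟩
  simp only [ee, e1, hb, r_add, r_sub, r_mul, r_c]
  push_cast
  field_simp
  ring

theorem ee_zero_le {b : ℝ} (b0 : 0 ≤ b) (b1 : b ≤ 1) : ee b 0 ≤ 100000 * Real.exp (-b) := by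
  obtain ⟨h1, -⟩ := exp_band le_rfl zero_le_one b0 b1
  rw [qlo_zero, neg_zero, Real.exp_zero] at h1
  simp only [ee, e1, r_sub, r_mul, r_c]
  push_cast
  nlinarith

end Band

end Crest.Agent.R310.Hn
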