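import Crest.Agent.R310.HnEval
import Crest.Agent.R310.DesN

/-! # Row 310: meaning of the families -/

set_option autoImplicit false

open Set

namespace Crest.Agent.R310.Hn

open Ar Des

section Pieces

variable {n : ℕ} {b U Y : ℝ}

theorem rest_eq (n : ℕ) (U Y m p o : ℝ) : rest n U Y m p o =
    rest n U Y 1 0 0 * m + rest n U Y 0 1 0 * p + rest n U Y 0 0 1 * o := by
  rcases n with _ | _ | _ | _ | n <;> simp only [rest, r_add, r_sub, r_mul, r_c] <;> ring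

theorem al_nonneg (hY : 0 ≤ Y) (h : 0 ≤ pcLo n U Y) : 0 ≤ al n U Y := by
  rcases n with _ | _ | n <;> simp only [al, pcLo, r_sub, r_mul, r_c] at h ⊢ <;> push_cast at * <;>
    linarith

theorem sm_eq (b : ℝ) : 100000 * sm b = 100000 - b * m1 b := by
  simp only [sm, m1, r_add, r_mul, r_c]; push_cast; ring
theorem sp_eq (b : ℝ) : 100000 * sp b = 100000 - b * p1 b := by
  simp only [sp, p1, r_add, r_mul, r_c]; push_cast; ring
theorem smd_eq (b : ℝ) : 100000 * smd b = -(m1 b + mx b) := by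
  simp only [smd, m1, mx, r_add, r_mul, r_c]; push_cast; ring
theorem spd_eq (b : ℝ) : 100000 * spd b = -(p1 b + px b) := by
  simp only [spd, p1, px, r_add, r_mul, r_c]; push_cast; ring
theorem ddm_eq (b w : ℝ) : b * m1 b - b * (1 - w) * m1 (b * (1 - w)) = w * b * ddm b w := by
  simp only [ddm, m1, h2, h3, h4, r_add, r_sub, r_mul, r_c]; push_cast; ring
theorem ddp_eq (b w : ℝ) : b * p1 b - b * (1 - w) * p1 (b * (1 - w)) = w * b * ddp b w := by
  simp only [ddp, p1, h2, h3, h4, h5, r_add, r_sub, r_mul, r_c]; push_cast; ring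
theorem ddm_zero (b : ℝ) : ddm b 0 = m1 b + mx b := by
  simp only [ddm, m1, mx, h2, h3, h4, r_add, r_sub, r_mul, r_c]; push_cast; ring
theorem ddp_zero (b : ℝ) : ddp b 0 = p1 b + px b := by
  simp only [ddp, p1, px, h2, h3, h4, h5, r_add, r_sub, r_mul, r_c]; push_cast; ring

theorem phi_eq (b : ℝ) (hY : 0 ≤ Y) (h : 0 ≤ pcLo n U Y) (h' : 0 ≤ pcHi n U Y) :
    200000 * Phi b U (2 * Y) = 200000 * U - al n U Y * (100000 - 100000 * Real.exp (-b)) -
      b * rest n U Y (m1 b) (p1 b) 100000 := by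
  have e1 := sm_eq b
  have e2 := sp_eq b
  rcases n with _ | _ | _ | _ | n <;>
    simp only [al, rest, pcLo, pcHi, r_add, r_sub, r_mul, r_c] at h h' ⊢ <;> push_cast at h h' ⊢
  · rw [Phi_P4 (by linarith) (by linarith)]; linear_combination Y * e2
  · rw [Phi_P1 (by linarith) (by linarith)]; linear_combination (2 * Y - 4 * U) * e1
  · rw [Phi_P2 (by linarith) (by linarith)]; linear_combination (2 * U - 4 * Y) * e1
  · rw [Phi_P3 (by linarith) (by linarith)]; linear_combination (2 * U - 4 * Y) * e2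
  · rw [Phi_P4 (by linarith) (by linarith)]; linear_combination Y * e2

theorem pi_eq (b : ℝ) (hY : 0 ≤ Y) (h : 0 ≤ pcLo n U Y) (h' : 0 ≤ pcHi n U Y) :
    200000 * Pi b U (2 * Y) = al n U Y * (100000 * Real.exp (-b)) +
      rest n U Y (m1 b + mx b) (p1 b + px b) 100000 := by
  have e1 := smd_eq b
  have e2 := spd_eq b
  rcases n with _ | _ | _ | _ | n <;>
    simp only [al, rest, pcLo, pcHi, r_add, r_sub, r_mul, r_c] at h h' ⊢ <;> push_cast at h h' ⊢
  · rw [Pi_P4 (by linarith) (by linarith)]; linear_combination -Y * e2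
  · rw [Pi_P1 (by linarith) (by linarith)]; linear_combination (4 * U - 2 * Y) * e1
  · rw [Pi_P2 (by linarith) (by linarith)]; linear_combination (4 * Y - 2 * U) * e1
  · rw [Pi_P3 (by linarith) (by linarith)]; linear_combination (4 * Y - 2 * U) * e2
  · rw [Pi_P4 (by linarith) (by linarith)]; linear_combination -Y * e2

theorem n_eq (b : ℝ) (hY : 0 ≤ Y) (h : 0 ≤ pcLo n U Y) (h' : 0 ≤ pcHi n U Y) {η : ℝ}
    (hη : 100000 * Real.exp (-b) = ee b η) :
    200000 * N b U (2 * Y) =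
      200000 * U + b * comb n U Y (ee b η - e1 b η) (mx b) (px b) 0 := by
  have h1 := phi_eq b hY h h'
  have h2 := pi_eq b hY h h'
  have h3 : ee b η = 100000 - b * e1 b η := by simp only [ee, r_sub, r_mul, r_c]; push_cast; ring
  rw [rest_eq] at h1 h2
  rw [N, comb, rest_eq, r_add, r_mul]
  rw [hη] at h1 h2
  linear_combination h1 + b * h2 + al n U Y * h3

theorem s_le {w : ℝ} (b0 : 0 ≤ b) (b1 : b ≤ 1) (w0 : 0 ≤ w) (w1 : w ≤ 1) (hY : 0 ≤ Y)
    (h : 0 ≤ pcLo n U Y) (h' : 0 ≤ pcHi n U Y) {η : ℝ} (hη : 100000 * Real.exp (-b) = ee b η) :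
    200000 * S b U (2 * Y) w ≤ b * comb n U Y (ee b η + b * w * (qlo b (b * (1 - w)) + 50))
      (ddm b w) (ddp b w) 100000 := by
  rw [comb, r_add, r_mul, ← hη]
  rcases w0.eq_or_lt with rfl | hw
  · rw [S_zero, ddm_zero, ddp_zero]
    have := pi_eq b hY h h'
    apply le_of_eq
    linear_combination b * this
  refine le_of_mul_le_mul_left ?_ hw
  have h1 := phi_eq b hY h h'
  have h2 := phi_eq (b * (1 - w)) hY h h'
  have h3 := mul_S b U (2 * Y) w
  have h4 := (exp_band b0 b1 (d := b * (1 - w)) (by nlinarith) (by nlinarith)).2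
  have h5 := mul_le_mul_of_nonneg_left h4 (al_nonneg hY h)
  rw [rest_eq] at h1 h2 ⊢
  have h6 := ddm_eq b w
  have h7 := ddp_eq b w
  generalize rest n U Y 1 0 0 = A1 at *
  generalize rest n U Y 0 1 0 = A2 at *
  generalize rest n U Y 0 0 1 = A3 at *
  have e : w * (200000 * S b U (2 * Y) w) =
      al n U Y * (100000 * Real.exp (-(b * (1 - w)))) - al n U Y * (100000 * Real.exp (-b)) +
        w * (b * (A1 * ddm b w + A2 * ddp b w + A3 * 100000)) := by
    linear_combination 200000 * h3 + h2 - h1 + A1 * h6 + A2 * h7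
  rw [e]
  nlinarith

/-- two global upper bounds for `Φ` -/
theorem phi_ub {δ t : ℝ} (b0 : 0 ≤ b) (b1 : b ≤ 1) (ht : 0 ≤ t) :
    Phi b δ t ≤ t / 4 + (δ - t / 4) * (4 * Real.exp (-b) - 2 * sm b - 1) ∧
    Phi b δ t ≤ t / 4 + t / 4 * (4 * Real.exp (-b) - 2 * sm b - 1) + (δ - t / 2) * (1 - b) := by
  have f0 : 4 * Real.exp (-b) - 2 * sm b - 1 ≤ 1 := by
    have := Phi_le (b := b) (t := 4) 2 (by norm_num) ⟨b0, b1⟩
    rw [Phi_P1 (by norm_num) (by norm_num)] at this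
    linarith
  have hb := sub_nonneg.2 b1
  have f1 : 1 - b + b / 10 ≤ 4 * Real.exp (-b) - 2 * sm b - 1 := by
    have := ee_zero_le b0 b1
    simp only [ee, e1, Hn.hb, r_add, r_sub, r_mul, r_c] at this
    push_cast at this
    rw [sm]
    nlinarith [mul_nonneg b0 b0, pow_nonneg b0 3, mul_nonneg (pow_nonneg b0 3) hb]
  have f2 := (sm_mem b0 b1).2
  have f3 : sp b ≤ 1 - b + b / 10 := by
    have : 66 / 1000 - 1065 / 1000 * b + 1184 / 1000 * b ^ 2 - 510 / 1000 * b ^ 3 ≤ 1 / 10 := by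
      nlinarith [mul_nonneg b0 b0, mul_nonneg b0 hb, mul_nonneg b0 (sq_nonneg (b - 1)),
        mul_nonneg (mul_nonneg b0 b0) hb]
    rw [sp]
    nlinarith [mul_le_mul_of_nonneg_left this (mul_nonneg b0 hb), mul_nonneg b0 b0]
  have f4 : 2 * sm b + sp b ≤ 3 * (1 - b) := by
    have : 0 ≤ 1062 / 1000 + 289 / 1000 * b - 960 / 1000 * b ^ 2 + 510 / 1000 * b ^ 3 := by
      nlinarith [mul_nonneg b0 hb, pow_nonneg b0 3]
    rw [sm, sp]
    nlinarith [mul_nonneg this (mul_nonneg b0 hb)]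
  generalize hs : 4 * Real.exp (-b) - 2 * sm b - 1 = s at *
  have hE : Real.exp (-b) = (s + 2 * sm b + 1) / 4 := by linarith
  have g1 : sm b ≤ s := by linarith
  have g2 : sp b ≤ s := by linarith
  have g3 : 1 - b ≤ s := by linarith
  rcases pieces δ t with h | ⟨h, h'⟩ | ⟨h, h'⟩ | ⟨h, h'⟩ | h
  · rw [Phi_P0 ht h]
    constructor
    · nlinarith [mul_nonneg (sub_nonneg.2 h) (sub_nonneg.2 f0)]
    · nlinarith [mul_nonneg (sub_nonneg.2 h) b0, mul_nonneg ht (sub_nonneg.2 g3)]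
  · rw [Phi_P1 h h', hs]
    constructor
    · exact le_rfl
    · nlinarith [mul_nonneg (sub_nonneg.2 h') (sub_nonneg.2 g3)]
  · rw [Phi_P2 h h', hE]
    constructor
    · nlinarith [mul_nonneg (sub_nonneg.2 h) (sub_nonneg.2 g1)]
    · nlinarith [mul_nonneg (sub_nonneg.2 h) (sub_nonneg.2 f2)]
  · rw [Phi_P3 h h', hE]
    constructor
    · nlinarith [mul_nonneg (sub_nonneg.2 h) (sub_nonneg.2 g2), mul_nonneg ht (sub_nonneg.2 g1)]
    · nlinarith [mul_nonneg (sub_nonneg.2 h) (sub_nonneg.2 f4),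
        mul_nonneg (sub_nonneg.2 h') (sub_nonneg.2 f2)]
  · rw [Phi_P4 ht h, hE]
    constructor
    · nlinarith [mul_nonneg (sub_nonneg.2 h) (sub_nonneg.2 g3), mul_nonneg ht (sub_nonneg.2 g1),
        mul_nonneg ht (sub_nonneg.2 g2)]
    · nlinarith [mul_nonneg ht (sub_nonneg.2 f4)]

end Pieces

namespace Side

/-- the relation between a side and the data of the problem -/
structure Ok (h : Side ℝ) (y yo τ : ℝ) : Prop where
  D0 : (0 : ℝ) < h.D
  M0 : (0 : ℝ) < h.M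
  hY : h.Y = h.D * y
  hYo : h.Yo = h.D * yo
  y0 : 0 ≤ y
  y1 : y < 1
  yo0 : 0 ≤ yo
  s0 : 0 ≤ h.s
  a0 : 0 ≤ h.a
  ao0 : 0 ≤ h.ao
  b1 : h.b ≤ 1
  bo1 : h.bo ≤ 1
  p1 : 0 ≤ pcLo h.m h.U h.Y
  p2 : 0 ≤ pcHi h.m h.U h.Y
  p3 : 0 ≤ pcLo h.mo h.Uo h.Yo
  p4 : 0 ≤ pcHi h.mo h.Uo h.Yo
  hτ : 200000 * h.D * h.M * τ = h.s * h.T

variable {h : Side ℝ} {y yo τ : ℝ}

theorem Ok.b0 (k : h.Ok y yo τ) : 0 ≤ h.b := mul_nonneg k.s0 k.a0
theorem Ok.bo0 (k : h.Ok y yo τ) : 0 ≤ h.bo := mul_nonneg k.s0 k.ao0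
theorem Ok.Y0 (k : h.Ok y yo τ) : 0 ≤ h.Y := k.hY ▸ mul_nonneg k.D0.le k.y0
theorem Ok.Yo0 (k : h.Ok y yo τ) : 0 ≤ h.Yo := k.hYo ▸ mul_nonneg k.D0.le k.yo0
theorem Ok.hU (k : h.Ok y yo τ) : h.U = h.D * (1 - y) := by
  rw [U, r_sub, r_c, k.hY]; ring
theorem Ok.hUo (k : h.Ok y yo τ) : h.Uo = h.D * (1 - yo) := by
  rw [Uo, r_sub, r_c, k.hYo]; ring
theorem Ok.phi (k : h.Ok y yo τ) (b : ℝ) :
    Phi b h.U (2 * h.Y) = h.D * Phi b (1 - y) (2 * y) := by
  rw [k.hU, k.hY, mul_left_comm, Phi_smul k.D0.le]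
theorem Ok.phio (k : h.Ok y yo τ) (b : ℝ) :
    Phi b h.Uo (2 * h.Yo) = h.D * Phi b (1 - yo) (2 * yo) := by
  rw [k.hUo, k.hYo, mul_left_comm, Phi_smul k.D0.le]

theorem ee_eq (b η : ℝ) : ee b η = 100000 - b * e1 b η := by
  simp only [ee, r_sub, r_mul, r_c]; push_cast; ring

theorem Ok.psi (k : h.Ok y yo τ) (hη : 100000 * Real.exp (-h.b) = h.EE) :
    200000 * h.D * Phi h.b (1 - y) (2 * y) = 200000 * h.D * (1 - y) - h.b * h.psi := by
  have h1 := phi_eq h.b k.Y0 k.p1 k.p2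
  rw [k.phi, hη, EE, ee_eq] at h1
  simp only [Side.psi, comb, E1, r_add, r_mul, r_c]
  push_cast
  linear_combination h1 + 200000 * k.hU

theorem Ok.F (k : h.Ok y yo τ) (hF : 0 ≤ h.F) :
    0 ≤ Phi h.bo (1 - yo) (2 * yo) - (1 - yo) * (1 - h.bo) + τ := by
  have h1 := phi_eq h.bo k.Yo0 k.p3 k.p4
  have h2 := mul_le_mul_of_nonneg_left (ee_zero_le k.bo0 k.bo1) (al_nonneg k.Yo0 k.p3)
  have h3 := mul_nonneg k.s0 hF
  have h4 := mul_le_mul_of_nonneg_left h2 k.M0.le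
  have hb : h.bo = h.s * h.ao := rfl
  rw [k.phio] at h1
  rw [ee_eq] at h4
  simp only [Side.F, comb, r_add, r_sub, r_mul, r_c] at h3
  push_cast at h3
  refine nonneg_of_mul_nonneg_right (a := (200000 * h.D * h.M : ℝ)) ?_
    (mul_pos (mul_pos (by norm_num) k.D0) k.M0)
  have e : 200000 * h.D * h.M * (Phi h.bo (1 - yo) (2 * yo) - (1 - yo) * (1 - h.bo) + τ) =
      h.M * (h.bo * (200000 * h.Uo - rest h.mo h.Uo h.Yo (m1 h.bo) (Hn.p1 h.bo) 100000) -
        al h.mo h.Uo h.Yo * (100000 - 100000 * Real.exp (-h.bo))) + h.s * h.T := by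
    linear_combination h.M * h1 + k.hτ + h.M * 200000 * (1 - h.bo) * k.hUo
  rw [e]
  generalize rest h.mo h.Uo h.Yo (m1 h.bo) (Hn.p1 h.bo) 100000 = R at *
  generalize e1 h.bo 0 = e at *
  generalize Real.exp (-h.bo) = X at *
  rw [hb] at h4 ⊢
  nlinarith

theorem Ok.eo (k : h.Ok y yo τ) (hη : 100000 * Real.exp (-h.b) = h.EE) (v : ℕ) :
    100000 - 100000 * Real.exp (-h.bo) ≤ h.s * h.eo v := by
  have hb : h.b = h.s * h.a := rfl
  have hbo : h.bo = h.s * h.ao := rfl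
  rcases v with _ | v
  · have h1 := (exp_band k.b0 k.b1 k.bo0 k.bo1).1
    have h2 : h.EE = 100000 - h.b * h.E1 := ee_eq _ _
    rw [hη] at h1
    simp only [Side.eo, r_add, r_sub, r_mul]
    generalize qlo h.b h.bo = q at *
    generalize Real.exp (-h.bo) = X at *
    rw [hb, hbo] at h1
    rw [hb] at h2
    nlinarith
  · have h1 := ee_zero_le k.bo0 k.bo1
    rw [ee_eq] at h1
    simp only [Side.eo, r_mul, r_c, Int.cast_zero]
    rw [← mul_assoc, ← hbo]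
    linarith

theorem Ok.H (k : h.Ok y yo τ) (hη : 100000 * Real.exp (-h.b) = h.EE) (v : ℕ) :
    h.s * h.H v ≤ h.M * (200000 * h.D * Hk yo y h.b h.bo τ) := by
  have h1 := phi_eq h.bo k.Yo0 k.p3 k.p4
  have h2 := mul_le_mul_of_nonneg_left
    (mul_le_mul_of_nonneg_left (k.eo hη v) (al_nonneg k.Yo0 k.p3)) k.M0.le
  have h3 := k.psi hη
  have hb : h.b = h.s * h.a := rfl
  have hbo : h.bo = h.s * h.ao := rfl
  rw [k.phio] at h1
  have e : h.M * (200000 * h.D * Hk yo y h.b h.bo τ) =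
      h.M * (h.b * h.psi * (1 - h.bo) +
        h.bo * (200000 * h.Uo - rest h.mo h.Uo h.Yo (m1 h.bo) (Hn.p1 h.bo) 100000) -
        al h.mo h.Uo h.Yo * (100000 - 100000 * Real.exp (-h.bo))) + h.s * h.T := by
    rw [Hk, ph, ph]
    linear_combination h.M * h1 + k.hτ + h.M * 200000 * (1 - h.bo) * k.hUo -
      h.M * (1 - h.bo) * h3
  rw [e]
  simp only [Side.H, r_add, r_sub, r_mul, r_c]
  push_cast
  generalize rest h.mo h.Uo h.Yo (m1 h.bo) (Hn.p1 h.bo) 100000 = R at *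
  generalize Real.exp (-h.bo) = X at *
  have e2 : h.s * (h.M * (h.a * h.psi * (1 - h.bo) + h.ao * (200000 * h.Uo - R) -
      al h.mo h.Uo h.Yo * h.eo v) + h.T) = h.M * (h.b * h.psi * (1 - h.bo) +
        h.bo * (200000 * h.Uo - R)) - h.M * (al h.mo h.Uo h.Yo * (h.s * h.eo v)) + h.s * h.T := by
    linear_combination (-h.M * h.psi * (1 - h.bo)) * hb - h.M * (200000 * h.Uo - R) * hbo
  rw [e2]
  linarith

/-- the gain used by the family `g` -/
noncomputable def gv (h : Side ℝ) : ℕ → ℝ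
  | 0 => 0
  | g => h.gam g

theorem Ok.gain (k : h.Ok y yo τ) (hη : 100000 * Real.exp (-h.b) = h.EE) (g : ℕ) :
    h.b * h.gv g ≤ 200000 * h.D * g0 y yo h.b := by
  have h0 : 0 ≤ 2 * y := by linarith [k.y0]
  obtain ⟨h1, h2⟩ := phi_ub (δ := yo - y) k.b0 k.b1 h0
  have h3 := sm_eq h.b
  have h4 : h.EE = 100000 - h.b * h.E1 := ee_eq _ _
  have hD : (0 : ℝ) ≤ 200000 * h.D := by linarith [k.D0]
  have h5 : 100000 * (4 * Real.exp (-h.b) - 2 * sm h.b - 1) =
      100000 - 2 * h.b * (2 * h.E1 - m1 h.b) := by linear_combination 4 * hη + 4 * h4 - 2 * h3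
  generalize 4 * Real.exp (-h.b) - 2 * sm h.b - 1 = s1 at *
  rw [g0]
  rcases g with _ | _ | g
  · simp only [gv, mul_zero]
    exact mul_nonneg hD (sub_nonneg.2 (Phi_le _ h0 ⟨k.b0, k.b1⟩))
  · have := mul_le_mul_of_nonneg_left h1 hD
    simp only [gv, gam, r_sub, r_mul, r_c, k.hY, k.hYo]
    push_cast
    have e : h.b * (2 * (2 * (h.D * yo) - 3 * (h.D * y)) * (2 * h.E1 - m1 h.b)) =
        200000 * h.D * (yo - y) - 200000 * h.D * (2 * y / 4 + (yo - y - 2 * y / 4) * s1) := by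
      linear_combination (h.D * (2 * yo - 3 * y)) * h5
    rw [e]
    linarith
  · have := mul_le_mul_of_nonneg_left h2 hD
    simp only [gv, gam, r_add, r_sub, r_mul, r_c, k.hY, k.hYo]
    push_cast
    have e : h.b * (2 * (h.D * y * (2 * h.E1 - m1 h.b) + 100000 * (h.D * yo - 2 * (h.D * y)))) =
        200000 * h.D * (yo - y) - 200000 * h.D *
          (2 * y / 4 + 2 * y / 4 * s1 + (yo - y - 2 * y / 2) * (1 - h.b)) := by
      linear_combination (h.D * y) * h5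
    rw [e]
    linarith

theorem B_eq (h : Side ℝ) (g v : ℕ) : h.B g v = 512 * h.U * h.H v - h.M * (h.a *
    (h.sig * (512 * h.U - h.s * h.KL) - h.s * h.gv g * (512 * h.U * h.ao - h.KL))) := by
  rcases g with _ | g <;> simp only [B, gv, r_sub, r_mul, r_c] <;> push_cast <;> ring

theorem C_eq (h : Side ℝ) (n i j g v : ℕ) : h.C n i j g v = 12 * h.C3 i j * (h.s * h.H v) -
    h.M * (h.NN n i j * (2 * h.C3 i j - h.bo * h.K5 i j) -
      6 * (h.bo * h.b * h.gv g) * (2 * h.C3 i j - h.K5 i j)) := by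
  rcases g with _ | g <;> simp only [C, gv, r_sub, r_mul, r_c] <;> push_cast <;> ring

theorem Ok.full (k : h.Ok y yo τ) (hF : 0 ≤ h.F) :
    (1 - y - Phi h.b (1 - y) (2 * y)) * (1 - h.bo) ≤ Hk yo y h.b h.bo τ := by
  have := k.F hF
  rw [Hk, ph, ph]
  linarith

theorem Ok.B (k : h.Ok y yo τ) (hη : 100000 * Real.exp (-h.b) = h.EE) (hF : 0 ≤ h.F) {g v : ℕ}
    {G : ℝ} (hG : h.b * h.gv g ≤ 200000 * h.D * G) (w0 : 0 ≤ h.w) (w1 : h.w ≤ 1)
    (m0 : 0 ≤ h.mu) (m1 : 0 ≤ 256 * h.ao - h.mu) (hB : 0 ≤ h.B g v)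
    (hK : Kl (1 - y) (y + yo) h.w < 1) :
    S h.b (1 - y) (2 * y) h.w * (1 - h.bo * max 0 (Kl (1 - y) (y + yo) h.w)) ≤
      Hk yo y h.b h.bo τ + h.bo * (1 - max 0 (Kl (1 - y) (y + yo) h.w)) * G := by
  have hu : 0 < 1 - y := sub_pos.2 k.y1
  have hD : (0 : ℝ) < 200000 * h.D := by linarith [k.D0]
  have hU : 0 < h.U := k.hU ▸ mul_pos k.D0 hu
  have hb : h.b = h.s * h.a := rfl
  have hbo : h.bo = h.s * h.ao := rfl
  have e1 : h.KL = h.mu * (2 * h.U * Kl (1 - y) (y + yo) h.w) := by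
    simp only [KL, Kl, r_add, r_sub, r_mul, r_c, k.hU, k.hY, k.hYo]
    push_cast
    field_simp
  have h1 : 200000 * h.D * S h.b (1 - y) (2 * y) h.w ≤ h.b * h.sig := by
    have := s_le k.b0 k.b1 w0 w1 k.Y0 k.p1 k.p2 hη
    rw [k.hU, k.hY, mul_left_comm 2, S_smul k.D0.le, ← k.hU, ← k.hY, ← mul_assoc] at this
    simpa only [sig, EE, r_add, r_sub, r_mul, r_c, Int.cast_ofNat, Int.cast_one] using this
  have h2 := k.H hη v
  have h3 := mul_le_mul_of_nonneg_left (k.full hF) hD.le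
  have h4 := mul_le_mul_of_nonneg_left
    (S_le (1 - y) (t := 2 * y) (by linarith [k.y0]) ⟨k.b0, k.b1⟩ ⟨w0, w1⟩) hD.le
  rw [B_eq, e1] at hB
  generalize Kl (1 - y) (y + yo) h.w = K at *
  -- the multiplier
  set μ := h.s * h.mu / 256 with hμ
  have μ0 : 0 ≤ μ := div_nonneg (mul_nonneg k.s0 m0) (by norm_num)
  have μ1 : μ ≤ h.bo := by rw [hμ, hbo]; nlinarith [mul_nonneg k.s0 m1]
  have h5 : h.b * h.sig * (1 - μ * K) - h.b * h.gv g * (h.bo - μ * K) ≤
      200000 * h.D * Hk yo y h.b h.bo τ := by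
    refine le_of_mul_le_mul_left (le_trans ?_ h2) k.M0
    refine le_of_mul_le_mul_left ?_ (show 0 < 512 * h.U by linarith)
    have := mul_nonneg k.s0 hB
    have e : h.s * (512 * h.U * h.H v - h.M * (h.a * (h.sig *
        (512 * h.U - h.s * (h.mu * (2 * h.U * K))) -
        h.s * h.gv g * (512 * h.U * h.ao - h.mu * (2 * h.U * K))))) =
        512 * h.U * (h.s * h.H v) - 512 * h.U * (h.M * (h.b * h.sig * (1 - μ * K) -
          h.b * h.gv g * (h.bo - μ * K))) := by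
      rw [hμ, hb, hbo]; ring
    linarith
  have m0' : 0 ≤ max 0 K := le_max_left _ _
  have m1' : max 0 K ≤ 1 := max_le zero_le_one hK.le
  have m2 : μ * K ≤ h.bo * max 0 K :=
    (mul_le_mul_of_nonneg_left (le_max_right 0 K) μ0).trans (mul_le_mul_of_nonneg_right μ1 m0')
  generalize max 0 K = m at *
  refine le_of_mul_le_mul_left ?_ hD
  have b0 := k.bo0
  have b1 := k.bo1
  have c1 : 0 ≤ h.bo * (1 - m) := mul_nonneg b0 (sub_nonneg.2 m1')
  have c2 : 0 ≤ 1 - h.bo * m := by nlinarith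
  generalize h.b * h.sig = σ at *
  generalize h.b * h.gv g = γ at *
  have e : 200000 * h.D * (S h.b (1 - y) (2 * y) h.w * (1 - h.bo * m)) =
      (200000 * h.D * S h.b (1 - y) (2 * y) h.w) * (1 - h.bo * m) := by ring
  have e' : 200000 * h.D * (Hk yo y h.b h.bo τ + h.bo * (1 - m) * G) =
      200000 * h.D * Hk yo y h.b h.bo τ + h.bo * (1 - m) * (200000 * h.D * G) := by ring
  rw [e, e']
  rw [← mul_assoc] at h3
  generalize 200000 * h.D * S h.b (1 - y) (2 * y) h.w = S' at *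
  generalize 200000 * h.D * Hk yo y h.b h.bo τ = H' at *
  generalize 200000 * h.D * G = G' at *
  generalize 200000 * h.D * (1 - y - Phi h.b (1 - y) (2 * y)) = F' at *
  rcases le_total γ σ with c3 | c3
  · nlinarith [mul_le_mul_of_nonneg_right h1 c2, mul_le_mul_of_nonneg_left hG c1,
      mul_le_mul_of_nonneg_right m2 (sub_nonneg.2 c3)]
  · nlinarith [mul_le_mul_of_nonneg_left (h1.trans (c3.trans hG)) c1,
      mul_le_mul_of_nonneg_right h4 (sub_nonneg.2 b1)]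

theorem Ok.C (k : h.Ok y yo τ) (hη : 100000 * Real.exp (-h.b) = h.EE) {n i j g v : ℕ}
    {G K c : ℝ} (hG : h.b * h.gv g ≤ 200000 * h.D * G) (K1 : K ≤ 1) (c0 : 0 < c)
    (hc : c * (5 - 2 * K) = 5 * (y + yo)) (h3 : h.C3 i j = 6 * h.D * c)
    (q1 : 0 ≤ pcLo n (h.C3 i j) (6 * h.Y)) (q2 : 0 ≤ pcHi n (h.C3 i j) (6 * h.Y))
    (hC : 0 ≤ h.C n i j g v) :
    (N h.b c (2 * y) - Phi h.b (1 - y) (2 * y)) * (1 - h.bo * K) ≤
      Hk yo y h.b h.bo τ + h.bo * (1 - K) * G := by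
  have hD : (0 : ℝ) < 200000 * h.D := by linarith [k.D0]
  have h6 : (0 : ℝ) ≤ 6 * h.D := by linarith [k.D0]
  have e1 : h.K5 i j = 2 * h.C3 i j * K := by
    simp only [K5, lim, r_add, r_sub, r_mul, r_c, h3, k.hY, k.hYo]
    push_cast
    linear_combination 6 * h.D * hc
  have e2 : h.NN n i j = 6 * (200000 * h.D * (N h.b c (2 * y) - Phi h.b (1 - y) (2 * y))) := by
    have h1 := n_eq h.b (Y := 6 * h.Y) (by linarith [k.Y0]) q1 q2 hη
    have h2 : N h.b (h.C3 i j) (2 * (6 * h.Y)) = 6 * h.D * N h.b c (2 * y) := by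
      rw [h3, k.hY, show 2 * (6 * (h.D * y)) = 6 * h.D * (2 * y) by ring, N, N, Phi_smul h6,
        Pi_smul h6]
      ring
    have h4 := k.psi hη
    simp only [NN, lim, EE, E1, r_add, r_sub, r_mul, r_c]
    push_cast
    linear_combination -h1 + 200000 * h2 + 6 * h4 - 1200000 * k.hU
  have h2 := k.H hη v
  rw [C_eq, e1, e2] at hC
  have hC3 : 0 < 12 * h.C3 i j := by rw [h3]; have := mul_pos k.D0 c0; linarith
  have h5 : 200000 * h.D * (N h.b c (2 * y) - Phi h.b (1 - y) (2 * y)) * (1 - h.bo * K) -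
      h.bo * (1 - K) * (h.b * h.gv g) ≤ 200000 * h.D * Hk yo y h.b h.bo τ := by
    refine le_of_mul_le_mul_left (le_trans ?_ h2) k.M0
    refine le_of_mul_le_mul_left ?_ hC3
    linarith
  refine le_of_mul_le_mul_left ?_ hD
  have := mul_le_mul_of_nonneg_left hG (mul_nonneg k.bo0 (sub_nonneg.2 K1))
  linarith

end Side

end Crest.Agent.R310.Hn
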