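import Crest.Agent.R310.Iface

/-! Row 310: parsing and re-encoding of instances. -/

set_option autoImplicit false

open Crest.LogicCS.KMedian Crest.Agent.Lib.PolyTime

namespace Crest.Agent.R310

/-- The number of points read off the client mask (polynomially bounded, unlike `Raw.N`). -/
def Raw.n (r : Raw) : ℕ := r.2.2.1.length

/-- The bit mask of a list of indices. -/
def mask (N : ℕ) (l : List ℕ) : List Bool := (List.range N).map fun i => decide (i ∈ l)

section Poly
variable {α : Type*} [PEnc α] {r : α → Raw}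

@[fun_prop] theorem poly_N (h : Poly r) : Poly fun a => (r a).N := by
  unfold Raw.N; fun_prop

@[fun_prop] theorem poly_k (h : Poly r) : Poly fun a => (r a).k := by
  unfold Raw.k; fun_prop

@[fun_prop] theorem poly_n (h : Poly r) : Poly fun a => (r a).n := by
  unfold Raw.n; fun_prop

@[fun_prop] theorem pb_n (h : Poly r) : PB fun a => (r a).n := by
  unfold Raw.n; fun_prop

@[fun_prop] theorem poly_cl (h : Poly r) : Poly fun a => (r a).cl := by
  unfold Raw.cl; fun_prop

@[fun_prop] theorem poly_fa (h : Poly r) : Poly fun a => (r a).fa := by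
  unfold Raw.fa; fun_prop

@[fun_prop] theorem poly_d {i j : α → ℕ} (h : Poly r) (hi : Poly i) (hj : Poly j) :
    Poly fun a => (r a).d (i a) (j a) := by
  unfold Raw.d; fun_prop

@[fun_prop] theorem poly_mask {N : α → ℕ} {l : α → List ℕ} (hN : Poly N) (hb : PB N) (hl : Poly l) :
    Poly fun a => mask (N a) (l a) := by
  unfold mask; fun_prop

end Poly

theorem Raw.n_le_sz (r : Raw) : r.n ≤ sz r :=
  (length_le_sz _).trans ((sz_fst_le r.2.2).trans ((sz_snd_le r.2).trans (sz_snd_le r)))

theorem Raw.length_cl_le (r : Raw) : r.cl.length ≤ r.n :=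
  (List.length_filter_le _ _).trans_eq List.length_range

theorem Raw.nodup_cl (r : Raw) : r.cl.Nodup := List.nodup_range.filter _

theorem Raw.nodup_fa (r : Raw) : r.fa.Nodup := List.nodup_range.filter _

@[simp] theorem toRaw_N (I : Instance) : (toRaw I).N = I.N := rfl

@[simp] theorem toRaw_k (I : Instance) : (toRaw I).k = I.k := rfl

@[simp] theorem toRaw_n (I : Instance) : (toRaw I).n = I.N := by simp [toRaw, Raw.n]

theorem N_le_sz (I : Instance) : I.N ≤ sz (toRaw I) := toRaw_n I ▸ (toRaw I).n_le_sz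

theorem mem_maskList {N : ℕ} (s : Finset (Fin N)) (i : ℕ) :
    i ∈ ((List.range ((List.finRange N).map fun i => decide (i ∈ s)).length).filter fun i =>
      ((List.finRange N).map fun i => decide (i ∈ s)).getD i false) ↔
      ∃ h : i < N, (⟨i, h⟩ : Fin N) ∈ s := by
  simp only [List.mem_filter, List.length_map, List.length_finRange, List.mem_range]
  exact ⟨fun ⟨h, h'⟩ => ⟨h, by simpa [h] using h'⟩, fun ⟨h, h'⟩ => ⟨h, by simpa [h] using h'⟩⟩

theorem mem_cl {I : Instance} {i : ℕ} :
    i ∈ (toRaw I).cl ↔ ∃ h : i < I.N, (⟨i, h⟩ : Fin I.N) ∈ I.clients := mem_maskList _ i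

theorem mem_fa {I : Instance} {i : ℕ} :
    i ∈ (toRaw I).fa ↔ ∃ h : i < I.N, (⟨i, h⟩ : Fin I.N) ∈ I.facilities := mem_maskList _ i

@[simp] theorem val_mem_cl {I : Instance} {i : Fin I.N} :
    (i : ℕ) ∈ (toRaw I).cl ↔ i ∈ I.clients := mem_cl.trans ⟨fun h => h.2, fun h => ⟨i.2, h⟩⟩

@[simp] theorem val_mem_fa {I : Instance} {i : Fin I.N} :
    (i : ℕ) ∈ (toRaw I).fa ↔ i ∈ I.facilities := mem_fa.trans ⟨fun h => h.2, fun h => ⟨i.2, h⟩⟩

theorem toFinset_cl (I : Instance) : (toRaw I).cl.toFinset = I.clients.image Fin.val := by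
  ext i
  simp only [List.mem_toFinset, mem_cl, Finset.mem_image]
  exact ⟨fun ⟨h, h'⟩ => ⟨_, h', rfl⟩, fun ⟨j, h, e⟩ => e ▸ ⟨j.2, h⟩⟩

theorem toFinset_fa (I : Instance) : (toRaw I).fa.toFinset = I.facilities.image Fin.val := by
  ext i
  simp only [List.mem_toFinset, mem_fa, Finset.mem_image]
  exact ⟨fun ⟨h, h'⟩ => ⟨_, h', rfl⟩, fun ⟨j, h, e⟩ => e ▸ ⟨j.2, h⟩⟩

theorem length_cl (I : Instance) : (toRaw I).cl.length = I.clients.card := by
  rw [← List.toFinset_card_of_nodup (Raw.nodup_cl _), toFinset_cl,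
    Finset.card_image_of_injective _ Fin.val_injective]

theorem length_fa (I : Instance) : (toRaw I).fa.length = I.facilities.card := by
  rw [← List.toFinset_card_of_nodup (Raw.nodup_fa _), toFinset_fa,
    Finset.card_image_of_injective _ Fin.val_injective]

/-- sums over the client list -/
theorem sum_cl {M : Type*} [AddCommMonoid M] (I : Instance) (f : ℕ → M) :
    ((toRaw I).cl.map f).sum = ∑ j ∈ I.clients, f j := by
  rw [← List.sum_toFinset f (Raw.nodup_cl _), toFinset_cl,
    Finset.sum_image fun _ _ _ _ h => Fin.val_injective h]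

/-- sums over the facility list -/
theorem sum_fa {M : Type*} [AddCommMonoid M] (I : Instance) (f : ℕ → M) :
    ((toRaw I).fa.map f).sum = ∑ j ∈ I.facilities, f j := by
  rw [← List.sum_toFinset f (Raw.nodup_fa _), toFinset_fa,
    Finset.sum_image fun _ _ _ _ h => Fin.val_injective h]

@[simp] theorem toRaw_d (I : Instance) (i j : Fin I.N) : (toRaw I).d i j = I.dist i j := by
  simp [toRaw, Raw.d]

theorem toRaw_d' (I : Instance) {i j : ℕ} (hi : i < I.N) (hj : j < I.N) :
    (toRaw I).d i j = I.dist ⟨i, hi⟩ ⟨j, hj⟩ := toRaw_d I ⟨i, hi⟩ ⟨j, hj⟩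

@[simp] theorem length_mask (N : ℕ) (l : List ℕ) : (mask N l).length = N := by simp [mask]

theorem decodeSet_mask (N : ℕ) (l : List ℕ) :
    decodeSet N (mask N l) = Finset.univ.filter fun i : Fin N => (i : ℕ) ∈ l := by
  ext i
  simp [decodeSet, mask]

@[simp] theorem mem_decodeSet_mask {N : ℕ} {l : List ℕ} {i : Fin N} :
    i ∈ decodeSet N (mask N l) ↔ (i : ℕ) ∈ l := by simp [decodeSet_mask]

/-- A polynomial-time parser. -/
theorem exists_parse : ∃ p : List Bool → Raw, Poly p ∧ ∀ I : Instance, p I.encode = toRaw I := by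
  refine ⟨fun w => ((pNat w).1, (pSeq pNat (pSeq (pTake (pNat w).1) (pSeq (pTake (pNat w).1)
    (pRep (pRep pRat (pNat w).1) (pNat w).1))) (pNat w).2).1), by fun_prop, fun I => ?_⟩
  have e : I.encode = Crest.Enc.natCode I.N ++ (Crest.Enc.natCode I.k ++
      ((List.finRange I.N).map (fun i => decide (i ∈ I.clients)) ++
      ((List.finRange I.N).map (fun i => decide (i ∈ I.facilities)) ++
      (((List.finRange I.N).map fun i => ((List.finRange I.N).map fun j =>
        Crest.Enc.ratCode (I.dist i j)).flatten).flatten ++ [])))) := by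
    simp only [Instance.encode, List.append_assoc, List.append_nil]
    rfl
  simp only [e, pNat_code]
  rw [pSeq_eq (pNat_code _ _) (pSeq_eq (pTake_append (by simp) _) (pSeq_eq (pTake_append (by simp) _)
    (pRep_code (fun i _ => pRep_code (fun j _ => pRat_code _) (fun j _ => ratCode_ne_nil _)
      List.length_finRange) (fun i _ => ?_) List.length_finRange [])))]
  · rfl
  · simp only [ne_eq, List.flatten_eq_nil_iff, List.mem_map, not_forall]
    exact ⟨_, ⟨i, List.mem_finRange i, rfl⟩, ratCode_ne_nil _⟩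

/-- A polynomial-time encoder. -/
theorem exists_encode : ∃ e : Raw → List Bool, Poly e ∧ ∀ I : Instance, e (toRaw I) = I.encode := by
  refine ⟨fun r => Crest.Enc.natCode r.1 ++ Crest.Enc.natCode r.2.1 ++ r.2.2.1 ++ r.2.2.2.1 ++
    (r.2.2.2.2.map fun l => (l.map Crest.Enc.ratCode).flatten).flatten, by fun_prop, fun I => ?_⟩
  simp only [toRaw, Instance.encode, List.map_map, Function.comp_def]
  rfl

end Crest.Agent.R310
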