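import Crest.Prelude.Def_KMedian
import Crest.Agent.Lib.PolyTime.Enc
import Crest.Agent.Lib.PolyTime.Arith

/-!
# Row 310 (k-median, 1 + 2/e + ε): module interfaces
-/

set_option autoImplicit false

open Crest.LogicCS.KMedian

namespace Crest.Agent.R310

/-- `T` is a nonempty set of at most `k + c` facilities of cost at most `α * OPT_k + a`. -/
def Good (α a : ℝ) (c : ℕ) (I : Instance) (T : Finset (Fin I.N)) : Prop :=
  T ⊆ I.facilities ∧ T.Nonempty ∧ T.card ≤ I.k + c ∧
    ∀ S : Finset (Fin I.N), S ⊆ I.facilities → S.Nonempty → S.card ≤ I.k →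
      (I.cost T : ℝ) ≤ α * (I.cost S : ℝ) + a

/-- `g` is a pseudo-approximation with ratio `α` that opens at most `k + c` facilities. -/
def Pseudo (α : ℝ) (c : ℕ) (g : List Bool → List Bool) : Prop :=
  ∀ I : Instance, I.Valid → Good α 0 c I (I.opened g)

/-- All distances are natural numbers bounded by `C * N ^ 2`. -/
def IntInst (C : ℕ) (I : Instance) : Prop :=
  ∀ x y, ∃ m : ℕ, I.dist x y = m ∧ m ≤ C * I.N ^ 2

/-- Pseudo-approximation with additive error `1` on bounded integer metrics. -/
def CorePseudo (α : ℝ) (C c : ℕ) (g : List Bool → List Bool) : Prop :=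
  ∀ I : Instance, I.Valid → IntInst C I → Good α 1 c I (I.opened g)

/-- List level instances: `N`, `k`, client mask, facility mask, distance table. -/
abbrev Raw := ℕ × ℕ × List Bool × List Bool × List (List ℚ)

def toRaw (I : Instance) : Raw :=
  (I.N, I.k, (List.finRange I.N).map (fun i => decide (i ∈ I.clients)),
    (List.finRange I.N).map (fun i => decide (i ∈ I.facilities)),
    (List.finRange I.N).map fun i => (List.finRange I.N).map fun j => I.dist i j)

def Raw.N (r : Raw) : ℕ := r.1
def Raw.k (r : Raw) : ℕ := r.2.1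
/-- The clients as a list of indices. -/
def Raw.cl (r : Raw) : List ℕ := (List.range r.2.2.1.length).filter fun i => r.2.2.1.getD i false
/-- The facilities as a list of indices. -/
def Raw.fa (r : Raw) : List ℕ :=
  (List.range r.2.2.2.1.length).filter fun i => r.2.2.2.1.getD i false
def Raw.d (r : Raw) (i j : ℕ) : ℚ := (r.2.2.2.2.getD i []).getD j 0

end Crest.Agent.R310
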