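import Crest.Agent.R310.PreDefs

/-! Row 310, module PRE: layer cake, radii, centres. -/

set_option autoImplicit false
set_option linter.unusedVariables false
set_option linter.unusedSectionVars false

namespace Crest.Agent.R310.Pre

open Finset

variable {ι : Type*} [Fintype ι] [LinearOrder ι] {d : ι → ι → ℚ} {y : ι → ℚ} {J : Finset ι}
  {e : ℚ} {x : ι → ι → ℚ} {C R : ι → ℚ} {O : Finset ι} {g σ : ι → ι}

/-- the layer cake sum is a lower bound for every assignment (integer distances) -/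
theorem cake_le {dj z : ι → ℚ} (D : ℕ) (hd : ∀ i, ∃ m : ℕ, dj i = m) (hz : Feas y z) :
    ∑ t ∈ range D, max 0 (1 - LP.ballM y dj t) ≤ ∑ i, z i * dj i := by
  obtain ⟨z0, zy, z1⟩ := hz
  have h1 : ∀ t ∈ range D, max 0 (1 - LP.ballM y dj t) ≤
      ∑ i, z i * (if dj i ≤ (t : ℚ) then 0 else 1) := by
    intro t _
    refine max_le (sum_nonneg fun i _ => mul_nonneg (z0 i) (by split_ifs <;> norm_num)) ?_
    refine le_of_eq_of_le (b := ∑ i, (z i - if dj i ≤ (t : ℚ) then y i else 0))
      (by rw [sum_sub_distrib, z1, LP.ballM]) (sum_le_sum fun i _ => ?_)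
    have := zy i
    split_ifs <;> linarith
  refine (sum_le_sum h1).trans ?_
  rw [sum_comm]
  refine sum_le_sum fun i _ => ?_
  rw [← mul_sum]
  refine mul_le_mul_of_nonneg_left ?_ (z0 i)
  obtain ⟨m, hm⟩ := hd i
  rw [hm]
  have h2 : ∑ t ∈ range D, (if (m : ℚ) ≤ (t : ℚ) then (0 : ℚ) else 1) =
      (((range D).filter fun t => t < m).card : ℚ) := by
    rw [card_filter]
    push_cast
    refine sum_congr rfl fun t _ => ?_
    by_cases h : t < m
    · rw [if_pos h, if_neg (by exact_mod_cast not_le.2 h)]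
    · rw [if_neg h, if_pos (by exact_mod_cast not_lt.1 h)]
  rw [h2]
  have h3 : ((range D).filter fun t => t < m).card ≤ (range m).card :=
    card_le_card fun t ht => mem_range.2 (mem_filter.1 ht).2
  rw [card_range] at h3
  exact_mod_cast h3

/-- the number of light radii is the least heavy radius -/
theorem rad_spec {dj : ι → ℚ} {μ : ℚ} (hy : ∀ i, 0 ≤ y i) (hμ : 0 < μ) (D : ℕ)
    (hd : ∀ i, ∃ m : ℕ, dj i = m ∧ m ≤ D) (hs : μ ≤ ∑ i, y i) :
    μ ≤ (∑ i, if dj i ≤ (((range (D + 1)).filter fun t => LP.ballM y dj t < μ).card : ℚ)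
        then y i else 0) ∧
      (∑ i, if dj i < (((range (D + 1)).filter fun t => LP.ballM y dj t < μ).card : ℚ)
        then y i else 0) < μ := by
  have mono : ∀ s t : ℕ, s ≤ t → LP.ballM y dj s ≤ LP.ballM y dj t := fun s t h => by
    refine sum_le_sum fun i _ => ?_
    have h' : (s : ℚ) ≤ t := by exact_mod_cast h
    have := hy i
    split_ifs with h1 h2
    · exact le_rfl
    · exact absurd (h1.trans h') h2
    · exact this
    · exact le_rfl
  have hD : μ ≤ LP.ballM y dj D := by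
    refine hs.trans (le_of_eq (sum_congr rfl fun i _ => ?_))
    obtain ⟨m, hm, hm'⟩ := hd i
    rw [if_pos (by rw [hm]; exact_mod_cast hm')]
  have hex : ∃ t : ℕ, μ ≤ LP.ballM y dj t := ⟨D, hD⟩
  have hr := Nat.find_spec hex
  have hrD : Nat.find hex ≤ D := Nat.find_min' hex hD
  have hf : ((range (D + 1)).filter fun t => LP.ballM y dj t < μ) = range (Nat.find hex) := by
    ext t
    rw [mem_filter, mem_range, mem_range]
    constructor
    · rintro ⟨-, h⟩
      by_contra hc
      exact absurd (hr.trans (mono _ _ (not_lt.1 hc))) (not_le.2 h)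
    · intro h
      exact ⟨by omega, not_le.1 (Nat.find_min hex h)⟩
  rw [hf, card_range]
  refine ⟨hr, ?_⟩
  rcases h0 : Nat.find hex with _ | s
  · refine lt_of_eq_of_lt (sum_eq_zero fun i _ => if_neg ?_) hμ
    obtain ⟨m, hm, -⟩ := hd i
    rw [hm]
    exact_mod_cast Nat.not_lt_zero m
  · refine lt_of_eq_of_lt (sum_congr rfl fun i _ => ?_)
      (not_le.1 (Nat.find_min hex (show s < Nat.find hex by omega)))
    obtain ⟨m, hm, -⟩ := hd i
    rw [hm]
    refine if_congr ?_ rfl rfl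
    exact_mod_cast Nat.lt_succ_iff

namespace Spec0

theorem C_nonneg (h : Spec0 d y J e x C R O) (j : ι) : 0 ≤ C j := by
  refine le_trans ?_ (h.cx j)
  exact Finset.sum_nonneg fun i _ => mul_nonneg ((h.feas j).1 i) (h.met.nonneg j i)

theorem R_nonneg (h : Spec0 d y J e x C R O) (j : ι) : 0 ≤ R j := by
  by_contra hc
  have hc' : R j < 0 := not_le.mp hc
  have h0 : bal d y j (R j) = 0 := by
    refine Finset.sum_eq_zero fun i _ => if_neg ?_
    have := h.met.nonneg j i
    intro h2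
    linarith
  have h1 := h.R1 j
  have := h.e0
  linarith

theorem R_lip (h : Spec0 d y J e x C R O) (i j : ι) : R i ≤ R j + d i j := by
  by_contra hc
  have hc' : R j + d i j < R i := not_le.mp hc
  have h0 : bal d y j (R j) ≤ obal d y i (R i) := by
    refine Finset.sum_le_sum fun k _ => ?_
    by_cases hk : d j k ≤ R j
    · have h3 := h.met.tri i j k
      rw [if_pos hk, if_pos (by linarith)]
    · rw [if_neg hk]
      split_ifs
      · exact h.y0 k
      · exact le_rfl
  have h1 := h.R1 j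
  have h2 := h.R2 i
  linarith

/-- Markov, closed ball -/
theorem markov (h : Spec0 d y J e x C R O) (j : ι) (r : ℚ) :
    (1 - bal d (x j) j r) * r ≤ C j := by
  refine le_trans ?_ (h.cx j)
  have h1 : (1 - bal d (x j) j r) = ∑ i, (x j i - if d j i ≤ r then x j i else 0) := by
    rw [Finset.sum_sub_distrib, (h.feas j).2.2]
    rfl
  rw [h1, Finset.sum_mul]
  refine Finset.sum_le_sum fun i _ => ?_
  have hx := (h.feas j).1 i
  by_cases hk : d j i ≤ r
  · rw [if_pos hk, sub_self, zero_mul]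
    exact mul_nonneg hx (h.met.nonneg j i)
  · rw [if_neg hk, sub_zero]
    exact mul_le_mul_of_nonneg_left (not_le.mp hk).le hx

theorem dich_R_pos (h : Spec0 d y J e x C R O) {i : ι} (hi : C i < e ^ 2 * R i) : 0 < R i := by
  have h0 := h.C_nonneg i
  have he3 : 0 < e ^ 2 := by have := h.e0; positivity
  by_contra hc
  have := mul_nonpos_of_nonneg_of_nonpos he3.le (not_lt.mp hc)
  linarith

theorem dich_core (h : Spec0 d y J e x C R O) {i : ι} (hi : C i < e ^ 2 * R i) :
    3 / 4 < bal d y i (4 * e ^ 2 * R i) := by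
  have hR := h.dich_R_pos hi
  have he3 : 0 < e ^ 2 := by have := h.e0; positivity
  have hp : 0 < e ^ 2 * R i := mul_pos he3 hR
  have hm := h.markov i (4 * e ^ 2 * R i)
  have h1 : bal d (x i) i (4 * e ^ 2 * R i) ≤ bal d y i (4 * e ^ 2 * R i) := by
    refine Finset.sum_le_sum fun k _ => ?_
    split_ifs
    · exact (h.feas i).2.1 k
    · exact le_rfl
  by_contra hc
  have hc' := not_lt.mp hc
  have h2 : 1 / 4 ≤ 1 - bal d (x i) i (4 * e ^ 2 * R i) := by linarith
  have h3 : 1 / 4 * (4 * e ^ 2 * R i) ≤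
      (1 - bal d (x i) i (4 * e ^ 2 * R i)) * (4 * e ^ 2 * R i) :=
    mul_le_mul_of_nonneg_right h2 (by linarith)
  linarith

theorem dich_far (h : Spec0 d y J e x C R O) {i j : ι} (hi : C i < e ^ 2 * R i)
    (hj : C j < e ^ 2 * R j) (hd : 4 * e ^ 2 * R i + 4 * e ^ 2 * R j < d i j) :
    R i ≤ d i j + 4 * e ^ 2 * R j := by
  by_contra hc
  have hc' := not_le.mp hc
  have hRi := h.dich_R_pos hi
  have he0 := h.e0
  have he1 := h.e1
  have he2 : e ^ 2 ≤ 1 / 10000 := by nlinarith
  have h3 : e ^ 2 * R i ≤ 1 / 10000 * R i := mul_le_mul_of_nonneg_right he2 hRi.le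
  have c1 := h.dich_core hi
  have c2 := h.dich_core hj
  have h0 : bal d y i (4 * e ^ 2 * R i) + bal d y j (4 * e ^ 2 * R j) ≤ obal d y i (R i) := by
    refine le_trans (le_of_eq Finset.sum_add_distrib.symm) (Finset.sum_le_sum fun k _ => ?_)
    have t1 := h.met.tri i j k
    have t2 := h.met.tri i k j
    rw [h.met.symm k j] at t2
    have hy := h.y0 k
    by_cases k1 : d i k ≤ 4 * e ^ 2 * R i
    · rw [if_pos k1, if_neg (by intro k2; linarith), if_pos (by linarith), add_zero]
    · by_cases k2 : d j k ≤ 4 * e ^ 2 * R j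
      · rw [if_neg k1, if_pos k2, if_pos (by linarith), zero_add]
      · rw [if_neg k1, if_neg k2, add_zero]
        split_ifs
        · exact hy
        · exact le_rfl
  have h2 := h.R2 i
  linarith

/-- two tight points are very close or very far -/
theorem dich (h : Spec0 d y J e x C R O) {i j : ι} (hi : C i < e ^ 2 * R i)
    (hj : C j < e ^ 2 * R j) :
    d i j ≤ 9 * e ^ 2 * R i ∨ (9 / 10 * R i ≤ d i j ∧ 9 / 10 * R j ≤ d i j) := by
  have hRi := h.dich_R_pos hi
  have hRj := h.dich_R_pos hj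
  have he0 := h.e0
  have he1 := h.e1
  have he2 : e ^ 2 ≤ 1 / 10000 := by nlinarith
  have he3 : 0 < e ^ 2 := by positivity
  have hd := h.met.nonneg i j
  have l1 := h.R_lip i j
  have l2 := h.R_lip j i
  rw [h.met.symm j i] at l2
  by_cases hc : d i j ≤ 4 * e ^ 2 * R i + 4 * e ^ 2 * R j
  · left
    have h1 : e ^ 2 * R j ≤ e ^ 2 * (R i + d i j) := mul_le_mul_of_nonneg_left l2 he3.le
    have h2 : e ^ 2 * d i j ≤ 1 / 10000 * d i j := mul_le_mul_of_nonneg_right he2 hd
    have h3 : 0 < e ^ 2 * R i := mul_pos he3 hRi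
    nlinarith
  · right
    have hc' := not_le.mp hc
    have f1 := h.dich_far hi hj hc'
    have f2 := h.dich_far hj hi (by rw [h.met.symm j i]; linarith)
    rw [h.met.symm j i] at f2
    have h1 : e ^ 2 * R j ≤ e ^ 2 * (R i + d i j) := mul_le_mul_of_nonneg_left l2 he3.le
    have h1' : e ^ 2 * R i ≤ e ^ 2 * (R j + d i j) := mul_le_mul_of_nonneg_left l1 he3.le
    have h2 : e ^ 2 * d i j ≤ 1 / 10000 * d i j := mul_le_mul_of_nonneg_right he2 hd
    have h3 : e ^ 2 * R i ≤ 1 / 10000 * R i := mul_le_mul_of_nonneg_right he2 hRi.le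
    have h4 : e ^ 2 * R j ≤ 1 / 10000 * R j := mul_le_mul_of_nonneg_right he2 hRj.le
    constructor <;> nlinarith

theorem near_C (h : Spec0 d y J e x C R O) {o j : ι} (ho : o ∈ O) (hj : j ∈ J)
    (hn : d j o ≤ e * R o) : C o ≤ 2 * C j := by
  have hm := (h.memO o).1 ho
  have hC := h.C_nonneg j
  by_cases ht : C j < e ^ 2 * R j
  · rcases hm.2.2 j hj ht hn with h1 | h1
    · linarith
    · linarith [h1.1]
  · have ht' := not_lt.mp ht
    have hR := h.dich_R_pos hm.2.1
    have l1 := h.R_lip o j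
    rw [h.met.symm o j] at l1
    have he0 := h.e0
    have he1 := h.e1
    have he3 : 0 < e ^ 2 := by positivity
    have h1 : e * R o ≤ 1 / 100 * R o := mul_le_mul_of_nonneg_right he1 hR.le
    have h2 : R o ≤ 2 * R j := by linarith
    have h3 : e ^ 2 * R o ≤ e ^ 2 * (2 * R j) := mul_le_mul_of_nonneg_left h2 he3.le
    have h4 := hm.2.1
    linarith

theorem sep (h : Spec0 d y J e x C R O) {o o' : ι} (ho : o ∈ O) (ho' : o' ∈ O) (hne : o ≠ o') :
    e * R o + e * R o' < d o o' := by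
  by_contra hc
  have hc := not_lt.mp hc
  obtain ⟨hJ, ht, hm⟩ := (h.memO o).mp ho
  obtain ⟨hJ', ht', hm'⟩ := (h.memO o').mp ho'
  have he0 := h.e0
  have he1 := h.e1
  have hR := h.R_nonneg o
  have hR' := h.R_nonneg o'
  have hC := h.C_nonneg o
  have hC' := h.C_nonneg o'
  have hRp : 0 < R o := by
    rcases hR.lt_or_eq with h1 | h1
    · exact h1
    · rw [← h1] at ht; linarith
  have hs : d o' o = d o o' := h.met.symm _ _
  have a1 : e * R o ≤ 1 / 100 * R o := mul_le_mul_of_nonneg_right he1 hR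
  have a2 : e * R o' ≤ 1 / 100 * R o' := mul_le_mul_of_nonneg_right he1 hR'
  have b1 : 9 * e ^ 2 * R o ≤ e * R o := by
    have : 0 ≤ e * R o := mul_nonneg he0.le hR
    nlinarith
  have b2 : 9 * e ^ 2 * R o' ≤ e * R o' := by
    have : 0 ≤ e * R o' := mul_nonneg he0.le hR'
    nlinarith
  have d1 : d o' o ≤ e * R o := by
    rcases h.dich ht ht' with h1 | ⟨h1, h2⟩
    · linarith
    · linarith
  have d2 : d o o' ≤ e * R o' := by
    rcases h.dich ht' ht with h1 | ⟨h1, h2⟩
    · linarith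
    · linarith
  rcases hm o' hJ' ht' d1 with h1 | ⟨h1, h2⟩ <;> rcases hm' o hJ ht d2 with h3 | ⟨h3, h4⟩
  · linarith
  · linarith
  · linarith
  · exact hne (le_antisymm h2 h4)

theorem cover (h : Spec0 d y J e x C R O) {j : ι} (hj : j ∈ J) (ht : C j < e ^ 2 * R j) :
    ∃ o ∈ O, d j o ≤ e * R o := by
  classical
  by_contra hc
  have he0 := h.e0
  have he1 := h.e1
  set B : Finset ι := J.filter fun k => C k < e ^ 2 * R k ∧ ¬ ∃ o ∈ O, d k o ≤ e * R o with hB
  have hne : B.Nonempty := ⟨j, by simp only [hB, mem_filter]; exact ⟨hj, ht, hc⟩⟩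
  obtain ⟨k, hk, hmin⟩ := Finset.exists_min_image B (fun k => toLex (C k, k)) hne
  simp only [hB, mem_filter] at hk
  obtain ⟨hkJ, hkt, hkc⟩ := hk
  have hRk := h.R_nonneg k
  have hkO : k ∉ O := fun hO => hkc ⟨k, hO, by rw [h.met.self]; exact mul_nonneg he0.le hRk⟩
  rw [h.memO] at hkO
  have hex : ∃ l ∈ J, C l < e ^ 2 * R l ∧ d l k ≤ e * R k ∧
      ¬ (C k < C l ∨ (C k = C l ∧ k ≤ l)) := by
    by_contra hn
    refine hkO ⟨hkJ, hkt, fun l hl hlt hd => ?_⟩
    by_contra hx
    exact hn ⟨l, hl, hlt, hd, hx⟩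
  obtain ⟨l, hlJ, hlt, hld, hlx⟩ := hex
  have hlc : ∃ o ∈ O, d l o ≤ e * R o := by
    by_contra hn
    have hlB : l ∈ B := by simp only [hB, mem_filter]; exact ⟨hlJ, hlt, hn⟩
    have := hmin l hlB
    rw [Prod.Lex.toLex_le_toLex] at this
    exact hlx this
  obtain ⟨o, hoO, hod⟩ := hlc
  obtain ⟨-, hot, -⟩ := (h.memO o).mp hoO
  have hRo := h.R_nonneg o
  have hRl := h.R_nonneg l
  have hpos : ∀ i, C i < e ^ 2 * R i → 0 < R i := fun i hi => by
    rcases (h.R_nonneg i).lt_or_eq with h1 | h1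
    · exact h1
    · have := h.C_nonneg i
      rw [← h1] at hi; linarith
  have hRo' := hpos o hot
  have hRk' := hpos k hkt
  have a1 : e * R o ≤ 1 / 100 * R o := mul_le_mul_of_nonneg_right he1 hRo
  have a2 : e * R k ≤ 1 / 100 * R k := mul_le_mul_of_nonneg_right he1 hRk
  have s1 : d o l = d l o := h.met.symm _ _
  have s2 : d k l = d l k := h.met.symm _ _
  have d1 : d l o ≤ 9 * e ^ 2 * R o := by
    rcases h.dich hot hlt with h1 | ⟨h1, h2⟩
    · linarith
    · linarith
  have d2 : d l k ≤ 9 * e ^ 2 * R l := by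
    rcases h.dich hlt hkt with h1 | ⟨h1, h2⟩
    · exact h1
    · linarith
  have l1 := h.R_lip l o
  have t1 := h.met.tri k l o
  refine hkc ⟨o, hoO, ?_⟩
  have he2 : 0 ≤ e ^ 2 := sq_nonneg e
  have hee : e ^ 2 ≤ 1 / 100 * e := by nlinarith
  have b0 : e ^ 2 * R o ≤ 1 / 100 * (e * R o) := by
    have := mul_le_mul_of_nonneg_right hee hRo
    linarith
  have b1 : R l ≤ 2 * R o := by linarith
  have b2 : e ^ 2 * R l ≤ e ^ 2 * (2 * R o) := mul_le_mul_of_nonneg_left b1 he2
  have b3 : 0 ≤ e * R o := mul_nonneg he0.le hRo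
  linarith

theorem exists_pos (h : Spec0 d y J e x C R O) {o : ι} (ho : o ∈ O) :
    ∃ k, 0 < y k ∧ d o k ≤ e ^ 2 * R o := by
  have hm := (h.memO o).1 ho
  have hR := h.dich_R_pos hm.2.1
  have he3 : 0 < e ^ 2 := by have := h.e0; positivity
  have hp : 0 < e ^ 2 * R o := mul_pos he3 hR
  have hk := h.markov o (e ^ 2 * R o)
  by_contra hc
  have h0 : bal d (x o) o (e ^ 2 * R o) ≤ 0 := by
    refine Finset.sum_nonpos fun k _ => ?_
    split_ifs with k1
    · by_contra k2
      exact hc ⟨k, lt_of_lt_of_le (not_le.mp k2) ((h.feas o).2.1 k), k1⟩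
    · exact le_rfl
  have h3 : 1 * (e ^ 2 * R o) ≤ (1 - bal d (x o) o (e ^ 2 * R o)) * (e ^ 2 * R o) :=
    mul_le_mul_of_nonneg_right (by linarith) hp.le
  have h4 := hm.2.1
  linarith

end Spec0

end Crest.Agent.R310.Pre
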