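import Crest.Agent.R310.Pre1

/-! Row 310, module PRE: near clients, contraction, thinning. -/

set_option autoImplicit false
set_option linter.unusedVariables false
set_option linter.unusedSectionVars false

namespace Crest.Agent.R310.Pre

open Finset

variable {ι : Type*} [Fintype ι] [LinearOrder ι] {d : ι → ι → ℚ} {y : ι → ℚ} {J : Finset ι}
  {e : ℚ} {x : ι → ι → ℚ} {C R : ι → ℚ} {O : Finset ι} {g σ : ι → ι} {θ : ℚ}

/-- a near client may use the assignment of its centre -/
theorem Spec0.near_cst (h : Spec0 d y J e x C R O) {o j : ι} (ho : o ∈ O) (hj : j ∈ J)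
    (hn : d j o ≤ e * R o) : cst d j (x o) ≤ (1 + 12 * e) * C j := by
  have hm := h.met
  have e0 := h.e0
  have e1 := h.e1
  have hC : C o ≤ 2 * C j := h.near_C ho hj hn
  have hCo : C o < e ^ 2 * R o := ((h.memO o).1 ho).2.1
  obtain ⟨aj0, aj1, aj2⟩ := h.feas j
  obtain ⟨ao0, ao1, ao2⟩ := h.feas o
  have cnn : ∀ i, 0 ≤ cst d i (x i) := fun i =>
    sum_nonneg fun k _ => mul_nonneg ((h.feas i).1 k) (hm.nonneg _ _)
  have Cj0 : 0 ≤ C j := (cnn j).trans (h.cx j)
  have Co0 : 0 ≤ C o := (cnn o).trans (h.cx o)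
  have hR : 0 < R o := by
    by_contra hR
    have : e ^ 2 * R o ≤ 0 := mul_nonpos_of_nonneg_of_nonpos (by positivity) (not_lt.1 hR)
    linarith
  obtain ⟨D, hD⟩ : ∃ D, D = d j o := ⟨_, rfl⟩
  have D0 : 0 ≤ D := hD ▸ hm.nonneg j o
  rw [← hD] at hn
  obtain ⟨ov, hov⟩ : ∃ ov, ov = ∑ k, min (x j k) (x o k) := ⟨_, rfl⟩
  obtain ⟨oj, hoj⟩ : ∃ t, t = ∑ k, if d o k < R o then 0 else x j k := ⟨_, rfl⟩
  obtain ⟨oo, hoo⟩ : ∃ t, t = ∑ k, if d o k < R o then 0 else x o k := ⟨_, rfl⟩
  have oj0 : 0 ≤ oj := hoj ▸ sum_nonneg fun k _ => by split_ifs; exacts [le_rfl, aj0 k]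
  have oo0 : 0 ≤ oo := hoo ▸ sum_nonneg fun k _ => by split_ifs; exacts [le_rfl, ao0 k]
  have t1 : 1 - ov ≤ e + oj + oo := by
    have h1 : ∑ k, (x j k + x o k) ≤ ∑ k, (min (x j k) (x o k) + (if d o k < R o then y k else 0) +
        (if d o k < R o then 0 else x j k) + (if d o k < R o then 0 else x o k)) := by
      refine sum_le_sum fun k _ => ?_
      have := aj0 k; have := ao0 k; have := aj1 k; have := ao1 k
      split_ifs <;> rcases le_total (x j k) (x o k) with hh | hh <;>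
        simp only [min_eq_left, min_eq_right, hh] <;> linarith
    have h2 := h.R2 o
    simp only [sum_add_distrib, aj2, ao2, ← hov, ← hoj, ← hoo] at h1
    unfold obal at h2
    linarith
  have t2 : oo * R o ≤ C o := by
    refine le_trans ?_ (h.cx o)
    rw [hoo, sum_mul]
    refine sum_le_sum fun k _ => ?_
    split_ifs with hk
    · rw [zero_mul]; exact mul_nonneg (ao0 k) (hm.nonneg _ _)
    · exact mul_le_mul_of_nonneg_left (not_lt.1 hk) (ao0 k)
  have t3 : oj * (R o - D) ≤ C j := by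
    refine le_trans ?_ (h.cx j)
    rw [hoj, sum_mul]
    refine sum_le_sum fun k _ => ?_
    split_ifs with hk
    · rw [zero_mul]; exact mul_nonneg (aj0 k) (hm.nonneg _ _)
    · refine mul_le_mul_of_nonneg_left ?_ (aj0 k)
      have := hm.tri o j k
      rw [hm.symm o j, ← hD] at this
      linarith [not_lt.1 hk]
  have t4 : ov * D ≤ C j + C o := by
    refine le_trans ?_ (add_le_add (h.cx j) (h.cx o))
    unfold cst
    rw [hov, sum_mul, ← sum_add_distrib]
    refine sum_le_sum fun k _ => ?_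
    have h1 := hm.tri j k o
    rw [hm.symm k o, ← hD] at h1
    have h2 : 0 ≤ min (x j k) (x o k) := le_min (aj0 k) (ao0 k)
    have h3 := mul_le_mul_of_nonneg_left h1 h2
    have h4 := mul_le_mul_of_nonneg_right (min_le_left (x j k) (x o k)) (hm.nonneg j k)
    have h5 := mul_le_mul_of_nonneg_right (min_le_right (x j k) (x o k)) (hm.nonneg o k)
    linarith
  have u1 : oo ≤ e ^ 2 := le_of_mul_le_mul_right (by linarith) hR
  have u2 : oj * D * 99 ≤ 100 * e * C j := by
    have h1 : D * 99 ≤ 100 * e * (R o - D) := by nlinarith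
    have h2 := mul_le_mul_of_nonneg_left h1 oj0
    have h3 := mul_le_mul_of_nonneg_left t3 (by positivity : (0 : ℚ) ≤ 100 * e)
    linarith
  have u3 : (1 - ov) * D ≤ (e + e ^ 2) * D + oj * D := by nlinarith
  have e2 : e ^ 2 ≤ e / 100 := by nlinarith
  have u4 : (e + e ^ 2) * D ≤ (101 / 100 * e) * D := mul_le_mul_of_nonneg_right (by linarith) D0
  have u5 : e * D ≤ D / 100 := by nlinarith
  have u6 : e * C j ≤ C j / 100 := by nlinarith
  have u7 : D ≤ 4 * C j := by linarith
  have u8 : e * D ≤ e * (4 * C j) := mul_le_mul_of_nonneg_left u7 e0.le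
  have u10 : 0 ≤ e * C j := mul_nonneg e0.le Cj0
  have u9 : (1 - ov) * D ≤ 6 * (e * C j) := by linarith
  have v1 : cst d j (x o) + cst d o (x j) ≤ cst d j (x j) + cst d o (x o) + 2 * ((1 - ov) * D) := by
    have h1 : 2 * ((1 - ov) * D) = ∑ k, (x j k + x o k - 2 * min (x j k) (x o k)) * D := by
      rw [← sum_mul, sum_sub_distrib, sum_add_distrib, ← mul_sum, aj2, ao2, ← hov]; ring
    unfold cst
    rw [h1, ← sum_add_distrib, ← sum_add_distrib, ← sum_add_distrib]
    refine sum_le_sum fun k _ => ?_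
    have h2 := hm.tri j o k
    have h3 := hm.tri o j k
    rw [hm.symm o j] at h3
    rw [← hD] at h2 h3
    rcases le_total (x j k) (x o k) with hh | hh
    · rw [min_eq_left hh]; nlinarith
    · rw [min_eq_right hh]; nlinarith
  have v2 := h.opt o (x j) (h.feas j)
  have v3 := h.cx o
  have v4 := h.cx j
  linarith

theorem thin_push0 (hy : ∀ i, 0 ≤ y i) (k : ι) : 0 ≤ push σ y k :=
  sum_nonneg fun i _ => by
    split_ifs
    · exact hy i
    · exact le_rfl

theorem thin_cap0 (hy : ∀ i, 0 ≤ y i) (k : ι) : 0 ≤ cap σ y k :=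
  le_min zero_le_one (thin_push0 hy k)

theorem thin_cap1 (k : ι) : cap σ y k ≤ 1 := min_le_left _ _

theorem thin_fac (hy : ∀ i, 0 ≤ y i) (h0 : 0 ≤ θ) (h1 : θ ≤ 1) (k : ι) :
    0 ≤ 1 - θ * (1 - cap σ y k) ∧ 1 - θ * (1 - cap σ y k) ≤ 1 := by
  have a0 := thin_cap0 (σ := σ) hy k
  have a1 := thin_cap1 (σ := σ) (y := y) k
  constructor <;> nlinarith

theorem thin_push_sum (v f : ι → ℚ) : ∑ k, push σ v k * f k = ∑ k, v k * f (σ k) := by
  simp only [push, sum_mul, ite_mul, zero_mul]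
  rw [sum_comm]
  simp only [sum_ite_eq, mem_univ, if_true]

theorem thin_nonneg (hy : ∀ i, 0 ≤ y i) (h0 : 0 ≤ θ) (h1 : θ ≤ 1) (k : ι) :
    0 ≤ thin θ σ y k := by
  exact mul_nonneg (thin_cap0 hy k) (thin_fac hy h0 h1 k).1

theorem thin_le_one (hy : ∀ i, 0 ≤ y i) (h0 : 0 ≤ θ) (h1 : θ ≤ 1) (k : ι) :
    thin θ σ y k ≤ 1 := by
  exact mul_le_one₀ (thin_cap1 k) (thin_fac hy h0 h1 k).1 (thin_fac hy h0 h1 k).2

/-- the thinning removes mass proportional to the activity -/
theorem thin_mass (hy : ∀ i, 0 ≤ y i) (h0 : 0 ≤ θ) (h1 : θ ≤ 1) :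
    ∑ k, thin θ σ y k + θ / 2 * ∑ k, thin θ σ y k * (1 - thin θ σ y k) ≤ ∑ k, y k := by
  have hs := thin_push_sum (σ := σ) y fun _ => 1
  simp only [mul_one] at hs
  rw [← hs, mul_sum, ← sum_add_distrib]
  refine sum_le_sum fun k _ => le_trans ?_ (min_le_right 1 (push σ y k))
  change _ ≤ cap σ y k
  have a0 := thin_cap0 (σ := σ) hy k
  have a1 := thin_cap1 (σ := σ) (y := y) k
  obtain ⟨b0, b1⟩ := thin_fac (σ := σ) hy h0 h1 k
  unfold thin
  generalize cap σ y k = Y at a0 a1 b0 b1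
  have c1 : Y * (1 - θ * (1 - Y)) ≤ Y := mul_le_of_le_one_right a0 b1
  have c2 : 1 + θ * Y ≤ 2 := by nlinarith
  have c3 : Y * (1 - θ * (1 - Y)) * (1 + θ * Y) ≤ Y * 2 :=
    mul_le_mul c1 c2 (by positivity) a0
  have c4 := mul_le_mul_of_nonneg_left c3 (mul_nonneg h0 (sub_nonneg.2 a1))
  nlinarith

/-- contraction, thinning, and rerouting of the lost mass inside a heavy ball -/
theorem reroute (hd : Met d) (hy : ∀ i, 0 ≤ y i) (h0 : 0 ≤ θ) (h1 : θ ≤ 1) {z : ι → ℚ}
    (hz : Feas y z) (j : ι) {r : ℚ} (hr : 1 ≤ bal d (thin θ σ y) j r) :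
    ∃ x', Feas (thin θ σ y) x' ∧
      cst d j x' ≤ ∑ k, z k * d j (σ k) + r * θ * ∑ k, z k * (1 - cap σ y (σ k)) := by
  obtain ⟨z0, zy, z1⟩ := hz
  obtain ⟨w, hw⟩ : ∃ w : ι → ℚ, w = fun k => push σ z k * (1 - θ * (1 - cap σ y k)) := ⟨_, rfl⟩
  obtain ⟨l, hl⟩ : ∃ l : ℚ, l = θ * ∑ k, z k * (1 - cap σ y (σ k)) := ⟨_, rfl⟩
  have w0 : ∀ k, 0 ≤ w k := fun k => hw ▸ mul_nonneg (thin_push0 z0 k) (thin_fac hy h0 h1 k).1
  have pz : ∀ k, push σ z k ≤ cap σ y k := fun k => by
    refine le_min (z1 ▸ sum_le_sum fun i _ => ?_) (sum_le_sum fun i _ => ?_)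
    · split_ifs
      · exact le_rfl
      · exact z0 i
    · split_ifs
      · exact zy i
      · exact le_rfl
  have wt : ∀ k, w k ≤ thin θ σ y k := fun k =>
    hw ▸ mul_le_mul_of_nonneg_right (pz k) (thin_fac hy h0 h1 k).1
  have ws : ∑ k, w k = 1 - l := by
    rw [hw, hl, thin_push_sum z fun k => 1 - θ * (1 - cap σ y k), mul_sum, ← z1,
      ← sum_sub_distrib]
    simp only [z1]
    exact sum_congr rfl fun k _ => by ring
  have l0 : 0 ≤ l :=
    hl ▸ mul_nonneg h0 (sum_nonneg fun k _ => mul_nonneg (z0 k) (sub_nonneg.2 (thin_cap1 _)))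
  have hb : l ≤ ∑ i, if d j i ≤ r then thin θ σ y i - w i else 0 := by
    have : bal d (thin θ σ y) j r - ∑ k, w k ≤
        ∑ i, if d j i ≤ r then thin θ σ y i - w i else 0 := by
      rw [bal, ← sum_sub_distrib]
      refine sum_le_sum fun i _ => ?_
      have := w0 i
      split_ifs <;> linarith
    linarith
  obtain ⟨u, u0, uy, uB, us⟩ := LP.fill (y := fun i => thin θ σ y i - w i) (x := fun _ => 0)
    (fun i => d j i ≤ r) (fun i => sub_nonneg.2 (wt i)) (fun _ _ => rfl) (μ := l)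
    (by simpa using l0) hb
  simp only [sum_const_zero, sub_zero, zero_add] at us uy
  refine ⟨fun i => w i + u i, ⟨fun i => add_nonneg (w0 i) (u0 i), fun i => by linarith [uy i],
    by rw [sum_add_distrib, ws, us]; ring⟩, ?_⟩
  have c1 : ∑ i, w i * d j i ≤ ∑ k, z k * d j (σ k) := by
    rw [← thin_push_sum z (d j)]
    refine sum_le_sum fun k _ => mul_le_mul_of_nonneg_right ?_ (hd.nonneg j k)
    rw [hw]
    exact mul_le_of_le_one_right (thin_push0 z0 k) (thin_fac hy h0 h1 k).2
  have c2 : ∑ i, u i * d j i ≤ l * r := by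
    rw [← us, sum_mul]
    refine sum_le_sum fun i _ => ?_
    by_cases h : d j i ≤ r
    · exact mul_le_mul_of_nonneg_left h (u0 i)
    · rw [uB i h, zero_mul, zero_mul]
  simp only [cst, add_mul, sum_add_distrib]
  rw [mul_assoc, ← hl]
  linarith

namespace Spec

theorem sig_eq (h : Spec d y J e x C R O g σ) {o k : ι} (ho : o ∈ O) (hk : d o k ≤ e ^ 2 * R o) :
    σ k = g o := by
  rcases h.sig k with ⟨o', ho', h1, h2⟩ | ⟨h1, -⟩
  · by_cases hne : o = o'
    · rw [h2, hne]
    · exfalso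
      have k1 := h.toSpec0.sep ho ho' hne
      have k2 := h.met.tri o k o'
      rw [h.met.symm k o'] at k2
      have r1 := h.toSpec0.R_nonneg o
      have r2 := h.toSpec0.R_nonneg o'
      have e0 := h.e0
      have e1 := h.e1
      have k3 : e ^ 2 ≤ e := by nlinarith
      have k4 := mul_le_mul_of_nonneg_right k3 r1
      have k5 := mul_le_mul_of_nonneg_right k3 r2
      linarith
  · exact absurd hk (h1 o ho)

theorem thin_supp (h : Spec d y J e x C R O g σ) {k : ι} (hk : y k = 0) : thin θ σ y k = 0 := by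
  have hp : push σ y k = 0 := by
    refine Finset.sum_eq_zero fun k' _ => ?_
    split_ifs with hc
    · rcases h.sig k' with ⟨o, ho, -, h2⟩ | ⟨-, h2⟩
      · have := (h.g1 o ho).1
        rw [← h2, hc, hk] at this
        exact absurd this (lt_irrefl _)
      · rw [← h2, hc, hk]
    · rfl
  simp [thin, cap, hp]

/-- far clusters are contracted at relative cost `3 e` -/
theorem far (h : Spec d y J e x C R O g σ) (j k : ι)
    (hf : ∀ o ∈ O, d o k ≤ e ^ 2 * R o → ¬ d j o ≤ e * R o) :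
    d j (σ k) ≤ (1 + 3 * e) * d j k := by
  have e0 := h.e0
  have e1 := h.e1
  have d0 := h.met.nonneg j k
  rcases h.sig k with ⟨o, ho, h1, h2⟩ | ⟨-, h2⟩
  · rw [h2]
    have k1 := not_le.1 (hf o ho h1)
    have k2 := (h.g1 o ho).2
    have k3 := h.met.tri j k o
    have k4 := h.met.tri j o (g o)
    rw [h.met.symm k o] at k3
    have r1 := h.toSpec0.R_nonneg o
    have k5 : (e - e ^ 2) * R o ≤ d j k := by linarith
    have k6 := mul_le_mul_of_nonneg_left k5 (show 0 ≤ 3 * e by linarith)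
    have k7 : 0 ≤ e ^ 2 * R o * (1 - 3 * e) :=
      mul_nonneg (mul_nonneg (sq_nonneg e) r1) (by linarith)
    nlinarith
  · rw [h2]
    nlinarith

theorem heavy_ball (h : Spec d y J e x C R O g σ) {j k : ι} (hk : d j k ≤ R j) :
    d j (σ k) ≤ 2 * R j := by
  have e0 := h.e0
  have e1 := h.e1
  have r0 := h.toSpec0.R_nonneg j
  rcases h.sig k with ⟨o, ho, h1, h2⟩ | ⟨-, h2⟩
  · rw [h2]
    have k2 := (h.g1 o ho).2
    have k3 := h.met.tri j k o
    have k4 := h.met.tri j o (g o)
    rw [h.met.symm k o] at k3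
    have r1 := h.toSpec0.R_nonneg o
    have k5 := h.toSpec0.R_lip o j
    rw [h.met.symm o j] at k5
    have k6 : e ^ 2 ≤ 1 / 10000 := by nlinarith
    have k7 := mul_le_mul_of_nonneg_right k6 r1
    linarith
  · rw [h2]
    linarith

/-- a unit of mass survives within twice the radius -/
theorem heavy (h : Spec d y J e x C R O g σ) (j : ι) :
    1 ≤ bal d (thin (e ^ 3) σ y) j (2 * R j) := by
  have e0 := h.e0
  have e1 := h.e1
  have t0 : 0 ≤ e ^ 3 := by positivity
  have t2 : e ^ 2 ≤ 1 / 100 := by nlinarith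
  have t3 : e ^ 3 ≤ e / 100 := by nlinarith
  have t1 : e ^ 3 ≤ 1 := by linarith
  by_cases hc : ∃ k, d j k ≤ 2 * R j ∧ 1 ≤ push σ y k
  · obtain ⟨k, h1, h2⟩ := hc
    have := Finset.single_le_sum (f := fun i => if d j i ≤ 2 * R j then thin (e ^ 3) σ y i else 0)
      (fun i _ => by
        split_ifs
        · exact thin_nonneg h.y0 t0 t1 i
        · exact le_rfl) (Finset.mem_univ k)
    simp only [if_pos h1] at this
    refine le_trans (le_of_eq ?_) this
    simp [thin, cap, min_eq_left h2]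
  · have hp0 : ∀ k, 0 ≤ push σ y k := fun k => Finset.sum_nonneg fun i _ => by
      split_ifs
      · exact h.y0 i
      · exact le_rfl
    have k1 : (1 - e ^ 3) * bal d (push σ y) j (2 * R j) ≤
        bal d (thin (e ^ 3) σ y) j (2 * R j) := by
      unfold bal
      rw [Finset.mul_sum]
      refine Finset.sum_le_sum fun k _ => ?_
      split_ifs with h1
      · have h2 : push σ y k ≤ 1 := by
          by_contra h3
          exact hc ⟨k, h1, (not_le.1 h3).le⟩
        simp only [thin, cap, min_eq_right h2]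
        have := mul_nonneg t0 (mul_nonneg (hp0 k) (hp0 k))
        nlinarith
      · simp
    have k2 : bal d y j (R j) ≤ bal d (push σ y) j (2 * R j) := by
      have e2 : bal d (push σ y) j (2 * R j) = ∑ k, if d j (σ k) ≤ 2 * R j then y k else 0 := by
        unfold bal push
        have : ∀ i, (if d j i ≤ 2 * R j then ∑ k, (if σ k = i then y k else 0) else 0) =
            ∑ k, if σ k = i then (if d j i ≤ 2 * R j then y k else 0) else 0 := by
          intro i
          split_ifs <;> simp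
        simp only [this]
        rw [Finset.sum_comm]
        simp
      rw [e2]
      refine Finset.sum_le_sum fun k _ => ?_
      split_ifs with h1 h2 h2
      · exact le_rfl
      · exact absurd (h.heavy_ball h1) h2
      · exact h.y0 k
      · exact le_rfl
    have k3 := (h.R1 j).trans k2
    have k4 := mul_le_mul_of_nonneg_left k3 (sub_nonneg.2 t1)
    nlinarith

end Spec

end Crest.Agent.R310.Pre
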