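import Crest.Agent.R310.LPFill

/-!
Row 310, module PRE (helper43): contraction of tight clusters to atoms and thinning.
Definitions and the abstract specification.
-/

set_option autoImplicit false
set_option linter.unusedVariables false
set_option linter.unusedSectionVars false

namespace Crest.Agent.R310.Pre

open Finset

variable {ι : Type*} [Fintype ι] [LinearOrder ι]

/-- pseudo-metric -/
structure Met (d : ι → ι → ℚ) : Prop where
  self : ∀ i, d i i = 0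
  symm : ∀ i j, d i j = d j i
  tri : ∀ i j k, d i k ≤ d i j + d j k

theorem Met.nonneg {d : ι → ι → ℚ} (h : Met d) (i j : ι) : 0 ≤ d i j := by
  have h1 := h.tri i j i
  rw [h.self, h.symm j i] at h1
  linarith

/-- a fractional assignment of one client -/
def Feas (y x : ι → ℚ) : Prop := (∀ i, 0 ≤ x i) ∧ (∀ i, x i ≤ y i) ∧ ∑ i, x i = 1
/-- its cost -/
def cst (d : ι → ι → ℚ) (j : ι) (x : ι → ℚ) : ℚ := ∑ i, x i * d j i
/-- mass of a closed ball -/
def bal (d : ι → ι → ℚ) (y : ι → ℚ) (j : ι) (r : ℚ) : ℚ := ∑ i, if d j i ≤ r then y i else 0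
/-- mass of an open ball -/
def obal (d : ι → ι → ℚ) (y : ι → ℚ) (j : ι) (r : ℚ) : ℚ := ∑ i, if d j i < r then y i else 0

/-- optimal assignments `x`, their costs `C`, the radii `R` of mass `1 + e`, the centres `O` -/
structure Spec0 (d : ι → ι → ℚ) (y : ι → ℚ) (J : Finset ι) (e : ℚ) (x : ι → ι → ℚ)
    (C R : ι → ℚ) (O : Finset ι) : Prop where
  met : Met d
  e0 : 0 < e
  e1 : e ≤ 1 / 100
  y0 : ∀ i, 0 ≤ y i
  feas : ∀ j, Feas y (x j)
  cx : ∀ j, cst d j (x j) ≤ C j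
  opt : ∀ j z, Feas y z → C j ≤ cst d j z
  R1 : ∀ j, 1 + e ≤ bal d y j (R j)
  R2 : ∀ j, obal d y j (R j) < 1 + e
  memO : ∀ o, o ∈ O ↔ o ∈ J ∧ C o < e ^ 2 * R o ∧
    ∀ j ∈ J, C j < e ^ 2 * R j → d j o ≤ e * R o → C o < C j ∨ (C o = C j ∧ o ≤ j)

/-- the atoms `g` and the contraction `σ` -/
structure Spec (d : ι → ι → ℚ) (y : ι → ℚ) (J : Finset ι) (e : ℚ) (x : ι → ι → ℚ)
    (C R : ι → ℚ) (O : Finset ι) (g σ : ι → ι) : Prop extends Spec0 d y J e x C R O where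
  g1 : ∀ o ∈ O, 0 < y (g o) ∧ d o (g o) ≤ e ^ 2 * R o
  g2 : ∀ o ∈ O, ∀ k, 0 < y k → d o k ≤ e ^ 2 * R o →
    ∑ j ∈ J.filter (fun j => d j o ≤ e * R o), d j (g o) ≤
      ∑ j ∈ J.filter (fun j => d j o ≤ e * R o), d j k
  sig : ∀ k, (∃ o ∈ O, d o k ≤ e ^ 2 * R o ∧ σ k = g o) ∨
    ((∀ o ∈ O, ¬ d o k ≤ e ^ 2 * R o) ∧ σ k = k)

/-- push-forward along `σ` -/
def push (σ : ι → ι) (v : ι → ℚ) (k' : ι) : ℚ := ∑ k, if σ k = k' then v k else 0
/-- contracted and capped mass -/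
def cap (σ : ι → ι) (y : ι → ℚ) (k : ι) : ℚ := min 1 (push σ y k)
/-- the output of the preprocessing -/
def thin (θ : ℚ) (σ : ι → ι) (y : ι → ℚ) (k : ι) : ℚ := cap σ y k * (1 - θ * (1 - cap σ y k))

end Crest.Agent.R310.Pre
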