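import Crest.Agent.R310.IO
import Crest.Agent.R310.AlgDesign
import Crest.Agent.R310.AlgGreedy

/-! Row 310: the thinning process on lists (definitions and polynomial time). -/

set_option autoImplicit false

open Crest.Agent.Lib.PolyTime

namespace Crest.Agent.R310

/-- instance, masses `y`, the unary parameters `M, H, nq`, the grid `G`, and `L, δ, η, ζ, μ₀, θ₀` -/
abbrev Env := Raw × List ℚ × (Un × Un × Un) × ℕ × ℚ × ℚ × ℚ × ℚ × ℚ × ℚ

/-- the open points and the numerators of the remaining fractions -/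
abbrev St := List ℕ × List ℕ

def sm (n : ℕ) (f : ℕ → ℚ) : ℚ := ((List.range n).map f).sum

def rnd (n : ℕ) (B : List ℕ) (f : ℕ → ℚ) : List ℕ :=
  (List.range n).map fun k => min (B.getD k 0) ⌊(B.getD k 0 : ℚ) * f k⌋₊

namespace Env

def n (E : Env) : ℕ := E.1.n
def d (E : Env) (i j : ℕ) : ℚ := E.1.d i j
def y (E : Env) (i : ℕ) : ℚ := E.2.1.getD i 0
def M (E : Env) : ℕ := E.2.2.1.1.n
def H (E : Env) : ℕ := E.2.2.1.2.1.n
def nq (E : Env) : ℕ := E.2.2.1.2.2.n
def G (E : Env) : ℕ := E.2.2.2.1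
def L (E : Env) : ℚ := E.2.2.2.2.1
def δ (E : Env) : ℚ := E.2.2.2.2.2.1
def η (E : Env) : ℚ := E.2.2.2.2.2.2.1
def ζ (E : Env) : ℚ := E.2.2.2.2.2.2.2.1
def μ (E : Env) : ℚ := E.2.2.2.2.2.2.2.2.1
def θ (E : Env) : ℚ := E.2.2.2.2.2.2.2.2.2

def b (E : Env) (B : List ℕ) (k : ℕ) : ℚ := (B.getD k 0 : ℚ) / E.G
def m (E : Env) (B : List ℕ) (k : ℕ) : ℚ := E.y k * E.b B k
/-- truncated distance to the open set -/
def D (E : Env) (S : List ℕ) (k : ℕ) : ℚ := S.foldr (fun i z => min z (E.d k i)) E.M
def ct (E : Env) (S : List ℕ) (k t : ℕ) : ℚ := min (E.D S k) ((t : ℚ) / E.H)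

variable (κ : ℚ → ℚ → ℚ)

/-- kill rate of `k` for the radius `c` -/
def I (E : Env) (B : List ℕ) (k : ℕ) (c : ℚ) : ℚ := sm E.n fun i => E.m B i * κ c (E.d i k)
def c (E : Env) (X : St) (k : ℕ) : ℚ :=
  E.ct X.1 k ((List.range (E.H * E.M)).findIdx fun t =>
    decide (1 < E.I κ X.2 k (E.ct X.1 k (t + 1))))
def r (E : Env) (X : St) (k : ℕ) : ℚ :=
  if E.c κ X k = E.D X.1 k then 1 - E.I κ X.2 k (E.c κ X k) else 0
def out (E : Env) (X : St) (i : ℕ) : ℚ :=
  sm E.n fun k => if k = i then 0 else E.m X.2 k * κ (E.c κ X k) (E.d i k)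
def a (E : Env) (X : St) (i : ℕ) : ℚ := E.L / max E.L (E.out κ X i)
def opn (E : Env) (X : St) (i : ℕ) : St :=
  (i :: X.1, rnd E.n X.2 fun k => if k = i then 0 else 1 - E.a κ X i * κ (E.c κ X k) (E.d i k))
def dec (E : Env) (X : St) : St := (X.1, rnd E.n X.2 fun k => 1 - E.δ * E.r κ X k)
def cand (E : Env) (X : St) : List St :=
  E.dec κ X :: ((List.range E.n).filter fun i => decide (0 < E.m X.2 i ∧ i ∉ X.1)).map (E.opn κ X)
def dn (E : Env) (X : St) : Bool := decide (sm E.n (E.m X.2) ≤ E.θ)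

/-- the greedy fractional assignment of the client `j` -/
def x (E : Env) (j k : ℕ) : ℚ :=
  min 1 (sm E.n fun i => if E.d j i < E.d j k ∨ (E.d j i = E.d j k ∧ i ≤ k) then E.y i else 0) -
    min 1 (sm E.n fun i => if E.d j i < E.d j k ∨ (E.d j i = E.d j k ∧ i < k) then E.y i else 0)

end Env

section Poly
variable {α : Type*} [PEnc α] {E : α → Env}

theorem poly_sm {n : α → ℕ} {f : α → ℕ → ℚ} (hn : Poly n) (hb : PB n)
    (hf : Poly fun p : α × ℕ => f p.1 p.2) : Poly fun a => sm (n a) (f a) := by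
  unfold sm; fun_prop

theorem poly_rnd {n : α → ℕ} {B : α → List ℕ} {f : α → ℕ → ℚ} (hn : Poly n) (hb : PB n)
    (hB : Poly B) (hf : Poly fun p : α × ℕ => f p.1 p.2) : Poly fun a => rnd (n a) (B a) (f a) := by
  unfold rnd; fun_prop

namespace Env

@[fun_prop] theorem poly_n (h : Poly E) : Poly fun a => (E a).n := by unfold n; fun_prop
@[fun_prop] theorem pb_n (h : Poly E) : PB fun a => (E a).n := by unfold n; fun_prop
@[fun_prop] theorem poly_d {i j : α → ℕ} (h : Poly E) (hi : Poly i) (hj : Poly j) :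
    Poly fun a => (E a).d (i a) (j a) := by unfold d; fun_prop
@[fun_prop] theorem poly_y {i : α → ℕ} (h : Poly E) (hi : Poly i) :
    Poly fun a => (E a).y (i a) := by unfold y; fun_prop
@[fun_prop] theorem poly_M (h : Poly E) : Poly fun a => (E a).M := by unfold M; fun_prop
@[fun_prop] theorem pb_M (h : Poly E) : PB fun a => (E a).M := by unfold M; fun_prop
@[fun_prop] theorem poly_H (h : Poly E) : Poly fun a => (E a).H := by unfold H; fun_prop
@[fun_prop] theorem pb_H (h : Poly E) : PB fun a => (E a).H := by unfold H; fun_prop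
@[fun_prop] theorem poly_nq (h : Poly E) : Poly fun a => (E a).nq := by unfold nq; fun_prop
@[fun_prop] theorem pb_nq (h : Poly E) : PB fun a => (E a).nq := by unfold nq; fun_prop
@[fun_prop] theorem poly_G (h : Poly E) : Poly fun a => (E a).G := by unfold G; fun_prop
@[fun_prop] theorem poly_L (h : Poly E) : Poly fun a => (E a).L := by unfold L; fun_prop
@[fun_prop] theorem poly_δ (h : Poly E) : Poly fun a => (E a).δ := by unfold δ; fun_prop
@[fun_prop] theorem poly_η (h : Poly E) : Poly fun a => (E a).η := by unfold η; fun_prop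
@[fun_prop] theorem poly_ζ (h : Poly E) : Poly fun a => (E a).ζ := by unfold ζ; fun_prop
@[fun_prop] theorem poly_μ (h : Poly E) : Poly fun a => (E a).μ := by unfold μ; fun_prop
@[fun_prop] theorem poly_θ (h : Poly E) : Poly fun a => (E a).θ := by unfold θ; fun_prop

variable {B S : α → List ℕ} {X : α → St} {i j k t : α → ℕ}

@[fun_prop] theorem poly_b (h : Poly E) (hB : Poly B) (hk : Poly k) :
    Poly fun a => (E a).b (B a) (k a) := by unfold b; fun_prop
@[fun_prop] theorem poly_m (h : Poly E) (hB : Poly B) (hk : Poly k) :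
    Poly fun a => (E a).m (B a) (k a) := by unfold m; fun_prop
@[fun_prop] theorem poly_D (h : Poly E) (hS : Poly S) (hk : Poly k) :
    Poly fun a => (E a).D (S a) (k a) := by
  unfold D
  have h1 : Poly fun a => (S a).map fun i => (E a).d (k a) i := by fun_prop
  refine (Poly.foldr_select (h := fun _ (x z : ℚ) => min z x) (g := fun a => ((E a).M : ℚ)) h1
    (by fun_prop) (by fun_prop) fun _ x z => ?_).congr fun a => ?_
  · rcases le_total z x with h | h <;> simp [h]
  · rw [List.foldr_map]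
@[fun_prop] theorem poly_ct (h : Poly E) (hS : Poly S) (hk : Poly k) (ht : Poly t) :
    Poly fun a => (E a).ct (S a) (k a) (t a) := by unfold ct; fun_prop
@[fun_prop] theorem poly_dn (h : Poly E) (hX : Poly X) : Poly fun a => (E a).dn (X a) := by
  unfold dn
  exact Poly.decide_ratLe (poly_sm (by fun_prop) (by fun_prop) (by fun_prop)) (by fun_prop)
@[fun_prop] theorem poly_x (h : Poly E) (hj : Poly j) (hk : Poly k) :
    Poly fun a => (E a).x (j a) (k a) := by
  unfold x
  refine Poly.ratSub (Poly.ratMin (by fun_prop) (poly_sm (by fun_prop) (by fun_prop) ?_))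
    (Poly.ratMin (by fun_prop) (poly_sm (by fun_prop) (by fun_prop) ?_)) <;> fun_prop

variable {s : Design} (A : s.Alg)

@[fun_prop] theorem poly_I {c : α → ℚ} (h : Poly E) (hB : Poly B) (hk : Poly k) (hc : Poly c) :
    Poly fun a => (E a).I A.κq (B a) (k a) (c a) := by
  unfold I
  exact poly_sm (by fun_prop) (by fun_prop) (by fun_prop)
@[fun_prop] theorem poly_c (h : Poly E) (hX : Poly X) (hk : Poly k) :
    Poly fun a => (E a).c A.κq (X a) (k a) := by unfold c; fun_prop
@[fun_prop] theorem poly_r (h : Poly E) (hX : Poly X) (hk : Poly k) :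
    Poly fun a => (E a).r A.κq (X a) (k a) := by unfold r; fun_prop
@[fun_prop] theorem poly_out (h : Poly E) (hX : Poly X) (hi : Poly i) :
    Poly fun a => (E a).out A.κq (X a) (i a) := by
  unfold out
  exact poly_sm (by fun_prop) (by fun_prop) (by fun_prop)
@[fun_prop] theorem poly_a (h : Poly E) (hX : Poly X) (hi : Poly i) :
    Poly fun z => (E z).a A.κq (X z) (i z) := by unfold a; fun_prop
@[fun_prop] theorem poly_opn (h : Poly E) (hX : Poly X) (hi : Poly i) :
    Poly fun a => (E a).opn A.κq (X a) (i a) := by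
  unfold opn
  exact Poly.pair (by fun_prop) (poly_rnd (by fun_prop) (by fun_prop) (by fun_prop) (by fun_prop))
@[fun_prop] theorem poly_dec (h : Poly E) (hX : Poly X) :
    Poly fun a => (E a).dec A.κq (X a) := by
  unfold dec
  exact Poly.pair (by fun_prop) (poly_rnd (by fun_prop) (by fun_prop) (by fun_prop) (by fun_prop))
@[fun_prop] theorem poly_cand (h : Poly E) (hX : Poly X) :
    Poly fun a => (E a).cand A.κq (X a) := by
  unfold cand
  refine Poly.cons (by fun_prop)
    (Lib.PolyTime.Poly.map (f := fun a i => (E a).opn A.κq (X a) i) ?_ ?_) <;> fun_prop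

end Env

end Poly

end Crest.Agent.R310
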