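import Crest.Agent.R310.ProcInv
import Crest.Agent.R310.Gen
import Crest.Agent.R310.Bk
import Crest.Agent.R310.Fill

/-! Row 310: the potential of the thinning process and its descent. -/

set_option autoImplicit false

open Finset Crest.Agent.Lib.PolyTime

namespace Crest.Agent.R310

theorem cast_sm (n : ℕ) (f : ℕ → ℚ) : ((sm n f : ℚ) : ℝ) = ∑ i : Fin n, (f i : ℝ) := by
  rw [sm_fin, Rat.cast_sum]

theorem gen_lin {ι : Type} [Fintype ι] (w : ι → ℝ) (h η ζ : ℝ) (J : Finset ℕ) (W₀ W' : ℕ → ℝ)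
    (W : ι → ℕ → ℝ) (p₀ p' m₀ m' : ℝ) (p m : ι → ℝ) :
    ∑ i, w i * (∑ j ∈ J, W i j + η * p i + ζ * m i - (∑ j ∈ J, W₀ j + η * p₀ + ζ * m₀)) +
      (∑ j ∈ J, W' j + η * p' + ζ * m' - (∑ j ∈ J, W₀ j + η * p₀ + ζ * m₀)) / h =
    ∑ j ∈ J, (∑ i, w i * (W i j - W₀ j) + (W' j - W₀ j) / h) +
      η * (∑ i, w i * (p i - p₀) + (p' - p₀) / h) + ζ * (∑ i, w i * (m i - m₀) + (m' - m₀) / h) := by
  have e : ∀ i, w i * (∑ j ∈ J, W i j + η * p i + ζ * m i - (∑ j ∈ J, W₀ j + η * p₀ + ζ * m₀)) =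
      ∑ j ∈ J, w i * (W i j - W₀ j) + η * (w i * (p i - p₀)) + ζ * (w i * (m i - m₀)) := fun i => by
    rw [← mul_sum, sum_sub_distrib]
    ring
  simp only [e]
  rw [sum_add_distrib, sum_add_distrib, sum_add_distrib, sum_comm, ← mul_sum, ← mul_sum, ← sum_div,
    sum_sub_distrib (f := W')]
  ring

theorem exists_drop' {ι : Type} [Fintype ι] {w v : ι → ℝ} {v' h g R : ℝ} (hw : ∀ i, 0 ≤ w i)
    (hh : 0 < h) (hg : 0 ≤ g) (hR : ∑ i, w i + 1 / h ≤ R) (H : ∑ i, w i * v i + v' / h ≤ -(g * R)) :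
    v' ≤ -g ∨ ∃ i, 0 < w i ∧ v i ≤ -g := by
  by_contra hc
  push Not at hc
  have h1 : ∑ i, w i * (-g) ≤ ∑ i, w i * v i := sum_le_sum fun i _ => by
    rcases (hw i).eq_or_lt with h0 | h0
    · simp [← h0]
    · exact mul_le_mul_of_nonneg_left (hc.2 i h0).le h0.le
  have h2 : -g / h < v' / h := div_lt_div_of_pos_right hc.1 hh
  have h3 := mul_le_mul_of_nonneg_left hR hg
  rw [← sum_mul] at h1
  have : -g / h = -(g * (1 / h)) := by ring
  linarith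

namespace Env

/-- the bookkeeping potential -/
def psi (E : Env) (X : St) : ℚ :=
  max 0 (X.1.length + sm E.n (E.m X.2) + sm E.n (fun k => (1 - E.y k) * E.m X.2 k) / E.L - E.μ) ^ 2 +
    sm E.n (fun k => E.m X.2 k * (1 - E.m X.2 k)) +
    (8 * E.L + 5) * sm E.n fun k => (1 - E.y k) * E.m X.2 k

/-- the computed potential -/
def ψ (V : ℕ → ℚ → ℚ → ℚ → ℚ) (E : Env) (X : St) : ℚ :=
  (E.1.cl.map fun j => sm E.n fun k => E.x j k * V E.nq (E.D X.1 j) (E.d j k) (E.b X.2 k)).sum +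
    E.η * E.psi X + E.ζ * sm E.n (E.m X.2)

section Poly
variable {α : Type*} [PEnc α] {E : α → Env} {X : α → St} {s : Design} (A : s.Alg)

@[fun_prop] theorem poly_psi (h : Poly E) (hX : Poly X) : Poly fun a => (E a).psi (X a) := by
  have h1 : Poly fun a => sm (E a).n ((E a).m (X a).2) :=
    poly_sm (by fun_prop) (by fun_prop) (by fun_prop)
  have h2 : Poly fun a => sm (E a).n fun k => (1 - (E a).y k) * (E a).m (X a).2 k :=
    poly_sm (by fun_prop) (by fun_prop) (by fun_prop)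
  have h3 : Poly fun a => sm (E a).n fun k => (E a).m (X a).2 k * (1 - (E a).m (X a).2 k) :=
    poly_sm (by fun_prop) (by fun_prop) (by fun_prop)
  unfold psi
  fun_prop

theorem poly_ψ (h : Poly E) (hX : Poly X) : Poly fun a => (E a).ψ A.Vq (X a) := by
  have h1 : Poly fun a => sm (E a).n ((E a).m (X a).2) :=
    poly_sm (by fun_prop) (by fun_prop) (by fun_prop)
  have h2 : Poly fun a => ((E a).1.cl.map fun j => sm (E a).n fun k => (E a).x j k *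
      A.Vq (E a).nq ((E a).D (X a).1 j) ((E a).d j k) ((E a).b (X a).2 k)).sum :=
    Poly.listSum (Lib.PolyTime.Poly.map (by fun_prop)
      (poly_sm (by fun_prop) (by fun_prop) (by fun_prop)))
  unfold ψ
  fun_prop

end Poly

noncomputable section

def yR (E : Env) (k : Fin E.n) : ℝ := E.y k
def bR (E : Env) (B : List ℕ) (k : Fin E.n) : ℝ := E.b B k
def xR (E : Env) (j : ℕ) (k : Fin E.n) : ℝ := E.x j k
def dR (E : Env) (j : ℕ) (k : Fin E.n) : ℝ := E.d j k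

/-- the potential of a real state -/
def Φ (s : Design) (E : Env) (D : ℕ → ℝ) (t : ℝ) (b : Fin E.n → ℝ) : ℝ :=
  ∑ j ∈ E.1.cl.toFinset, s.W univ (E.xR j) (E.dR j) (D j) b +
    E.η * Bk.psi E.yR E.L E.μ t b + E.ζ * Bk.mass (fun _ => 1) E.yR b

def Ψ (s : Design) (E : Env) (X : St) : ℝ :=
  Φ s E (fun j => E.D X.1 j) X.1.length (E.bR X.2)

end

variable {E : Env} {X : St} {i j k : ℕ} {s : Design}

theorem x_eq (j : ℕ) (k : Fin E.n) :
    E.x j k = fill (fun i : Fin E.n => E.y i) (fun i => E.d j i) k := by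
  simp only [x, fill, sm_fin, Fin.le_def, Fin.lt_def]

theorem lt_of_cl (h : j ∈ E.1.cl.toFinset) : j < E.n :=
  List.mem_range.1 (List.mem_filter.1 (List.mem_toFinset.1 h)).1

theorem card_cl (E : Env) : (E.1.cl.toFinset.card : ℝ) ≤ E.n := by
  exact_mod_cast (List.toFinset_card_le _).trans E.1.length_cl_le

theorem cast_mass (E : Env) (B : List ℕ) :
    ((sm E.n (E.m B) : ℚ) : ℝ) = Bk.mass (fun _ => 1) E.yR (E.bR B) := by
  simp [cast_sm, Bk.mass, m, yR, bR]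

theorem cast_psi (E : Env) (X : St) :
    ((E.psi X : ℚ) : ℝ) = Bk.psi E.yR E.L E.μ X.1.length (E.bR X.2) := by
  simp [psi, cast_sm, Bk.psi, Bk.mu, Bk.mass, m, yR, bR]

theorem Inv.length_le {κ : ℚ → ℚ → ℚ} (hX : E.Inv κ X) : X.1.length ≤ E.n := by
  rw [← List.toFinset_card_of_nodup hX.nodup]
  exact (card_le_card fun i hi => mem_range.2 (hX.lt i (List.mem_toFinset.1 hi))).trans_eq
    (card_range _)

theorem Inv.bR_mem {κ : ℚ → ℚ → ℚ} (hX : E.Inv κ X) (k : Fin E.n) :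
    0 ≤ E.bR X.2 k ∧ E.bR X.2 k ≤ 1 :=
  ⟨by unfold bR; exact_mod_cast b_nonneg _ _, by unfold bR; exact_mod_cast hX.b_le _⟩

namespace Ok
variable (hE : E.Ok)
include hE

theorem yR_mem (k : Fin E.n) : 0 ≤ E.yR k ∧ E.yR k ≤ 1 :=
  ⟨by unfold yR; exact_mod_cast hE.y0 k k.2, by unfold yR; exact_mod_cast hE.y1 k k.2⟩

theorem dR_nonneg (hj : j < E.n) (k : Fin E.n) : 0 ≤ E.dR j k := by
  unfold dR; exact_mod_cast hE.d_nonneg hj k.2

theorem dR_le (hj : j < E.n) (k : Fin E.n) : E.dR j k ≤ E.M := by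
  unfold dR; exact_mod_cast hE.d_le j hj k k.2

theorem xR_le (j : ℕ) (k : Fin E.n) : E.xR j k ≤ E.yR k := by
  unfold xR yR
  rw [x_eq]
  exact_mod_cast fill_le (fun i => hE.y0 i i.2) _ k

theorem cl (hj : j < E.n) {D : ℝ} (hD : 0 ≤ D) {b : Fin E.n → ℝ} (hb : ∀ k, 0 ≤ b k ∧ b k ≤ 1) :
    Cl univ (E.xR j) (E.dR j) D b := by
  refine ⟨fun k _ => ?_, ?_, fun k _ => hE.dR_nonneg hj k, hD, fun k _ => hb k⟩
  · unfold xR
    rw [x_eq]
    exact_mod_cast fill_nonneg (fun i => hE.y0 i i.2) _ k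
  · simp only [xR, x_eq]
    exact_mod_cast sum_fill (fun i => hE.y0 i i.2) _ (sm_fin _ _ ▸ hE.ysum)

theorem mass_mem {b : Fin E.n → ℝ} (hb : ∀ k, 0 ≤ b k ∧ b k ≤ 1) {w : Fin E.n → ℝ}
    (hw : ∀ k, 0 ≤ w k ∧ w k ≤ 1) : 0 ≤ Bk.mass w E.yR b ∧ Bk.mass w E.yR b ≤ E.n := by
  have h : ∀ k, 0 ≤ E.yR k * b k := fun k => mul_nonneg (hE.yR_mem k).1 (hb k).1
  refine ⟨sum_nonneg fun k _ => mul_nonneg (hw k).1 (h k), ?_⟩
  calc Bk.mass w E.yR b ≤ ∑ _k : Fin E.n, (1 : ℝ) := sum_le_sum fun k _ =>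
        mul_le_one₀ (hw k).2 (h k) (mul_le_one₀ (hE.yR_mem k).2 (hb k).1 (hb k).2)
    _ = E.n := by simp

theorem Φ_round (hη : 0 ≤ E.η) (hζ : 0 ≤ E.ζ) {D : ℕ → ℝ} (hD : ∀ j < E.n, 0 ≤ D j ∧ D j ≤ E.M)
    (t : ℝ) {b b' : Fin E.n → ℝ} {e : ℝ} (he : 0 ≤ e) (hb : ∀ k, 0 ≤ b k ∧ b k ≤ 1)
    (hb' : ∀ k, 0 ≤ b' k ∧ b' k ≤ b k ∧ b k - b' k ≤ e) :
    Φ s E D t b' ≤ Φ s E D t b + (E.n * (s.C * E.M) + E.η * E.n) * e := by
  have hη' : (0 : ℝ) ≤ E.η := by exact_mod_cast hη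
  have hζ' : (0 : ℝ) ≤ E.ζ := by exact_mod_cast hζ
  have hL : (0 : ℝ) ≤ E.L := by exact_mod_cast zero_le_one.trans hE.L1
  have hC := s.C_nonneg
  have h1 : ∑ j ∈ E.1.cl.toFinset, s.W univ (E.xR j) (E.dR j) (D j) b' ≤
      ∑ j ∈ E.1.cl.toFinset, (s.W univ (E.xR j) (E.dR j) (D j) b + s.C * E.M * e) :=
    sum_le_sum fun j hj => by
      have hj' := lt_of_cl hj
      refine (s.W_round (hE.cl hj' (hD j hj').1 hb) fun k _ => hb' k).trans ?_
      gcongr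
      exact (hD j hj').2
  rw [sum_add_distrib, sum_const, nsmul_eq_mul] at h1
  have h2 := mul_le_mul_of_nonneg_left
    (Bk.psi_round hE.yR_mem (fun k => (hb k).2) hb' hL E.μ t) hη'
  have h3 : Bk.mass (fun _ => 1) E.yR b' ≤ Bk.mass (fun _ => 1) E.yR b := sum_le_sum fun k _ =>
    mul_le_mul_of_nonneg_left (mul_le_mul_of_nonneg_left (hb' k).2.1 (hE.yR_mem k).1) zero_le_one
  have h4 := mul_le_mul_of_nonneg_left h3 hζ'
  have h5 := mul_le_mul_of_nonneg_right (card_cl E) (show 0 ≤ s.C * E.M * e by positivity)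
  rw [Fintype.card_fin] at h2
  unfold Φ
  linarith

theorem rnd_spec (B : List ℕ) {f : ℕ → ℚ} (k : Fin E.n) (h0 : 0 ≤ f k) (h1 : f k ≤ 1) :
    0 ≤ E.bR (rnd E.n B f) k ∧ E.bR (rnd E.n B f) k ≤ E.bR B k * f k ∧
      E.bR B k * f k - E.bR (rnd E.n B f) k ≤ 1 / E.G := by
  have hG : (0 : ℚ) < E.G := by have := hE.G1; positivity
  have hz : (0 : ℚ) ≤ B.getD k 0 * f k := by positivity
  have hf := Nat.floor_le hz
  have e : E.b (rnd E.n B f) k = ⌊(B.getD k 0 : ℚ) * f k⌋₊ / E.G := by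
    rw [b, getD_rnd _ _ k.2, min_eq_right]
    exact_mod_cast hf.trans (mul_le_of_le_one_right (Nat.cast_nonneg _) h1)
  have e' : E.b B k * f k = B.getD k 0 * f k / E.G := by rw [b]; ring
  have : 0 ≤ E.b (rnd E.n B f) k ∧ E.b (rnd E.n B f) k ≤ E.b B k * f k ∧
      E.b B k * f k - E.b (rnd E.n B f) k ≤ 1 / E.G := by
    refine ⟨b_nonneg _ _, ?_, ?_⟩
    · rw [e, e']
      gcongr
    · rw [e, e', ← sub_div]
      gcongr
      linarith [Nat.lt_floor_add_one ((B.getD k 0 : ℚ) * f k)]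
  have h2 := (Rat.cast_le (K := ℝ)).2 this.2.2
  push_cast at h2
  unfold bR
  exact ⟨by exact_mod_cast this.1, by exact_mod_cast this.2.1, h2⟩

theorem DR_mem {κ : ℚ → ℚ → ℚ} (hX : E.Inv κ X) (j : ℕ) (hj : j < E.n) :
    (0 : ℝ) ≤ E.D X.1 j ∧ (E.D X.1 j : ℝ) ≤ E.M :=
  ⟨by exact_mod_cast hE.D_nonneg hX.lt hj, by exact_mod_cast D_le _ _⟩

theorem Ψ_nonneg {κ : ℚ → ℚ → ℚ} (hη : 0 ≤ E.η) (hζ : 0 ≤ E.ζ) (hX : E.Inv κ X) : 0 ≤ Ψ s E X := by
  have hL : (0 : ℝ) ≤ E.L := by exact_mod_cast zero_le_one.trans hE.L1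
  refine add_nonneg (add_nonneg (sum_nonneg fun j hj => ?_) (mul_nonneg (by exact_mod_cast hη)
    (Bk.psi_nonneg hE.yR_mem hX.bR_mem hL _ _))) (mul_nonneg (by exact_mod_cast hζ)
    (hE.mass_mem hX.bR_mem fun _ => ⟨zero_le_one, le_rfl⟩).1)
  exact s.W_nonneg (hE.cl (lt_of_cl hj) (hE.DR_mem hX j (lt_of_cl hj)).1 hX.bR_mem)

variable (A : s.Alg)

theorem ψ_approx (hX : E.Inv A.κq X) (hq : 0 < E.nq) :
    |(E.ψ A.Vq X : ℝ) - Ψ s E X| ≤ E.n * (A.K * (2 * E.M) / E.nq) := by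
  have e : (E.ψ A.Vq X : ℝ) - Ψ s E X = ∑ j ∈ E.1.cl.toFinset, ∑ k : Fin E.n, E.xR j k *
      ((A.Vq E.nq (E.D X.1 j) (E.d j k) (E.b X.2 k) : ℝ) -
        s.V (E.D X.1 j) (E.d j k) (E.b X.2 k)) := by
    rw [ψ, ← List.sum_toFinset _ E.1.nodup_cl]
    push_cast
    rw [cast_psi, cast_mass]
    simp only [Ψ, Φ, Design.W, cast_sm, mul_sub, sum_sub_distrib, xR, dR, bR, Rat.cast_mul]
    ring
  rw [e]
  refine (abs_sum_le_sum_abs _ _).trans ((sum_le_card_nsmul _ _ (A.K * (2 * E.M) / E.nq : ℝ)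
    fun j hj => ?_).trans ?_)
  · have hj' := lt_of_cl hj
    have hD := hE.DR_mem hX j hj'
    have hc := hE.cl hj' hD.1 hX.bR_mem
    refine (abs_sum_le_sum_abs _ _).trans ((sum_le_sum fun k hk => ?_).trans_eq
      (by rw [← sum_mul, hc.sum_x, one_mul]))
    rw [abs_mul, abs_of_nonneg (hc.x_nonneg k hk)]
    refine mul_le_mul_of_nonneg_left ((A.Vq_err _ _ _ _ hq (hE.D_nonneg hX.lt hj')
      (hE.d_nonneg hj' k.2) (b_nonneg _ _) (hX.b_le _)).trans ?_) (hc.x_nonneg k hk)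
    have := hE.dR_le hj' k
    unfold dR at this
    gcongr
    linarith [hD.2]
  · rw [nsmul_eq_mul]
    exact mul_le_mul_of_nonneg_right (card_cl E) (by positivity)

omit hE in
theorem cast_I (B : List ℕ) (k : Fin E.n) (c : ℚ) : ((E.I A.κq B k c : ℚ) : ℝ) =
    ∑ i : Fin E.n, E.yR i * E.bR B i * s.κ c (E.dR i k) := by
  simp [I, cast_sm, m, yR, bR, dR, A.κq_eq]

omit hE in
theorem cast_O (B : List ℕ) (k : Fin E.n) (c : ℚ) : ((E.O A.κq B k c : ℚ) : ℝ) =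
    ∑ i : Fin E.n, if i = k then 0 else E.yR i * E.bR B i * s.κ c (E.dR i k) := by
  rw [O, cast_sm]
  refine sum_congr rfl fun i _ => ?_
  by_cases h : i = k
  · simp [h]
  · simp [h, Fin.val_injective.ne h, m, yR, bR, dR, A.κq_eq]

theorem r_spec (hX : E.Inv A.κq X) (hk : k < E.n) :
    (1 - A.K * E.n / E.H ≤ E.I A.κq X.2 k (E.c A.κq X k) ∧ E.r A.κq X k = 0) ∨
      (E.c A.κq X k = E.D X.1 k ∧ E.I A.κq X.2 k (E.c A.κq X k) + E.r A.κq X k = 1) := by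
  unfold r
  split_ifs with h
  · exact Or.inr ⟨h, by ring⟩
  · exact Or.inl ⟨(hE.c_spec A hX hk).2.2.2.2.resolve_left h, rfl⟩

theorem step (hX : E.Inv A.κq X) : Bk.Step E.yR (E.bR X.2) (fun k => E.r A.κq X k)
    (fun i => E.a A.κq X i) (fun i k => s.κ (E.c A.κq X k) (E.dR i k)) E.L (A.K * E.n / E.H) E.δ := by
  have hτ : (0 : ℚ) ≤ A.K * E.n / E.H := by positivity
  have h : ∀ k : Fin E.n, 0 ≤ E.r A.κq X k ∧ 1 - A.K * E.n / E.H ≤
      E.y k * E.b X.2 k + E.O A.κq X.2 k (E.c A.κq X k) + E.r A.κq X k ∧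
      E.y k * E.b X.2 k + E.O A.κq X.2 k (E.c A.κq X k) + E.r A.κq X k ≤ 1 := fun k => by
    have h1 := (hE.c_spec A hX k.2).2.2.2.1
    have h2 := hE.r_spec A hX k.2
    rw [hE.I_c A hX k.2, m] at h1 h2
    rcases h2 with h2 | h2 <;> refine ⟨?_, ?_, ?_⟩ <;> linarith [h2.1, h2.2]
  refine ⟨fun k => (hE.yR_mem k).1, fun k => (hE.yR_mem k).2, fun k => (hX.bR_mem k).1,
    fun k => (hX.bR_mem k).2, fun _ _ => (s.κ_mem _ _).1, fun _ _ => (s.κ_mem _ _).2,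
    fun k => by exact_mod_cast (h k).1, by exact_mod_cast hE.L1, by positivity,
    by exact_mod_cast hE.δ0, by exact_mod_cast hE.δ1, fun i => ?_, fun k => ?_, fun k => ?_,
    fun k => ?_⟩
  · rw [a, out]
    push_cast
    rw [cast_sm]
    congr 2
    refine sum_congr rfl fun k _ => ?_
    by_cases h : k = i
    · simp [h]
    · simp [h, Fin.val_injective.ne h, m, yR, bR, dR, A.κq_eq]
  · rw [← cast_O A, yR]
    exact_mod_cast hE.O_c A hX k.2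
  · rw [← cast_O A, yR, bR]
    have := (Rat.cast_le (K := ℝ)).2 (h k).2.1
    push_cast at this
    exact this
  · rw [← cast_O A, yR, bR]
    exact_mod_cast (h k).2.2

theorem Φ_gen (hη : 0 ≤ E.η) (hζ : 0 ≤ E.ζ) (hμ : 0 ≤ E.μ) (hX : E.Inv A.κq X) {τ : ℝ}
    (hτ : τ = A.K * E.n / E.H) :
    ∑ i : Fin E.n, E.yR i * E.bR X.2 i / E.a A.κq X i *
        (Φ s E (fun j => min (E.D X.1 j : ℝ) (E.dR j i)) (X.1.length + 1)
          (R310.opn (E.bR X.2) i (E.a A.κq X i) fun k => s.κ (E.c A.κq X k) (E.dR i k)) - Ψ s E X) +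
      (Φ s E (fun j => E.D X.1 j) X.1.length (fun k => E.bR X.2 k * (1 - E.δ * E.r A.κq X k)) -
        Ψ s E X) / E.δ ≤
      E.n * (s.C * E.M * (2 * τ + E.δ)) +
        E.η * (τ * (12 * E.n ^ 2 + (8 * E.L + 6) * E.n) + 4 * E.δ * E.n ^ 2) -
        E.ζ * ((1 - τ) * Bk.mass (fun _ => 1) E.yR (E.bR X.2)) := by
  have H := hE.step A hX
  rw [← hτ] at H
  have hC := s.C_nonneg
  have h2 := mul_le_mul_of_nonneg_left (H.psi_gen (μ := E.μ) (s := X.1.length) (n := E.n)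
    (by exact_mod_cast hμ) (by exact_mod_cast hX.length_le) (by simp))
    (show (0 : ℝ) ≤ E.η by exact_mod_cast hη)
  have h3 := mul_le_mul_of_nonneg_left (H.mass_gen (w := fun _ => 1) fun _ => zero_le_one)
    (show (0 : ℝ) ≤ E.ζ by exact_mod_cast hζ)
  have h4 := mul_le_mul_of_nonneg_right (card_cl E)
    (show 0 ≤ s.C * E.M * (2 * τ + E.δ) by have := H.τ0; have := H.h0; positivity)
  simp only [Ψ, Φ]
  rw [gen_lin]
  refine le_trans (add_le_add (add_le_add (sum_le_card_nsmul _ _ (s.C * E.M * (2 * τ + E.δ))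
    fun j hj => ?_) h2) h3) (by rw [nsmul_eq_mul]; linarith)
  have hj' := lt_of_cl hj
  have hD := hE.DR_mem hX j hj'
  refine s.gen (y := E.yR) (ρ := fun i k => E.dR i k) (c := fun k => E.c A.κq X k)
    (r := fun k => E.r A.κq X k) (a := fun i => E.a A.κq X i) (hE.cl hj' hD.1 hX.bR_mem)
    (fun k _ => hE.xR_le j k) (fun i _ k _ => hE.dR_nonneg i.2 k) (fun i _ => ?_)
    (fun i _ k _ => ?_) (fun i _ k _ => ?_) (fun k _ => ?_) (fun k _ => ?_) (fun k _ hb => ?_)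
    (fun i _ => ⟨H.a_pos i, H.a_le i⟩) (fun k _ => ⟨H.r0 k, H.r_le k⟩) H.h0 H.h1 H.τ0 hD.2
    (fun k _ => hE.dR_le hj' k) fun k _ => ?_
  · unfold dR
    exact_mod_cast hE.d_self i i.2
  · have := hE.d_tri j hj' k k.2 i i.2
    rw [hE.d_symm k k.2 i i.2] at this
    unfold dR
    exact_mod_cast this
  · have := hE.d_tri i i.2 j hj' k k.2
    rw [hE.d_symm i i.2 j hj'] at this
    unfold dR
    exact_mod_cast this
  · exact_mod_cast (hE.c_spec A hX k.2).1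
  · unfold dR
    exact_mod_cast (hE.c_spec A hX k.2).2.1.trans (hE.D_lip hX.lt hj' k.2)
  · have : (k : ℕ) ∉ X.1 := fun h => by
      simp [bR, b, hX.zero k h, -List.getD_eq_getElem?_getD] at hb
    exact_mod_cast (hE.c_spec A hX k.2).2.2.1 this
  · rw [← cast_I A, hτ]
    have h1 := (hE.c_spec A hX k.2).2.2.2.1
    have hτ' : (0 : ℚ) ≤ A.K * E.n / E.H := by positivity
    rcases hE.r_spec A hX k.2 with h | h
    · have h5 : |E.I A.κq X.2 k (E.c A.κq X k) - 1| ≤ A.K * E.n / E.H :=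
        abs_le.2 ⟨by linarith [h.1], by linarith⟩
      have h6 := (Rat.cast_le (K := ℝ)).2 h5
      have h7 := (Rat.cast_le (K := ℝ)).2 (h.2.trans_le hτ')
      push_cast at h6 h7
      exact Or.inl ⟨h6, h7⟩
    · have h5 : E.D X.1 j - E.d j k ≤ E.c A.κq X k := by
        linarith [h.1, hE.D_lip hX.lt k.2 hj', hE.d_symm j hj' k k.2]
      exact Or.inr ⟨by unfold dR; exact_mod_cast h5, by exact_mod_cast h.2⟩

theorem drop (hη : 0 ≤ E.η) (hζ : 0 ≤ E.ζ) (hμ : 0 ≤ E.μ) (hX : E.Inv A.κq X) {τ e R : ℝ}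
    (hτ : τ = A.K * E.n / E.H) (hτ1 : τ ≤ 1) (he : 0 ≤ e) (hR : 2 * E.n + 1 / (E.δ : ℝ) ≤ R)
    (herr : E.n * (s.C * E.M * (2 * τ + E.δ)) +
      E.η * (τ * (12 * E.n ^ 2 + (8 * E.L + 6) * E.n) + 4 * E.δ * E.n ^ 2) -
      E.ζ * ((1 - τ) * E.θ) ≤ -(4 * e * R))
    (hG : (E.n * (s.C * E.M) + E.η * E.n) * (1 / E.G : ℝ) ≤ e) (hdn : E.dn X = false) :
    ∃ Y ∈ E.cand A.κq X, Ψ s E Y ≤ Ψ s E X - 3 * e := by
  have H := hE.step A hX
  have hm : (E.θ : ℝ) ≤ Bk.mass (fun _ => 1) E.yR (E.bR X.2) := by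
    rw [← cast_mass]
    exact_mod_cast (not_le.1 (of_decide_eq_false hdn)).le
  have h1 := mul_le_mul_of_nonneg_left (mul_le_mul_of_nonneg_left hm (sub_nonneg.2 hτ1))
    (show (0 : ℝ) ≤ E.ζ by exact_mod_cast hζ)
  have h2 := (hE.mass_mem hX.bR_mem fun _ => ⟨zero_le_one, le_rfl⟩).2
  have h3 := hE.mass_mem hX.bR_mem (w := fun k => 1 - E.yR k) fun k =>
    ⟨sub_nonneg.2 (hE.yR_mem k).2, sub_le_self _ (hE.yR_mem k).1⟩
  have h4 := div_le_self h3.1 H.L1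
  have h5 := H.weight
  have hG0 : (0 : ℝ) ≤ 1 / E.G := by positivity
  have hab : ∀ {u v : ℝ}, 0 ≤ u ∧ u ≤ 1 → 0 ≤ v ∧ v ≤ 1 → 0 ≤ u * v ∧ u * v ≤ 1 := fun hu hv =>
    ⟨mul_nonneg hu.1 hv.1, mul_le_one₀ hu.2 hv.1 hv.2⟩
  have hs : ∀ {u : ℝ}, 0 ≤ u ∧ u ≤ 1 → 0 ≤ 1 - u ∧ 1 - u ≤ 1 := fun hu =>
    ⟨sub_nonneg.2 hu.2, sub_le_self _ hu.1⟩
  rcases exists_drop' (g := 4 * e) (R := R)
    (fun i => div_nonneg (mul_nonneg (H.y0 i) (H.b0 i)) (H.a_pos i).le) H.h0 (by positivity)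
    (by linarith) ((hE.Φ_gen A hη hζ hμ hX hτ).trans (by linarith)) with h | ⟨i, hi, h⟩
  · refine ⟨_, List.mem_cons_self, ?_⟩
    have hf : ∀ k : Fin E.n, 0 ≤ 1 - (E.δ : ℝ) * E.r A.κq X k ∧ 1 - (E.δ : ℝ) * E.r A.κq X k ≤ 1 :=
      fun k => hs (hab ⟨H.h0.le, H.h1⟩ ⟨H.r0 k, H.r_le k⟩)
    have := hE.Φ_round (s := s) hη hζ (hE.DR_mem hX) X.1.length (b' := E.bR (E.dec A.κq X).2) hG0
      (fun k => hab (hX.bR_mem k) (hf k)) fun k => by
        have := hE.rnd_spec X.2 (f := fun k => 1 - E.δ * E.r A.κq X k) k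
          (by exact_mod_cast (hf k).1) (by exact_mod_cast (hf k).2)
        push_cast at this
        exact this
    change Φ s E (fun j => E.D X.1 j) X.1.length (E.bR (E.dec A.κq X).2) ≤ _
    linarith
  · have hm : 0 < E.m X.2 i := by
      have := (div_pos_iff_of_pos_right (H.a_pos i)).1 hi
      unfold yR bR at this
      unfold m
      exact_mod_cast this
    have hS : (i : ℕ) ∉ X.1 := fun h => by
      simp [m, b, hX.zero i h, -List.getD_eq_getElem?_getD] at hm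
    refine ⟨E.opn A.κq X i, List.mem_cons_of_mem _ (List.mem_map_of_mem ?_), ?_⟩
    · simp [hm, hS]
    have hf : ∀ k : Fin E.n, 0 ≤ 1 - (E.a A.κq X i : ℝ) * s.κ (E.c A.κq X k) (E.dR i k) ∧
        1 - (E.a A.κq X i : ℝ) * s.κ (E.c A.κq X k) (E.dR i k) ≤ 1 :=
      fun k => hs (hab ⟨(H.a_pos i).le, H.a_le i⟩ ⟨H.K0 i k, H.K1 i k⟩)
    have := hE.Φ_round (s := s) hη hζ (D := fun j => min (E.D X.1 j : ℝ) (E.dR j i))
      (fun j hj => ⟨le_min (hE.DR_mem hX j hj).1 (hE.dR_nonneg hj i),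
        (min_le_left _ _).trans (hE.DR_mem hX j hj).2⟩) (X.1.length + 1)
      (b := R310.opn (E.bR X.2) i (E.a A.κq X i) fun k => s.κ (E.c A.κq X k) (E.dR i k))
      (b' := E.bR (E.opn A.κq X i).2) hG0 (fun k => by
        unfold R310.opn
        split_ifs
        · exact ⟨le_rfl, zero_le_one⟩
        · exact hab (hX.bR_mem k) (hf k)) fun k => by
        have e : ((if (k : ℕ) = i then 0 else 1 - E.a A.κq X i * A.κq (E.c A.κq X k) (E.d i k) : ℚ) :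
            ℝ) = if k = i then 0 else 1 - (E.a A.κq X i : ℝ) * s.κ (E.c A.κq X k) (E.dR i k) := by
          by_cases h : k = i
          · simp [h]
          · simp [h, Fin.val_injective.ne h, dR, A.κq_eq]
        have h0 : (0 : ℝ) ≤ (if k = i then 0 else
            1 - (E.a A.κq X i : ℝ) * s.κ (E.c A.κq X k) (E.dR i k)) ∧ (if k = i then 0 else
            1 - (E.a A.κq X i : ℝ) * s.κ (E.c A.κq X k) (E.dR i k)) ≤ 1 := by
          split_ifs
          · exact ⟨le_rfl, zero_le_one⟩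
          · exact hf k
        rw [← e] at h0
        have := hE.rnd_spec X.2 (f := fun k => if k = i then 0 else
          1 - E.a A.κq X i * A.κq (E.c A.κq X k) (E.d i k)) k (by exact_mod_cast h0.1)
          (by exact_mod_cast h0.2)
        rw [e, mul_ite, mul_zero] at this
        exact this
    have e : Ψ s E (E.opn A.κq X i) = Φ s E (fun j => min (E.D X.1 j : ℝ) (E.dR j i))
        (X.1.length + 1) (E.bR (E.opn A.κq X i).2) := by
      simp only [Ψ, opn, D_cons, dR, List.length_cons]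
      push_cast
      rfl
    linarith

end Ok

end Env

end Crest.Agent.R310
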