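import Crest.Agent.R310.Proc

/-! Row 310: the invariant of the thinning process. -/

set_option autoImplicit false

open Finset

namespace Crest.Agent.R310

theorem sm_eq (n : ℕ) (f : ℕ → ℚ) : sm n f = ∑ i ∈ range n, f i := by
  induction n with
  | zero => rfl
  | succ n ih => rw [sum_range_succ, ← ih]; simp [sm, List.range_succ]

theorem sm_fin (n : ℕ) (f : ℕ → ℚ) : sm n f = ∑ i : Fin n, f i := by
  rw [sm_eq, Fin.sum_univ_eq_sum_range]

theorem getD_rnd {n k : ℕ} (B : List ℕ) (f : ℕ → ℚ) (h : k < n) :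
    (rnd n B f).getD k 0 = min (B.getD k 0) ⌊(B.getD k 0 : ℚ) * f k⌋₊ := by
  simp [rnd, List.getD_eq_getElem?_getD, h]

theorem getD_rnd_le (n k : ℕ) (B : List ℕ) (f : ℕ → ℚ) : (rnd n B f).getD k 0 ≤ B.getD k 0 := by
  rcases lt_or_ge k n with h | h
  · rw [getD_rnd B f h]
    exact min_le_left _ _
  · rw [List.getD_eq_default _ _ (by simpa [rnd] using h)]
    exact Nat.zero_le _

namespace Design.Alg
variable {s : Design} (A : s.Alg)

theorem q0 (c ρ : ℚ) : 0 ≤ A.κq c ρ := by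
  have := (s.κ_mem c ρ).1
  rw [← A.κq_eq] at this
  exact_mod_cast this

theorem q1 (c ρ : ℚ) : A.κq c ρ ≤ 1 := by
  have := (s.κ_mem c ρ).2
  rw [← A.κq_eq] at this
  exact_mod_cast this

theorem qzero {c : ℚ} (h : 0 < c) : A.κq c 0 = 1 := by
  have := s.κ_zero c (by exact_mod_cast h)
  rw [← Rat.cast_zero, ← A.κq_eq] at this
  exact_mod_cast this

theorem qmono {c c' ρ : ℚ} (h0 : 0 ≤ c) (h : c ≤ c') (hρ : 0 < ρ) : A.κq c ρ ≤ A.κq c' ρ := by
  have := A.κ_mono c c' ρ (by exact_mod_cast h0) (by exact_mod_cast h) (by exact_mod_cast hρ)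
  rw [← A.κq_eq, ← A.κq_eq] at this
  exact_mod_cast this

theorem qeq {c ρ : ℚ} (h0 : 0 ≤ c) (hρ : 0 < ρ) (h : c ≤ ρ) : A.κq c ρ = 0 := by
  refine le_antisymm (not_lt.1 fun h1 => not_lt.2 h ?_) (A.q0 c ρ)
  have := A.κ_pos c ρ (by exact_mod_cast h0) (by exact_mod_cast hρ)
    (by rw [← A.κq_eq]; exact_mod_cast h1)
  exact_mod_cast this

theorem qlip {c c' ρ : ℚ} (h0 : 0 ≤ c) (h : c ≤ c') (hρ : 1 ≤ ρ) :
    A.κq c' ρ ≤ A.κq c ρ + A.K * (c' - c) := by
  have := A.κ_lip c c' ρ (by exact_mod_cast h0) (by exact_mod_cast h) (by exact_mod_cast hρ)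
  rw [← A.κq_eq, ← A.κq_eq] at this
  exact_mod_cast this

end Design.Alg

namespace Env

structure Ok (E : Env) : Prop where
  d_self : ∀ i < E.n, E.d i i = 0
  d_symm : ∀ i < E.n, ∀ j < E.n, E.d i j = E.d j i
  d_tri : ∀ i < E.n, ∀ j < E.n, ∀ k < E.n, E.d i k ≤ E.d i j + E.d j k
  d_one : ∀ i < E.n, ∀ j < E.n, i ≠ j → 1 ≤ E.d i j
  d_le : ∀ i < E.n, ∀ j < E.n, E.d i j ≤ E.M
  M1 : 1 ≤ E.M
  H1 : 1 ≤ E.H
  G1 : 1 ≤ E.G
  L1 : 1 ≤ E.L
  δ0 : 0 < E.δ
  δ1 : E.δ ≤ 1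
  y0 : ∀ i < E.n, 0 ≤ E.y i
  y1 : ∀ i < E.n, E.y i ≤ 1
  ysum : 1 ≤ sm E.n E.y

/-- kill rate of `k` by the other points -/
def O (κ : ℚ → ℚ → ℚ) (E : Env) (B : List ℕ) (k : ℕ) (c : ℚ) : ℚ :=
  sm E.n fun i => if i = k then 0 else E.m B i * κ c (E.d i k)

structure Inv (κ : ℚ → ℚ → ℚ) (E : Env) (X : St) : Prop where
  nodup : X.1.Nodup
  lt : ∀ i ∈ X.1, i < E.n
  pos : ∀ i ∈ X.1, 0 < E.y i
  le : ∀ k, X.2.getD k 0 ≤ E.G
  zero : ∀ i ∈ X.1, X.2.getD i 0 = 0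
  out : ∀ k < E.n, X.2.getD k 0 = E.G ∨ E.O κ X.2 k (E.D X.1 k) ≤ 1 - E.y k

variable {E : Env} {S B B' : List ℕ} {X : St} {i j k : ℕ}

theorem D_cons (i : ℕ) (S : List ℕ) (k : ℕ) : E.D (i :: S) k = min (E.D S k) (E.d k i) := rfl

theorem D_le (S : List ℕ) (k : ℕ) : E.D S k ≤ E.M := by
  induction S with
  | nil => exact le_rfl
  | cons i S ih => exact (min_le_left _ _).trans ih

theorem D_le_d (h : i ∈ S) (k : ℕ) : E.D S k ≤ E.d k i := by
  induction S with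
  | nil => simp at h
  | cons j S ih =>
    rcases List.mem_cons.1 h with rfl | h
    · exact min_le_right _ _
    · exact (min_le_left _ _).trans (ih h)

theorem le_D {z : ℚ} (hM : z ≤ E.M) (h : ∀ i ∈ S, z ≤ E.d k i) : z ≤ E.D S k := by
  induction S with
  | nil => exact hM
  | cons j S ih =>
    exact le_min (ih fun i hi => h i (List.mem_cons_of_mem _ hi)) (h j List.mem_cons_self)

theorem b_nonneg (B : List ℕ) (k : ℕ) : 0 ≤ E.b B k := by unfold b; positivity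

theorem b_mono (h : B'.getD k 0 ≤ B.getD k 0) : E.b B' k ≤ E.b B k := by
  unfold b
  gcongr

theorem Inv.b_le {κ : ℚ → ℚ → ℚ} (hX : E.Inv κ X) (k : ℕ) : E.b X.2 k ≤ 1 :=
  div_le_one_of_le₀ (by exact_mod_cast hX.le k) (Nat.cast_nonneg _)

namespace Ok
variable (hE : E.Ok)
include hE

theorem d_nonneg (hi : i < E.n) (hj : j < E.n) : 0 ≤ E.d i j := by
  rcases eq_or_ne i j with rfl | h
  · exact (hE.d_self i hi).ge
  · exact zero_le_one.trans (hE.d_one i hi j hj h)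

theorem D_nonneg (hS : ∀ i ∈ S, i < E.n) (hk : k < E.n) : 0 ≤ E.D S k :=
  le_D (Nat.cast_nonneg _) fun i hi => hE.d_nonneg hk (hS i hi)

theorem D_one (hS : ∀ i ∈ S, i < E.n) (hk : k < E.n) (h : k ∉ S) : 1 ≤ E.D S k :=
  le_D (by exact_mod_cast hE.M1) fun i hi => hE.d_one k hk i (hS i hi) fun e => h (e ▸ hi)

theorem D_lip (hS : ∀ i ∈ S, i < E.n) (hj : j < E.n) (hk : k < E.n) :
    E.D S k ≤ E.D S j + E.d j k := by
  rw [← sub_le_iff_le_add]
  refine le_D ?_ fun i hi => ?_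
  · linarith [D_le (E := E) S k, hE.d_nonneg hj hk]
  · linarith [D_le_d (E := E) hi k, hE.d_tri k hk j hj i (hS i hi), hE.d_symm k hk j hj]

theorem m_nonneg (B : List ℕ) (hk : k < E.n) : 0 ≤ E.m B k :=
  mul_nonneg (hE.y0 k hk) (b_nonneg B k)

theorem m_le {κ : ℚ → ℚ → ℚ} (hX : E.Inv κ X) (hk : k < E.n) : E.m X.2 k ≤ 1 :=
  mul_le_one₀ (hE.y1 k hk) (b_nonneg _ k) (hX.b_le k)

variable {s : Design} (A : s.Alg)

theorem O_mono (hk : k < E.n) (hB : ∀ i, B'.getD i 0 ≤ B.getD i 0) {c c' : ℚ} (h0 : 0 ≤ c)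
    (h : c ≤ c') : E.O A.κq B' k c ≤ E.O A.κq B k c' := by
  simp only [O, sm_eq]
  refine sum_le_sum fun i hi => ?_
  have hi' := mem_range.1 hi
  split_ifs with e
  · exact le_rfl
  · exact mul_le_mul (mul_le_mul_of_nonneg_left (b_mono (hB i)) (hE.y0 i hi'))
      (A.qmono h0 h (zero_lt_one.trans_le (hE.d_one i hi' k hk e))) (A.q0 _ _) (hE.m_nonneg B hi')

theorem O_small (B : List ℕ) (hk : k < E.n) {c : ℚ} (h0 : 0 ≤ c) (h1 : c ≤ 1) :
    E.O A.κq B k c = 0 := by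
  simp only [O, sm_eq]
  refine sum_eq_zero fun i hi => ?_
  split_ifs with e
  · rfl
  · have := hE.d_one i (mem_range.1 hi) k hk e
    rw [A.qeq h0 (by linarith) (by linarith), mul_zero]

theorem O_lip (hX : E.Inv A.κq X) (hk : k < E.n) {c c' : ℚ} (h0 : 0 ≤ c) (h : c ≤ c') :
    E.O A.κq X.2 k c' ≤ E.O A.κq X.2 k c + E.n * (A.K * (c' - c)) := by
  simp only [O, sm_eq]
  have hK : (0 : ℚ) ≤ A.K * (c' - c) := mul_nonneg (Nat.cast_nonneg _) (sub_nonneg.2 h)
  have : (E.n : ℚ) * (A.K * (c' - c)) = ∑ _i ∈ range E.n, A.K * (c' - c) := by simp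
  rw [this, ← sum_add_distrib]
  refine sum_le_sum fun i hi => ?_
  have hi' := mem_range.1 hi
  split_ifs with e
  · linarith
  · have h1 := mul_le_mul_of_nonneg_left (A.qlip h0 h (hE.d_one i hi' k hk e)) (hE.m_nonneg X.2 hi')
    have h2 := mul_le_mul_of_nonneg_right (hE.m_le hX hi') hK
    linarith

theorem I_eq (B : List ℕ) (hk : k < E.n) (c : ℚ) :
    E.I A.κq B k c = E.m B k * A.κq c 0 + E.O A.κq B k c := by
  simp only [I, O, sm_eq]
  rw [← add_sum_erase _ _ (mem_range.2 hk), ← add_sum_erase _ _ (mem_range.2 hk), if_pos rfl,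
    zero_add, hE.d_self k hk]
  exact congrArg _ (sum_congr rfl fun i hi => by rw [if_neg (ne_of_mem_erase hi)])

theorem I_small (hX : E.Inv A.κq X) (hk : k < E.n) {c : ℚ} (h0 : 0 ≤ c) (h1 : c ≤ 1) :
    E.I A.κq X.2 k c ≤ 1 := by
  rw [hE.I_eq A _ hk, hE.O_small A _ hk h0 h1, add_zero]
  exact mul_le_one₀ (hE.m_le hX hk) (A.q0 _ _) (A.q1 _ _)

/-- the properties of the kill radius -/
theorem c_spec (hX : E.Inv A.κq X) (hk : k < E.n) :
    0 ≤ E.c A.κq X k ∧ E.c A.κq X k ≤ E.D X.1 k ∧ (k ∉ X.1 → 0 < E.c A.κq X k) ∧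
      E.I A.κq X.2 k (E.c A.κq X k) ≤ 1 ∧
      (E.c A.κq X k = E.D X.1 k ∨ 1 - A.K * E.n / E.H ≤ E.I A.κq X.2 k (E.c A.κq X k)) := by
  have hD := hE.D_nonneg hX.lt hk
  have hH : (1 : ℚ) ≤ E.H := by exact_mod_cast hE.H1
  have hH0 : (0 : ℚ) < E.H := by linarith
  have hct : ∀ t, 0 ≤ E.ct X.1 k t := fun t => le_min hD (by positivity)
  have h1 : E.I A.κq X.2 k (E.ct X.1 k (0 + 1)) ≤ 1 :=
    hE.I_small A hX hk (hct _) ((min_le_right _ _).trans (by simpa using inv_le_one_of_one_le₀ hH))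
  unfold c
  set p : ℕ → Bool := fun t => decide (1 < E.I A.κq X.2 k (E.ct X.1 k (t + 1))) with hp
  set t := (List.range (E.H * E.M)).findIdx p with ht
  have hle : t ≤ E.H * E.M := by simpa using List.findIdx_le_length (p := p) (xs := List.range _)
  have hlt : ∀ u < t, E.I A.κq X.2 k (E.ct X.1 k (u + 1)) ≤ 1 := fun u hu => by
    have := List.not_of_lt_findIdx hu
    simpa [hp] using this
  have hat : t < E.H * E.M → 1 < E.I A.κq X.2 k (E.ct X.1 k (t + 1)) := fun h => by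
    have := List.findIdx_getElem (p := p) (xs := List.range (E.H * E.M)) (w := by simpa using h)
    simpa [hp] using this
  have ht0 : 0 < t := Nat.pos_of_ne_zero fun h => by
    have := hat (by rw [h]; exact Nat.mul_pos hE.H1 hE.M1)
    rw [h] at this
    linarith
  have hpos : k ∉ X.1 → 0 < E.ct X.1 k t := fun h =>
    lt_min (zero_lt_one.trans_le (hE.D_one hX.lt hk h)) (by positivity)
  refine ⟨hct t, min_le_left _ _, hpos, ?_, ?_⟩
  · have := hlt (t - 1) (by omega)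
    rwa [Nat.sub_add_cancel ht0] at this
  · rcases hle.eq_or_lt with h | h
    · refine Or.inl (min_eq_left ?_)
      rw [h, Nat.cast_mul, mul_div_cancel_left₀ _ hH0.ne']
      exact D_le _ _
    · by_cases hk' : k ∈ X.1
      · refine Or.inl (le_antisymm (min_le_left _ _) (le_trans ?_ (hct t)))
        exact (D_le_d hk' k).trans (hE.d_self k hk).le
      · refine Or.inr ?_
        have h2 := hat h
        have h3 : E.ct X.1 k t ≤ E.ct X.1 k (t + 1) :=
          min_le_min le_rfl (by gcongr; exact Nat.le_succ t)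
        have h4 : E.ct X.1 k (t + 1) - E.ct X.1 k t ≤ 1 / E.H := by
          have : ((t + 1 : ℕ) : ℚ) / E.H = t / E.H + 1 / E.H := by push_cast; ring
          have h5 : (0 : ℚ) ≤ 1 / E.H := by positivity
          simp only [ct, this, min_def]
          split_ifs <;> linarith
        have h5 := hE.O_lip A hX hk (hct t) h3
        have h6 : (E.n : ℚ) * (A.K * (E.ct X.1 k (t + 1) - E.ct X.1 k t)) ≤ E.n * (A.K * (1 / E.H)) := by
          gcongr
        rw [hE.I_eq A _ hk, A.qzero ((hpos hk').trans_le h3)] at h2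
        rw [hE.I_eq A _ hk, A.qzero (hpos hk')]
        have : (E.n : ℚ) * (A.K * (1 / E.H)) = A.K * E.n / E.H := by ring
        linarith

theorem I_c (hX : E.Inv A.κq X) (hk : k < E.n) :
    E.I A.κq X.2 k (E.c A.κq X k) = E.m X.2 k + E.O A.κq X.2 k (E.c A.κq X k) := by
  rw [hE.I_eq A _ hk]
  by_cases h : k ∈ X.1
  · simp [m, b, hX.zero k h, -List.getD_eq_getElem?_getD]
  · rw [A.qzero ((hE.c_spec A hX hk).2.2.1 h), mul_one]

theorem O_c (hX : E.Inv A.κq X) (hk : k < E.n) :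
    E.O A.κq X.2 k (E.c A.κq X k) ≤ 1 - E.y k := by
  obtain ⟨h0, h1, -, h2, -⟩ := hE.c_spec A hX hk
  rcases hX.out k hk with h | h
  · have hG : (E.G : ℚ) ≠ 0 := by have := hE.G1; positivity
    rw [hE.I_c A hX hk, m, b, h, div_self hG] at h2
    linarith
  · exact (hE.O_mono A hk (fun _ => le_rfl) h0 h1).trans h

theorem inv_dec (hX : E.Inv A.κq X) : E.Inv A.κq (E.dec A.κq X) := by
  have hB : ∀ k, (E.dec A.κq X).2.getD k 0 ≤ X.2.getD k 0 := fun k => getD_rnd_le _ _ _ _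
  refine ⟨hX.nodup, hX.lt, hX.pos, fun k => (hB k).trans (hX.le k),
    fun i hi => Nat.le_zero.1 ((hB i).trans (hX.zero i hi).le), fun k hk => ?_⟩
  have hD := hE.D_nonneg hX.lt hk
  by_cases hc : E.c A.κq X k = E.D X.1 k
  · exact Or.inr ((hE.O_mono A hk hB hD hc.ge).trans (hE.O_c A hX hk))
  · refine (hX.out k hk).imp (fun h => ?_) fun h => (hE.O_mono A hk hB hD le_rfl).trans h
    rw [← h]
    simp only [dec]
    rw [getD_rnd _ _ hk, r, if_neg hc]
    simp [-List.getD_eq_getElem?_getD]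

theorem inv_opn (hX : E.Inv A.κq X) (hi : i < E.n) (hm : 0 < E.m X.2 i) (hS : i ∉ X.1) :
    E.Inv A.κq (E.opn A.κq X i) := by
  have hB : ∀ k, (E.opn A.κq X i).2.getD k 0 ≤ X.2.getD k 0 := fun k => getD_rnd_le _ _ _ _
  have hlt : ∀ j ∈ i :: X.1, j < E.n := List.forall_mem_cons.2 ⟨hi, hX.lt⟩
  refine ⟨List.nodup_cons.2 ⟨hS, hX.nodup⟩, hlt,
    List.forall_mem_cons.2 ⟨pos_of_mul_pos_left hm (b_nonneg _ _), hX.pos⟩,
    fun k => (hB k).trans (hX.le k), List.forall_mem_cons.2 ⟨?_, fun j hj =>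
      Nat.le_zero.1 ((hB j).trans (hX.zero j hj).le)⟩, fun k hk => ?_⟩
  · simp only [opn]
    rw [getD_rnd _ _ hi]
    simp
  · have hD : 0 ≤ E.D (i :: X.1) k := hE.D_nonneg hlt hk
    obtain ⟨h0, -⟩ := hE.c_spec A hX hk
    rcases le_total (E.d k i) (E.c A.κq X k) with hc | hc
    · exact Or.inr ((hE.O_mono A hk hB hD ((min_le_right _ _).trans hc)).trans (hE.O_c A hX hk))
    · by_cases e : k = i
      · refine Or.inr ((hE.O_small A _ hk hD ((min_le_right _ _).trans ?_)).trans_le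
          (sub_nonneg.2 (hE.y1 k hk)))
        rw [← e, hE.d_self k hk]
        exact zero_le_one
      · refine (hX.out k hk).imp (fun h => ?_) fun h =>
          (hE.O_mono A hk hB hD (min_le_left _ _)).trans h
        rw [← h]
        simp only [opn]
        rw [getD_rnd _ _ hk, if_neg e, hE.d_symm i hi k hk,
          A.qeq h0 (zero_lt_one.trans_le (hE.d_one k hk i hi e)) hc]
        simp [-List.getD_eq_getElem?_getD]

theorem inv_cand (hX : E.Inv A.κq X) : ∀ Y ∈ E.cand A.κq X, E.Inv A.κq Y := by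
  intro Y hY
  rcases List.mem_cons.1 hY with rfl | hY
  · exact hE.inv_dec A hX
  · obtain ⟨i, hi, rfl⟩ := List.mem_map.1 hY
    simp only [List.mem_filter, List.mem_range, decide_eq_true_eq] at hi
    exact hE.inv_opn A hX hi.1 hi.2.1 hi.2.2

end Ok

end Env

end Crest.Agent.R310
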