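import Crest.Agent.R310.ProcGen

/-! Row 310: the run of the greedy thinning process. -/

set_option autoImplicit false

open Finset Crest.Agent.Lib.PolyTime

namespace Crest.Agent.R310

namespace Env

def X₀ (E : Env) : St := ([], List.replicate E.n E.G)

def run {s : Design} (A : s.Alg) (E : Env) (T : ℕ) : St :=
  (Alg.gstep E.dn (E.cand A.κq) (E.ψ A.Vq))^[T] E.X₀

theorem poly_run {α : Type} [PEnc α] {E : α → Env} {T : α → ℕ} {s : Design} (A : s.Alg)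
    (h : Poly E) (hT : Poly T) (hb : PB T) : Poly fun a => (E a).run A (T a) := by
  refine Alg.poly_greedy (dn := fun a => (E a).dn) (cand := fun a => (E a).cand A.κq)
    (ψ := fun a => (E a).ψ A.Vq) (by fun_prop) (by fun_prop) (poly_ψ A (by fun_prop) (by fun_prop))
    (by unfold X₀; fun_prop) hT hb
    (fun a X => X.1.Nodup ∧ (∀ i ∈ X.1, i < (E a).n) ∧ X.2.length = (E a).n ∧
      ∀ k, X.2.getD k 0 ≤ (E a).G)
    (fun a => ⟨List.nodup_nil, by simp [X₀], by simp [X₀], fun k => ?_⟩) (fun a X hX Y hY => ?_)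
    (B := fun a => (E a).n * (4 * (E a).n + 1 + 1) + 1 + ((E a).n * (4 * sz (E a).G + 1) + 1) + 1)
    ?_ fun a X hX => ?_
  · simp only [X₀, List.getD_eq_getElem?_getD, List.getElem?_replicate]
    split_ifs <;> simp
  · rcases List.mem_cons.1 hY with rfl | hY
    · exact ⟨hX.1, hX.2.1, by simp [dec, rnd], fun k => (getD_rnd_le _ _ _ _).trans (hX.2.2.2 k)⟩
    · obtain ⟨i, hi, rfl⟩ := List.mem_map.1 hY
      simp only [List.mem_filter, List.mem_range, decide_eq_true_eq] at hi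
      exact ⟨List.nodup_cons.2 ⟨hi.2.2, hX.1⟩, List.forall_mem_cons.2 ⟨hi.1, hX.2.1⟩,
        by simp [opn, rnd], fun k => (getD_rnd_le _ _ _ _).trans (hX.2.2.2 k)⟩
  · have : PB fun a => sz (E a).G := (poly_G h).pb_sz
    fun_prop
  · have h1 : X.1.length ≤ (E a).n := by
      rw [← List.toFinset_card_of_nodup hX.1]
      exact (card_le_card fun i hi => mem_range.2 (hX.2.1 i (List.mem_toFinset.1 hi))).trans_eq
        (card_range _)
    have h2 := sz_list_le (l := X.1) (B := 4 * (E a).n + 1) fun i hi =>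
      (sz_le_self i).trans (by have := hX.2.1 i hi; omega)
    have h3 := sz_list_le (l := X.2) (B := 4 * sz (E a).G) fun x hx => by
      obtain ⟨k, hk, rfl⟩ := List.getElem_of_mem hx
      exact sz_le_of_le (List.getD_eq_getElem _ 0 hk ▸ hX.2.2.2 k)
    have h4 := Nat.mul_le_mul_right (4 * (E a).n + 1 + 1) h1
    rw [hX.2.2.1] at h3
    rw [sz_prod]
    omega

/-- the choice of the parameters -/
structure Par {s : Design} (A : s.Alg) (E : Env) (P : ℕ) : Prop where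
  P1 : 1 ≤ P
  θ_eq : E.θ = 1 / (4 * P)
  ζ_eq : E.ζ = 1 / (4 * P)
  δ_eq : E.δ = 1 / (320 * P ^ 3)
  H_eq : E.H = P * (320 * P ^ 3)
  G_eq : E.G = 2 * P * (163840 * P ^ 5)
  nq_eq : E.nq = P * (163840 * P ^ 5)
  η0 : 0 ≤ E.η
  μ_eq : E.μ = sm E.n E.y + sm E.n (fun k => E.y k * (1 - E.y k)) / E.L
  a1 : E.n * (s.C * E.M) ≤ P
  a2 : (E.η : ℝ) * (12 * E.n ^ 2 + (8 * E.L + 6) * E.n) ≤ P
  a3 : E.n ≤ P
  a4 : E.n * (A.K * (2 * E.M)) ≤ P
  a5 : Ψ s E E.X₀ ≤ P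

variable {E : Env} {X : St} {s : Design} {A : s.Alg} {P : ℕ}

theorem Ok.A_nonneg (hE : E.Ok) : 0 ≤ sm E.n fun k => E.y k * (1 - E.y k) := by
  rw [sm_eq]
  exact sum_nonneg fun k hk => mul_nonneg (hE.y0 k (mem_range.1 hk))
    (sub_nonneg.2 (hE.y1 k (mem_range.1 hk)))

theorem getD_X₀ {k : ℕ} (hk : k < E.n) : E.X₀.2.getD k 0 = E.G := by simp [X₀, hk]

theorem inv_X₀ (κ : ℚ → ℚ → ℚ) : E.Inv κ E.X₀ := by
  refine ⟨List.nodup_nil, by simp [X₀], by simp [X₀], fun k => ?_, by simp [X₀],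
    fun k hk => Or.inl (getD_X₀ hk)⟩
  simp only [X₀, List.getD_eq_getElem?_getD, List.getElem?_replicate]
  split_ifs <;> simp

theorem Par.run_spec (hE : E.Ok) (h : Par A E P) {T : ℕ} (hT : T = (P + 1) * (163840 * P ^ 5)) :
    E.Inv A.κq (E.run A T) ∧ E.dn (E.run A T) = true ∧ Ψ s E (E.run A T) ≤ Ψ s E E.X₀ := by
  have hP : (1 : ℝ) ≤ P := by exact_mod_cast h.P1
  have hP0 : (0 : ℝ) < P := by linarith
  have hζ : 0 ≤ E.ζ := by rw [h.ζ_eq]; positivity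
  have hμ : 0 ≤ E.μ := by
    rw [h.μ_eq]
    exact add_nonneg (zero_le_one.trans hE.ysum)
      (div_nonneg hE.A_nonneg (zero_le_one.trans hE.L1))
  have hη : (0 : ℝ) ≤ E.η := by exact_mod_cast h.η0
  have hL : (1 : ℝ) ≤ E.L := by exact_mod_cast hE.L1
  have hM : (1 : ℝ) ≤ E.M := by exact_mod_cast hE.M1
  have hn : (0 : ℝ) ≤ E.n := Nat.cast_nonneg _
  have hn1 : (E.n : ℝ) ≤ P := by exact_mod_cast h.a3
  have h4 : (E.n : ℝ) * (A.K * (2 * E.M)) ≤ P := by exact_mod_cast h.a4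
  have hK : (0 : ℝ) ≤ A.K := Nat.cast_nonneg _
  have hK1 : (A.K : ℝ) * E.n ≤ P := by nlinarith [mul_nonneg hK hn]
  have hδ : (E.δ : ℝ) = 1 / (320 * P ^ 3) := by rw [h.δ_eq]; push_cast; rfl
  have hP3 : (P : ℝ) ≤ P ^ 3 := le_self_pow₀ hP (by norm_num)
  have hδ0 : (0 : ℝ) ≤ E.δ := by rw [hδ]; positivity
  have hδ1 : (E.δ : ℝ) ≤ 1 / 2 := by
    rw [hδ]
    exact one_div_le_one_div_of_le (by norm_num) (by linarith)
  have hτ : (A.K * E.n / E.H : ℝ) ≤ E.δ := by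
    rw [hδ, h.H_eq]
    push_cast
    calc _ ≤ (P : ℝ) / (P * (320 * P ^ 3)) := by gcongr
      _ = _ := by field_simp
  have hτ0 : (0 : ℝ) ≤ A.K * E.n / E.H := by positivity
  have hC := s.C_nonneg
  have h1 := h.a1
  have h2 := h.a2
  have h5 : (E.η : ℝ) * E.n ≤ P := by nlinarith [mul_nonneg hη hn, mul_nonneg hη (sq_nonneg (E.n : ℝ))]
  have h6 : (E.η : ℝ) * (4 * E.n ^ 2) ≤ P := by
    nlinarith [mul_nonneg hη hn, mul_nonneg hη (sq_nonneg (E.n : ℝ))]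
  refine Alg.greedy (Inv := E.Inv A.κq) (Ψ := Ψ s E) (e := 1 / (163840 * P ^ 5)) (by positivity)
    (fun _ hX => hE.inv_cand A hX) (fun _ hX => hE.Ψ_nonneg h.η0 hζ hX) (fun X hX => ?_)
    (fun X hX hdn => hE.drop A h.η0 hζ hμ hX rfl (by linarith) (by positivity)
      (R := 640 * P ^ 3) ?_ ?_ ?_ hdn) (inv_X₀ _) ?_
  · refine (hE.ψ_approx A hX (by rw [h.nq_eq]; have := h.P1; positivity)).trans ?_
    rw [← mul_div_assoc, h.nq_eq]
    push_cast
    calc _ ≤ (P : ℝ) / (P * (163840 * P ^ 5)) := by gcongr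
      _ = _ := by field_simp
  · rw [hδ, one_div_one_div]
    linarith
  · generalize (A.K * E.n / E.H : ℝ) = τ at *
    have e1 : (E.n : ℝ) * (s.C * E.M * (2 * τ + E.δ)) ≤ P * (3 * E.δ) := by
      rw [← mul_assoc]
      exact mul_le_mul h1 (by linarith) (by linarith) hP0.le
    have e2 : (E.η : ℝ) * (τ * (12 * E.n ^ 2 + (8 * E.L + 6) * E.n)) ≤ E.δ * P := by
      rw [mul_left_comm]
      exact mul_le_mul hτ h2 (by positivity) hδ0
    have e3 := mul_le_mul_of_nonneg_left h6 hδ0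
    have e4 : (1 / (4 * P) : ℝ) * (1 / 2 * (1 / (4 * P))) ≤ E.ζ * ((1 - τ) * E.θ) := by
      rw [h.ζ_eq, h.θ_eq]
      push_cast
      gcongr
      linarith
    have e5 : (5 : ℝ) * (P * E.δ) - 1 / (4 * P) * (1 / 2 * (1 / (4 * P))) =
        -(4 * (1 / (163840 * P ^ 5)) * (640 * P ^ 3)) := by
      rw [hδ]
      field_simp
      norm_num
    linarith
  · rw [h.G_eq]
    push_cast
    calc _ ≤ (2 * P : ℝ) * (1 / (2 * P * (163840 * P ^ 5))) := by gcongr; linarith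
      _ = _ := by field_simp
  · rw [hT]
    push_cast
    have : ((P : ℝ) + 1) * (163840 * P ^ 5) * (1 / (163840 * P ^ 5)) = P + 1 := by field_simp
    linarith [h.a5]

/-- the value of the assignment -/
def lp (E : Env) : ℚ := (E.1.cl.map fun j => sm E.n fun k => E.x j k * E.d j k).sum

theorem Ok.Ψ_start (hE : E.Ok) (hζ : 0 ≤ E.ζ)
    (hμ : E.μ = sm E.n E.y + sm E.n (fun k => E.y k * (1 - E.y k)) / E.L) :
    Ψ s E E.X₀ ≤ s.θ * E.lp +
      E.η * ((8 * E.L + 6) * (sm E.n (fun k => E.y k * (1 - E.y k)) : ℚ)) + E.ζ * E.n := by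
  have hb : E.bR E.X₀.2 = fun _ => 1 := funext fun k => by
    have hG : (E.G : ℝ) ≠ 0 := by have := hE.G1; positivity
    rw [bR, b, getD_X₀ k.2]
    push_cast
    exact div_self hG
  have hb' : ∀ _ : Fin E.n, (0 : ℝ) ≤ 1 ∧ (1 : ℝ) ≤ 1 := fun _ => ⟨zero_le_one, le_rfl⟩
  rw [Ψ, Φ, hb]
  refine add_le_add (add_le_add ?_ (le_of_eq ?_)) (mul_le_mul_of_nonneg_left
    (hE.mass_mem hb' hb').2 (by exact_mod_cast hζ))
  · rw [lp, ← List.sum_toFinset _ E.1.nodup_cl, Rat.cast_sum, mul_sum]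
    refine sum_le_sum fun j hj => (s.W_start (hE.cl (lt_of_cl hj)
      (hE.DR_mem (inv_X₀ fun _ _ => 0) j (lt_of_cl hj)).1 hb') fun _ _ => rfl).trans_eq ?_
    simp [cast_sm, xR, dR]
  · have := Bk.psi_start (y := E.yR) E.L
    rw [hμ]
    simpa [cast_sm, yR, X₀] using Or.inl this

theorem Par.Ψ_end (hE : E.Ok) (h : Par A E P) (hX : E.Inv A.κq X) (hdn : E.dn X = true) :
    ∑ j ∈ E.1.cl.toFinset, (E.D X.1 j : ℝ) ≤ Ψ s E X + 1 / 4 ∧
      E.η * Bk.psi E.yR E.L E.μ X.1.length (E.bR X.2) ≤ Ψ s E X := by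
  have hP : (0 : ℝ) < P := by exact_mod_cast h.P1
  have hL : (0 : ℝ) ≤ E.L := by exact_mod_cast zero_le_one.trans hE.L1
  have hm := hE.mass_mem hX.bR_mem fun _ => ⟨zero_le_one, le_rfl⟩
  have hm' : Bk.mass (fun _ => 1) E.yR (E.bR X.2) ≤ 1 / (4 * P) := by
    have := (Rat.cast_le (K := ℝ)).2 ((of_decide_eq_true hdn).trans_eq h.θ_eq)
    rw [cast_mass] at this
    push_cast at this
    exact this
  have h1 : (0 : ℝ) ≤ E.η * Bk.psi E.yR E.L E.μ X.1.length (E.bR X.2) :=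
    mul_nonneg (by exact_mod_cast h.η0) (Bk.psi_nonneg hE.yR_mem hX.bR_mem hL _ _)
  have h2 : (0 : ℝ) ≤ E.ζ * Bk.mass (fun _ => 1) E.yR (E.bR X.2) :=
    mul_nonneg (by rw [h.ζ_eq]; positivity) hm.1
  have hC := s.C_nonneg
  have h3 : ∑ j ∈ E.1.cl.toFinset, (E.D X.1 j : ℝ) ≤ ∑ j ∈ E.1.cl.toFinset,
      (s.W univ (E.xR j) (E.dR j) (E.D X.1 j) (E.bR X.2) + s.C * E.M * (1 / (4 * P))) :=
    sum_le_sum fun j hj => by
      have hD := hE.DR_mem hX j (lt_of_cl hj)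
      have hc := hE.cl (lt_of_cl hj) hD.1 hX.bR_mem
      refine (s.le_W hc).trans (add_le_add le_rfl (mul_le_mul (mul_le_mul_of_nonneg_left hD.2 hC)
        (le_trans (sum_le_sum fun k _ => ?_) hm') (sum_nonneg fun k hk =>
          mul_nonneg (hc.x_nonneg k hk) (hX.bR_mem k).1) (by positivity)))
      rw [one_mul]
      exact mul_le_mul_of_nonneg_right (hE.xR_le j k) (hX.bR_mem k).1
  have h4 : 0 ≤ ∑ j ∈ E.1.cl.toFinset, s.W univ (E.xR j) (E.dR j) (E.D X.1 j) (E.bR X.2) :=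
    sum_nonneg fun j hj => s.W_nonneg (hE.cl (lt_of_cl hj) (hE.DR_mem hX j (lt_of_cl hj)).1 hX.bR_mem)
  rw [sum_add_distrib, sum_const, nsmul_eq_mul] at h3
  have h5 := mul_le_mul_of_nonneg_right (card_cl E)
    (show 0 ≤ s.C * E.M * (1 / (4 * P)) by positivity)
  have h6 := mul_le_mul_of_nonneg_right h.a1 (show (0 : ℝ) ≤ 1 / (4 * P) by positivity)
  have h7 : (P : ℝ) * (1 / (4 * P)) = 1 / 4 := by field_simp
  unfold Ψ Φ
  constructor <;> linarith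

end Env

end Crest.Agent.R310
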